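import Vale.Agent.Lib.P348.Chan2b

/-!
# P348 module Chan2: the eleven channel functions
Groups of integer rotations: O = the 24 signed permutation matrices of determinant 1, D4 = generated by qz
and rx (8 elements), V = {1, rx, ry, rz}.  Characters: of O (trivial, and the sign of the permutation),
of D4 (A2: +1 on <qz>, -1 on the flips; B2: -1 on qz, and on the flips rx, ry), of V.
Class functions by `ZZ_conj`: all pi-rotations have the value of rz (also the six about face diagonals:
conjugate by the rotation by pi/4), the six quarter turns the value of qz, the eight 2pi/3 turns of c3; for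
W = rz use conjugation by rotations about z (they commute with rz): rx, ry and the two diagonal flips have
the value of rx, qz and its inverse agree (conjugate by rx).
-/

namespace P348

open Matrix

variable (β : ℝ)

namespace C2

/-- power sum of a channel from the character of a subgroup, W = 1 -/
theorem char_O (hβ : 0 < β) (G : Finset MZ) (hG : G ⊆ OG) (χ : MZ → ℤ) (h1 : (1 : MZ) ∈ G)
    (hmul : ∀ g ∈ G, ∀ h ∈ G, g * h ∈ G ∧ χ (g * h) = χ g * χ h)
    (htr : ∀ g ∈ G, gᵀ ∈ G ∧ χ gᵀ = χ g) (hχ1 : χ 1 = 1) :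
    PowSum (fun N => (cnt G χ labT 3 * zz 1 1 β N + cnt G χ labT 0 * zz 1 c3 β N +
      cnt G χ labT 1 * zz 1 qz β N + cnt G χ labT (-1) * zz 1 rz β N) / G.card) := by
  have h := powSum_char 1 G χ (fun g hg => toR_rot_O g (hG hg))
    (fun g _ => by rw [Matrix.one_mul, Matrix.mul_one]) h1 hmul htr hχ1 β hβ
  refine (congrArg PowSum (funext fun N => ?_)).mp h
  rw [sum_O G hG χ β N]

/-- power sum of a channel from the character of a subgroup, W = rz -/
theorem char_D (hβ : 0 < β) (G : Finset MZ) (hG : G ⊆ DG) (χ : MZ → ℤ) (h1 : (1 : MZ) ∈ G)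
    (hmul : ∀ g ∈ G, ∀ h ∈ G, g * h ∈ G ∧ χ (g * h) = χ g * χ h)
    (htr : ∀ g ∈ G, gᵀ ∈ G ∧ χ gᵀ = χ g) (hχ1 : χ 1 = 1) :
    PowSum (fun N => (cnt G χ labW 5 * zz rz 1 β N + cnt G χ labW 3 * zz rz qz β N +
      cnt G χ labW 1 * zz rz rz β N + cnt G χ labW (-3) * zz rz rx β N) / G.card) := by
  have h := powSum_char rz G χ (fun g hg => toR_rot_O g (DG_sub (hG hg)))
    (fun g hg => by
      rw [← toR_zrz]
      change toR zrz * toR g = toR g * toR zrz
      rw [← toR_mul, ← toR_mul, DG_comm g (hG hg)]) h1 hmul htr hχ1 β hβ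
  refine (congrArg PowSum (funext fun N => ?_)).mp h
  rw [sum_D G hG χ β N]

theorem fin_eq {f g : ℕ → ℝ} (h : PowSum f) (e : ∀ N, f N = g N) : PowSum g := by
  have : f = g := funext e
  rwa [this] at h

end C2

open C2

theorem pow_A1 (hβ : 0 < β) : PowSum (fun N => (zz 1 1 β N + 8 * zz 1 c3 β N + 9 * zz 1 rz β N +
    6 * zz 1 qz β N) / 24) := by
  have h := char_O β hβ OG (fun _ h => h) (fun _ => 1) OG_one (fun g hg h hh => ⟨(OG_mul g hg h hh).1, rfl⟩) (fun g hg => ⟨(OG_tr g hg).1, rfl⟩) (by decide)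
  have c1 : cnt OG (fun _ => 1) labT 3 = 1 := by decide +kernel
  have c2 : cnt OG (fun _ => 1) labT 0 = 8 := by decide +kernel
  have c3 : cnt OG (fun _ => 1) labT 1 = 6 := by decide +kernel
  have c4 : cnt OG (fun _ => 1) labT (-1) = 9 := by decide +kernel
  refine fin_eq h fun N => ?_
  rw [c1, c2, c3, c4, OG_card]
  push_cast
  ring

theorem pow_A2 (hβ : 0 < β) : PowSum (fun N => (zz 1 1 β N + 8 * zz 1 c3 β N - 3 * zz 1 rz β N -
    6 * zz 1 qz β N) / 24) := by
  have h := char_O β hβ OG (fun _ h => h) chP OG_one (OG_mul) (OG_tr) (by decide)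
  have c1 : cnt OG chP labT 3 = 1 := by decide +kernel
  have c2 : cnt OG chP labT 0 = 8 := by decide +kernel
  have c3 : cnt OG chP labT 1 = -6 := by decide +kernel
  have c4 : cnt OG chP labT (-1) = -3 := by decide +kernel
  refine fin_eq h fun N => ?_
  rw [c1, c2, c3, c4, OG_card]
  push_cast
  ring

theorem pow_E (hβ : 0 < β) : PowSum (fun N => (zz 1 1 β N + 3 * zz 1 rz β N -
    4 * zz 1 c3 β N) / 12) := by
  have h := powSum_diff 1 DG OG DG_sub toR_rot_O
    (fun g _ => by rw [Matrix.one_mul, Matrix.mul_one]) DG_one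
    (fun g hg h hh => (DG_mul g hg h hh).1) (fun g hg h hh => (OG_mul g hg h hh).1)
    (fun g hg => (DG_tr g hg).1) (fun g hg => (OG_tr g hg).1) β hβ
  have c1 : cnt OG (fun _ => 1) labT 3 = 1 := by decide +kernel
  have c2 : cnt OG (fun _ => 1) labT 0 = 8 := by decide +kernel
  have c3 : cnt OG (fun _ => 1) labT 1 = 6 := by decide +kernel
  have c4 : cnt OG (fun _ => 1) labT (-1) = 9 := by decide +kernel
  have d1 : cnt DG (fun _ => 1) labT 3 = 1 := by decide +kernel
  have d2 : cnt DG (fun _ => 1) labT 0 = 0 := by decide +kernel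
  have d3 : cnt DG (fun _ => 1) labT 1 = 2 := by decide +kernel
  have d4 : cnt DG (fun _ => 1) labT (-1) = 5 := by decide +kernel
  refine fin_eq h fun N => ?_
  have s1 := sum_O OG (fun _ h => h) (fun _ => 1) β N
  have s2 := sum_O DG DG_sub (fun _ => 1) β N
  rw [c1, c2, c3, c4] at s1
  rw [d1, d2, d3, d4] at s2
  simp only [Int.cast_one, one_mul] at s1 s2
  rw [s1, s2, OG_card, DG_card]
  push_cast
  ring

theorem pow_T1 (hβ : 0 < β) : PowSum (fun N => (zz 1 1 β N + 2 * zz 1 qz β N -
    3 * zz 1 rz β N) / 8) := by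
  have h := char_O β hβ DG DG_sub (fun g => g 2 2) DG_one (fun g hg h hh => ⟨(DG_mul g hg h hh).1, (DG_mul g hg h hh).2.2⟩) (fun g hg => ⟨(DG_tr g hg).1, rfl⟩) (by decide)
  have c1 : cnt DG (fun g => g 2 2) labT 3 = 1 := by decide +kernel
  have c2 : cnt DG (fun g => g 2 2) labT 0 = 0 := by decide +kernel
  have c3 : cnt DG (fun g => g 2 2) labT 1 = 2 := by decide +kernel
  have c4 : cnt DG (fun g => g 2 2) labT (-1) = -3 := by decide +kernel
  refine fin_eq h fun N => ?_
  rw [c1, c2, c3, c4, DG_card]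
  push_cast
  ring

theorem pow_T2 (hβ : 0 < β) : PowSum (fun N => (zz 1 1 β N - 2 * zz 1 qz β N +
    zz 1 rz β N) / 8) := by
  have h := char_O β hβ DG DG_sub chB DG_one (fun g hg h hh => ⟨(DG_mul g hg h hh).1, (DG_mul g hg h hh).2.1⟩) (DG_tr) (by decide)
  have c1 : cnt DG chB labT 3 = 1 := by decide +kernel
  have c2 : cnt DG chB labT 0 = 0 := by decide +kernel
  have c3 : cnt DG chB labT 1 = -2 := by decide +kernel
  have c4 : cnt DG chB labT (-1) = 1 := by decide +kernel
  refine fin_eq h fun N => ?_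
  rw [c1, c2, c3, c4, DG_card]
  push_cast
  ring

theorem pow_B (hβ : 0 < β) : PowSum (fun N => zz rz 1 β N) := by
  have h := powSum_char rz {1} (fun _ => 1)
    (fun g hg => by
      rw [Finset.mem_singleton] at hg
      subst hg
      exact toR_rot_O 1 OG_one)
    (fun g hg => by
      rw [Finset.mem_singleton] at hg
      subst hg
      change rz * toR 1 = toR 1 * rz
      rw [toR_one, Matrix.one_mul, Matrix.mul_one])
    (Finset.mem_singleton_self _)
    (fun g hg h hh => by
      rw [Finset.mem_singleton] at hg hh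
      subst hg
      subst hh
      exact ⟨by simp, rfl⟩)
    (fun g hg => by
      rw [Finset.mem_singleton] at hg
      subst hg
      exact ⟨by simp, rfl⟩) rfl β hβ
  refine fin_eq h fun N => ?_
  rw [Finset.sum_singleton, Finset.card_singleton]
  change ((1 : ℤ) : ℝ) * zz rz (toR 1) β N / ((1 : ℕ) : ℝ) = _
  rw [toR_one]
  simp

theorem pow_Bm (hβ : 0 < β) : PowSum (fun N => (zz rz 1 β N + 2 * zz rz qz β N + zz rz rz β N -
    4 * zz rz rx β N) / 8) := by
  have h := char_D β hβ DG (fun _ h => h) (fun g => g 2 2) DG_one (fun g hg h hh => ⟨(DG_mul g hg h hh).1, (DG_mul g hg h hh).2.2⟩) (fun g hg => ⟨(DG_tr g hg).1, rfl⟩) (by decide)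
  have c1 : cnt DG (fun g => g 2 2) labW 5 = 1 := by decide +kernel
  have c2 : cnt DG (fun g => g 2 2) labW 3 = 2 := by decide +kernel
  have c3 : cnt DG (fun g => g 2 2) labW 1 = 1 := by decide +kernel
  have c4 : cnt DG (fun g => g 2 2) labW (-3) = -4 := by decide +kernel
  refine fin_eq h fun N => ?_
  rw [c1, c2, c3, c4, DG_card]
  push_cast
  ring

theorem pow_Ba (hβ : 0 < β) : PowSum (fun N => (zz rz 1 β N + 2 * zz rz qz β N + zz rz rz β N +
    4 * zz rz rx β N) / 8) := by
  have h := char_D β hβ DG (fun _ h => h) (fun _ => 1) DG_one (fun g hg h hh => ⟨(DG_mul g hg h hh).1, rfl⟩) (fun g hg => ⟨(DG_tr g hg).1, rfl⟩) (by decide)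
  have c1 : cnt DG (fun _ => 1) labW 5 = 1 := by decide +kernel
  have c2 : cnt DG (fun _ => 1) labW 3 = 2 := by decide +kernel
  have c3 : cnt DG (fun _ => 1) labW 1 = 1 := by decide +kernel
  have c4 : cnt DG (fun _ => 1) labW (-3) = 4 := by decide +kernel
  refine fin_eq h fun N => ?_
  rw [c1, c2, c3, c4, DG_card]
  push_cast
  ring

theorem pow_Bb (hβ : 0 < β) : PowSum (fun N => (zz rz 1 β N - 2 * zz rz qz β N +
    zz rz rz β N) / 8) := by
  have h := char_D β hβ DG (fun _ h => h) chB DG_one (fun g hg h hh => ⟨(DG_mul g hg h hh).1, (DG_mul g hg h hh).2.1⟩) (DG_tr) (by decide)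
  have c1 : cnt DG chB labW 5 = 1 := by decide +kernel
  have c2 : cnt DG chB labW 3 = -2 := by decide +kernel
  have c3 : cnt DG chB labW 1 = 1 := by decide +kernel
  have c4 : cnt DG chB labW (-3) = 0 := by decide +kernel
  refine fin_eq h fun N => ?_
  rw [c1, c2, c3, c4, DG_card]
  push_cast
  ring

theorem pow_Be (hβ : 0 < β) : PowSum (fun N => (zz rz 1 β N - zz rz rz β N) / 4) := by
  have h := char_D β hβ VG VG_sub (fun g => g 0 0) VG_one (VG_mul) (fun g hg => ⟨VG_tr g hg, rfl⟩) (by decide)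
  have c1 : cnt VG (fun g => g 0 0) labW 5 = 1 := by decide +kernel
  have c2 : cnt VG (fun g => g 0 0) labW 3 = 0 := by decide +kernel
  have c3 : cnt VG (fun g => g 0 0) labW 1 = -1 := by decide +kernel
  have c4 : cnt VG (fun g => g 0 0) labW (-3) = 0 := by decide +kernel
  refine fin_eq h fun N => ?_
  rw [c1, c2, c3, c4, VG_card]
  push_cast
  ring

end P348
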