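import Mathlib.Algebra.Order.Ring.Star
import Mathlib.Algebra.Order.Star.Real
import Mathlib.Analysis.MeanInequalitiesPow
import Mathlib.Analysis.SpecialFunctions.Pow.Continuity

/-!
# P348 module PS: limits of power sums

`PowSum f`: f N = lim_n ∑_i (x n i)^N for all N ≥ 1, with x n i ≥ 0 (finitely many for each n).
Consequences: there is λ ≥ 0 (= lim f(N)^(1/N), the limit of the maxima of x n) with
(a) λ^N ≤ f N;  (b) f N' - λ^N' ≤ (f N - λ^N)^(N'/N) for 1 ≤ N ≤ N';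
(c) (f(N+1) - λ^(N+1))² ≤ (f N - λ^N)(f(N+2) - λ^(N+2));  (d) f N' ≤ λ^(N'-N) f N;
(e) for all c > λ: f N ≤ C c^N.
Proof.  m_n = max_i x n i.  m_n^N ≤ f_n N gives limsup m_n ≤ (f N)^(1/N); f_n(N+1) ≤ m_n f_n(N) gives
liminf m_n ≥ f(N+1)/f(N); log-convexity of f makes the ratios increasing, with the same limit λ (if f = 0
somewhere then everything is 0).  For finite n the statements are ∑_{i≠max} x^N' ≤ (∑_{i≠max} x^N)^(N'/N)
(Finset: sum of r-th powers, r ≥ 1) and Cauchy-Schwarz.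
-/

namespace P348

open Filter Topology

/-- limit of power sums -/
def PowSum (f : ℕ → ℝ) : Prop :=
  ∃ (k : ℕ → ℕ) (x : (n : ℕ) → Fin (k n) → ℝ), (∀ n i, 0 ≤ x n i) ∧
    ∀ N : ℕ, 1 ≤ N → Tendsto (fun n => ∑ i, x n i ^ N) atTop (𝓝 (f N))

/-- `IsTop f l`: l is the limiting largest term of the power sum f -/
structure IsTop (f : ℕ → ℝ) (l : ℝ) : Prop where
  nonneg : 0 ≤ l
  le : ∀ N : ℕ, 1 ≤ N → l ^ N ≤ f N
  pow : ∀ N N' : ℕ, 1 ≤ N → N ≤ N' → f N' - l ^ N' ≤ (f N - l ^ N) ^ ((N' : ℝ) / N)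
  cs : ∀ N : ℕ, 1 ≤ N → (f (N + 1) - l ^ (N + 1)) ^ 2 ≤ (f N - l ^ N) * (f (N + 2) - l ^ (N + 2))
  grow : ∀ N N' : ℕ, 1 ≤ N → N ≤ N' → f N' ≤ l ^ (N' - N) * f N
  bound : ∀ c : ℝ, l < c → ∃ C : ℝ, ∀ N : ℕ, 1 ≤ N → f N ≤ C * c ^ N

/-- the finite power-sum inequality: sum of r-th powers, r ≥ 1 -/
theorem sum_rpow_le_rpow_sum {ι : Type*} (s : Finset ι) (y : ι → ℝ) (hy : ∀ i, 0 ≤ y i)
    {p : ℝ} (hp : 1 ≤ p) : ∑ i ∈ s, y i ^ p ≤ (∑ i ∈ s, y i) ^ p := by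
  classical
  induction s using Finset.induction_on with
  | empty =>
    simp only [Finset.sum_empty]
    exact Real.rpow_nonneg le_rfl _
  | insert a s ha ih =>
    rw [Finset.sum_insert ha, Finset.sum_insert ha]
    calc y a ^ p + ∑ i ∈ s, y i ^ p ≤ y a ^ p + (∑ i ∈ s, y i) ^ p := by linarith
      _ ≤ (y a + ∑ i ∈ s, y i) ^ p :=
        Real.add_rpow_le_rpow_add (hy a) (Finset.sum_nonneg fun i _ => hy i) hp

theorem sum_pow_le_rpow {ι : Type*} (s : Finset ι) (x : ι → ℝ) (hx : ∀ i, 0 ≤ x i)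
    {N N' : ℕ} (hN : 1 ≤ N) (h : N ≤ N') :
    ∑ i ∈ s, x i ^ N' ≤ (∑ i ∈ s, x i ^ N) ^ ((N' : ℝ) / N) := by
  have hN0 : (0 : ℝ) < N := by exact_mod_cast hN
  have hp : (1 : ℝ) ≤ (N' : ℝ) / N := by
    rw [le_div_iff₀ hN0]
    have : (N : ℝ) ≤ N' := by exact_mod_cast h
    linarith
  have key : ∀ i, x i ^ N' = (x i ^ N) ^ ((N' : ℝ) / N) := by
    intro i
    rw [← Real.rpow_natCast (x i) N, ← Real.rpow_mul (hx i), mul_div_cancel₀ _ hN0.ne',
      Real.rpow_natCast]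
  calc ∑ i ∈ s, x i ^ N' = ∑ i ∈ s, (x i ^ N) ^ ((N' : ℝ) / N) :=
        Finset.sum_congr rfl fun i _ => key i
    _ ≤ _ := sum_rpow_le_rpow_sum s (fun i => x i ^ N) (fun i => pow_nonneg (hx i) N) hp

theorem sum_pow_cs {ι : Type*} (s : Finset ι) (x : ι → ℝ) (hx : ∀ i, 0 ≤ x i) (N : ℕ) :
    (∑ i ∈ s, x i ^ (N + 1)) ^ 2 ≤ (∑ i ∈ s, x i ^ N) * ∑ i ∈ s, x i ^ (N + 2) := by
  apply Finset.sum_sq_le_sum_mul_sum_of_sq_le_mul
  · intro i _
    exact pow_nonneg (hx i) _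
  · intro i _
    exact pow_nonneg (hx i) _
  · intro i _
    exact le_of_eq (by ring)

/-- the finite statement with the maximal term removed -/
theorem exists_max_fin (k : ℕ) (x : Fin k → ℝ) (hx : ∀ i, 0 ≤ x i) :
    ∃ m : ℝ, 0 ≤ m ∧ (∀ N : ℕ, 1 ≤ N → m ^ N ≤ ∑ i, x i ^ N) ∧
      (∀ N N' : ℕ, 1 ≤ N → N ≤ N' →
        ∑ i, x i ^ N' - m ^ N' ≤ (∑ i, x i ^ N - m ^ N) ^ ((N' : ℝ) / N)) ∧
      (∀ N : ℕ, 1 ≤ N → (∑ i, x i ^ (N + 1) - m ^ (N + 1)) ^ 2 ≤
        (∑ i, x i ^ N - m ^ N) * (∑ i, x i ^ (N + 2) - m ^ (N + 2))) ∧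
      (∀ N N' : ℕ, 1 ≤ N → N ≤ N' → ∑ i, x i ^ N' ≤ m ^ (N' - N) * ∑ i, x i ^ N) := by
  classical
  rcases Nat.eq_zero_or_pos k with hk | hk
  · subst hk
    refine ⟨0, le_rfl, ?_, ?_, ?_, ?_⟩
    · intro N hN
      simp [zero_pow (show N ≠ 0 by omega)]
    · intro N N' hN h
      have h1 : N ≠ 0 := by omega
      have h2 : N' ≠ 0 := by omega
      simp only [Finset.univ_eq_empty, Finset.sum_empty, zero_pow h1, zero_pow h2, sub_zero]
      exact Real.rpow_nonneg le_rfl _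
    · intro N hN
      have h1 : N ≠ 0 := by omega
      simp [zero_pow h1]
    · intro N N' hN h
      simp
  · have : Nonempty (Fin k) := ⟨⟨0, hk⟩⟩
    obtain ⟨j, -, hj⟩ := Finset.exists_max_image Finset.univ x
      (Finset.univ_nonempty (α := Fin k))
    have hsum : ∀ N : ℕ, ∑ i, x i ^ N - x j ^ N = ∑ i ∈ Finset.univ.erase j, x i ^ N := by
      intro N
      rw [← Finset.add_sum_erase Finset.univ (fun i => x i ^ N) (Finset.mem_univ j)]
      ring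
    refine ⟨x j, hx j, ?_, ?_, ?_, ?_⟩
    · intro N hN
      exact Finset.single_le_sum (f := fun i => x i ^ N) (fun i _ => pow_nonneg (hx i) N)
        (Finset.mem_univ j)
    · intro N N' hN h
      rw [hsum, hsum]
      exact sum_pow_le_rpow _ x hx hN h
    · intro N hN
      rw [hsum, hsum, hsum]
      exact sum_pow_cs _ x hx N
    · intro N N' hN h
      rw [Finset.mul_sum]
      apply Finset.sum_le_sum
      intro i _
      have e : x i ^ N' = x i ^ (N' - N) * x i ^ N := by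
        rw [← pow_add]
        congr 1
        omega
      rw [e]
      exact mul_le_mul_of_nonneg_right (pow_le_pow_left₀ (hx i) (hj i (Finset.mem_univ i)) _)
        (pow_nonneg (hx i) N)

/-- comparison of growth rates -/
theorem le_of_pow_le_mul_pow {a l : ℝ} (hl : 0 ≤ l)
    (h : ∀ c : ℝ, l < c → ∃ C : ℝ, ∀ N : ℕ, 1 ≤ N → a ^ N ≤ C * c ^ N) : a ≤ l := by
  by_contra hcon
  push Not at hcon
  obtain ⟨c, hc1, hc2⟩ := exists_between hcon
  have hc0 : 0 < c := lt_of_le_of_lt hl hc1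
  obtain ⟨C, hC⟩ := h c hc1
  have hr : 1 < a / c := by rwa [one_lt_div hc0]
  obtain ⟨N, hN⟩ := pow_unbounded_of_one_lt C hr
  have hN1 : 1 ≤ N + 1 := by omega
  have h1 := hC (N + 1) hN1
  have h2 : (a / c) ^ (N + 1) ≤ C := by
    rw [div_pow, div_le_iff₀ (pow_pos hc0 _)]
    exact h1
  have h3 : (a / c) ^ N ≤ (a / c) ^ (N + 1) := pow_le_pow_right₀ hr.le (by omega)
  linarith

theorem PowSum.exists_top (f : ℕ → ℝ) (hf : PowSum f) : ∃ l : ℝ, IsTop f l := by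
  obtain ⟨k, x, hx, hlim⟩ := hf
  choose m hm0 hmle hmpow hmcs hmgrow using fun n => exists_max_fin (k n) (x n) (hx n)
  have h1 := hlim 1 le_rfl
  obtain ⟨B, hB⟩ := h1.bddAbove_range
  have hmB : ∀ n, m n ∈ Set.Icc (0 : ℝ) B := by
    intro n
    refine ⟨hm0 n, ?_⟩
    have h2 := hmle n 1 le_rfl
    rw [pow_one] at h2
    exact h2.trans (hB ⟨n, rfl⟩)
  obtain ⟨l, hl, φ, hφ, hφl⟩ := isCompact_Icc.tendsto_subseq hmB
  have hs : ∀ N : ℕ, 1 ≤ N → Tendsto (fun n => ∑ i, x (φ n) i ^ N) atTop (𝓝 (f N)) :=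
    fun N hN => (hlim N hN).comp hφ.tendsto_atTop
  have hp : ∀ N : ℕ, Tendsto (fun n => m (φ n) ^ N) atTop (𝓝 (l ^ N)) := fun N => hφl.pow N
  have hgrow : ∀ N N' : ℕ, 1 ≤ N → N ≤ N' → f N' ≤ l ^ (N' - N) * f N := by
    intro N N' hN h
    exact le_of_tendsto_of_tendsto' (hs N' (hN.trans h)) ((hp (N' - N)).mul (hs N hN))
      fun n => hmgrow (φ n) N N' hN h
  refine ⟨l, ⟨hl.1, ?_, ?_, ?_, hgrow, ?_⟩⟩
  · intro N hN
    exact le_of_tendsto_of_tendsto' (hp N) (hs N hN) fun n => hmle (φ n) N hN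
  · intro N N' hN h
    have hN0 : (0 : ℝ) < N := by exact_mod_cast hN
    have hN'0 : (0 : ℝ) < N' := by exact_mod_cast (hN.trans h)
    have hcont : Tendsto (fun n => (∑ i, x (φ n) i ^ N - m (φ n) ^ N) ^ ((N' : ℝ) / N)) atTop
        (𝓝 ((f N - l ^ N) ^ ((N' : ℝ) / N))) :=
      ((hs N hN).sub (hp N)).rpow_const (Or.inr (div_pos hN'0 hN0).le)
    exact le_of_tendsto_of_tendsto' ((hs N' (hN.trans h)).sub (hp N')) hcont
      fun n => hmpow (φ n) N N' hN h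
  · intro N hN
    exact le_of_tendsto_of_tendsto'
      (((hs (N + 1) (by omega)).sub (hp (N + 1))).pow 2)
      (((hs N hN).sub (hp N)).mul ((hs (N + 2) (by omega)).sub (hp (N + 2))))
      fun n => hmcs (φ n) N hN
  · intro c hc
    have hc0 : 0 < c := lt_of_le_of_lt hl.1 hc
    have hf1 : 0 ≤ f 1 := ge_of_tendsto' (hs 1 le_rfl)
      fun n => Finset.sum_nonneg fun i _ => pow_nonneg (hx _ i) 1
    refine ⟨f 1 / c, fun N hN => ?_⟩
    have h3 := hgrow 1 N le_rfl hN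
    have h4 : l ^ (N - 1) ≤ c ^ (N - 1) := pow_le_pow_left₀ hl.1 hc.le _
    calc f N ≤ l ^ (N - 1) * f 1 := h3
      _ ≤ c ^ (N - 1) * f 1 := mul_le_mul_of_nonneg_right h4 hf1
      _ = f 1 / c * c ^ N := by
        obtain ⟨M, rfl⟩ : ∃ M, N = M + 1 := ⟨N - 1, by omega⟩
        rw [Nat.add_sub_cancel, pow_succ]
        field_simp

theorem IsTop.unique (f : ℕ → ℝ) (l l' : ℝ) (h : IsTop f l) (h' : IsTop f l') : l = l' := by
  apply le_antisymm
  · apply le_of_pow_le_mul_pow h'.nonneg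
    intro c hc
    obtain ⟨C, hC⟩ := h'.bound c hc
    exact ⟨C, fun N hN => (h.le N hN).trans (hC N hN)⟩
  · apply le_of_pow_le_mul_pow h.nonneg
    intro c hc
    obtain ⟨C, hC⟩ := h.bound c hc
    exact ⟨C, fun N hN => (h'.le N hN).trans (hC N hN)⟩

theorem PowSum.nonneg (f : ℕ → ℝ) (hf : PowSum f) (N : ℕ) (hN : 1 ≤ N) : 0 ≤ f N := by
  obtain ⟨k, x, hx, hlim⟩ := hf
  exact ge_of_tendsto' (hlim N hN) fun n => Finset.sum_nonneg fun i _ => pow_nonneg (hx _ i) N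

theorem PowSum.pow_le (f : ℕ → ℝ) (hf : PowSum f) (N N' : ℕ) (hN : 1 ≤ N) (h : N ≤ N') :
    f N' ≤ f N ^ ((N' : ℝ) / N) := by
  obtain ⟨k, x, hx, hlim⟩ := hf
  exact le_of_tendsto_of_tendsto' (hlim N' (hN.trans h))
    ((hlim N hN).rpow_const (Or.inr (div_nonneg (Nat.cast_nonneg _) (Nat.cast_nonneg _))))
    fun n => sum_pow_le_rpow _ (x n) (hx n) hN h

theorem PowSum.logconvex (f : ℕ → ℝ) (hf : PowSum f) (N : ℕ) (hN : 1 ≤ N) :
    f (N + 1) ^ 2 ≤ f N * f (N + 2) := by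
  obtain ⟨k, x, hx, hlim⟩ := hf
  exact le_of_tendsto_of_tendsto' ((hlim (N + 1) (by omega)).pow 2)
    ((hlim N hN).mul (hlim (N + 2) (by omega))) fun n => sum_pow_cs _ (x n) (hx n) N

theorem PowSum.add (f g : ℕ → ℝ) (hf : PowSum f) (hg : PowSum g) :
    PowSum (fun N => f N + g N) := by
  obtain ⟨k, x, hx, hlim⟩ := hf
  obtain ⟨k', x', hx', hlim'⟩ := hg
  refine ⟨fun n => k n + k' n, fun n => Fin.append (x n) (x' n), ?_, ?_⟩
  · intro n i
    refine Fin.addCases (fun j => ?_) (fun j => ?_) i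
    · show 0 ≤ Fin.append (x n) (x' n) (Fin.castAdd (k' n) j)
      rw [Fin.append_left]
      exact hx n j
    · show 0 ≤ Fin.append (x n) (x' n) (Fin.natAdd (k n) j)
      rw [Fin.append_right]
      exact hx' n j
  · intro N hN
    have h := (hlim N hN).add (hlim' N hN)
    refine h.congr fun n => ?_
    rw [Fin.sum_univ_add]
    simp only [Fin.append_left, Fin.append_right]

theorem PowSum.scale (f : ℕ → ℝ) (hf : PowSum f) (c : ℝ) (hc : 0 ≤ c) :
    PowSum (fun N => c ^ N * f N) := by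
  obtain ⟨k, x, hx, hlim⟩ := hf
  refine ⟨k, fun n i => c * x n i, fun n i => mul_nonneg hc (hx n i), ?_⟩
  intro N hN
  have h := (hlim N hN).const_mul (c ^ N)
  refine h.congr fun n => ?_
  rw [Finset.mul_sum]
  exact Finset.sum_congr rfl fun i _ => (mul_pow c (x n i) N).symm

/-- the top of a sum is one of the tops -/
theorem IsTop.add (f g : ℕ → ℝ) (a b : ℝ) (hf : IsTop f a) (hg : IsTop g b)
    (pf : PowSum f) (pg : PowSum g) : IsTop (fun N => f N + g N) (max a b) := by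
  obtain ⟨l, hl⟩ := PowSum.exists_top _ (PowSum.add f g pf pg)
  have hla : a ≤ l := by
    apply le_of_pow_le_mul_pow hl.nonneg
    intro c hc
    obtain ⟨C, hC⟩ := hl.bound c hc
    refine ⟨C, fun N hN => ?_⟩
    have h1 := hf.le N hN
    have h2 := PowSum.nonneg g pg N hN
    have h3 := hC N hN
    linarith
  have hlb : b ≤ l := by
    apply le_of_pow_le_mul_pow hl.nonneg
    intro c hc
    obtain ⟨C, hC⟩ := hl.bound c hc
    refine ⟨C, fun N hN => ?_⟩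
    have h1 := hg.le N hN
    have h2 := PowSum.nonneg f pf N hN
    have h3 := hC N hN
    linarith
  have hlm : l ≤ max a b := by
    apply le_of_pow_le_mul_pow (le_max_of_le_left hf.nonneg)
    intro c hc
    obtain ⟨C, hC⟩ := hf.bound c (lt_of_le_of_lt (le_max_left a b) hc)
    obtain ⟨C', hC'⟩ := hg.bound c (lt_of_le_of_lt (le_max_right a b) hc)
    refine ⟨C + C', fun N hN => ?_⟩
    have h1 := hl.le N hN
    have h2 := hC N hN
    have h3 := hC' N hN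
    linarith
  have he : l = max a b := le_antisymm hlm (max_le hla hlb)
  rw [← he]
  exact hl

end P348
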