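import Mathlib.Tactic.Positivity
import Vale.Agent.Lib.P348.PS

/-!
# P348 module Extrap: extrapolation of a power sum from N = 2, 3, 4

(c) of `IsTop` at N = 2 reads (f3 - l³)² ≤ (f2 - l²)(f4 - l⁴), i.e.
    l² (f4 - 2 f3 l + f2 l²) ≤ f2 f4 - f3².
If κ ≥ f3/f2 then l ↦ l² (f4 - 2 f3 l + f2 l²) is strictly increasing on [κ, ∞), so the strict opposite
inequality at κ forces l ≤ κ.  (Hypotheses are given with intervals for f2, f3, f4.)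
Then f N' ≤ l^N' + (f4 - l⁴)^(N'/4) and, since also f N' ≤ l^(N'-4) f4, this is at most
κ^N' + (f4 - κ⁴)^(N'/4) if κ⁴ ≤ f4 (function s^r + (x-s)^r symmetric and convex; for l⁴ < x/2 use
l^(N'-4) x ≤ 2 (x/2)^r).
-/

namespace P348

/-- `l ↦ l² (F4 - 2 F3 l + F2 l²)` is monotone beyond `F3 / F2`. -/
theorem extrap_mono {F2 F3 F4 l κ : ℝ} (h2 : 0 < F2) (h3 : 0 ≤ F3) (hlc : F3 ^ 2 ≤ F2 * F4)
    (hκ : 0 < κ) (hκ3 : F3 ≤ F2 * κ) (hl : κ ≤ l) :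
    κ ^ 2 * (F4 - 2 * F3 * κ + F2 * κ ^ 2) ≤ l ^ 2 * (F4 - 2 * F3 * l + F2 * l ^ 2) := by
  obtain ⟨B, hB⟩ : ∃ B, B = F4 * (l + κ) - 2 * F3 * (l ^ 2 + l * κ + κ ^ 2) +
      F2 * ((l + κ) * (l ^ 2 + κ ^ 2)) := ⟨_, rfl⟩
  have hp : 0 ≤ F2 * l - F3 := by nlinarith
  have hq : 0 ≤ F2 * κ - F3 := by linarith
  obtain ⟨p, hpe⟩ : ∃ p, p = F2 * l - F3 := ⟨_, rfl⟩
  obtain ⟨q, hqe⟩ : ∃ q, q = F2 * κ - F3 := ⟨_, rfl⟩
  rw [← hpe] at hp
  rw [← hqe] at hq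
  have hid : F2 ^ 2 * B = F2 * ((l + κ) * (F2 * F4 - F3 ^ 2)) +
      (F3 ^ 2 * (p + q) + 2 * F3 * (p ^ 2 + q ^ 2 + p * q) + (p + q) * (p ^ 2 + q ^ 2)) := by
    rw [hB, hpe, hqe]; ring
  have h1 : 0 ≤ F2 * ((l + κ) * (F2 * F4 - F3 ^ 2)) := by
    apply mul_nonneg h2.le
    apply mul_nonneg (by linarith) (by linarith)
  have h4 : 0 ≤ F3 ^ 2 * (p + q) + 2 * F3 * (p ^ 2 + q ^ 2 + p * q) +
      (p + q) * (p ^ 2 + q ^ 2) := by positivity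
  have h5 : 0 ≤ F2 ^ 2 * B := by rw [hid]; linarith
  have h6 : 0 ≤ B := by
    by_contra hneg
    push Not at hneg
    have : F2 ^ 2 * B < 0 := mul_neg_of_pos_of_neg (by positivity) hneg
    linarith
  have h7 : l ^ 2 * (F4 - 2 * F3 * l + F2 * l ^ 2) - κ ^ 2 * (F4 - 2 * F3 * κ + F2 * κ ^ 2) =
      (l - κ) * B := by rw [hB]; ring
  have h8 : 0 ≤ (l - κ) * B := mul_nonneg (by linarith) h6
  linarith

theorem top_le_of_three (f : ℕ → ℝ) (l κ a b c d e g : ℝ) (hl : IsTop f l) (hκ : 0 < κ)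
    (h2 : a ≤ f 2) (h2' : f 2 ≤ b) (h3 : c ≤ f 3) (h3' : f 3 ≤ d) (h4 : e ≤ f 4) (h4' : f 4 ≤ g)
    (ha : 0 < a) (hc : 0 < c)
    (hr : d ≤ κ * a)
    (hP : b * g - c ^ 2 < κ ^ 2 * (e - 2 * d * κ + a * κ ^ 2)) : l ≤ κ := by
  by_contra hlt
  push Not at hlt
  have hl0 : 0 < l := hκ.trans hlt
  have hcs := hl.cs 2 (by norm_num)
  have hL2 := hl.le 2 (by norm_num)
  have hL4 := hl.le 4 (by norm_num)
  norm_num at hcs
  obtain ⟨F2, hF2⟩ : ∃ F2, F2 = f 2 := ⟨_, rfl⟩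
  obtain ⟨F3, hF3⟩ : ∃ F3, F3 = f 3 := ⟨_, rfl⟩
  obtain ⟨F4, hF4⟩ : ∃ F4, F4 = f 4 := ⟨_, rfl⟩
  rw [← hF2, ← hF3, ← hF4] at hcs
  rw [← hF2] at hL2 h2 h2'
  rw [← hF4] at hL4 h4 h4'
  rw [← hF3] at h3 h3'
  have hF2pos : 0 < F2 := by linarith
  have hF3pos : 0 < F3 := by linarith
  have hF4pos : 0 < F4 := lt_of_lt_of_le (by positivity) hL4
  have hexp : l ^ 2 * (F4 - 2 * F3 * l + F2 * l ^ 2) ≤ F2 * F4 - F3 ^ 2 := by nlinarith
  -- log convexity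
  have hlc : F3 ^ 2 ≤ F2 * F4 := by
    -- with A = F2 - l², C = F4 - l⁴, D = F3 - l³, D² ≤ A C
    obtain ⟨A, hA⟩ : ∃ A, A = F2 - l ^ 2 := ⟨_, rfl⟩
    obtain ⟨C, hC⟩ : ∃ C, C = F4 - l ^ 4 := ⟨_, rfl⟩
    obtain ⟨D, hD⟩ : ∃ D, D = F3 - l ^ 3 := ⟨_, rfl⟩
    rw [← hA, ← hC, ← hD] at hcs
    have hA0 : 0 ≤ A := by linarith
    have hC0 : 0 ≤ C := by linarith
    have e2 : F2 = A + l ^ 2 := by linarith
    have e3 : F3 = D + l ^ 3 := by linarith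
    have e4 : F4 = C + l ^ 4 := by linarith
    rw [e2, e3, e4]
    -- 2 D l³ ≤ A l⁴ + C l²
    have h1 : 2 * D * l ^ 3 ≤ A * l ^ 4 + C * l ^ 2 := by
      have h2 : (2 * D * l) ^ 2 ≤ (A * l ^ 2 + C) ^ 2 := by
        have : 4 * (A * C) * l ^ 2 ≤ (A * l ^ 2 + C) ^ 2 := by nlinarith [sq_nonneg (A * l ^ 2 - C)]
        have h5 : D ^ 2 * (4 * l ^ 2) ≤ A * C * (4 * l ^ 2) :=
          mul_le_mul_of_nonneg_right hcs (by positivity)
        nlinarith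
      have h3 : 2 * D * l ≤ A * l ^ 2 + C := abs_le_of_sq_le_sq' h2 (by positivity) |>.2
      have h4 : 2 * D * l * l ^ 2 ≤ (A * l ^ 2 + C) * l ^ 2 :=
        mul_le_mul_of_nonneg_right h3 (by positivity)
      nlinarith
    nlinarith
  have hκ3 : F3 ≤ F2 * κ := by nlinarith
  have hm := extrap_mono hF2pos hF3pos.le hlc hκ hκ3 hlt.le
  have hlow : κ ^ 2 * (e - 2 * d * κ + a * κ ^ 2) ≤ κ ^ 2 * (F4 - 2 * F3 * κ + F2 * κ ^ 2) := by
    apply mul_le_mul_of_nonneg_left _ (by positivity)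
    have h5 : F3 * κ ≤ d * κ := mul_le_mul_of_nonneg_right h3' hκ.le
    have h6 : a * κ ^ 2 ≤ F2 * κ ^ 2 := mul_le_mul_of_nonneg_right h2 (by positivity)
    linarith
  have hup : F2 * F4 - F3 ^ 2 ≤ b * g - c ^ 2 := by
    have h5 : F2 * F4 ≤ b * g := mul_le_mul h2' h4' hF4pos.le (by linarith)
    have h6 : c ^ 2 ≤ F3 ^ 2 := pow_le_pow_left₀ hc.le h3 2
    linarith
  linarith

/-- majorisation for `y ↦ y ^ r`, `r ≥ 1` -/
theorem extrap_major {A B w r : ℝ} (hA : 0 ≤ A) (hB : 0 ≤ B) (hw : 0 ≤ w) (hw1 : w ≤ 1)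
    (hr : 1 ≤ r) :
    (w * A + (1 - w) * B) ^ r + ((1 - w) * A + w * B) ^ r ≤ A ^ r + B ^ r := by
  have hc := convexOn_rpow hr
  have hA' : A ∈ Set.Ici (0 : ℝ) := hA
  have hB' : B ∈ Set.Ici (0 : ℝ) := hB
  have hw2 : 0 ≤ 1 - w := by linarith
  have h1 := hc.2 hA' hB' hw hw2 (by ring)
  have h2 := hc.2 hA' hB' hw2 hw (by ring)
  simp only [smul_eq_mul] at h1 h2
  linarith

/-- upper bound for all larger N from the value at N = 4 and a bound κ for the top -/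
theorem extrap_le (f : ℕ → ℝ) (l κ x : ℝ) (hl : IsTop f l) (hlκ : l ≤ κ) (hx : f 4 ≤ x)
    (hκ : κ ^ 4 ≤ x) (N' : ℕ) (hN : 4 ≤ N') :
    f N' ≤ κ ^ N' + (x - κ ^ 4) ^ ((N' : ℝ) / 4) := by
  have hl0 : 0 ≤ l := hl.nonneg
  have hκ0 : 0 ≤ κ := hl0.trans hlκ
  have hr : 1 ≤ (N' : ℝ) / 4 := by
    rw [le_div_iff₀ (by norm_num)]
    have : (4 : ℝ) ≤ N' := by exact_mod_cast hN
    linarith
  obtain ⟨r, hre⟩ : ∃ r, r = (N' : ℝ) / 4 := ⟨_, rfl⟩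
  rw [← hre] at hr ⊢
  have hpw : ∀ y : ℝ, 0 ≤ y → y ^ N' = (y ^ 4) ^ r := by
    intro y hy
    rw [← Real.rpow_natCast y 4, ← Real.rpow_mul hy, hre]
    have : ((4 : ℕ) : ℝ) * ((N' : ℝ) / 4) = (N' : ℝ) := by push_cast; ring
    rw [this, Real.rpow_natCast]
  have hpow := hl.pow 4 N' (by norm_num) hN
  have hgrow := hl.grow 4 N' (by norm_num) hN
  have hle4 := hl.le 4 (by norm_num)
  have hcast : ((N' : ℝ) / ((4 : ℕ) : ℝ)) = r := by rw [hre]; norm_num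
  rw [hcast] at hpow
  obtain ⟨s, hs⟩ : ∃ s, s = l ^ 4 := ⟨_, rfl⟩
  obtain ⟨t, ht⟩ : ∃ t, t = κ ^ 4 := ⟨_, rfl⟩
  have hs0 : 0 ≤ s := by rw [hs]; positivity
  have ht0 : 0 ≤ t := by rw [ht]; positivity
  have hst : s ≤ t := by rw [hs, ht]; exact pow_le_pow_left₀ hl0 hlκ 4
  rw [hpw κ hκ0, ← ht]
  rw [hpw l hl0, ← hs] at hpow
  rw [← ht] at hκ
  rw [← hs] at hle4
  have hxt : 0 ≤ x - t := by linarith
  have hx0 : 0 ≤ x := by linarith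
  by_cases hcase : s ≤ x / 2
  · -- use the growth bound
    have h1 : l ^ (N' - 4) ≤ (x / 2) ^ (r - 1) := by
      have h2 : l ^ (N' - 4) = s ^ (r - 1) := by
        rw [hs, ← Real.rpow_natCast l 4, ← Real.rpow_mul hl0, ← Real.rpow_natCast]
        congr 1
        rw [Nat.cast_sub hN, hre]
        push_cast; ring
      rw [h2]
      exact Real.rpow_le_rpow hs0 hcase (by linarith)
    have h3 : f N' ≤ (x / 2) ^ (r - 1) * x := by
      refine hgrow.trans ?_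
      apply mul_le_mul h1 hx (hs0.trans hle4) (by positivity)
    have h4 : (x / 2) ^ (r - 1) * x = 2 * (x / 2) ^ r := by
      rcases hx0.eq_or_lt with h0 | hpos
      · have hz : (0 : ℝ) ^ r = 0 := Real.zero_rpow (by linarith)
        rw [← h0, zero_div, hz, mul_zero, mul_zero]
      · rw [Real.rpow_sub_one (by positivity)]
        field_simp
    have h5 := extrap_major ht0 hxt (w := 1 / 2) (by norm_num) (by norm_num) hr
    have h6 : (1 / 2 * t + (1 - 1 / 2) * (x - t)) = x / 2 := by ring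
    have h7 : ((1 - 1 / 2) * t + 1 / 2 * (x - t)) = x / 2 := by ring
    rw [h6, h7] at h5
    linarith
  · push Not at hcase
    have h1 : f N' ≤ s ^ r + (x - s) ^ r := by
      have h2 : (f 4 - s) ^ r ≤ (x - s) ^ r :=
        Real.rpow_le_rpow (by linarith) (by linarith) (by linarith)
      linarith
    refine h1.trans ?_
    have h2t : 0 < 2 * t - x := by linarith
    obtain ⟨w, hw⟩ : ∃ w, w = (s - (x - t)) / (2 * t - x) := ⟨_, rfl⟩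
    have hwm : w * (2 * t - x) = s - (x - t) := by rw [hw, div_mul_cancel₀ _ h2t.ne']
    have hw0 : 0 ≤ w := by rw [hw]; exact div_nonneg (by linarith) h2t.le
    have hw1 : w ≤ 1 := by rw [hw]; exact (div_le_one h2t).2 (by linarith)
    have h5 := extrap_major ht0 hxt hw0 hw1 hr
    have h6 : w * t + (1 - w) * (x - t) = s := by linarith
    have h7 : (1 - w) * t + w * (x - t) = x - s := by linarith
    rw [h6, h7] at h5
    exact h5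

end P348
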