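import Vale.Agent.Lib.P348.Num
import Vale.Agent.Lib.P348.Extrap
import Vale.Agent.Lib.P348.Chan2

/-!
# P348 module BaseA: the nine channels at the six base temperatures

`Fk k j N`: channel number k (A1, A2, E, T1, T2, Bm, Ba, Bb, Be), β = bq j / 4, normalised at f0; PowSum by
Chan2 and `PowSum.scale` (exp(-2Nβf0) = (exp(-2βf0))^N).
`cenK k j N`: 24·10^8 times the approximate value.  |Fk - cenK/(24·10^8)| ≤ 5·10^(-6) by `num_bound` (the sum of
the absolute values of the coefficients is at most 24).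
For k ≠ 1 the top is ≤ topK k j / 10^9 by `top_le_of_three` (integer inequalities, decide/norm_num), then
`extrap_le`; for k = 1 (topK = 0) use `PowSum.pow_le`.
-/

namespace P348

/-- the channels -/
noncomputable def Fk (k j : ℕ) : ℕ → ℝ :=
  match k with
  | 0 => fun N => (gz 0 j N + 8 * gz 3 j N + 9 * gz 1 j N + 6 * gz 2 j N) / 24
  | 1 => fun N => (gz 0 j N + 8 * gz 3 j N - 3 * gz 1 j N - 6 * gz 2 j N) / 24
  | 2 => fun N => (gz 0 j N + 3 * gz 1 j N - 4 * gz 3 j N) / 12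
  | 3 => fun N => (gz 0 j N + 2 * gz 2 j N - 3 * gz 1 j N) / 8
  | 4 => fun N => (gz 0 j N - 2 * gz 2 j N + gz 1 j N) / 8
  | 5 => fun N => (gz 4 j N + 2 * gz 6 j N + gz 5 j N - 4 * gz 7 j N) / 8
  | 6 => fun N => (gz 4 j N + 2 * gz 6 j N + gz 5 j N + 4 * gz 7 j N) / 8
  | 7 => fun N => (gz 4 j N - 2 * gz 6 j N + gz 5 j N) / 8
  | _ => fun N => (gz 4 j N - gz 5 j N) / 4

/-- centres, in units of 1/(24·10^8) -/
def cenK (k j N : ℕ) : ℤ :=
  match k with
  | 0 => numC N 0 j + 8 * numC N 3 j + 9 * numC N 1 j + 6 * numC N 2 j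
  | 1 => numC N 0 j + 8 * numC N 3 j - 3 * numC N 1 j - 6 * numC N 2 j
  | 2 => 2 * (numC N 0 j + 3 * numC N 1 j - 4 * numC N 3 j)
  | 3 => 3 * (numC N 0 j + 2 * numC N 2 j - 3 * numC N 1 j)
  | 4 => 3 * (numC N 0 j - 2 * numC N 2 j + numC N 1 j)
  | 5 => 3 * (numC N 4 j + 2 * numC N 6 j + numC N 5 j - 4 * numC N 7 j)
  | 6 => 3 * (numC N 4 j + 2 * numC N 6 j + numC N 5 j + 4 * numC N 7 j)
  | 7 => 3 * (numC N 4 j - 2 * numC N 6 j + numC N 5 j)
  | _ => 6 * (numC N 4 j - numC N 5 j)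

/-- upper bound at N = 4, in units of 1/(24·10^8) -/
def gK (k j : ℕ) : ℤ := cenK k j 4 + 12000

theorem bq_pos {j : ℕ} (hj : j < 6) : (0 : ℝ) < (bq j : ℝ) / 4 := by
  have h : ∀ j < 6, 0 < bq j := by decide
  have h1 : (0 : ℝ) < (bq j : ℝ) := by exact_mod_cast h j hj
  positivity

theorem gz_factor (c j N : ℕ) : gz c j N =
    Real.exp (-(2 * ((bq j : ℝ) / 4) * (140148 / 100000))) ^ N *
      zz (pairW c) (pairR c) ((bq j : ℝ) / 4) N := by
  rw [gz, mul_comm, ← Real.exp_nat_mul]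
  congr 2
  ring

theorem powSum_Fk (k j : ℕ) (hj : j < 6) : PowSum (Fk k j) := by
  have hβ := bq_pos hj
  have key : ∀ g : ℕ → ℝ, PowSum g → (∀ N, Fk k j N =
      Real.exp (-(2 * ((bq j : ℝ) / 4) * (140148 / 100000))) ^ N * g N) → PowSum (Fk k j) := by
    intro g hg he
    have h1 := PowSum.scale g hg (Real.exp (-(2 * ((bq j : ℝ) / 4) * (140148 / 100000))))
      (Real.exp_pos _).le
    have h2 : Fk k j = fun N =>
        Real.exp (-(2 * ((bq j : ℝ) / 4) * (140148 / 100000))) ^ N * g N := funext he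
    rw [h2]
    exact h1
  match k with
  | 0 =>
    refine key _ (pow_A1 _ hβ) fun N => ?_
    simp only [Fk, gz_factor, pairW, pairR]
    ring
  | 1 =>
    refine key _ (pow_A2 _ hβ) fun N => ?_
    simp only [Fk, gz_factor, pairW, pairR]
    ring
  | 2 =>
    refine key _ (pow_E _ hβ) fun N => ?_
    simp only [Fk, gz_factor, pairW, pairR]
    ring
  | 3 =>
    refine key _ (pow_T1 _ hβ) fun N => ?_
    simp only [Fk, gz_factor, pairW, pairR]
    ring
  | 4 =>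
    refine key _ (pow_T2 _ hβ) fun N => ?_
    simp only [Fk, gz_factor, pairW, pairR]
    ring
  | 5 =>
    refine key _ (pow_Bm _ hβ) fun N => ?_
    simp only [Fk, gz_factor, pairW, pairR]
    ring
  | 6 =>
    refine key _ (pow_Ba _ hβ) fun N => ?_
    simp only [Fk, gz_factor, pairW, pairR]
    ring
  | 7 =>
    refine key _ (pow_Bb _ hβ) fun N => ?_
    simp only [Fk, gz_factor, pairW, pairR]
    ring
  | n + 8 =>
    refine key _ (pow_Be _ hβ) fun N => ?_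
    simp only [Fk, gz_factor, pairW, pairR]
    ring

theorem Fk_bound (k j N : ℕ) (hk : k < 9) (hj : j < 6) (hN : N = 2 ∨ N = 3 ∨ N = 4) :
    |Fk k j N - (cenK k j N : ℝ) / 2400000000| ≤ 5 / 1000000 := by
  have h0 := abs_le.1 (num_bound N 0 j hN (by norm_num) hj)
  have h1 := abs_le.1 (num_bound N 1 j hN (by norm_num) hj)
  have h2 := abs_le.1 (num_bound N 2 j hN (by norm_num) hj)
  have h3 := abs_le.1 (num_bound N 3 j hN (by norm_num) hj)
  have h4 := abs_le.1 (num_bound N 4 j hN (by norm_num) hj)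
  have h5 := abs_le.1 (num_bound N 5 j hN (by norm_num) hj)
  have h6 := abs_le.1 (num_bound N 6 j hN (by norm_num) hj)
  have h7 := abs_le.1 (num_bound N 7 j hN (by norm_num) hj)
  rw [abs_le]
  interval_cases k <;> simp only [Fk, cenK] <;> push_cast <;> constructor <;> linarith

/-- the integer inequalities behind the bounds of the tops -/
def topOK (k j : ℕ) : Bool :=
  decide (0 < cenK k j 2 - 12000) && decide (0 < cenK k j 3 - 12000) &&
  decide (0 < topK k j) &&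
  decide ((cenK k j 3 + 12000) * 1000000000 ≤ (topK k j : ℤ) * (cenK k j 2 - 12000)) &&
  decide (((cenK k j 2 + 12000) * (cenK k j 4 + 12000) - (cenK k j 3 - 12000) ^ 2) *
      1000000000 ^ 4 <
    2400000000 * ((topK k j : ℤ) ^ 2 * 1000000000 ^ 2 * (cenK k j 4 - 12000) -
      2 * (topK k j : ℤ) ^ 3 * 1000000000 * (cenK k j 3 + 12000) +
      (topK k j : ℤ) ^ 4 * (cenK k j 2 - 12000))) &&
  decide ((topK k j : ℤ) ^ 4 * 2400000000 ≤ gK k j * 1000000000 ^ 4)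

theorem topOK_all : ∀ k < 9, ∀ j < 6, k ≠ 1 → topOK k j = true := by
  decide +kernel

theorem Fk_top (k j : ℕ) (hk : k < 9) (hk1 : k ≠ 1) (hj : j < 6) (l : ℝ) (hl : IsTop (Fk k j) l) :
    l ≤ (topK k j : ℝ) / 1000000000 := by
  have hok := topOK_all k hk j hj hk1
  simp only [topOK, Bool.and_eq_true, decide_eq_true_eq] at hok
  obtain ⟨⟨⟨⟨⟨o1, o2⟩, o3⟩, o4⟩, o5⟩, -⟩ := hok
  have b2 := abs_le.1 (Fk_bound k j 2 hk hj (Or.inl rfl))
  have b3 := abs_le.1 (Fk_bound k j 3 hk hj (Or.inr (Or.inl rfl)))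
  have b4 := abs_le.1 (Fk_bound k j 4 hk hj (Or.inr (Or.inr rfl)))
  obtain ⟨C2, hC2⟩ : ∃ C, C = cenK k j 2 := ⟨_, rfl⟩
  obtain ⟨C3, hC3⟩ : ∃ C, C = cenK k j 3 := ⟨_, rfl⟩
  obtain ⟨C4, hC4⟩ : ∃ C, C = cenK k j 4 := ⟨_, rfl⟩
  obtain ⟨T, hT⟩ : ∃ T, T = topK k j := ⟨_, rfl⟩
  rw [← hC2] at b2 o1 o4 o5
  rw [← hC3] at b3 o2 o4 o5
  rw [← hC4] at b4 o5
  rw [← hT] at o3 o4 o5 ⊢
  have r1 : (0 : ℝ) < (C2 : ℝ) - 12000 := by exact_mod_cast o1
  have r2 : (0 : ℝ) < (C3 : ℝ) - 12000 := by exact_mod_cast o2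
  have r3 : (0 : ℝ) < (T : ℝ) := by exact_mod_cast o3
  have r4 : ((C3 : ℝ) + 12000) * 1000000000 ≤ (T : ℝ) * ((C2 : ℝ) - 12000) := by exact_mod_cast o4
  have r5 : (((C2 : ℝ) + 12000) * ((C4 : ℝ) + 12000) - ((C3 : ℝ) - 12000) ^ 2) *
      1000000000 ^ 4 <
    2400000000 * ((T : ℝ) ^ 2 * 1000000000 ^ 2 * ((C4 : ℝ) - 12000) -
      2 * (T : ℝ) ^ 3 * 1000000000 * ((C3 : ℝ) + 12000) +
      (T : ℝ) ^ 4 * ((C2 : ℝ) - 12000)) := by exact_mod_cast o5
  refine top_le_of_three (Fk k j) l ((T : ℝ) / 1000000000) (((C2 : ℝ) - 12000) / 2400000000)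
    (((C2 : ℝ) + 12000) / 2400000000) (((C3 : ℝ) - 12000) / 2400000000)
    (((C3 : ℝ) + 12000) / 2400000000) (((C4 : ℝ) - 12000) / 2400000000)
    (((C4 : ℝ) + 12000) / 2400000000) hl (by positivity) (by linarith) (by linarith)
    (by linarith) (by linarith) (by linarith) (by linarith) (by positivity) (by positivity) ?_ ?_
  · rw [div_mul_div_comm, div_le_div_iff₀ (by norm_num) (by norm_num)]
    linarith
  · have e1 : ((C2 : ℝ) + 12000) / 2400000000 * (((C4 : ℝ) + 12000) / 2400000000) -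
        (((C3 : ℝ) - 12000) / 2400000000) ^ 2 =
        ((((C2 : ℝ) + 12000) * ((C4 : ℝ) + 12000) - ((C3 : ℝ) - 12000) ^ 2) *
      1000000000 ^ 4) / (2400000000 ^ 2 * 1000000000 ^ 4) := by
      field_simp
    have e2 : ((T : ℝ) / 1000000000) ^ 2 * (((C4 : ℝ) - 12000) / 2400000000 -
        2 * (((C3 : ℝ) + 12000) / 2400000000) * ((T : ℝ) / 1000000000) +
        ((C2 : ℝ) - 12000) / 2400000000 * ((T : ℝ) / 1000000000) ^ 2) =
        (2400000000 * ((T : ℝ) ^ 2 * 1000000000 ^ 2 * ((C4 : ℝ) - 12000) -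
      2 * (T : ℝ) ^ 3 * 1000000000 * ((C3 : ℝ) + 12000) +
      (T : ℝ) ^ 4 * ((C2 : ℝ) - 12000))) / (2400000000 ^ 2 * 1000000000 ^ 4) := by
      field_simp
    rw [e1, e2]
    exact div_lt_div_of_pos_right r5 (by norm_num)

theorem Fk_ext (k j : ℕ) (hk : k < 9) (hj : j < 6) (r : ℕ) (hr : 1 ≤ r) :
    Fk k j (4 * r) ≤ ((topK k j : ℝ) / 1000000000) ^ (4 * r) +
      ((gK k j : ℝ) / 2400000000 - ((topK k j : ℝ) / 1000000000) ^ 4) ^ r := by
  have hps := powSum_Fk k j hj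
  have b4 := abs_le.1 (Fk_bound k j 4 hk hj (Or.inr (Or.inr rfl)))
  have hg : (gK k j : ℝ) = (cenK k j 4 : ℝ) + 12000 := by
    rw [gK]; push_cast; ring
  have hx : Fk k j 4 ≤ (gK k j : ℝ) / 2400000000 := by
    rw [hg]; linarith
  have hcast : (((4 * r : ℕ) : ℝ) / ((4 : ℕ) : ℝ)) = (r : ℝ) := by push_cast; ring
  by_cases hk1 : k = 1
  · subst hk1
    have h0 : topK 1 j = 0 := by
      have : ∀ j < 6, topK 1 j = 0 := by decide
      exact this j hj
    have h1 := hps.pow_le _ 4 (4 * r) (by norm_num) (by omega)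
    rw [hcast, Real.rpow_natCast] at h1
    have h2 : Fk 1 j 4 ^ r ≤ ((gK 1 j : ℝ) / 2400000000) ^ r :=
      pow_le_pow_left₀ (hps.nonneg _ 4 (by norm_num)) hx r
    rw [h0]
    have h3 : (((0 : ℕ) : ℝ) / 1000000000) ^ (4 * r) = 0 := by
      rw [Nat.cast_zero, zero_div]
      exact zero_pow (by omega)
    have h4 : (((0 : ℕ) : ℝ) / 1000000000) ^ 4 = 0 := by norm_num
    rw [h3, h4, zero_add, sub_zero]
    exact h1.trans h2
  · obtain ⟨l, hl⟩ := hps.exists_top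
    have hlk := Fk_top k j hk hk1 hj l hl
    have hok := topOK_all k hk j hj hk1
    simp only [topOK, Bool.and_eq_true, decide_eq_true_eq] at hok
    have o6 := hok.2
    have r6 : (topK k j : ℝ) ^ 4 * 2400000000 ≤ (gK k j : ℝ) * 1000000000 ^ 4 := by
      exact_mod_cast o6
    have hk4 : ((topK k j : ℝ) / 1000000000) ^ 4 ≤ (gK k j : ℝ) / 2400000000 := by
      rw [div_pow, div_le_div_iff₀ (by norm_num) (by norm_num)]
      exact r6
    have h1 := extrap_le (Fk k j) l _ _ hl hlk hx hk4 (4 * r) (by omega)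
    have hcast' : (((4 * r : ℕ) : ℝ) / 4) = (r : ℝ) := by push_cast; ring
    rw [hcast', Real.rpow_natCast] at h1
    exact h1

/-- for j = 3, 4, 5 the channels A2, E, T1, T2 are below 1 at N = 4, so their tops are below 1 -/
theorem Fk_lt_one (k j : ℕ) (hk : 1 ≤ k) (hk' : k < 5) (hj : 3 ≤ j) (hj' : j < 6) (l : ℝ)
    (hl : IsTop (Fk k j) l) : l < 1 := by
  have b4 := abs_le.1 (Fk_bound k j 4 (by omega) hj' (Or.inr (Or.inr rfl)))
  have hdec : ∀ k < 5, ∀ j < 6, 1 ≤ k → 3 ≤ j → cenK k j 4 + 12000 < 2400000000 := by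
    decide +kernel
  have h1 : (cenK k j 4 : ℝ) + 12000 < 2400000000 := by
    exact_mod_cast hdec k hk' j hj' hk hj
  have h2 := hl.le 4 (by norm_num)
  have h3 : l ^ 4 < 1 := by
    have : (cenK k j 4 : ℝ) / 2400000000 + 5 / 1000000 < 1 := by linarith
    linarith
  exact (pow_lt_one_iff_of_nonneg hl.nonneg (by norm_num)).1 h3

end P348
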