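import Vale.Agent.Lib.P348.Time

/-!
# P348 module Mono: bulk energy, X and y

e N := E0 (N+1-1).  For every N ≥ 1, g N β := zz 1 1 β N = sum of exponentials with smallest exponent E0 N
(so (log g N β)/β → - E0 N as β → ∞, and log g N is convex in β), and for every β > 0 it is a PowSum in N
(log-convex in N, g N' ≤ (g N)^(N'/N)).
Hence  -E0 is convex in N, -E0 N / N is antitone; f := inf_N -E0 N/(2N); φ N = -E0 N - 2 N f ≥ 0 is convex with
φ N / N → 0, hence antitone.  l β = top of N ↦ g N β; log l is convex in β (limit of (1/N) log g N β),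
l β ≥ exp(2 f β), and limsup (log l β)/β ≤ -E0 N/N for every N, so ψ β = log l β - 2 f β ≥ 0 is convex and
sublinear, hence antitone.
-/

namespace P348

open Matrix

/-- ground energy as a function of N : ℕ -/
noncomputable def en : ℕ → ℝ
  | 0 => 0
  | (N + 1) => E0 (N + 1)

private lemma mono_arch (x K : ℝ) (h : ∀ β : ℝ, 0 < β → β * x ≤ K) : x ≤ 0 := by
  by_contra hx
  push Not at hx
  have hK : (0:ℝ) ≤ K := le_trans (by positivity) (h 1 one_pos)
  have h1 := h ((K + 1) / x) (by positivity)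
  rw [div_mul_cancel₀ _ hx.ne'] at h1
  linarith

private lemma mono_pow (a b C : ℝ) (N0 : ℕ) (_ha : 0 ≤ a) (hb : 0 < b)
    (h : ∀ N : ℕ, N0 ≤ N → a ^ N ≤ C * b ^ N) : a ≤ b := by
  by_contra hab
  push Not at hab
  have h1 : 1 < a / b := by rwa [lt_div_iff₀ hb, one_mul]
  have h2 := (tendsto_pow_atTop_atTop_of_one_lt h1).eventually_gt_atTop C
  obtain ⟨N, hN, hN'⟩ := (h2.and (Filter.eventually_ge_atTop N0)).exists
  have h3 := h N hN'
  rw [div_pow, lt_div_iff₀ (by positivity)] at hN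
  linarith

/-- abstract statement -/
theorem mono_abstract (g : ℝ → ℕ → ℝ) (e : ℕ → ℝ)
    (hps : ∀ β : ℝ, 0 < β → PowSum (g β))
    (hts : ∀ N : ℕ, 1 ≤ N → ∃ (k : ℕ) (E : Fin k → ℝ), (∀ i, e N ≤ E i) ∧ (∃ i, E i = e N) ∧
      ∀ β : ℝ, 0 < β → g β N = ∑ i, Real.exp (-(β * E i)))
    (hlow : ∃ c : ℝ, ∀ N : ℕ, 1 ≤ N → c * N ≤ -e N) :
    ∃ f : ℝ, (∀ N : ℕ, 1 ≤ N → 2 * N * f ≤ -e N) ∧
      (∀ c : ℝ, (∀ N : ℕ, 1 ≤ N → 2 * N * c ≤ -e N) → c ≤ f) ∧
      (∀ N N' : ℕ, 1 ≤ N → N ≤ N' → -e N' - 2 * N' * f ≤ -e N - 2 * N * f) ∧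
      (∀ (β l : ℝ), 0 < β → IsTop (g β) l → Real.exp (2 * f * β) ≤ l) ∧
      (∀ (β β' l l' : ℝ), 0 < β → β ≤ β' → IsTop (g β) l → IsTop (g β') l' →
        l' * Real.exp (-(2 * f * β')) ≤ l * Real.exp (-(2 * f * β))) := by
  -- lower and upper bounds for g
  have hglow : ∀ N : ℕ, 1 ≤ N → ∀ β : ℝ, 0 < β → Real.exp (-(β * e N)) ≤ g β N := by
    intro N hN β hβ
    obtain ⟨k, E, hE, ⟨i, hi⟩, hg⟩ := hts N hN
    rw [hg β hβ, ← hi]
    exact Finset.single_le_sum (f := fun i => Real.exp (-(β * E i)))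
      (fun j _ => (Real.exp_pos _).le) (Finset.mem_univ i)
  have hgup : ∀ N : ℕ, 1 ≤ N → ∃ K : ℝ, 1 ≤ K ∧ ∀ β : ℝ, 0 < β →
      g β N ≤ K * Real.exp (-(β * e N)) := by
    intro N hN
    obtain ⟨k, E, hE, ⟨i, hi⟩, hg⟩ := hts N hN
    refine ⟨(k : ℝ), ?_, ?_⟩
    · have : 0 < k := Fin.pos i
      exact_mod_cast this
    · intro β hβ
      rw [hg β hβ]
      calc ∑ i, Real.exp (-(β * E i)) ≤ ∑ _i : Fin k, Real.exp (-(β * e N)) := by
            apply Finset.sum_le_sum
            intro j _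
            apply Real.exp_le_exp.mpr
            have := mul_le_mul_of_nonneg_left (hE j) hβ.le
            linarith
        _ = (k : ℝ) * Real.exp (-(β * e N)) := by simp
  have hgmono : ∀ N : ℕ, 1 ≤ N → ∀ β β' : ℝ, 0 < β → β ≤ β' →
      g β' N ≤ Real.exp ((β' - β) * (-e N)) * g β N := by
    intro N hN β β' hβ hββ'
    obtain ⟨k, E, hE, _, hg⟩ := hts N hN
    rw [hg β hβ, hg β' (lt_of_lt_of_le hβ hββ'), Finset.mul_sum]
    apply Finset.sum_le_sum
    intro j _
    rw [← Real.exp_add]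
    apply Real.exp_le_exp.mpr
    have := mul_le_mul_of_nonneg_left (hE j) (sub_nonneg.mpr hββ')
    nlinarith
  -- subhomogeneity
  have hsub : ∀ N N' : ℕ, 1 ≤ N → N ≤ N' → -e N' ≤ ((N' : ℝ) / N) * (-e N) := by
    intro N N' hN hNN'
    obtain ⟨K, hK, hgK⟩ := hgup N hN
    have hN0 : (0:ℝ) < N := by exact_mod_cast hN
    have key : -e N' - ((N' : ℝ) / N) * (-e N) ≤ 0 := by
      apply mono_arch _ (((N' : ℝ) / N) * Real.log K)
      intro β hβ
      have h1 := (hps β hβ).pow_le (g β) N N' hN hNN'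
      have h2 := hglow N' (le_trans hN hNN') β hβ
      have h3 := hgK β hβ
      have h4 : (0:ℝ) < g β N := lt_of_lt_of_le (Real.exp_pos _) (hglow N hN β hβ)
      have h5 : Real.exp (-(β * e N')) ≤ (K * Real.exp (-(β * e N))) ^ ((N' : ℝ) / N) :=
        le_trans h2 (le_trans h1 (Real.rpow_le_rpow h4.le h3 (by positivity)))
      have h6 := Real.log_le_log (Real.exp_pos _) h5
      rw [Real.log_exp, Real.log_rpow (by positivity),
        Real.log_mul (by positivity) (Real.exp_pos _).ne', Real.log_exp] at h6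
      nlinarith
    linarith
  -- convexity
  have hconv : ∀ N : ℕ, 1 ≤ N → -2 * e (N + 1) ≤ -e N - e (N + 2) := by
    intro N hN
    obtain ⟨K, hK, hgK⟩ := hgup N hN
    obtain ⟨K', hK', hgK'⟩ := hgup (N + 2) (by omega)
    have key : -2 * e (N + 1) - (-e N - e (N + 2)) ≤ 0 := by
      apply mono_arch _ (Real.log K + Real.log K')
      intro β hβ
      have h1 := (hps β hβ).logconvex (g β) N hN
      have h2 := hglow (N + 1) (by omega) β hβ
      have h3 := hgK β hβ
      have h3' := hgK' β hβ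
      have h4 : (0:ℝ) < g β N := lt_of_lt_of_le (Real.exp_pos _) (hglow N hN β hβ)
      have h4' : (0:ℝ) < g β (N + 2) :=
        lt_of_lt_of_le (Real.exp_pos _) (hglow (N + 2) (by omega) β hβ)
      have h5 : Real.exp (-(β * e (N + 1))) ^ 2 ≤
          (K * Real.exp (-(β * e N))) * (K' * Real.exp (-(β * e (N + 2)))) := by
        refine le_trans (pow_le_pow_left₀ (Real.exp_pos _).le h2 2) (le_trans h1 ?_)
        exact mul_le_mul h3 h3' h4'.le (by positivity)
      have h6 := Real.log_le_log (by positivity) h5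
      rw [Real.log_pow, Real.log_exp, Real.log_mul (by positivity) (by positivity),
        Real.log_mul (by positivity) (Real.exp_pos _).ne', Real.log_exp,
        Real.log_mul (by positivity) (Real.exp_pos _).ne', Real.log_exp] at h6
      push_cast at h6
      nlinarith
    linarith
  -- definition of f
  obtain ⟨c0, hc0⟩ := hlow
  have hbdd : BddBelow (Set.range (fun N : ℕ => -e (N + 1) / (2 * ((N + 1 : ℕ) : ℝ)))) := by
    refine ⟨c0 / 2, ?_⟩
    rintro _ ⟨N, rfl⟩
    have h1 := hc0 (N + 1) (by omega)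
    have h2 : (0:ℝ) < ((N + 1 : ℕ) : ℝ) := by positivity
    show c0 / 2 ≤ -e (N + 1) / (2 * ((N + 1 : ℕ) : ℝ))
    rw [le_div_iff₀ (by positivity)]
    linarith
  set f : ℝ := ⨅ N : ℕ, -e (N + 1) / (2 * ((N + 1 : ℕ) : ℝ)) with hf
  have f1 : ∀ N : ℕ, 1 ≤ N → 2 * N * f ≤ -e N := by
    intro N hN
    obtain ⟨M, rfl⟩ : ∃ M, N = M + 1 := ⟨N - 1, by omega⟩
    have h1 : f ≤ -e (M + 1) / (2 * ((M + 1 : ℕ) : ℝ)) := ciInf_le hbdd M
    have h2 : (0:ℝ) < ((M + 1 : ℕ) : ℝ) := by positivity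
    rw [le_div_iff₀ (by positivity)] at h1
    linarith
  have f2 : ∀ c : ℝ, (∀ N : ℕ, 1 ≤ N → 2 * N * c ≤ -e N) → c ≤ f := by
    intro c hc
    apply le_ciInf
    intro N
    have h1 := hc (N + 1) (by omega)
    have h2 : (0:ℝ) < ((N + 1 : ℕ) : ℝ) := by positivity
    rw [le_div_iff₀ (by positivity)]
    linarith
  -- eventually -e N ≤ 2 N (f + ε)
  have flim : ∀ ε : ℝ, 0 < ε → ∃ N0 : ℕ, 1 ≤ N0 ∧ ∀ N : ℕ, N0 ≤ N → -e N ≤ 2 * N * (f + ε) := by
    intro ε hε
    obtain ⟨M, hM⟩ := exists_lt_of_ciInf_lt (show f < f + ε by linarith)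
    refine ⟨M + 1, by omega, ?_⟩
    intro N hN
    have h1 := hsub (M + 1) N (by omega) hN
    have h2 : (0:ℝ) < ((M + 1 : ℕ) : ℝ) := by positivity
    rw [div_lt_iff₀ (by positivity)] at hM
    have h3 : ((N : ℝ) / ((M + 1 : ℕ) : ℝ)) * (-e (M + 1)) ≤
        ((N : ℝ) / ((M + 1 : ℕ) : ℝ)) * ((f + ε) * (2 * ((M + 1 : ℕ) : ℝ))) :=
      mul_le_mul_of_nonneg_left hM.le (by positivity)
    have h4 : ((N : ℝ) / ((M + 1 : ℕ) : ℝ)) * ((f + ε) * (2 * ((M + 1 : ℕ) : ℝ)))
        = 2 * N * (f + ε) := by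
      field_simp
    linarith
  -- antitone
  have step : ∀ N : ℕ, 1 ≤ N → -e (N + 1) - 2 * ((N + 1 : ℕ) : ℝ) * f ≤ -e N - 2 * N * f := by
    intro N hN
    by_contra hcon
    push Not at hcon
    set δ : ℝ := (-e (N + 1) - 2 * ((N + 1 : ℕ) : ℝ) * f) - (-e N - 2 * N * f) with hδ
    have hδ0 : 0 < δ := by linarith
    -- increments stay at least δ
    have inc : ∀ j : ℕ, δ ≤ (-e (N + j + 1) - 2 * ((N + j + 1 : ℕ) : ℝ) * f) -
        (-e (N + j) - 2 * ((N + j : ℕ) : ℝ) * f) := by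
      intro j
      induction j with
      | zero => simp [hδ]
      | succ j ih =>
        have h1 := hconv (N + j) (by omega)
        have e1 : N + (j + 1) + 1 = N + j + 2 := by ring
        have e2 : N + (j + 1) = N + j + 1 := by ring
        rw [e1, e2]
        push_cast at ih ⊢
        linarith
    have tot : ∀ j : ℕ, (-e N - 2 * N * f) + j * δ ≤ -e (N + j) - 2 * ((N + j : ℕ) : ℝ) * f := by
      intro j
      induction j with
      | zero => simp
      | succ j ih =>
        have h1 := inc j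
        have e2 : N + (j + 1) = N + j + 1 := by ring
        rw [e2]
        push_cast at ih h1 ⊢
        linarith
    obtain ⟨N0, hN0, hlim⟩ := flim (δ / 4) (by positivity)
    -- choose j large
    obtain ⟨j, hj⟩ := exists_nat_gt (N0 + (N : ℝ))
    have h1 := tot j
    have hjN : N0 ≤ N + j := by
      have : (N0 : ℝ) < (j : ℝ) := by
        have : (0:ℝ) ≤ (N : ℝ) := by positivity
        linarith
      have : N0 < j := by exact_mod_cast this
      omega
    have h2 := hlim (N + j) hjN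
    have h3 := f1 N hN
    push_cast at h1 h2
    have h4 : (j : ℝ) * δ ≤ 2 * (N + j) * (δ / 4) := by nlinarith
    have h5 : (j : ℝ) * δ ≤ (N : ℝ) * δ := by nlinarith
    have h6 : (j : ℝ) ≤ N := le_of_mul_le_mul_right h5 hδ0
    have h7 : (0:ℝ) ≤ (N0 : ℝ) := by positivity
    linarith
  have f3 : ∀ N N' : ℕ, 1 ≤ N → N ≤ N' → -e N' - 2 * N' * f ≤ -e N - 2 * N * f := by
    intro N N' hN hNN'
    induction N', hNN' using Nat.le_induction with
    | base => exact le_rfl
    | succ M hM ih => exact le_trans (step M (le_trans hN hM)) ih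
  refine ⟨f, f1, f2, f3, ?_, ?_⟩
  · intro β l hβ hl
    apply le_of_forall_gt_imp_ge_of_dense
    intro c hc
    obtain ⟨C, hC⟩ := hl.bound c hc
    have hc0 : 0 < c := lt_of_le_of_lt hl.nonneg hc
    apply mono_pow _ c C 1 (Real.exp_pos _).le hc0
    intro N hN
    refine le_trans ?_ (le_trans (hglow N hN β hβ) (hC N hN))
    rw [← Real.exp_nat_mul]
    apply Real.exp_le_exp.mpr
    have := mul_le_mul_of_nonneg_left (f1 N hN) hβ.le
    nlinarith
  · intro β β' l l' hβ hββ' hl hl'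
    have main : l' ≤ Real.exp (2 * f * (β' - β)) * l := by
      -- for all ε > 0 and c > l
      have h1 : ∀ ε : ℝ, 0 < ε → ∀ c : ℝ, l < c →
          l' ≤ Real.exp ((β' - β) * (2 * (f + ε))) * c := by
        intro ε hε c hc
        obtain ⟨C, hC⟩ := hl.bound c hc
        obtain ⟨N0, hN0, hlim⟩ := flim ε hε
        have hc0 : 0 < c := lt_of_le_of_lt hl.nonneg hc
        apply mono_pow _ _ C N0 hl'.nonneg (by positivity)
        intro N hN
        have hN1 : 1 ≤ N := le_trans hN0 hN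
        refine le_trans (hl'.le N hN1) (le_trans (hgmono N hN1 β β' hβ hββ') ?_)
        rw [mul_pow, ← Real.exp_nat_mul]
        have h2 : Real.exp ((β' - β) * -e N) ≤
            Real.exp ((N : ℝ) * ((β' - β) * (2 * (f + ε)))) := by
          apply Real.exp_le_exp.mpr
          have := mul_le_mul_of_nonneg_left (hlim N hN) (sub_nonneg.mpr hββ')
          nlinarith
        have h3 := hC N hN1
        have h4 : (0:ℝ) ≤ g β N := le_trans (Real.exp_pos _).le (hglow N hN1 β hβ)
        calc Real.exp ((β' - β) * -e N) * g β N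
            ≤ Real.exp ((N : ℝ) * ((β' - β) * (2 * (f + ε)))) * (C * c ^ N) :=
              mul_le_mul h2 h3 h4 (Real.exp_pos _).le
          _ = C * (Real.exp ((N : ℝ) * ((β' - β) * (2 * (f + ε)))) * c ^ N) := by ring
      -- limits
      have h2 : ∀ c : ℝ, l < c → l' ≤ Real.exp (2 * f * (β' - β)) * c := by
        intro c hc
        have hcont : Filter.Tendsto (fun ε : ℝ => Real.exp ((β' - β) * (2 * (f + ε))) * c)
            (nhdsWithin 0 (Set.Ioi 0)) (nhds (Real.exp ((β' - β) * (2 * (f + 0))) * c)) := by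
          apply Filter.Tendsto.mono_left _ nhdsWithin_le_nhds
          apply Continuous.tendsto
          fun_prop
        have h3 := ge_of_tendsto hcont (Filter.eventually_of_mem self_mem_nhdsWithin
          (fun ε hε => h1 ε hε c hc))
        have e1 : (β' - β) * (2 * (f + 0)) = 2 * f * (β' - β) := by ring
        rwa [e1] at h3
      have hcont : Filter.Tendsto (fun c : ℝ => Real.exp (2 * f * (β' - β)) * c)
          (nhdsWithin l (Set.Ioi l)) (nhds (Real.exp (2 * f * (β' - β)) * l)) := by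
        apply Filter.Tendsto.mono_left _ nhdsWithin_le_nhds
        apply Continuous.tendsto
        fun_prop
      exact ge_of_tendsto hcont (Filter.eventually_of_mem self_mem_nhdsWithin
        (fun c hc => h2 c hc))
    calc l' * Real.exp (-(2 * f * β'))
        ≤ (Real.exp (2 * f * (β' - β)) * l) * Real.exp (-(2 * f * β')) :=
          mul_le_mul_of_nonneg_right main (Real.exp_pos _).le
      _ = l * (Real.exp (2 * f * (β' - β)) * Real.exp (-(2 * f * β'))) := by ring
      _ = l * Real.exp (-(2 * f * β)) := by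
          rw [← Real.exp_add]
          congr 2
          ring

end P348
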