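import Vale.Agent.Lib.P348.Boot
import Vale.Agent.Lib.P348.Mono
import Vale.Agent.Lib.P348.Chan2

/-!
# P348: the Boot structure of the Heisenberg ring (definitions)
-/

namespace P348

/-- the relation between the abstract bootstrap structure and the Heisenberg ring; f is the bulk value of
`-E0 N / (2 N)`, all partition functions are multiplied by exp(-2 N β f) -/
structure IsInst (S : Boot) (f : ℝ) : Prop where
  hf : (140148 : ℝ) / 100000 ≤ f
  Z : ∀ (β : ℝ) (N : ℕ), 0 < β → 1 ≤ N → S.Z β N = zz 1 1 β N * Real.exp (-(2 * N * β * f))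
  A : ∀ (β : ℝ) (N : ℕ), 0 < β → 1 ≤ N → S.A β N = zz 1 rz β N * Real.exp (-(2 * N * β * f))
  t : ∀ (β : ℝ) (N : ℕ), 0 < β → 1 ≤ N → S.t β N = zz 1 c3 β N * Real.exp (-(2 * N * β * f))
  B : ∀ (β : ℝ) (N : ℕ), 0 < β → 1 ≤ N → S.B β N = zz rz 1 β N * Real.exp (-(2 * N * β * f))
  X : ∀ N : ℕ, 1 ≤ N → S.X N = Real.exp (-(en N) - 2 * N * f)
  y : ∀ (β l : ℝ), 0 < β → IsTop (zz 1 1 β) l → S.y β = l * Real.exp (-(2 * β * f))

end P348
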