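import Vale.Agent.Lib.P348.BaseA
import Vale.Agent.Lib.P348.IDefs
import Vale.Agent.Lib.P348.CertData

/-!
# P348 module BaseB: the 69 base facts

Let S, f be an instance (`IsInst`), β = bq j / 4, ρ = exp(-2β(f - f0)) ≤ 1 (f0 = 140148/100000).  Then
S.Z β N = ρ^N gz 0 j N, S.A = ρ^N gz 1 j N, S.t = ρ^N gz 3 j N, S.B = ρ^N gz 4 j N, and
gz 0 = F0+F1+2F2+3(F3+F4), gz 1 = F0+F1+2F2-(F3+F4), gz 3 = F0+F1-F2, gz 4 = F5+F6+2F7+2F8, and each Fk ≥ 0, so
S.Z β (4r) ≤ sum of the bounds of `Fk_ext`, similarly the others: kind 2: Z, 3: A ≤ F0+F1+2F2, 4: t ≤ F0+F1,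
5: B, 8: (Z+3A-4t)/12 = ρ^N F2, 9: (Z-A)/4 = ρ^N (F3+F4).
kind 0 (y), j ≥ 3: the top of gz 0 (in N) is the maximum of the tops of the channels (`IsTop.add`), it is
≥ S.y β ≥ 1, so it is the top l0 of F0 (`Fk_lt_one`), and S.y β = ρ l0 ≤ topK 0 j / 10^9.
kind 7, j ≥ 3: (Z+3A+8t)/12 - y^N = ρ^N (F0 N - l0^N) + ρ^N F1 N with N = 4r;
ρ^N (F0 N - l0^N) ≤ (ρ^4 (F0 4 - l0^4))^r ≤ (F0 4 - 1)^r (y = ρ l0 ≥ 1) ≤ (gK 0 j/(24·10^8) - 1)^r.
The comparison of these rational numbers with the table `baseL` is a decidable integer inequality.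
-/

namespace P348

/-- 10^9 times an upper bound of the right side of `Fk_ext`, rounded up -/
def extv (K : ℕ) (g : ℤ) (r : ℕ) : ℤ :=
  ((K : ℤ) ^ (4 * r) * (2400000000 * 1000000000 ^ 4) ^ r +
    (g * 1000000000 ^ 4 - 2400000000 * (K : ℤ) ^ 4) ^ r * 1000000000 ^ (4 * r)) /
    (1000000000 ^ (4 * r - 1) * (2400000000 * 1000000000 ^ 4) ^ r) + 1

/-- bound of channel k, β index j, N = 4r, in units of 10^(-9) -/
def xk (k j r : ℕ) : ℤ := extv (topK k j) (gK k j) r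

/-- decidable check of a base fact (key, value) -/
def baseOK (p : ℕ × ℕ) : Bool :=
  let kind := p.1 / 256
  let j := p.1 / 16 % 16
  let i := p.1 % 16
  let r := nn i / 4
  decide (j < 6) && decide (i < 10) && (
  match kind with
  | 0 => decide (3 ≤ j) && decide (i = 0) && decide (topK 0 j ≤ p.2)
  | 2 => decide (xk 0 j r + xk 1 j r + 2 * xk 2 j r + 3 * (xk 3 j r + xk 4 j r) ≤ p.2)
  | 3 => decide (xk 0 j r + xk 1 j r + 2 * xk 2 j r ≤ p.2)
  | 4 => decide (xk 0 j r + xk 1 j r ≤ p.2)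
  | 5 => decide (xk 5 j r + xk 6 j r + 2 * xk 7 j r + 2 * xk 8 j r ≤ p.2)
  | 7 => decide (3 ≤ j) && decide ((gK 0 j - 2400000000) ^ r * 1000000000 / 2400000000 ^ r + 1 + xk 1 j r ≤ p.2)
  | 8 => decide (xk 2 j r ≤ p.2)
  | 9 => decide (xk 3 j r + xk 4 j r ≤ p.2)
  | _ => false)

theorem baseL_ok : ∀ p ∈ baseL, baseOK p = true := by
  decide +kernel

namespace BB

/-- real number form of the floor quotient bound -/
theorem floor_bd (a b : ℤ) (hb : 0 < b) : (a : ℝ) / b ≤ ((a / b + 1 : ℤ) : ℝ) := by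
  have h := Int.lt_ediv_add_one_mul_self a hb
  have hb' : (0 : ℝ) < (b : ℝ) := by exact_mod_cast hb
  rw [div_le_iff₀ hb']
  exact_mod_cast h.le

theorem ext_alg (K g D G : ℝ) (m r : ℕ) (hD : D ≠ 0) (hG : G ≠ 0) (hm : 4 * r = m + 1) :
    ((K / D) ^ (4 * r) + (g / G - (K / D) ^ 4) ^ r) * D =
      (K ^ (4 * r) * (G * D ^ 4) ^ r + (g * D ^ 4 - G * K ^ 4) ^ r * D ^ (4 * r)) /
        (D ^ m * (G * D ^ 4) ^ r) := by
  have e2 : g / G - (K / D) ^ 4 = (g * D ^ 4 - G * K ^ 4) / (G * D ^ 4) := by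
    field_simp
  rw [e2, div_pow, div_pow]
  have e3 : D ^ (4 * r) = D ^ m * D := by rw [hm, pow_succ]
  rw [e3]
  have p1 : D ^ m ≠ 0 := pow_ne_zero _ hD
  have p2 : (G * D ^ 4) ^ r ≠ 0 := pow_ne_zero _ (mul_ne_zero hG (pow_ne_zero _ hD))
  generalize (G * D ^ 4) ^ r = Y at *
  generalize D ^ m = X at *
  generalize (g * D ^ 4 - G * K ^ 4) ^ r = U
  generalize K ^ (4 * r) = V
  field_simp

theorem extv_real (K : ℕ) (g : ℤ) (r : ℕ) (hr : 1 ≤ r) :
    ((K : ℝ) / 1000000000) ^ (4 * r) +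
      ((g : ℝ) / 2400000000 - ((K : ℝ) / 1000000000) ^ 4) ^ r ≤
      ((extv K g r : ℤ) : ℝ) / 1000000000 := by
  have hb : (0 : ℤ) < 1000000000 ^ (4 * r - 1) * (2400000000 * 1000000000 ^ 4) ^ r := by
    positivity
  have h : (((K : ℤ) ^ (4 * r) * (2400000000 * 1000000000 ^ 4) ^ r +
      (g * 1000000000 ^ 4 - 2400000000 * (K : ℤ) ^ 4) ^ r * 1000000000 ^ (4 * r) : ℤ) : ℝ) /
      ((1000000000 ^ (4 * r - 1) * (2400000000 * 1000000000 ^ 4) ^ r : ℤ) : ℝ) ≤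
      ((extv K g r : ℤ) : ℝ) := floor_bd _ _ hb
  rw [le_div_iff₀ (by norm_num)]
  have e := ext_alg (K : ℝ) (g : ℝ) 1000000000 2400000000 (4 * r - 1) r (by norm_num)
    (by norm_num) (by omega)
  rw [e]
  simp only [Int.cast_add, Int.cast_mul, Int.cast_pow, Int.cast_sub, Int.cast_natCast,
    Int.cast_ofNat] at h
  exact h

end BB

theorem extv_spec (k j : ℕ) (hk : k < 9) (hj : j < 6) (r : ℕ) (hr : 1 ≤ r) :
    Fk k j (4 * r) ≤ (xk k j r : ℝ) / 1000000000 := by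
  exact (Fk_ext k j hk hj r hr).trans (BB.extv_real (topK k j) (gK k j) r hr)

namespace BB

theorem IsTop.scale (f : ℕ → ℝ) (l c : ℝ) (hc : 0 < c) (h : IsTop f l) :
    IsTop (fun N => c ^ N * f N) (c * l) where
  nonneg := mul_nonneg hc.le h.nonneg
  le N hN := by
    rw [mul_pow]
    exact mul_le_mul_of_nonneg_left (h.le N hN) (pow_nonneg hc.le _)
  pow N N' hN hNN := by
    have h1 := h.pow N N' hN hNN
    have h2 : 0 ≤ f N - l ^ N := sub_nonneg.2 (h.le N hN)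
    rw [mul_pow, mul_pow, ← mul_sub, ← mul_sub, Real.mul_rpow (pow_nonneg hc.le _) h2]
    have e : (c ^ N) ^ ((N' : ℝ) / N) = c ^ N' := by
      rw [← Real.rpow_natCast c N, ← Real.rpow_mul hc.le]
      have hN0 : (N : ℝ) ≠ 0 := by
        have : N ≠ 0 := by omega
        exact_mod_cast this
      rw [mul_div_cancel₀ _ hN0, Real.rpow_natCast]
    rw [e]
    exact mul_le_mul_of_nonneg_left h1 (pow_nonneg hc.le _)
  cs N hN := by
    have h1 := h.cs N hN
    have e1 : (c ^ (N + 1) * f (N + 1) - (c * l) ^ (N + 1)) ^ 2 =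
        c ^ (2 * N + 2) * (f (N + 1) - l ^ (N + 1)) ^ 2 := by
      rw [mul_pow c l, ← mul_sub, mul_pow, ← pow_mul]
      congr 2
      ring
    have e2 : (c ^ N * f N - (c * l) ^ N) * (c ^ (N + 2) * f (N + 2) - (c * l) ^ (N + 2)) =
        c ^ (2 * N + 2) * ((f N - l ^ N) * (f (N + 2) - l ^ (N + 2))) := by
      rw [mul_pow c l, mul_pow c l, ← mul_sub, ← mul_sub]
      have : c ^ (2 * N + 2) = c ^ N * c ^ (N + 2) := by rw [← pow_add]; congr 1; ring
      rw [this]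
      ring
    rw [e1, e2]
    exact mul_le_mul_of_nonneg_left h1 (pow_nonneg hc.le _)
  grow N N' hN hNN := by
    have h1 := h.grow N N' hN hNN
    have e : (c * l) ^ (N' - N) * (c ^ N * f N) = c ^ N' * (l ^ (N' - N) * f N) := by
      have : c ^ N' = c ^ (N' - N) * c ^ N := by rw [← pow_add]; congr 1; omega
      rw [this, mul_pow]
      ring
    rw [e]
    exact mul_le_mul_of_nonneg_left h1 (pow_nonneg hc.le _)
  bound x hx := by
    have hx' : l < x / c := by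
      rw [lt_div_iff₀ hc, mul_comm]
      exact hx
    obtain ⟨C, hC⟩ := h.bound (x / c) hx'
    refine ⟨C, fun N hN => ?_⟩
    have h1 := mul_le_mul_of_nonneg_left (hC N hN) (pow_nonneg hc.le N)
    refine h1.trans (le_of_eq ?_)
    rw [div_pow]
    field_simp

theorem bq_pos (j : ℕ) (hj : j < 6) : (0 : ℝ) < (bq j : ℝ) / 4 := by
  have : ∀ j < 6, 0 < bq j := by decide
  have h := this j hj
  have h' : (0 : ℝ) < (bq j : ℝ) := by exact_mod_cast h
  positivity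

/-- beta -/
noncomputable def bt (j : ℕ) : ℝ := (bq j : ℝ) / 4

theorem gz0 (j N : ℕ) : gz 0 j N = (Real.exp (-(2 * bt j * (140148 / 100000)))) ^ N * zz 1 1 (bt j) N := by
  rw [← Real.exp_nat_mul]
  unfold gz pairW pairR bt
  rw [mul_comm]
  congr 2
  ring

theorem sum0 (j N : ℕ) : gz 0 j N = Fk 0 j N + Fk 1 j N + (Fk 2 j N + Fk 2 j N) +
    ((Fk 3 j N + Fk 4 j N) + (Fk 3 j N + Fk 4 j N) + (Fk 3 j N + Fk 4 j N)) := by
  simp only [Fk]
  ring

theorem Fnn (k j N : ℕ) (hj : j < 6) (hN : 1 ≤ N) : 0 ≤ Fk k j N :=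
  PowSum.nonneg _ (powSum_Fk k j hj) N hN

end BB

/-- the top of the untwisted partition function is in the channel A1 when β ≥ 8 -/
theorem top_A1 (S : Boot) (f : ℝ) (h : IsInst S f) (j : ℕ) (hj : 3 ≤ j) (hj' : j < 6) :
    ∃ l : ℝ, IsTop (Fk 0 j) l ∧
      S.y ((bq j : ℝ) / 4) = l * Real.exp (-(2 * ((bq j : ℝ) / 4) * (f - 140148 / 100000))) := by
  have hb : 0 < BB.bt j := BB.bq_pos j hj'
  have P : ∀ k, PowSum (Fk k j) := fun k => powSum_Fk k j hj'
  obtain ⟨l0, h0⟩ := PowSum.exists_top _ (P 0)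
  obtain ⟨l1, h1⟩ := PowSum.exists_top _ (P 1)
  obtain ⟨l2, h2⟩ := PowSum.exists_top _ (P 2)
  obtain ⟨l3, h3⟩ := PowSum.exists_top _ (P 3)
  obtain ⟨l4, h4⟩ := PowSum.exists_top _ (P 4)
  have s1 := Fk_lt_one 1 j (by norm_num) (by norm_num) hj hj' l1 h1
  have s2 := Fk_lt_one 2 j (by norm_num) (by norm_num) hj hj' l2 h2
  have s3 := Fk_lt_one 3 j (by norm_num) (by norm_num) hj hj' l3 h3
  have s4 := Fk_lt_one 4 j (by norm_num) (by norm_num) hj hj' l4 h4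
  have a01 := IsTop.add _ _ _ _ h0 h1 (P 0) (P 1)
  have a22 := IsTop.add _ _ _ _ h2 h2 (P 2) (P 2)
  have a34 := IsTop.add _ _ _ _ h3 h4 (P 3) (P 4)
  have p01 := PowSum.add _ _ (P 0) (P 1)
  have p22 := PowSum.add _ _ (P 2) (P 2)
  have p34 := PowSum.add _ _ (P 3) (P 4)
  have b34 := IsTop.add _ _ _ _ a34 a34 p34 p34
  have q34 := PowSum.add _ _ p34 p34
  have c34 := IsTop.add _ _ _ _ b34 a34 q34 p34
  have r34 := PowSum.add _ _ q34 p34
  have d := IsTop.add _ _ _ _ a01 a22 p01 p22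
  have pd := PowSum.add _ _ p01 p22
  have e := IsTop.add _ _ _ _ d c34 pd r34
  -- the power sum of the untwisted partition function
  have hE : (fun N => Fk 0 j N + Fk 1 j N + (Fk 2 j N + Fk 2 j N) +
      (Fk 3 j N + Fk 4 j N + (Fk 3 j N + Fk 4 j N) + (Fk 3 j N + Fk 4 j N))) =
      fun N => (Real.exp (-(2 * BB.bt j * (140148 / 100000)))) ^ N * zz 1 1 (BB.bt j) N := by
    funext N
    rw [← BB.gz0, BB.sum0]
  rw [hE] at e
  -- top of zz
  have hc : 0 < Real.exp (2 * BB.bt j * (140148 / 100000)) := Real.exp_pos _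
  have hz := BB.IsTop.scale _ _ _ hc e
  have hE2 : (fun N => Real.exp (2 * BB.bt j * (140148 / 100000)) ^ N *
      (Real.exp (-(2 * BB.bt j * (140148 / 100000))) ^ N * zz 1 1 (BB.bt j) N)) =
      zz 1 1 (BB.bt j) := by
    funext N
    rw [← mul_assoc, ← mul_pow, ← Real.exp_add]
    simp
  rw [hE2] at hz
  have hy := h.y (BB.bt j) _ hb hz
  have hy1 := S.y_one (BB.bt j) hb
  generalize hT : max (max (max l0 l1) (max l2 l2)) (max (max (max l3 l4) (max l3 l4)) (max l3 l4)) = T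
    at hy
  have hy2 : S.y (BB.bt j) = T * Real.exp (-(2 * BB.bt j * (f - 140148 / 100000))) := by
    rw [hy, mul_comm (Real.exp _) T, mul_assoc, ← Real.exp_add]
    congr 2
    ring
  have hexp : Real.exp (-(2 * BB.bt j * (f - 140148 / 100000))) ≤ 1 := by
    rw [Real.exp_le_one_iff]
    have := h.hf
    have h5 : 0 ≤ 2 * BB.bt j * (f - 140148 / 100000) :=
      mul_nonneg (by positivity) (by linarith)
    linarith
  have hT1 : 1 ≤ T := by
    have hpos : 0 < Real.exp (-(2 * BB.bt j * (f - 140148 / 100000))) := Real.exp_pos _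
    rw [hy2] at hy1
    by_contra hlt
    push Not at hlt
    have h6 : T * Real.exp (-(2 * BB.bt j * (f - 140148 / 100000))) < 1 := by
      by_cases hT0 : 0 ≤ T
      · calc T * Real.exp (-(2 * BB.bt j * (f - 140148 / 100000))) ≤ T * 1 :=
              mul_le_mul_of_nonneg_left hexp hT0
          _ < 1 := by linarith
      · push Not at hT0
        have : T * Real.exp (-(2 * BB.bt j * (f - 140148 / 100000))) < 0 :=
          mul_neg_of_neg_of_pos hT0 hpos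
        linarith
    linarith
  have hTl : T = l0 := by
    by_contra hne
    have h7 : T ≤ max l0 (max (max l1 l2) (max l3 l4)) := by
      rw [← hT]
      refine max_le (max_le (max_le ?_ ?_) (max_le ?_ ?_))
        (max_le (max_le (max_le ?_ ?_) (max_le ?_ ?_)) (max_le ?_ ?_)) <;>
      simp only [le_max_iff, le_refl, true_or, or_true]
    rcases le_max_iff.1 h7 with h8 | h8
    · have h9 : l0 ≤ T := by
        rw [← hT]
        simp only [le_max_iff, le_refl, true_or]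
      exact hne (le_antisymm h8 h9)
    · have h9 : max (max l1 l2) (max l3 l4) < 1 := by
        simp only [max_lt_iff]
        exact ⟨⟨s1, s2⟩, s3, s4⟩
      linarith
  refine ⟨l0, h0, ?_⟩
  rw [← hTl]
  exact hy2

namespace BB

/-- ratio factor -/
noncomputable def rr (f : ℝ) (j : ℕ) : ℝ := Real.exp (-(2 * bt j * (f - 140148 / 100000)))

theorem rr_le (S : Boot) (f : ℝ) (h : IsInst S f) (j : ℕ) (hj : j < 6) : rr f j ≤ 1 := by
  unfold rr
  rw [Real.exp_le_one_iff]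
  have h1 := h.hf
  have hb : 0 < bt j := bq_pos j hj
  have h5 : 0 ≤ 2 * bt j * (f - 140148 / 100000) := mul_nonneg (by positivity) (by linarith)
  linarith

theorem rr_pos (f : ℝ) (j : ℕ) : 0 < rr f j := Real.exp_pos _

theorem rr_key (f : ℝ) (j N : ℕ) (z : ℝ) :
    z * Real.exp (-(2 * N * bt j * f)) =
      rr f j ^ N * (z * Real.exp (-(2 * N * bt j * (140148 / 100000)))) := by
  unfold rr
  rw [← Real.exp_nat_mul, mul_left_comm, ← Real.exp_add]
  congr 2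
  ring

theorem SZ (S : Boot) (f : ℝ) (h : IsInst S f) (j N : ℕ) (hj : j < 6) (hN : 1 ≤ N) :
    S.Z (bt j) N = rr f j ^ N * gz 0 j N := by
  rw [h.Z (bt j) N (bq_pos j hj) hN, rr_key]
  rfl

theorem SA (S : Boot) (f : ℝ) (h : IsInst S f) (j N : ℕ) (hj : j < 6) (hN : 1 ≤ N) :
    S.A (bt j) N = rr f j ^ N * gz 1 j N := by
  rw [h.A (bt j) N (bq_pos j hj) hN, rr_key]
  rfl

theorem St (S : Boot) (f : ℝ) (h : IsInst S f) (j N : ℕ) (hj : j < 6) (hN : 1 ≤ N) :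
    S.t (bt j) N = rr f j ^ N * gz 3 j N := by
  rw [h.t (bt j) N (bq_pos j hj) hN, rr_key]
  rfl

theorem SB (S : Boot) (f : ℝ) (h : IsInst S f) (j N : ℕ) (hj : j < 6) (hN : 1 ≤ N) :
    S.B (bt j) N = rr f j ^ N * gz 4 j N := by
  rw [h.B (bt j) N (bq_pos j hj) hN, rr_key]
  rfl

/-- multiplication by a number in (0,1] -/
theorem mul_le_of (ρ a b : ℝ) (h0 : 0 ≤ ρ) (h1 : ρ ≤ 1) (ha : a ≤ b) (hb : 0 ≤ b) : ρ * a ≤ b := by
  calc ρ * a ≤ ρ * b := mul_le_mul_of_nonneg_left ha h0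
    _ ≤ 1 * b := mul_le_mul_of_nonneg_right h1 hb
    _ = b := one_mul b

theorem cast_le (a : ℤ) (v : ℕ) (h : a ≤ v) : (a : ℝ) / 1000000000 ≤ (v : ℝ) / DD := by
  have h1 : (a : ℝ) ≤ (v : ℝ) := by exact_mod_cast h
  have h2 : ((DD : ℕ) : ℝ) = 1000000000 := by norm_num [DD]
  rw [h2]
  exact div_le_div_of_nonneg_right h1 (by norm_num)

theorem kind0 (S : Boot) (f : ℝ) (h : IsInst S f) (j v : ℕ) (hj3 : 3 ≤ j) (hj : j < 6)
    (hv : topK 0 j ≤ v) : S.y (bt j) ≤ (v : ℝ) / DD := by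
  obtain ⟨l, hl, hy⟩ := top_A1 S f h j hj3 hj
  have hy' : S.y (bt j) = l * rr f j := hy
  have ht := Fk_top 0 j (by norm_num) (by norm_num) hj l hl
  have h0 := hl.nonneg
  rw [hy', mul_comm]
  have h1 := mul_le_of (rr f j) l _ (rr_pos f j).le (rr_le S f h j hj) ht (h0.trans ht)
  have h2 : ((topK 0 j : ℤ) : ℝ) / 1000000000 ≤ (v : ℝ) / DD :=
    cast_le _ v (by exact_mod_cast hv)
  rw [Int.cast_natCast] at h2
  exact h1.trans h2

theorem kind2 (S : Boot) (f : ℝ) (h : IsInst S f) (j r v : ℕ) (hj : j < 6) (hr : 1 ≤ r)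
    (hm : xk 0 j r + xk 1 j r + 2 * xk 2 j r + 3 * (xk 3 j r + xk 4 j r) ≤ v) :
    S.Z (bt j) (4 * r) ≤ (v : ℝ) / DD := by
  have hv := cast_le _ v hm
  have hN : 1 ≤ 4 * r := by omega
  rw [SZ S f h j _ hj hN, sum0]
  have n0 := Fnn 0 j (4 * r) hj hN
  have n1 := Fnn 1 j (4 * r) hj hN
  have n2 := Fnn 2 j (4 * r) hj hN
  have n3 := Fnn 3 j (4 * r) hj hN
  have n4 := Fnn 4 j (4 * r) hj hN
  have u0 := extv_spec 0 j (by norm_num) hj r hr
  have u1 := extv_spec 1 j (by norm_num) hj r hr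
  have u2 := extv_spec 2 j (by norm_num) hj r hr
  have u3 := extv_spec 3 j (by norm_num) hj r hr
  have u4 := extv_spec 4 j (by norm_num) hj r hr
  have hq0 := pow_nonneg (rr_pos f j).le (4 * r)
  have hq1 : rr f j ^ (4 * r) ≤ 1 := pow_le_one₀ (rr_pos f j).le (rr_le S f h j hj)
  simp only [Int.cast_add, Int.cast_mul, Int.cast_ofNat] at hv
  generalize Fk 0 j (4 * r) = x0 at *
  generalize Fk 1 j (4 * r) = x1 at *
  generalize Fk 2 j (4 * r) = x2 at *
  generalize Fk 3 j (4 * r) = x3 at *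
  generalize Fk 4 j (4 * r) = x4 at *
  refine le_trans (mul_le_of _ _ _ hq0 hq1 le_rfl (by linarith)) ?_
  linarith

theorem kind3 (S : Boot) (f : ℝ) (h : IsInst S f) (j r v : ℕ) (hj : j < 6) (hr : 1 ≤ r)
    (hm : xk 0 j r + xk 1 j r + 2 * xk 2 j r ≤ v) :
    S.A (bt j) (4 * r) ≤ (v : ℝ) / DD := by
  have hv := cast_le _ v hm
  have hN : 1 ≤ 4 * r := by omega
  rw [SA S f h j _ hj hN]
  have e : gz 1 j (4 * r) = Fk 0 j (4 * r) + Fk 1 j (4 * r) + 2 * Fk 2 j (4 * r) -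
      (Fk 3 j (4 * r) + Fk 4 j (4 * r)) := by
    simp only [Fk]
    ring
  have n0 := Fnn 0 j (4 * r) hj hN
  have n1 := Fnn 1 j (4 * r) hj hN
  have n2 := Fnn 2 j (4 * r) hj hN
  have n3 := Fnn 3 j (4 * r) hj hN
  have n4 := Fnn 4 j (4 * r) hj hN
  have u0 := extv_spec 0 j (by norm_num) hj r hr
  have u1 := extv_spec 1 j (by norm_num) hj r hr
  have u2 := extv_spec 2 j (by norm_num) hj r hr
  have hq0 := pow_nonneg (rr_pos f j).le (4 * r)
  have hq1 : rr f j ^ (4 * r) ≤ 1 := pow_le_one₀ (rr_pos f j).le (rr_le S f h j hj)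
  simp only [Int.cast_add, Int.cast_mul, Int.cast_ofNat] at hv
  rw [e]
  generalize Fk 0 j (4 * r) = x0 at *
  generalize Fk 1 j (4 * r) = x1 at *
  generalize Fk 2 j (4 * r) = x2 at *
  generalize Fk 3 j (4 * r) = x3 at *
  generalize Fk 4 j (4 * r) = x4 at *
  refine le_trans (mul_le_of _ _ (x0 + x1 + 2 * x2) hq0 hq1 (by linarith) (by linarith)) ?_
  linarith

theorem kind4 (S : Boot) (f : ℝ) (h : IsInst S f) (j r v : ℕ) (hj : j < 6) (hr : 1 ≤ r)
    (hm : xk 0 j r + xk 1 j r ≤ v) :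
    S.t (bt j) (4 * r) ≤ (v : ℝ) / DD := by
  have hv := cast_le _ v hm
  have hN : 1 ≤ 4 * r := by omega
  rw [St S f h j _ hj hN]
  have e : gz 3 j (4 * r) = Fk 0 j (4 * r) + Fk 1 j (4 * r) - Fk 2 j (4 * r) := by
    simp only [Fk]
    ring
  have n0 := Fnn 0 j (4 * r) hj hN
  have n1 := Fnn 1 j (4 * r) hj hN
  have n2 := Fnn 2 j (4 * r) hj hN
  have u0 := extv_spec 0 j (by norm_num) hj r hr
  have u1 := extv_spec 1 j (by norm_num) hj r hr
  have hq0 := pow_nonneg (rr_pos f j).le (4 * r)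
  have hq1 : rr f j ^ (4 * r) ≤ 1 := pow_le_one₀ (rr_pos f j).le (rr_le S f h j hj)
  simp only [Int.cast_add] at hv
  rw [e]
  generalize Fk 0 j (4 * r) = x0 at *
  generalize Fk 1 j (4 * r) = x1 at *
  generalize Fk 2 j (4 * r) = x2 at *
  refine le_trans (mul_le_of _ _ (x0 + x1) hq0 hq1 (by linarith) (by linarith)) ?_
  linarith

theorem kind5 (S : Boot) (f : ℝ) (h : IsInst S f) (j r v : ℕ) (hj : j < 6) (hr : 1 ≤ r)
    (hm : xk 5 j r + xk 6 j r + 2 * xk 7 j r + 2 * xk 8 j r ≤ v) :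
    S.B (bt j) (4 * r) ≤ (v : ℝ) / DD := by
  have hv := cast_le _ v hm
  have hN : 1 ≤ 4 * r := by omega
  rw [SB S f h j _ hj hN]
  have e : gz 4 j (4 * r) = Fk 5 j (4 * r) + Fk 6 j (4 * r) + 2 * Fk 7 j (4 * r) +
      2 * Fk 8 j (4 * r) := by
    simp only [Fk]
    ring
  have n0 := Fnn 5 j (4 * r) hj hN
  have n1 := Fnn 6 j (4 * r) hj hN
  have n2 := Fnn 7 j (4 * r) hj hN
  have n3 := Fnn 8 j (4 * r) hj hN
  have u0 := extv_spec 5 j (by norm_num) hj r hr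
  have u1 := extv_spec 6 j (by norm_num) hj r hr
  have u2 := extv_spec 7 j (by norm_num) hj r hr
  have u3 := extv_spec 8 j (by norm_num) hj r hr
  have hq0 := pow_nonneg (rr_pos f j).le (4 * r)
  have hq1 : rr f j ^ (4 * r) ≤ 1 := pow_le_one₀ (rr_pos f j).le (rr_le S f h j hj)
  simp only [Int.cast_add, Int.cast_mul, Int.cast_ofNat] at hv
  rw [e]
  generalize Fk 5 j (4 * r) = x0 at *
  generalize Fk 6 j (4 * r) = x1 at *
  generalize Fk 7 j (4 * r) = x2 at *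
  generalize Fk 8 j (4 * r) = x3 at *
  refine le_trans (mul_le_of _ _ _ hq0 hq1 le_rfl (by linarith)) ?_
  linarith

theorem kind8 (S : Boot) (f : ℝ) (h : IsInst S f) (j r v : ℕ) (hj : j < 6) (hr : 1 ≤ r)
    (hm : xk 2 j r ≤ v) :
    (S.Z (bt j) (4 * r) + 3 * S.A (bt j) (4 * r) - 4 * S.t (bt j) (4 * r)) / 12 ≤
      (v : ℝ) / DD := by
  have hv := cast_le _ v hm
  have hN : 1 ≤ 4 * r := by omega
  rw [SZ S f h j _ hj hN, SA S f h j _ hj hN, St S f h j _ hj hN]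
  have e : (rr f j ^ (4 * r) * gz 0 j (4 * r) + 3 * (rr f j ^ (4 * r) * gz 1 j (4 * r)) -
      4 * (rr f j ^ (4 * r) * gz 3 j (4 * r))) / 12 = rr f j ^ (4 * r) * Fk 2 j (4 * r) := by
    simp only [Fk]
    ring
  rw [e]
  have n2 := Fnn 2 j (4 * r) hj hN
  have u2 := extv_spec 2 j (by norm_num) hj r hr
  have hq0 := pow_nonneg (rr_pos f j).le (4 * r)
  have hq1 : rr f j ^ (4 * r) ≤ 1 := pow_le_one₀ (rr_pos f j).le (rr_le S f h j hj)
  exact le_trans (mul_le_of _ _ _ hq0 hq1 le_rfl n2) (u2.trans hv)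

theorem kind9 (S : Boot) (f : ℝ) (h : IsInst S f) (j r v : ℕ) (hj : j < 6) (hr : 1 ≤ r)
    (hm : xk 3 j r + xk 4 j r ≤ v) :
    (S.Z (bt j) (4 * r) - S.A (bt j) (4 * r)) / 4 ≤ (v : ℝ) / DD := by
  have hv := cast_le _ v hm
  have hN : 1 ≤ 4 * r := by omega
  rw [SZ S f h j _ hj hN, SA S f h j _ hj hN]
  have e : (rr f j ^ (4 * r) * gz 0 j (4 * r) - rr f j ^ (4 * r) * gz 1 j (4 * r)) / 4 =
      rr f j ^ (4 * r) * (Fk 3 j (4 * r) + Fk 4 j (4 * r)) := by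
    simp only [Fk]
    ring
  rw [e]
  have n0 := Fnn 3 j (4 * r) hj hN
  have n1 := Fnn 4 j (4 * r) hj hN
  have u0 := extv_spec 3 j (by norm_num) hj r hr
  have u1 := extv_spec 4 j (by norm_num) hj r hr
  have hq0 := pow_nonneg (rr_pos f j).le (4 * r)
  have hq1 : rr f j ^ (4 * r) ≤ 1 := pow_le_one₀ (rr_pos f j).le (rr_le S f h j hj)
  simp only [Int.cast_add] at hv
  generalize Fk 3 j (4 * r) = x0 at *
  generalize Fk 4 j (4 * r) = x1 at *
  refine le_trans (mul_le_of _ _ _ hq0 hq1 le_rfl (by linarith)) ?_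
  linarith

theorem kind7 (S : Boot) (f : ℝ) (h : IsInst S f) (j r v : ℕ) (hj3 : 3 ≤ j) (hj : j < 6) (hr : 1 ≤ r)
    (hv : (gK 0 j - 2400000000) ^ r * 1000000000 / 2400000000 ^ r + 1 + xk 1 j r ≤ v) :
    (S.Z (bt j) (4 * r) + 3 * S.A (bt j) (4 * r) + 8 * S.t (bt j) (4 * r)) / 12 -
      S.y (bt j) ^ (4 * r) ≤ (v : ℝ) / DD := by
  obtain ⟨l, hl, hy⟩ := top_A1 S f h j hj3 hj
  have hy' : S.y (bt j) = l * rr f j := hy
  have hN : 1 ≤ 4 * r := by omega
  have hρ := rr_pos f j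
  have hρ1 := rr_le S f h j hj
  have hy1 : 1 ≤ S.y (bt j) := S.y_one _ (bq_pos j hj)
  rw [SZ S f h j _ hj hN, SA S f h j _ hj hN, St S f h j _ hj hN]
  have e1 : (rr f j ^ (4 * r) * gz 0 j (4 * r) + 3 * (rr f j ^ (4 * r) * gz 1 j (4 * r)) +
      8 * (rr f j ^ (4 * r) * gz 3 j (4 * r))) / 12 =
      rr f j ^ (4 * r) * Fk 0 j (4 * r) + rr f j ^ (4 * r) * Fk 1 j (4 * r) := by
    simp only [Fk]
    ring
  rw [e1]
  have b1 : rr f j ^ (4 * r) * Fk 1 j (4 * r) ≤ (xk 1 j r : ℝ) / 1000000000 := by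
    have h1 := extv_spec 1 j (by norm_num) hj r hr
    have h2 := Fnn 1 j (4 * r) hj hN
    exact mul_le_of _ _ _ (pow_nonneg hρ.le _) (pow_le_one₀ hρ.le hρ1) h1 (h2.trans h1)
  have hp := hl.pow 4 (4 * r) (by norm_num) (by omega)
  have hq : (((4 * r : ℕ) : ℝ) / ((4 : ℕ) : ℝ)) = (r : ℝ) := by push_cast; ring
  rw [hq, Real.rpow_natCast] at hp
  have h4 := hl.le 4 (by norm_num)
  have b2 : rr f j ^ (4 * r) * Fk 0 j (4 * r) - S.y (bt j) ^ (4 * r) ≤
      ((gK 0 j : ℝ) / 2400000000 - 1) ^ r := by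
    have e2 : S.y (bt j) ^ (4 * r) = rr f j ^ (4 * r) * l ^ (4 * r) := by
      rw [hy', mul_pow, mul_comm]
    rw [e2, ← mul_sub]
    have h5 := mul_le_mul_of_nonneg_left hp (pow_nonneg hρ.le (4 * r))
    refine h5.trans ?_
    rw [pow_mul, ← mul_pow]
    apply pow_le_pow_left₀ (mul_nonneg (pow_nonneg hρ.le _) (sub_nonneg.2 h4))
    have h6 : rr f j ^ 4 * (Fk 0 j 4 - l ^ 4) = rr f j ^ 4 * Fk 0 j 4 - S.y (bt j) ^ 4 := by
      rw [hy', mul_pow]; ring
    rw [h6]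
    have h7 := Fk_bound 0 j 4 (by norm_num) hj (Or.inr (Or.inr rfl))
    have h8 := (abs_le.1 h7).2
    have h9 : (gK 0 j : ℝ) = (cenK 0 j 4 : ℝ) + 12000 := by
      unfold gK
      push_cast
      ring
    have h10 := Fnn 0 j 4 hj (by norm_num)
    have h11 : rr f j ^ 4 * Fk 0 j 4 ≤ Fk 0 j 4 :=
      mul_le_of _ _ _ (pow_nonneg hρ.le _) (pow_le_one₀ hρ.le hρ1) le_rfl h10
    have h12 : (1 : ℝ) ≤ S.y (bt j) ^ 4 := one_le_pow₀ hy1
    rw [h9]
    linarith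
  have b3 : ((gK 0 j : ℝ) / 2400000000 - 1) ^ r ≤
      (((gK 0 j - 2400000000) ^ r * 1000000000 / 2400000000 ^ r + 1 : ℤ) : ℝ) / 1000000000 := by
    have hfl := floor_bd ((gK 0 j - 2400000000) ^ r * 1000000000) (2400000000 ^ r)
      (pow_pos (by norm_num) r)
    rw [le_div_iff₀ (by norm_num)]
    refine le_trans (le_of_eq ?_) hfl
    simp only [Int.cast_mul, Int.cast_pow, Int.cast_sub, Int.cast_ofNat]
    have e3 : (gK 0 j : ℝ) / 2400000000 - 1 = ((gK 0 j : ℝ) - 2400000000) / 2400000000 := by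
      ring
    rw [e3, div_pow]
    ring
  have b4 := cast_le _ v hv
  have e5 : (((gK 0 j - 2400000000) ^ r * 1000000000 / 2400000000 ^ r + 1 + xk 1 j r : ℤ) : ℝ) /
      1000000000 =
      (((gK 0 j - 2400000000) ^ r * 1000000000 / 2400000000 ^ r + 1 : ℤ) : ℝ) / 1000000000 +
        (xk 1 j r : ℝ) / 1000000000 := by
    rw [Int.cast_add _ (xk 1 j r)]
    ring
  rw [e5] at b4
  linarith

end BB

theorem base_sound (S : Boot) (f : ℝ) (h : IsInst S f) (p : ℕ × ℕ) (hp : baseOK p = true) :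
    HoldsK S p.1 p.2 := by
  obtain ⟨key, v⟩ := p
  simp only [baseOK, Bool.and_eq_true, decide_eq_true_eq] at hp
  obtain ⟨⟨hj, hi⟩, hm⟩ := hp
  unfold HoldsK
  simp only
  generalize key / 256 = kind at hm ⊢
  generalize key / 16 % 16 = j at hj hm ⊢
  generalize key % 16 = i at hi hm ⊢
  obtain ⟨r, hr, hn⟩ : ∃ r, 1 ≤ r ∧ nn i = 4 * r := by
    have : ∀ i < 10, 1 ≤ nn i / 4 ∧ nn i = 4 * (nn i / 4) := by decide
    exact ⟨nn i / 4, this i hi⟩
  have hr4 : nn i / 4 = r := by omega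
  rw [hr4] at hm
  match kind, hm with
  | 0, hm =>
    have hm' : (decide (3 ≤ j) && decide (i = 0) && decide (topK 0 j ≤ v)) = true := hm
    rw [Bool.and_eq_true, Bool.and_eq_true, decide_eq_true_eq, decide_eq_true_eq,
      decide_eq_true_eq] at hm'
    exact BB.kind0 S f h j v hm'.1.1 hj hm'.2
  | 1, hm => exact absurd hm Bool.false_ne_true
  | 2, hm =>
    have hm' : xk 0 j r + xk 1 j r + 2 * xk 2 j r + 3 * (xk 3 j r + xk 4 j r) ≤ v :=
      of_decide_eq_true hm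
    have := BB.kind2 S f h j r v hj hr hm'
    rw [← hn] at this
    exact this
  | 3, hm =>
    have hm' : xk 0 j r + xk 1 j r + 2 * xk 2 j r ≤ v := of_decide_eq_true hm
    have := BB.kind3 S f h j r v hj hr hm'
    rw [← hn] at this
    exact this
  | 4, hm =>
    have hm' : xk 0 j r + xk 1 j r ≤ v := of_decide_eq_true hm
    have := BB.kind4 S f h j r v hj hr hm'
    rw [← hn] at this
    exact this
  | 5, hm =>
    have hm' : xk 5 j r + xk 6 j r + 2 * xk 7 j r + 2 * xk 8 j r ≤ v := of_decide_eq_true hm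
    have := BB.kind5 S f h j r v hj hr hm'
    rw [← hn] at this
    exact this
  | 6, hm => exact absurd hm Bool.false_ne_true
  | 7, hm =>
    have hm' : (decide (3 ≤ j) && decide ((gK 0 j - 2400000000) ^ r * 1000000000 /
      2400000000 ^ r + 1 + xk 1 j r ≤ v)) = true := hm
    rw [Bool.and_eq_true, decide_eq_true_eq, decide_eq_true_eq] at hm'
    have := BB.kind7 S f h j r v hm'.1 hj hr hm'.2
    rw [← hn] at this
    exact this
  | 8, hm =>
    have hm' : xk 2 j r ≤ v := of_decide_eq_true hm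
    have := BB.kind8 S f h j r v hj hr hm'
    rw [← hn] at this
    exact this
  | 9, hm =>
    have hm' : xk 3 j r + xk 4 j r ≤ v := of_decide_eq_true hm
    have := BB.kind9 S f h j r v hj hr hm'
    rw [← hn] at this
    exact this
  | n + 10, hm => exact absurd hm Bool.false_ne_true

theorem base_ok (S : Boot) (f : ℝ) (h : IsInst S f) :
    ∀ p ∈ baseL, p.1 < 4096 ∧ HoldsK S p.1 p.2 := by
  have hk : ∀ p ∈ baseL, p.1 < 4096 := by decide
  intro p hp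
  exact ⟨hk p hp, base_sound S f h p (baseL_ok p hp)⟩

end P348
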