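import Mathlib.Analysis.SpecialFunctions.Pow.Real

/-!
# P348: the abstract bootstrap structure

`Z β N`  normalised partition function of the ring of 2N sites, `A`, `t` its space twists by the rotation
by pi, 2pi/3, `B` its time twist by the rotation by pi.
`y β = exp(2 psi(β))`: normalised top eigenvalue of the spatial transfer matrix (two sites);
`X N = exp(phi(N))`, phi(N) = -E_0(2N) - 2 N f >= 0.
All inequalities below are consequences of:  at fixed β every irreducible channel in the space twist is a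
(limit of) sums of N-th powers; at fixed N every channel in the time twist is a sum of β-th powers.
-/

namespace P348

structure Boot where
  Z : ℝ → ℕ → ℝ
  A : ℝ → ℕ → ℝ
  t : ℝ → ℕ → ℝ
  B : ℝ → ℕ → ℝ
  y : ℝ → ℝ
  X : ℕ → ℝ
  y_one : ∀ β : ℝ, 0 < β → 1 ≤ y β
  y_anti : ∀ β β' : ℝ, 0 < β → β ≤ β' → y β' ≤ y β
  X_one : ∀ N : ℕ, 1 ≤ N → 1 ≤ X N
  X_anti : ∀ N N' : ℕ, 1 ≤ N → N ≤ N' → X N' ≤ X N
  y_le : ∀ (β : ℝ) (N : ℕ), 0 < β → 1 ≤ N → y β ^ N ≤ Z β N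
  X_le : ∀ (β : ℝ) (N : ℕ), 0 < β → 1 ≤ N → X N ^ β ≤ Z β N
  /-- excess over the top eigenvalue, space direction -/
  Z_powS : ∀ (β : ℝ) (N N' : ℕ), 0 < β → 1 ≤ N → N ≤ N' →
    Z β N' - y β ^ N' ≤ (Z β N - y β ^ N) ^ ((N' : ℝ) / N)
  /-- excess over the ground state, time direction -/
  Z_powT : ∀ (β β' : ℝ) (N : ℕ), 0 < β → β ≤ β' → 1 ≤ N →
    Z β' N - X N ^ β' ≤ (Z β N - X N ^ β) ^ (β' / β)
  /-- triplet channel of the space direction, `(Z - A)/4` -/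
  tau_nonneg : ∀ (β : ℝ) (N : ℕ), 0 < β → 1 ≤ N → 0 ≤ (Z β N - A β N) / 4
  tau_pow : ∀ (β : ℝ) (N N' : ℕ), 0 < β → 1 ≤ N → N ≤ N' →
    (Z β N' - A β N') / 4 ≤ ((Z β N - A β N) / 4) ^ ((N' : ℝ) / N)
  /-- doublet channel of the space direction, `(Z + 3A - 4t)/12` -/
  e_nonneg : ∀ (β : ℝ) (N : ℕ), 0 < β → 1 ≤ N → 0 ≤ (Z β N + 3 * A β N - 4 * t β N) / 12
  e_pow : ∀ (β : ℝ) (N N' : ℕ), 0 < β → 1 ≤ N → N ≤ N' →
    (Z β N' + 3 * A β N' - 4 * t β N') / 12 ≤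
      ((Z β N + 3 * A β N - 4 * t β N) / 12) ^ ((N' : ℝ) / N)
  /-- trivial channel `(Z + 3A + 8t)/12` contains the top eigenvalue as soon as some `Z β N < 2` -/
  goodS : ∀ (β : ℝ) (M : ℕ), 0 < β → 1 ≤ M → Z β M < 2 →
    (∀ N : ℕ, 1 ≤ N → y β ^ N ≤ (Z β N + 3 * A β N + 8 * t β N) / 12) ∧
    (∀ N N' : ℕ, 1 ≤ N → N ≤ N' →
      (Z β N' + 3 * A β N' + 8 * t β N') / 12 - y β ^ N' ≤
        ((Z β N + 3 * A β N + 8 * t β N) / 12 - y β ^ N) ^ ((N' : ℝ) / N))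
  /-- triplet channel of the time direction, `(Z - B)/4` -/
  tauT_nonneg : ∀ (β : ℝ) (N : ℕ), 0 < β → 1 ≤ N → 0 ≤ (Z β N - B β N) / 4
  tauT_pow : ∀ (β β' : ℝ) (N : ℕ), 0 < β → β ≤ β' → 1 ≤ N →
    (Z β' N - B β' N) / 4 ≤ ((Z β N - B β N) / 4) ^ (β' / β)
  /-- trivial channel of the time direction contains the ground state if some `Z β N < 3` -/
  goodT : ∀ (N : ℕ) (β₀ : ℝ), 1 ≤ N → 0 < β₀ → Z β₀ N < 3 →
    (∀ β : ℝ, 0 < β → X N ^ β ≤ (Z β N + 3 * B β N) / 4) ∧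
    (∀ β β' : ℝ, 0 < β → β ≤ β' →
      (Z β' N + 3 * B β' N) / 4 - X N ^ β' ≤ ((Z β N + 3 * B β N) / 4 - X N ^ β) ^ (β' / β))
  A_nonneg : ∀ (β : ℝ) (N : ℕ), 0 < β → 1 ≤ N → 0 ≤ A β N
  A_pow : ∀ (β β' : ℝ) (N : ℕ), 0 < β → β ≤ β' → 1 ≤ N → A β' N ≤ A β N ^ (β' / β)
  t_nonneg : ∀ (β : ℝ) (N : ℕ), 0 < β → 1 ≤ N → 0 ≤ t β N
  t_pow : ∀ (β β' : ℝ) (N : ℕ), 0 < β → β ≤ β' → 1 ≤ N → t β' N ≤ t β N ^ (β' / β)
  B_nonneg : ∀ (β : ℝ) (N : ℕ), 0 < β → 1 ≤ N → 0 ≤ B β N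
  B_pow : ∀ (β : ℝ) (N N' : ℕ), 0 < β → 1 ≤ N → N ≤ N' → B β N' ≤ B β N ^ ((N' : ℝ) / N)

end P348
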