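import Mathlib.Data.Complex.Basic
import Mathlib.Data.EReal.Basic
import Mathlib.LinearAlgebra.Matrix.ConjTranspose
import Mathlib.Order.LiminfLimsup

/-!
# P348: the spin-one Heisenberg ring, its two lowest energies and its gap

The one-site space is `ℂ³`; the ring of length `L` has the Hilbert space `(ℂ³)^{⊗L}`, realised as the
space of functions on the configurations `Fin L → Fin 3` (product basis).
-/

namespace P348.Problem

open Matrix

/-- `S 0, S 1, S 2` are self-adjoint spin-one matrices `S^x, S^y, S^z`: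
`[S^α, S^β] = i ∑ ε_{αβη} S^η` and `∑ (S^α)² = 2 I₃`. -/
structure IsSpinOne (S : Fin 3 → Matrix (Fin 3) (Fin 3) ℂ) : Prop where
  selfAdjoint : ∀ α, (S α)ᴴ = S α
  comm_xy : S 0 * S 1 - S 1 * S 0 = Complex.I • S 2
  comm_yz : S 1 * S 2 - S 2 * S 1 = Complex.I • S 0
  comm_zx : S 2 * S 0 - S 0 * S 2 = Complex.I • S 1
  casimir : S 0 * S 0 + S 1 * S 1 + S 2 * S 2 = (2 : ℂ) • (1 : Matrix (Fin 3) (Fin 3) ℂ)

/-- the operator on the ring which acts as `A` on the tensor factor `j` and as the identity on the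
other factors -/
def siteOp {L : ℕ} (A : Matrix (Fin 3) (Fin 3) ℂ) (j : Fin L) :
    Matrix (Fin L → Fin 3) (Fin L → Fin 3) ℂ :=
  fun s t => if ∀ i, i ≠ j → s i = t i then A (s j) (t j) else 0

/-- the next site on the ring -/
def next {L : ℕ} (j : Fin L) : Fin L := ⟨((j : ℕ) + 1) % L, Nat.mod_lt _ j.pos⟩

/-- the Heisenberg Hamiltonian `H_L = ∑_j ∑_α S^α_j S^α_{j+1}` on the periodic ring -/
def heis (S : Fin 3 → Matrix (Fin 3) (Fin 3) ℂ) (L : ℕ) :
    Matrix (Fin L → Fin 3) (Fin L → Fin 3) ℂ :=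
  ∑ j : Fin L, ∑ α : Fin 3, siteOp (S α) j * siteOp (S α) (next j)

/-- the (real) eigenvalues of a matrix -/
def eigs {ι : Type} [Fintype ι] (H : Matrix ι ι ℂ) : Set ℝ :=
  {x | ∃ v : ι → ℂ, v ≠ 0 ∧ H *ᵥ v = (x : ℂ) • v}

/-- the least eigenvalue `E_0(L)` -/
noncomputable def energy0 (S : Fin 3 → Matrix (Fin 3) (Fin 3) ℂ) (L : ℕ) : ℝ :=
  sInf (eigs (heis S L))

/-- the next distinct eigenvalue `E_1(L)` -/
noncomputable def energy1 (S : Fin 3 → Matrix (Fin 3) (Fin 3) ℂ) (L : ℕ) : ℝ :=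
  sInf {x ∈ eigs (heis S L) | energy0 S L < x}

/-- the gap `γ_L = E_1(L) - E_0(L)` -/
noncomputable def gap (S : Fin 3 → Matrix (Fin 3) (Fin 3) ℂ) (L : ℕ) : ℝ :=
  energy1 S L - energy0 S L

/-- the inferior limit `Δ_1` of the gaps of the rings of even length, in the extended reals -/
noncomputable def haldaneGap (S : Fin 3 → Matrix (Fin 3) (Fin 3) ℂ) : EReal :=
  Filter.liminf (fun L : ℕ => ((gap S L : ℝ) : EReal))
    (Filter.atTop ⊓ Filter.principal {L : ℕ | Even L})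

end P348.Problem
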