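import Mathlib.Algebra.Order.Star.Real
import Mathlib.Analysis.CStarAlgebra.Classes
import Mathlib.Analysis.Complex.Polynomial.Basic
import Mathlib.LinearAlgebra.Eigenspace.Triangularizable
import Vale.Agent.Lib.P348.Stmt

/-!
P348 bridge, part A: uniqueness of the spin-one matrices up to a unitary matrix.
-/

namespace P348.Problem

open Matrix

/-- Cartesian spin-one matrices, `(S^α)_{bc} = -i ε_{αbc}` -/
def cart : Fin 3 → Matrix (Fin 3) (Fin 3) ℂ :=
  ![!![0, 0, 0; 0, 0, -Complex.I; 0, Complex.I, 0],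
    !![0, 0, Complex.I; 0, 0, 0; -Complex.I, 0, 0],
    !![0, -Complex.I, 0; Complex.I, 0, 0; 0, 0, 0]]

theorem cart_isSpinOne : IsSpinOne cart := by
  refine ⟨fun α => ?_, ?_, ?_, ?_, ?_⟩
  · fin_cases α <;> (ext i j; fin_cases i <;> fin_cases j <;> simp [cart])
  all_goals
    ext i j
    fin_cases i <;> fin_cases j <;>
      simp [cart, Matrix.mul_apply, Fin.sum_univ_three, Matrix.one_apply] <;> norm_num

variable {S : Fin 3 → Matrix (Fin 3) (Fin 3) ℂ}

/-- norm of the raised vector -/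
theorem norm_up (h : IsSpinOne S) {m : ℂ} {v : Fin 3 → ℂ} (hv : S 2 *ᵥ v = m • v) :
    star ((S 0 + Complex.I • S 1) *ᵥ v) ⬝ᵥ ((S 0 + Complex.I • S 1) *ᵥ v) =
      (2 - m ^ 2 - m) * (star v ⬝ᵥ v) := by
  have h1 : (S 0 + Complex.I • S 1)ᴴ * (S 0 + Complex.I • S 1) =
      (2 : ℂ) • (1 : Matrix (Fin 3) (Fin 3) ℂ) - S 2 * S 2 - S 2 := by
    have h2 : (S 0 + Complex.I • S 1)ᴴ = S 0 - Complex.I • S 1 := by
      rw [conjTranspose_add, conjTranspose_smul, h.selfAdjoint, h.selfAdjoint]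
      simp [sub_eq_add_neg]
    rw [h2]
    have h3 := h.comm_xy
    have h4 := h.casimir
    have h5 : (S 0 - Complex.I • S 1) * (S 0 + Complex.I • S 1) =
        S 0 * S 0 + S 1 * S 1 + Complex.I • (S 0 * S 1 - S 1 * S 0) := by
      simp only [sub_mul, mul_add, Matrix.smul_mul, Matrix.mul_smul, smul_smul,
        Complex.I_mul_I, smul_sub]
      simp only [neg_smul, one_smul]
      abel
    rw [h5, h3, smul_smul, Complex.I_mul_I, ← h4]
    simp only [neg_smul, one_smul]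
    abel
  rw [star_mulVec, ← dotProduct_mulVec, mulVec_mulVec, h1]
  have h6 : (S 2 * S 2) *ᵥ v = (m ^ 2) • v := by
    rw [← mulVec_mulVec, hv, mulVec_smul, hv, smul_smul, pow_two]
  rw [sub_mulVec, sub_mulVec, h6, hv, smul_mulVec, one_mulVec, ← sub_smul, ← sub_smul,
    dotProduct_smul, smul_eq_mul]

/-- norm of the lowered vector -/
theorem norm_down (h : IsSpinOne S) {m : ℂ} {v : Fin 3 → ℂ} (hv : S 2 *ᵥ v = m • v) :
    star ((S 0 - Complex.I • S 1) *ᵥ v) ⬝ᵥ ((S 0 - Complex.I • S 1) *ᵥ v) =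
      (2 - m ^ 2 + m) * (star v ⬝ᵥ v) := by
  have h1 : (S 0 - Complex.I • S 1)ᴴ * (S 0 - Complex.I • S 1) =
      (2 : ℂ) • (1 : Matrix (Fin 3) (Fin 3) ℂ) - S 2 * S 2 + S 2 := by
    have h2 : (S 0 - Complex.I • S 1)ᴴ = S 0 + Complex.I • S 1 := by
      rw [conjTranspose_sub, conjTranspose_smul, h.selfAdjoint, h.selfAdjoint]
      simp
    rw [h2]
    have h3 := h.comm_xy
    have h4 := h.casimir
    have h5 : (S 0 + Complex.I • S 1) * (S 0 - Complex.I • S 1) =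
        S 0 * S 0 + S 1 * S 1 - Complex.I • (S 0 * S 1 - S 1 * S 0) := by
      simp only [add_mul, mul_sub, Matrix.smul_mul, Matrix.mul_smul, smul_smul,
        Complex.I_mul_I, smul_sub]
      simp only [neg_smul, one_smul]
      abel
    rw [h5, h3, smul_smul, Complex.I_mul_I, ← h4]
    simp only [neg_smul, one_smul]
    abel
  rw [star_mulVec, ← dotProduct_mulVec, mulVec_mulVec, h1]
  have h6 : (S 2 * S 2) *ᵥ v = (m ^ 2) • v := by
    rw [← mulVec_mulVec, hv, mulVec_smul, hv, smul_smul, pow_two]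
  rw [add_mulVec, sub_mulVec, h6, hv, smul_mulVec, one_mulVec, ← sub_smul, ← add_smul,
    dotProduct_smul, smul_eq_mul]

theorem dot_self_re (v : Fin 3 → ℂ) : ∃ r : ℝ, 0 ≤ r ∧ star v ⬝ᵥ v = (r : ℂ) ∧
    (r = 0 → v = 0) := by
  refine ⟨∑ i, Complex.normSq (v i), Finset.sum_nonneg fun i _ => Complex.normSq_nonneg _, ?_,
    fun h => ?_⟩
  · simp [dotProduct, Complex.normSq_eq_conj_mul_self]
  · rw [Finset.sum_eq_zero_iff_of_nonneg (fun i _ => Complex.normSq_nonneg _)] at h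
    funext i
    exact Complex.normSq_eq_zero.mp (h i (Finset.mem_univ i))

/-- eigenvalues of `S^z` are real and lie in `[-1, 1]` -/
theorem eig_range (h : IsSpinOne S) {m : ℂ} {v : Fin 3 → ℂ} (hv0 : v ≠ 0)
    (hv : S 2 *ᵥ v = m • v) : ∃ x : ℝ, m = x ∧ -1 ≤ x ∧ x ≤ 1 := by
  obtain ⟨r, hr0, hr, hr1⟩ := dot_self_re v
  have hrpos : 0 < r := lt_of_le_of_ne hr0 fun h0 => hv0 (hr1 h0.symm)
  have hreal : m = (starRingEnd ℂ) m := by
    have e1 : star v ⬝ᵥ (S 2 *ᵥ v) = m * r := by rw [hv, dotProduct_smul, hr, smul_eq_mul]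
    have e2 : star v ⬝ᵥ (S 2 *ᵥ v) = (starRingEnd ℂ) m * r := by
      rw [dotProduct_mulVec]
      have e3 : star v ᵥ* S 2 = star (S 2 *ᵥ v) := by
        rw [star_mulVec, h.selfAdjoint]
      rw [e3, hv, star_smul, smul_dotProduct, hr, smul_eq_mul]
      rfl
    have e4 : m * r = (starRingEnd ℂ) m * r := e1.symm.trans e2
    exact mul_right_cancel₀ (by exact_mod_cast hrpos.ne') e4
  obtain ⟨x, hx⟩ : ∃ x : ℝ, m = x := ⟨m.re, (Complex.conj_eq_iff_re.mp hreal.symm).symm⟩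
  refine ⟨x, hx, ?_⟩
  obtain ⟨a, ha0, ha, -⟩ := dot_self_re ((S 0 + Complex.I • S 1) *ᵥ v)
  obtain ⟨b, hb0, hb, -⟩ := dot_self_re ((S 0 - Complex.I • S 1) *ᵥ v)
  rw [norm_up h hv, hr, hx] at ha
  rw [norm_down h hv, hr, hx] at hb
  have ha' : (2 - x ^ 2 - x) * r = a := by exact_mod_cast ha
  have hb' : (2 - x ^ 2 + x) * r = b := by exact_mod_cast hb
  have ha2 : 0 ≤ 2 - x ^ 2 - x := by
    by_contra hneg
    push Not at hneg
    have := mul_neg_of_neg_of_pos hneg hrpos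
    linarith
  have hb2 : 0 ≤ 2 - x ^ 2 + x := by
    by_contra hneg
    push Not at hneg
    have := mul_neg_of_neg_of_pos hneg hrpos
    linarith
  constructor
  · by_contra hneg
    push Not at hneg
    nlinarith
  · by_contra hneg
    push Not at hneg
    nlinarith

theorem up_eig (h : IsSpinOne S) {m : ℂ} {v : Fin 3 → ℂ} (hv : S 2 *ᵥ v = m • v) :
    S 2 *ᵥ ((S 0 + Complex.I • S 1) *ᵥ v) = (m + 1) • ((S 0 + Complex.I • S 1) *ᵥ v) := by
  have h1 : S 2 * (S 0 + Complex.I • S 1) =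
      (S 0 + Complex.I • S 1) * S 2 + (S 0 + Complex.I • S 1) := by
    have h2 : S 2 * S 0 = S 0 * S 2 + Complex.I • S 1 := by
      rw [← h.comm_zx]; abel
    have h3 : S 2 * S 1 = S 1 * S 2 - Complex.I • S 0 := by
      rw [← h.comm_yz]; abel
    rw [mul_add, Matrix.mul_smul, h2, h3, add_mul, Matrix.smul_mul, smul_sub, smul_smul,
      Complex.I_mul_I]
    simp only [neg_smul, one_smul]
    abel
  rw [mulVec_mulVec, h1, add_mulVec, ← mulVec_mulVec, hv, mulVec_smul, add_smul, one_smul]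

theorem down_eig (h : IsSpinOne S) {m : ℂ} {v : Fin 3 → ℂ} (hv : S 2 *ᵥ v = m • v) :
    S 2 *ᵥ ((S 0 - Complex.I • S 1) *ᵥ v) = (m - 1) • ((S 0 - Complex.I • S 1) *ᵥ v) := by
  have h1 : S 2 * (S 0 - Complex.I • S 1) =
      (S 0 - Complex.I • S 1) * S 2 - (S 0 - Complex.I • S 1) := by
    have h2 : S 2 * S 0 = S 0 * S 2 + Complex.I • S 1 := by
      rw [← h.comm_zx]; abel
    have h3 : S 2 * S 1 = S 1 * S 2 - Complex.I • S 0 := by
      rw [← h.comm_yz]; abel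
    rw [mul_sub, Matrix.mul_smul, h2, h3, sub_mul, Matrix.smul_mul, smul_sub, smul_smul,
      Complex.I_mul_I]
    simp only [neg_smul, one_smul]
    abel
  rw [mulVec_mulVec, h1, sub_mulVec, ← mulVec_mulVec, hv, mulVec_smul, sub_smul, one_smul]

/-- a vector killed by `S^z` -/
theorem exists_zero (h : IsSpinOne S) : ∃ v : Fin 3 → ℂ, v ≠ 0 ∧ S 2 *ᵥ v = 0 := by
  obtain ⟨m, hm⟩ := Module.End.exists_eigenvalue (Matrix.toLin' (S 2))
  obtain ⟨v, hv⟩ := hm.exists_hasEigenvector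
  have hv1 : S 2 *ᵥ v = m • v := by
    have := hv.apply_eq_smul
    rwa [Matrix.toLin'_apply] at this
  have hv0 : v ≠ 0 := hv.2
  -- highest weight vector
  have key : ∀ k : ℕ, ∀ (m : ℂ) (v : Fin 3 → ℂ), v ≠ 0 → S 2 *ᵥ v = m • v →
      (1 : ℝ) < m.re + k → ∃ (m' : ℂ) (v' : Fin 3 → ℂ), v' ≠ 0 ∧ S 2 *ᵥ v' = m' • v' ∧
        (S 0 + Complex.I • S 1) *ᵥ v' = 0 := by
    intro k
    induction k with
    | zero =>
      intro m v h0 h1 h2
      obtain ⟨x, hx, -, hx1⟩ := eig_range h h0 h1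
      rw [hx] at h2
      simp at h2
      linarith
    | succ k ih =>
      intro m v h0 h1 h2
      by_cases h3 : (S 0 + Complex.I • S 1) *ᵥ v = 0
      · exact ⟨m, v, h0, h1, h3⟩
      · refine ih (m + 1) _ h3 (up_eig h h1) ?_
        rw [Complex.add_re, Complex.one_re]
        push_cast at h2
        linarith
  obtain ⟨m', w, hw0, hw1, hw2⟩ : ∃ (m' : ℂ) (v' : Fin 3 → ℂ), v' ≠ 0 ∧
      S 2 *ᵥ v' = m' • v' ∧ (S 0 + Complex.I • S 1) *ᵥ v' = 0 := by
    obtain ⟨x, hx, hx0, -⟩ := eig_range h hv0 hv1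
    refine key 3 m v hv0 hv1 ?_
    rw [hx]
    simp
    linarith
  obtain ⟨x, hx, hx0, hx1⟩ := eig_range h hw0 hw1
  obtain ⟨r, hr0, hr, hr1⟩ := dot_self_re w
  have hrpos : 0 < r := lt_of_le_of_ne hr0 fun h0 => hw0 (hr1 h0.symm)
  have e1 := norm_up h hw1
  rw [hw2, hr, hx] at e1
  have e2 : (2 - x ^ 2 - x) * r = 0 := by
    have : ((0 : ℝ) : ℂ) = (((2 - x ^ 2 - x) * r : ℝ) : ℂ) := by
      push_cast
      simpa using e1
    exact_mod_cast this.symm
  have e3 : 2 - x ^ 2 - x = 0 := by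
    rcases mul_eq_zero.mp e2 with h0 | h0
    · exact h0
    · exact absurd h0 hrpos.ne'
  have e4 : x = 1 := by nlinarith
  subst e4
  have e5 := down_eig h hw1
  rw [hx] at e5
  refine ⟨(S 0 - Complex.I • S 1) *ᵥ w, fun h0 => ?_, ?_⟩
  · have e6 := norm_down h hw1
    rw [h0, hr, hx] at e6
    have : ((0 : ℝ) : ℂ) = (((2 - 1 ^ 2 + 1) * r : ℝ) : ℂ) := by
      push_cast
      simpa using e6
    have e7 : (2 - 1 ^ 2 + 1) * r = 0 := by exact_mod_cast this.symm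
    linarith
  · rw [e5]
    simp

end P348.Problem
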