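import Mathlib.FieldTheory.IsSepClosed
import Vale.Agent.Lib.P348.BrA

/-!
P348 bridge, part B: all spin-one triples are unitarily equivalent to the Cartesian one.
-/

namespace P348.Problem

open Matrix

variable {S : Fin 3 → Matrix (Fin 3) (Fin 3) ℂ}

theorem herm_dot (h : IsSpinOne S) (α : Fin 3) (a b : Fin 3 → ℂ) :
    star (S α *ᵥ a) ⬝ᵥ b = star a ⬝ᵥ (S α *ᵥ b) := by
  rw [star_mulVec, h.selfAdjoint, dotProduct_mulVec]

theorem zero_relations (h : IsSpinOne S) {z : Fin 3 → ℂ} (hz : S 2 *ᵥ z = 0) :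
    S 0 *ᵥ (S 0 *ᵥ z) = z ∧ S 1 *ᵥ (S 1 *ᵥ z) = z ∧ S 0 *ᵥ (S 1 *ᵥ z) = 0 ∧
      S 1 *ᵥ (S 0 *ᵥ z) = 0 := by
  have hz0 : S 2 *ᵥ z = (0 : ℂ) • z := by rw [hz, zero_smul]
  have hP : (S 0 + Complex.I • S 1) *ᵥ ((S 0 + Complex.I • S 1) *ᵥ z) = 0 := by
    by_contra hne
    have h1 := up_eig h (up_eig h hz0)
    obtain ⟨x, hx, -, hx1⟩ := eig_range h hne h1
    have : (((0 : ℝ) + 1 + 1 : ℝ) : ℂ) = (x : ℂ) := by
      rw [← hx]
      push_cast
      rfl
    have h2 : (0 : ℝ) + 1 + 1 = x := by exact_mod_cast this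
    linarith
  have hM : (S 0 - Complex.I • S 1) *ᵥ ((S 0 - Complex.I • S 1) *ᵥ z) = 0 := by
    by_contra hne
    have h1 := down_eig h (down_eig h hz0)
    obtain ⟨x, hx, hx0, -⟩ := eig_range h hne h1
    have : (((0 : ℝ) - 1 - 1 : ℝ) : ℂ) = (x : ℂ) := by
      rw [← hx]
      push_cast
      rfl
    have h2 : (0 : ℝ) - 1 - 1 = x := by exact_mod_cast this
    linarith
  set a := S 0 *ᵥ (S 0 *ᵥ z) with ha
  set b := S 1 *ᵥ (S 1 *ᵥ z) with hb
  set c := S 0 *ᵥ (S 1 *ᵥ z) with hc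
  set d := S 1 *ᵥ (S 0 *ᵥ z) with hd
  have e1 : a - b + Complex.I • (c + d) = 0 := by
    rw [← hP]
    simp only [add_mulVec, mulVec_add, smul_mulVec, mulVec_smul, smul_add, smul_smul,
      Complex.I_mul_I, neg_smul, one_smul]
    rw [← ha, ← hb, ← hc, ← hd]
    abel
  have e2 : a - b - Complex.I • (c + d) = 0 := by
    rw [← hM]
    simp only [sub_mulVec, mulVec_sub, smul_mulVec, mulVec_smul, smul_sub, smul_add, smul_smul,
      Complex.I_mul_I, neg_smul, one_smul]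
    rw [← ha, ← hb, ← hc, ← hd]
    abel
  have e3 : c - d = 0 := by
    have h1 := congrArg (fun A => A *ᵥ z) h.comm_xy
    simp only [sub_mulVec, smul_mulVec, hz, smul_zero, ← mulVec_mulVec] at h1
    exact h1
  have e4 : a + b = (2 : ℂ) • z := by
    have h1 := congrArg (fun A => A *ᵥ z) h.casimir
    simp only [add_mulVec, smul_mulVec, one_mulVec, ← mulVec_mulVec, hz, mulVec_zero,
      add_zero] at h1
    exact h1
  have e5 : (2 : ℂ) • (a - b) = 0 := by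
    have : (2 : ℂ) • (a - b) = (a - b + Complex.I • (c + d)) + (a - b - Complex.I • (c + d)) := by
      rw [two_smul]; abel
    rw [this, e1, e2, add_zero]
  have e6 : a = b := by
    have := (smul_eq_zero.mp e5).resolve_left two_ne_zero
    exact sub_eq_zero.mp this
  have e7 : c = d := sub_eq_zero.mp e3
  have e8 : Complex.I • ((2 : ℂ) • c) = 0 := by
    have h1 : a - b = 0 := sub_eq_zero.mpr e6
    rw [h1, zero_add, ← e7, ← two_smul ℂ] at e1
    exact e1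
  have e9 : c = 0 :=
    (smul_eq_zero.mp ((smul_eq_zero.mp e8).resolve_left Complex.I_ne_zero)).resolve_left
      two_ne_zero
  have e10 : a = z := by
    rw [← e6, ← two_smul ℂ a] at e4
    exact smul_right_injective _ (two_ne_zero (α := ℂ)) e4
  exact ⟨e10, e6 ▸ e10, e9, e7 ▸ e9⟩

/-- the spin-one matrices are unique up to a unitary matrix -/
theorem exists_unitary (h : IsSpinOne S) : ∃ U : Matrix (Fin 3) (Fin 3) ℂ,
    Uᴴ * U = 1 ∧ U * Uᴴ = 1 ∧ ∀ α, S α = U * cart α * Uᴴ := by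
  obtain ⟨w, hw0, hw⟩ := exists_zero h
  obtain ⟨r, hr0, hr, hr1⟩ := dot_self_re w
  have hrpos : 0 < r := lt_of_le_of_ne hr0 fun h0 => hw0 (hr1 h0.symm)
  set z : Fin 3 → ℂ := ((√r)⁻¹ : ℂ) • w with hzdef
  have hz : S 2 *ᵥ z = 0 := by rw [hzdef, mulVec_smul, hw, smul_zero]
  have hzn : star z ⬝ᵥ z = 1 := by
    rw [hzdef, star_smul, smul_dotProduct, dotProduct_smul, hr]
    have h1 : (√r : ℝ) * √r = r := Real.mul_self_sqrt hr0
    have h2 : (√r : ℝ) ≠ 0 := (Real.sqrt_pos.mpr hrpos).ne'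
    have h3 : star (((√r : ℝ) : ℂ)⁻¹) = ((√r : ℝ) : ℂ)⁻¹ := by
      rw [star_inv₀]
      simp
    rw [h3, smul_eq_mul, smul_eq_mul]
    have h4 : ((√r : ℝ) : ℂ) * ((√r : ℝ) : ℂ) = (r : ℂ) := by exact_mod_cast h1
    rw [← h4]
    have h5 : ((√r : ℝ) : ℂ) ≠ 0 := by exact_mod_cast h2
    field_simp
  obtain ⟨r00, r11, r01, r10⟩ := zero_relations h hz
  set x : Fin 3 → ℂ := (-Complex.I) • (S 1 *ᵥ z) with hx
  set y : Fin 3 → ℂ := Complex.I • (S 0 *ᵥ z) with hy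
  -- action
  have a0x : S 0 *ᵥ x = 0 := by rw [hx, mulVec_smul, r01, smul_zero]
  have a0y : S 0 *ᵥ y = Complex.I • z := by rw [hy, mulVec_smul, r00]
  have a0z : S 0 *ᵥ z = (-Complex.I) • y := by
    rw [hy, smul_smul, neg_mul, Complex.I_mul_I, neg_neg, one_smul]
  have a1x : S 1 *ᵥ x = (-Complex.I) • z := by rw [hx, mulVec_smul, r11]
  have a1y : S 1 *ᵥ y = 0 := by rw [hy, mulVec_smul, r10, smul_zero]
  have a1z : S 1 *ᵥ z = Complex.I • x := by
    rw [hx, smul_smul, mul_neg, Complex.I_mul_I, neg_neg, one_smul]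
  have a2x : S 2 *ᵥ x = Complex.I • y := by
    have h1 := congrArg (fun A => A *ᵥ z) h.comm_yz
    simp only [sub_mulVec, smul_mulVec, ← mulVec_mulVec, hz, mulVec_zero, zero_sub] at h1
    have h2 : S 2 *ᵥ (S 1 *ᵥ z) = -(Complex.I • (S 0 *ᵥ z)) := by rw [← h1, neg_neg]
    rw [hx, mulVec_smul, h2, hy, smul_neg, neg_smul, neg_neg]
  have a2y : S 2 *ᵥ y = (-Complex.I) • x := by
    have h1 := congrArg (fun A => A *ᵥ z) h.comm_zx
    simp only [sub_mulVec, smul_mulVec, ← mulVec_mulVec, hz, mulVec_zero, sub_zero] at h1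
    rw [hy, mulVec_smul, h1, hx, smul_smul, smul_smul, neg_mul_neg]
  have a2z : S 2 *ᵥ z = 0 := hz
  -- orthonormality
  have o1 : star z ⬝ᵥ (S 1 *ᵥ z) = 0 := by
    have h1 : Complex.I • (S 1 *ᵥ z) = S 2 *ᵥ (S 0 *ᵥ z) := by
      have h1 := congrArg (fun A => A *ᵥ z) h.comm_zx
      simp only [sub_mulVec, smul_mulVec, ← mulVec_mulVec, hz, mulVec_zero, sub_zero] at h1
      exact h1.symm
    have h2 : star z ⬝ᵥ (Complex.I • (S 1 *ᵥ z)) = 0 := by
      rw [h1, ← herm_dot h, hz, star_zero, zero_dotProduct]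
    rw [dotProduct_smul, smul_eq_mul] at h2
    exact (mul_eq_zero.mp h2).resolve_left Complex.I_ne_zero
  have o0 : star z ⬝ᵥ (S 0 *ᵥ z) = 0 := by
    have h1 : -(Complex.I • (S 0 *ᵥ z)) = S 2 *ᵥ (S 1 *ᵥ z) := by
      have h1 := congrArg (fun A => A *ᵥ z) h.comm_yz
      simp only [sub_mulVec, smul_mulVec, ← mulVec_mulVec, hz, mulVec_zero, zero_sub] at h1
      rw [← h1, neg_neg]
    have h2 : star z ⬝ᵥ (-(Complex.I • (S 0 *ᵥ z))) = 0 := by
      rw [h1, ← herm_dot h, hz, star_zero, zero_dotProduct]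
    rw [dotProduct_neg, dotProduct_smul, smul_eq_mul, neg_eq_zero] at h2
    exact (mul_eq_zero.mp h2).resolve_left Complex.I_ne_zero
  have nzx : star z ⬝ᵥ x = 0 := by rw [hx, dotProduct_smul, o1, smul_zero]
  have nzy : star z ⬝ᵥ y = 0 := by rw [hy, dotProduct_smul, o0, smul_zero]
  have nxz : star x ⬝ᵥ z = 0 := by
    rw [hx, star_smul, smul_dotProduct, herm_dot h, o1, smul_zero]
  have nyz : star y ⬝ᵥ z = 0 := by
    rw [hy, star_smul, smul_dotProduct, herm_dot h, o0, smul_zero]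
  have nxx : star x ⬝ᵥ x = 1 := by
    conv_lhs => arg 1; rw [hx]
    rw [star_smul, smul_dotProduct, herm_dot h, a1x, dotProduct_smul, hzn]
    simp
  have nyy : star y ⬝ᵥ y = 1 := by
    conv_lhs => arg 1; rw [hy]
    rw [star_smul, smul_dotProduct, herm_dot h, a0y, dotProduct_smul, hzn]
    simp
  have nxy : star x ⬝ᵥ y = 0 := by
    conv_lhs => arg 1; rw [hx]
    rw [star_smul, smul_dotProduct, herm_dot h, a1y, dotProduct_zero, smul_zero]
  have nyx : star y ⬝ᵥ x = 0 := by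
    conv_lhs => arg 1; rw [hy]
    rw [star_smul, smul_dotProduct, herm_dot h, a0x, dotProduct_zero, smul_zero]
  -- the matrix
  set U : Matrix (Fin 3) (Fin 3) ℂ := fun i j => (![x, y, z] : Fin 3 → Fin 3 → ℂ) j i with hU
  have hUU : Uᴴ * U = 1 := by
    have hg : ∀ j k : Fin 3, (Uᴴ * U) j k =
        star ((![x, y, z] : Fin 3 → Fin 3 → ℂ) j) ⬝ᵥ ((![x, y, z] : Fin 3 → Fin 3 → ℂ) k) := by
      intro j k
      rfl
    ext j k
    rw [hg]
    fin_cases j <;> fin_cases k <;>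
      simp [nxx, nyy, nxy, nyx, nzx, nzy, nxz, nyz, hzn]
  have hUU' : U * Uᴴ = 1 := mul_eq_one_comm.mp hUU
  refine ⟨U, hUU, hUU', fun α => ?_⟩
  have hcol : S α * U = U * cart α := by
    ext i j
    have h1 : (S α * U) i j = (S α *ᵥ ((![x, y, z] : Fin 3 → Fin 3 → ℂ) j)) i := rfl
    rw [h1, Matrix.mul_apply, Fin.sum_univ_three]
    fin_cases α <;> fin_cases j <;>
      simp [hU, cart, a0x, a0y, a0z, a1x, a1y, a1z, a2x, a2y, a2z, mul_comm]
  rw [← hcol, Matrix.mul_assoc, hUU', Matrix.mul_one]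

end P348.Problem
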