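import Vale.Agent.Lib.P348.Defs

/-!
P348, variational upper bound, part A: expectation values of product operators in a sequentially
generated ensemble of real vectors (matrix product vectors with unital transfer map).
-/

namespace P348

open Matrix

section

variable {n ρ : Type} [Fintype n] [DecidableEq n] [Fintype ρ]

/-- transfer map of a family of matrices with an operator on the site -/
def tmap (M : ρ → Fin 3 → Matrix n n ℝ) (O : Matrix (Fin 3) (Fin 3) ℝ) (Y : Matrix n n ℝ) :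
    Matrix n n ℝ :=
  ∑ r, ∑ s, ∑ t, O s t • (M r s * Y * (M r t)ᵀ)

/-- words -/
def wd (M : ρ → Fin 3 → Matrix n n ℝ) :
    (m : ℕ) → (Fin m → ρ) → (Fin m → Fin 3) → Matrix n n ℝ
  | 0, _, _ => 1
  | m + 1, r, s => M (r 0) (s 0) * wd M m (fun i => r i.succ) (fun i => s i.succ)

/-- iterated transfer maps -/
def titer (M : ρ → Fin 3 → Matrix n n ℝ) :
    (m : ℕ) → (Fin m → Matrix (Fin 3) (Fin 3) ℝ) → Matrix n n ℝ
  | 0, _ => 1
  | m + 1, O => tmap M (O 0) (titer M m (fun i => O i.succ))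

omit [DecidableEq n] in
theorem tmap_add (M : ρ → Fin 3 → Matrix n n ℝ) (O : Matrix (Fin 3) (Fin 3) ℝ)
    (Y Z : Matrix n n ℝ) : tmap M O (Y + Z) = tmap M O Y + tmap M O Z := by
  simp only [tmap, mul_add, add_mul, smul_add, Finset.sum_add_distrib]

omit [DecidableEq n] in
theorem tmap_smul (M : ρ → Fin 3 → Matrix n n ℝ) (O : Matrix (Fin 3) (Fin 3) ℝ)
    (c : ℝ) (Y : Matrix n n ℝ) : tmap M O (c • Y) = c • tmap M O Y := by
  simp only [tmap, Matrix.mul_smul, Matrix.smul_mul, Finset.smul_sum, smul_comm c]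

omit [DecidableEq n] in
theorem tmap_neg (M : ρ → Fin 3 → Matrix n n ℝ) (O : Matrix (Fin 3) (Fin 3) ℝ)
    (Y : Matrix n n ℝ) : tmap M O (-Y) = -tmap M O Y := by
  have := tmap_smul M O (-1) Y
  simpa using this

omit [DecidableEq n] in
theorem tmap_sub (M : ρ → Fin 3 → Matrix n n ℝ) (O : Matrix (Fin 3) (Fin 3) ℝ)
    (Y Z : Matrix n n ℝ) : tmap M O (Y - Z) = tmap M O Y - tmap M O Z := by
  rw [sub_eq_add_neg, tmap_add, tmap_neg, ← sub_eq_add_neg]

omit [DecidableEq n] in
theorem tmap_sum {ι : Type} (M : ρ → Fin 3 → Matrix n n ℝ) (O : Matrix (Fin 3) (Fin 3) ℝ)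
    (S : Finset ι) (Y : ι → Matrix n n ℝ) :
    tmap M O (∑ i ∈ S, Y i) = ∑ i ∈ S, tmap M O (Y i) := by
  classical
  induction S using Finset.induction_on with
  | empty =>
    have := tmap_smul M O 0 0
    simpa using this
  | insert a S ha ih => rw [Finset.sum_insert ha, Finset.sum_insert ha, tmap_add, ih]

/-- sums over functions on `Fin (m+1)` -/
theorem sum_cons {α β : Type} [Fintype α] [AddCommMonoid β] (m : ℕ)
    (F : (Fin (m + 1) → α) → β) :
    ∑ f, F f = ∑ a : α, ∑ g : Fin m → α, F (Fin.cons a g) := by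
  rw [← (Fin.consEquiv fun _ => α).sum_comp F, Fintype.sum_prod_type]
  rfl

theorem wd_sum (M : ρ → Fin 3 → Matrix n n ℝ) (m : ℕ)
    (O : Fin m → Matrix (Fin 3) (Fin 3) ℝ) :
    ∑ r : Fin m → ρ, ∑ s : Fin m → Fin 3, ∑ t : Fin m → Fin 3,
      (∏ i, O i (s i) (t i)) • (wd M m r s * (wd M m r t)ᵀ) = titer M m O := by
  induction m with
  | zero => simp [wd, titer]
  | succ m ih =>
    have ih' := ih (fun i => O i.succ)
    rw [titer, ← ih', tmap, sum_cons]
    refine Finset.sum_congr rfl fun a _ => ?_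
    have h1 : ∀ r : Fin m → ρ, ∑ s : Fin (m + 1) → Fin 3, ∑ t : Fin (m + 1) → Fin 3,
        (∏ i, O i (s i) (t i)) • (wd M (m + 1) (Fin.cons a r : Fin (m + 1) → ρ) s *
          (wd M (m + 1) (Fin.cons a r : Fin (m + 1) → ρ) t)ᵀ) =
        ∑ b : Fin 3, ∑ c : Fin 3, O 0 b c • (M a b *
          (∑ s : Fin m → Fin 3, ∑ t : Fin m → Fin 3,
            (∏ i : Fin m, O i.succ (s i) (t i)) • (wd M m r s * (wd M m r t)ᵀ)) * (M a c)ᵀ) := by
      intro r
      rw [sum_cons]
      refine Finset.sum_congr rfl fun b _ => ?_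
      have h2 : ∀ s : Fin m → Fin 3, ∑ t : Fin (m + 1) → Fin 3,
          (∏ i, O i ((Fin.cons b s : Fin (m + 1) → Fin 3) i) (t i)) •
            (wd M (m + 1) (Fin.cons a r : Fin (m + 1) → ρ) (Fin.cons b s : Fin (m + 1) → Fin 3) *
            (wd M (m + 1) (Fin.cons a r : Fin (m + 1) → ρ) t)ᵀ) =
          ∑ c : Fin 3, ∑ t : Fin m → Fin 3, O 0 b c • (M a b *
            ((∏ i : Fin m, O i.succ (s i) (t i)) • (wd M m r s * (wd M m r t)ᵀ)) *
              (M a c)ᵀ) := by
        intro s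
        rw [sum_cons]
        refine Finset.sum_congr rfl fun c _ => Finset.sum_congr rfl fun t _ => ?_
        rw [Fin.prod_univ_succ]
        simp only [wd, Fin.cons_zero, Fin.cons_succ, transpose_mul, Matrix.mul_smul,
          Matrix.smul_mul, smul_smul, Matrix.mul_assoc]
      simp only [h2]
      rw [Finset.sum_comm]
      refine Finset.sum_congr rfl fun c _ => ?_
      simp only [Finset.mul_sum, Finset.sum_mul, Finset.smul_sum]
    simp only [h1]
    rw [Finset.sum_comm]
    refine Finset.sum_congr rfl fun b _ => ?_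
    rw [Finset.sum_comm]
    refine Finset.sum_congr rfl fun c _ => ?_
    simp only [Finset.mul_sum, Finset.sum_mul, Finset.smul_sum]

/-- expectation values of product operators -/
theorem wd_quad (M : ρ → Fin 3 → Matrix n n ℝ) (m : ℕ) (b₀ : n)
    (O : Fin m → Matrix (Fin 3) (Fin 3) ℝ) :
    ∑ r : Fin m → ρ, ∑ b : n, ∑ s : Fin m → Fin 3, ∑ t : Fin m → Fin 3,
      wd M m r s b₀ b * ((∏ i, O i (s i) (t i)) * wd M m r t b₀ b) = titer M m O b₀ b₀ := by
  rw [← wd_sum]
  simp only [Matrix.sum_apply, Matrix.smul_apply, Matrix.mul_apply, Matrix.transpose_apply,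
    smul_eq_mul, Finset.mul_sum]
  refine Finset.sum_congr rfl fun r _ => ?_
  rw [Finset.sum_comm]
  refine Finset.sum_congr rfl fun s _ => ?_
  rw [Finset.sum_comm]
  refine Finset.sum_congr rfl fun t _ => Finset.sum_congr rfl fun b _ => ?_
  ring

theorem titer_one (M : ρ → Fin 3 → Matrix n n ℝ) (hM : tmap M 1 1 = 1) (m : ℕ) :
    titer M m (fun _ => 1) = 1 := by
  induction m with
  | zero => rfl
  | succ m ih => rw [titer, ih, hM]

theorem titer_bond (M : ρ → Fin 3 → Matrix n n ℝ) (hM : tmap M 1 1 = 1)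
    (L : Matrix (Fin 3) (Fin 3) ℝ) (p : ℕ) : ∀ m : ℕ, p + 1 < m →
    titer M m (fun i => if (i : ℕ) = p ∨ (i : ℕ) = p + 1 then L else 1) =
      (tmap M 1)^[p] (tmap M L (tmap M L 1)) := by
  induction p with
  | zero =>
    intro m hm
    obtain ⟨k, rfl⟩ : ∃ k, m = k + 2 := ⟨m - 2, by omega⟩
    simp only [titer, Function.iterate_zero, id]
    have h1 : (fun i : Fin k => if ((i.succ.succ : Fin (k + 2)) : ℕ) = 0 ∨
        ((i.succ.succ : Fin (k + 2)) : ℕ) = 0 + 1 then L else 1) =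
        (fun _ => (1 : Matrix (Fin 3) (Fin 3) ℝ)) := by
      funext i
      rw [if_neg]
      simp
    rw [h1, titer_one M hM]
    simp
  | succ p ih =>
    intro m hm
    obtain ⟨k, rfl⟩ : ∃ k, m = k + 1 := ⟨m - 1, by omega⟩
    rw [titer, Function.iterate_succ_apply']
    have h1 : (fun i : Fin k => if ((i.succ : Fin (k + 1)) : ℕ) = p + 1 ∨
        ((i.succ : Fin (k + 1)) : ℕ) = p + 1 + 1 then L else 1) =
        (fun i : Fin k => if (i : ℕ) = p ∨ (i : ℕ) = p + 1 then L else
          (1 : Matrix (Fin 3) (Fin 3) ℝ)) := by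
      funext i
      simp only [Fin.val_succ, Nat.add_right_cancel_iff]
    rw [h1, ih k (by omega)]
    congr 1

end

end P348
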