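import Mathlib.Algebra.BigOperators.Field
import Mathlib.Algebra.Order.Star.Real
import Mathlib.LinearAlgebra.Matrix.PosDef
import Vale.Agent.Lib.P348.M1A

/-!
P348, variational upper bound, part B: positivity of the transfer map, the telescoping energy
bound, and the passage to the ring of helper file `Defs`.
-/

namespace P348

open Matrix

section

variable {n ρ : Type} [Fintype n] [DecidableEq n] [Fintype ρ]

omit [DecidableEq n] in
/-- the transfer map as an identity channel -/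
theorem tmap_one (M : ρ → Fin 3 → Matrix n n ℝ) (Y : Matrix n n ℝ) :
    tmap M 1 Y = ∑ r, ∑ s, M r s * Y * (M r s)ᵀ := by
  simp only [tmap, Matrix.one_apply, ite_smul, one_smul, zero_smul, Finset.sum_ite_eq,
    Finset.mem_univ, if_true]

omit [DecidableEq n] in
theorem tmap_psd (M : ρ → Fin 3 → Matrix n n ℝ) {Y : Matrix n n ℝ} (hY : Y.PosSemidef) :
    (tmap M 1 Y).PosSemidef := by
  rw [tmap_one]
  refine posSemidef_sum _ fun r _ => posSemidef_sum _ fun s _ => ?_
  have := hY.mul_mul_conjTranspose_same (M r s)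
  rwa [conjTranspose_eq_transpose_of_trivial] at this

omit [DecidableEq n] in
theorem iter_psd (M : ρ → Fin 3 → Matrix n n ℝ) {Y : Matrix n n ℝ} (hY : Y.PosSemidef)
    (p : ℕ) : ((tmap M 1)^[p] Y).PosSemidef := by
  induction p with
  | zero => exact hY
  | succ p ih =>
    rw [Function.iterate_succ_apply']
    exact tmap_psd M ih

theorem iter_one (M : ρ → Fin 3 → Matrix n n ℝ) (hM : tmap M 1 1 = 1) (p : ℕ) :
    (tmap M 1)^[p] 1 = 1 := by
  induction p with
  | zero => rfl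
  | succ p ih => rw [Function.iterate_succ_apply', ih, hM]

omit [DecidableEq n] in
theorem iter_add (M : ρ → Fin 3 → Matrix n n ℝ) (O : Matrix (Fin 3) (Fin 3) ℝ) (p : ℕ) :
    ∀ Y Z : Matrix n n ℝ, (tmap M O)^[p] (Y + Z) = (tmap M O)^[p] Y + (tmap M O)^[p] Z := by
  induction p with
  | zero => intro Y Z; rfl
  | succ p ih => intro Y Z; simp only [Function.iterate_succ_apply, tmap_add, ih]

omit [DecidableEq n] in
theorem iter_smul (M : ρ → Fin 3 → Matrix n n ℝ) (O : Matrix (Fin 3) (Fin 3) ℝ) (c : ℝ)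
    (p : ℕ) : ∀ Y : Matrix n n ℝ, (tmap M O)^[p] (c • Y) = c • (tmap M O)^[p] Y := by
  induction p with
  | zero => intro Y; rfl
  | succ p ih => intro Y; simp only [Function.iterate_succ_apply, tmap_smul, ih]

omit [DecidableEq n] in
theorem iter_sub (M : ρ → Fin 3 → Matrix n n ℝ) (O : Matrix (Fin 3) (Fin 3) ℝ) (p : ℕ) :
    ∀ Y Z : Matrix n n ℝ, (tmap M O)^[p] (Y - Z) = (tmap M O)^[p] Y - (tmap M O)^[p] Z := by
  induction p with
  | zero => intro Y Z; rfl
  | succ p ih => intro Y Z; simp only [Function.iterate_succ_apply, tmap_sub, ih]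

omit [DecidableEq n] in
theorem iter_neg (M : ρ → Fin 3 → Matrix n n ℝ) (O : Matrix (Fin 3) (Fin 3) ℝ) (p : ℕ) :
    ∀ Y : Matrix n n ℝ, (tmap M O)^[p] (-Y) = -(tmap M O)^[p] Y := by
  induction p with
  | zero => intro Y; rfl
  | succ p ih => intro Y; simp only [Function.iterate_succ_apply, tmap_neg, ih]

omit [DecidableEq n] in
theorem iter_sum {ι : Type} (M : ρ → Fin 3 → Matrix n n ℝ) (O : Matrix (Fin 3) (Fin 3) ℝ)
    (S : Finset ι) (p : ℕ) : ∀ Y : ι → Matrix n n ℝ,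
    (tmap M O)^[p] (∑ i ∈ S, Y i) = ∑ i ∈ S, (tmap M O)^[p] (Y i) := by
  induction p with
  | zero => intro Y; rfl
  | succ p ih => intro Y; simp only [Function.iterate_succ_apply, tmap_sum, ih]

/-- the two-site energy operator -/
def Kop (M : ρ → Fin 3 → Matrix n n ℝ) : Matrix n n ℝ :=
  -∑ α, tmap M (Lg α) (tmap M (Lg α) 1)

/-- a multiple of the identity dominates -/
theorem psd_dom (X : Matrix n n ℝ) (hX : Xᵀ = X) (σ : ℝ) (hσ : |σ| = 1) :
    ((∑ i, ∑ j, |X i j|) • (1 : Matrix n n ℝ) + σ • X).PosSemidef := by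
  refine PosSemidef.of_dotProduct_mulVec_nonneg ?_ fun x => ?_
  · rw [IsHermitian, conjTranspose_eq_transpose_of_trivial, transpose_add, transpose_smul,
      transpose_smul, transpose_one, hX]
  · have h1 : star x ⬝ᵥ (((∑ i, ∑ j, |X i j|) • (1 : Matrix n n ℝ) + σ • X) *ᵥ x) =
        (∑ i, ∑ j, |X i j|) * (x ⬝ᵥ x) + σ * ∑ i, ∑ j, x i * (X i j * x j) := by
      rw [add_mulVec, dotProduct_add, smul_mulVec, smul_mulVec, one_mulVec, dotProduct_smul,
        dotProduct_smul, smul_eq_mul, smul_eq_mul]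
      simp only [star_trivial, dotProduct, mulVec, Finset.mul_sum]
    rw [h1]
    have h2 : ∀ i, x i ^ 2 ≤ x ⬝ᵥ x := by
      intro i
      rw [dotProduct]
      have := Finset.single_le_sum (f := fun k => x k * x k) (fun k _ => mul_self_nonneg (x k))
        (Finset.mem_univ i)
      rw [pow_two]
      exact this
    have h3 : ∀ i j, |x i * (X i j * x j)| ≤ |X i j| * (x ⬝ᵥ x) := by
      intro i j
      have e : |x i * (X i j * x j)| = |X i j| * (|x i| * |x j|) := by
        rw [abs_mul, abs_mul]; ring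
      rw [e]
      refine mul_le_mul_of_nonneg_left ?_ (abs_nonneg _)
      have h4 := h2 i
      have h5 := h2 j
      have h6 : 0 ≤ (|x i| - |x j|) ^ 2 := sq_nonneg _
      have h7 : |x i| ^ 2 = x i ^ 2 := sq_abs _
      have h8 : |x j| ^ 2 = x j ^ 2 := sq_abs _
      nlinarith
    have h9 : |∑ i, ∑ j, x i * (X i j * x j)| ≤ (∑ i, ∑ j, |X i j|) * (x ⬝ᵥ x) := by
      rw [Finset.sum_mul]
      refine (Finset.abs_sum_le_sum_abs _ _).trans (Finset.sum_le_sum fun i _ => ?_)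
      rw [Finset.sum_mul]
      exact (Finset.abs_sum_le_sum_abs _ _).trans (Finset.sum_le_sum fun j _ => h3 i j)
    have h10 : |σ * ∑ i, ∑ j, x i * (X i j * x j)| ≤ (∑ i, ∑ j, |X i j|) * (x ⬝ᵥ x) := by
      rw [abs_mul, hσ, one_mul]
      exact h9
    have := neg_abs_le (σ * ∑ i, ∑ j, x i * (X i j * x j))
    linarith

/-- energies of the bonds telescope -/
theorem bond_le (M : ρ → Fin 3 → Matrix n n ℝ) (hM : tmap M 1 1 = 1) {X : Matrix n n ℝ}
    {e : ℝ} (hS : (e • (1 : Matrix n n ℝ) + X - tmap M 1 X - Kop M).PosSemidef) (b₀ : n)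
    (p : ℕ) : ((tmap M 1)^[p] (Kop M)) b₀ b₀ ≤
      e + ((tmap M 1)^[p] X) b₀ b₀ - ((tmap M 1)^[p + 1] X) b₀ b₀ := by
  have h1 := (iter_psd M hS p).diag_nonneg (i := b₀)
  rw [iter_sub, iter_sub, iter_add, iter_smul, iter_one M hM] at h1
  rw [Function.iterate_succ_apply]
  simp only [Matrix.sub_apply, Matrix.add_apply, Matrix.smul_apply, Matrix.one_apply_eq,
    smul_eq_mul, mul_one] at h1
  linarith

theorem corr_le (M : ρ → Fin 3 → Matrix n n ℝ) (hM : tmap M 1 1 = 1) {X : Matrix n n ℝ}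
    (hX : Xᵀ = X) (b₀ : n) (p : ℕ) :
    |((tmap M 1)^[p] X) b₀ b₀| ≤ ∑ i, ∑ j, |X i j| := by
  have h1 := (iter_psd M (psd_dom X hX 1 (by simp)) p).diag_nonneg (i := b₀)
  have h2 := (iter_psd M (psd_dom X hX (-1) (by simp)) p).diag_nonneg (i := b₀)
  rw [iter_add, iter_smul, iter_one M hM, iter_smul] at h1 h2
  simp only [Matrix.add_apply, Matrix.smul_apply, Matrix.one_apply_eq,
    smul_eq_mul, mul_one] at h1 h2
  rw [abs_le]
  constructor <;> linarith

end

/-! ### the ring -/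

/-- position of a site -/
def pos (N : ℕ) : Site N ≃ Fin (N * 2) :=
  (Equiv.prodCongr (Equiv.refl (Fin N)) finTwoEquiv.symm).trans finProdFinEquiv

theorem pos_val (N : ℕ) (i : Fin N) (b : Bool) :
    ((pos N (i, b) : Fin (N * 2)) : ℕ) = 2 * i + (if b then 1 else 0) := by
  cases b <;> simp [pos, finTwoEquiv, add_comm]

/-- quadratic form -/
def qf {ι : Type} [Fintype ι] (v : ι → ℝ) (A : Matrix ι ι ℝ) : ℝ := v ⬝ᵥ (A *ᵥ v)

theorem qf_neg {ι : Type} [Fintype ι] (v : ι → ℝ) (A : Matrix ι ι ℝ) : qf v (-A) = -qf v A := by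
  simp [qf, neg_mulVec]

theorem qf_add {ι : Type} [Fintype ι] (v : ι → ℝ) (A B : Matrix ι ι ℝ) :
    qf v (A + B) = qf v A + qf v B := by
  simp [qf, add_mulVec]

theorem qf_sum {ι κ : Type} [Fintype ι] (v : ι → ℝ) (S : Finset κ) (A : κ → Matrix ι ι ℝ) :
    qf v (∑ k ∈ S, A k) = ∑ k ∈ S, qf v (A k) := by
  classical
  induction S using Finset.induction_on with
  | empty => simp [qf]
  | insert a S ha ih => rw [Finset.sum_insert ha, Finset.sum_insert ha, qf_add, ih]

theorem qf_eq {ι : Type} [Fintype ι] (v : ι → ℝ) (A : Matrix ι ι ℝ) :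
    qf v A = ∑ s, ∑ t, v s * (A s t * v t) := by
  simp only [qf, dotProduct, mulVec, Finset.mul_sum]

/-- product operators along an equivalence of sites -/
theorem qf_tens {ι κ : Type} [Fintype ι] [Fintype κ] [DecidableEq ι] [DecidableEq κ]
    (f : ι ≃ κ) (O : ι → Matrix (Fin 3) (Fin 3) ℝ) (v : (κ → Fin 3) → ℝ) :
    qf (fun s : ι → Fin 3 => v (fun k => s (f.symm k))) (tens O) =
      ∑ s : κ → Fin 3, ∑ t : κ → Fin 3,
        v s * ((∏ k, O (f.symm k) (s k) (t k)) * v t) := by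
  rw [qf_eq]
  rw [← (Equiv.arrowCongr f.symm (Equiv.refl (Fin 3))).sum_comp]
  refine Finset.sum_congr rfl fun s _ => ?_
  rw [← (Equiv.arrowCongr f.symm (Equiv.refl (Fin 3))).sum_comp]
  refine Finset.sum_congr rfl fun t _ => ?_
  have h1 : ∀ u : κ → Fin 3,
      (fun k => (Equiv.arrowCongr f.symm (Equiv.refl (Fin 3))) u (f.symm k)) = u := by
    intro u
    funext k
    simp [Equiv.arrowCongr]
  rw [h1, h1]
  congr 2
  rw [tens, ← f.symm.prod_comp]
  refine Finset.prod_congr rfl fun k _ => ?_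
  simp [Equiv.arrowCongr]

/-- contraction bound -/
theorem qf_tens_le {ι : Type} [Fintype ι] [DecidableEq ι]
    (O : ι → Matrix (Fin 3) (Fin 3) ℝ) (hr : ∀ i b, ∑ c, |O i b c| ≤ 1)
    (hc : ∀ i c, ∑ b, |O i b c| ≤ 1) (v : (ι → Fin 3) → ℝ) :
    |qf v (tens O)| ≤ v ⬝ᵥ v := by
  have hrow : ∀ s : ι → Fin 3, ∑ t, |tens O s t| ≤ 1 := by
    intro s
    have h1 : ∑ t : ι → Fin 3, |tens O s t| = ∏ i, ∑ c, |O i (s i) c| := by
      rw [Finset.prod_univ_sum]
      simp only [tens, Finset.abs_prod, Fintype.piFinset_univ]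
    rw [h1]
    exact Finset.prod_le_one (fun i _ => Finset.sum_nonneg fun c _ => abs_nonneg _)
      fun i _ => hr i (s i)
  have hcol : ∀ t : ι → Fin 3, ∑ s, |tens O s t| ≤ 1 := by
    intro t
    have h1 : ∑ s : ι → Fin 3, |tens O s t| = ∏ i, ∑ b, |O i b (t i)| := by
      rw [Finset.prod_univ_sum]
      simp only [tens, Finset.abs_prod, Fintype.piFinset_univ]
    rw [h1]
    exact Finset.prod_le_one (fun i _ => Finset.sum_nonneg fun c _ => abs_nonneg _)
      fun i _ => hc i (t i)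
  rw [qf_eq]
  have h2 : ∀ s t : ι → Fin 3, |v s * (tens O s t * v t)| ≤
      (|tens O s t| * (v s * v s)) / 2 + (|tens O s t| * (v t * v t)) / 2 := by
    intro s t
    have e : |v s * (tens O s t * v t)| = |tens O s t| * (|v s| * |v t|) := by
      rw [abs_mul, abs_mul]; ring
    rw [e]
    have h3 : |v s| * |v t| ≤ (v s * v s) / 2 + (v t * v t) / 2 := by
      have h6 : 0 ≤ (|v s| - |v t|) ^ 2 := sq_nonneg _
      have h7 : |v s| ^ 2 = v s ^ 2 := sq_abs _
      have h8 : |v t| ^ 2 = v t ^ 2 := sq_abs _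
      nlinarith
    have := mul_le_mul_of_nonneg_left h3 (abs_nonneg (tens O s t))
    linarith
  refine (Finset.abs_sum_le_sum_abs _ _).trans ?_
  have h4 : ∑ s : ι → Fin 3, |∑ t : ι → Fin 3, v s * (tens O s t * v t)| ≤
      ∑ s : ι → Fin 3, ∑ t : ι → Fin 3,
        ((|tens O s t| * (v s * v s)) / 2 + (|tens O s t| * (v t * v t)) / 2) :=
    Finset.sum_le_sum fun s _ => (Finset.abs_sum_le_sum_abs _ _).trans
      (Finset.sum_le_sum fun t _ => h2 s t)
  refine h4.trans ?_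
  simp only [Finset.sum_add_distrib]
  have h5 : ∑ s : ι → Fin 3, ∑ t : ι → Fin 3, (|tens O s t| * (v s * v s)) / 2 ≤
      (v ⬝ᵥ v) / 2 := by
    rw [dotProduct, Finset.sum_div]
    refine Finset.sum_le_sum fun s _ => ?_
    rw [← Finset.sum_div, ← Finset.sum_mul]
    have := mul_le_mul_of_nonneg_right (hrow s) (mul_self_nonneg (v s))
    linarith
  have h6 : ∑ s : ι → Fin 3, ∑ t : ι → Fin 3, (|tens O s t| * (v t * v t)) / 2 ≤
      (v ⬝ᵥ v) / 2 := by
    rw [Finset.sum_comm, dotProduct, Finset.sum_div]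
    refine Finset.sum_le_sum fun t _ => ?_
    rw [← Finset.sum_div, ← Finset.sum_mul]
    have := mul_le_mul_of_nonneg_right (hcol t) (mul_self_nonneg (v t))
    linarith
  linarith

theorem Lg_apply (α b c : Fin 3) :
    Lg α b c = ![!![0, 0, 0; 0, 0, 1; 0, -1, 0], !![0, 0, -1; 0, 0, 0; 1, 0, 0],
      !![0, 1, 0; -1, 0, 0; 0, 0, 0]] α b c := by
  fin_cases α <;> fin_cases b <;> fin_cases c <;> norm_num [Lg, eps]

theorem Lg_row (α b : Fin 3) : ∑ c, |Lg α b c| ≤ 1 := by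
  simp only [Lg_apply, Fin.sum_univ_three]
  fin_cases α <;> fin_cases b <;> simp

theorem Lg_col (α c : Fin 3) : ∑ b, |Lg α b c| ≤ 1 := by
  simp only [Lg_apply, Fin.sum_univ_three]
  fin_cases α <;> fin_cases c <;> simp

theorem one_row (b : Fin 3) : ∑ c, |(1 : Matrix (Fin 3) (Fin 3) ℝ) b c| ≤ 1 := by
  rw [Fin.sum_univ_three]
  fin_cases b <;> simp [Matrix.one_apply]

theorem one_col (c : Fin 3) : ∑ b, |(1 : Matrix (Fin 3) (Fin 3) ℝ) b c| ≤ 1 := by
  rw [Fin.sum_univ_three]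
  fin_cases c <;> simp [Matrix.one_apply]

end P348
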