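import Mathlib.Tactic.Positivity
import Vale.Agent.Lib.P348.M1B

/-!
P348, variational upper bound, part C: the abstract theorem for the ring.
-/

namespace P348

open Matrix

theorem tens_id {ι : Type} [Fintype ι] [DecidableEq ι] :
    tens (fun _ : ι => (1 : Matrix (Fin 3) (Fin 3) ℝ)) = 1 := by
  ext s t
  rw [tens, Matrix.one_apply]
  split_ifs with h
  · subst h
    simp
  · obtain ⟨i, hi⟩ : ∃ i, s i ≠ t i := by
      by_contra hcon
      push Not at hcon
      exact h (funext hcon)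
    exact Finset.prod_eq_zero (Finset.mem_univ i) (by rw [Matrix.one_apply_ne hi])

theorem exists_vec {κ ι : Type} [Fintype κ] [Fintype ι] (v : κ → ι → ℝ) (A : Matrix ι ι ℝ)
    {c : ℝ} (h1 : ∑ k, v k ⬝ᵥ v k = 1) (h2 : ∑ k, qf (v k) A ≤ c) :
    ∃ k, v k ≠ 0 ∧ qf (v k) A ≤ c * (v k ⬝ᵥ v k) := by
  by_contra hcon
  push Not at hcon
  have hle : ∀ k, c * (v k ⬝ᵥ v k) ≤ qf (v k) A := by
    intro k
    by_cases hk : v k = 0
    · simp [hk, qf]
    · exact (hcon k hk).le
  obtain ⟨k, hk⟩ : ∃ k, v k ≠ 0 := by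
    by_contra hk
    push Not at hk
    simp [hk] at h1
  have h3 : ∑ k, c * (v k ⬝ᵥ v k) < ∑ k, qf (v k) A :=
    Finset.sum_lt_sum (fun k _ => hle k) ⟨k, Finset.mem_univ k, hcon k hk⟩
  rw [← Finset.mul_sum, h1] at h3
  linarith

section

variable {n ρ : Type} [Fintype n] [DecidableEq n] [Fintype ρ]

/-- the ensemble -/
def ens (M : ρ → Fin 3 → Matrix n n ℝ) (b₀ : n) (N : ℕ) (k : (Fin (N * 2) → ρ) × n) :
    Cfg N → ℝ := fun s => wd M (N * 2) k.1 (fun p => s ((pos N).symm p)) b₀ k.2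

theorem ens_tens (M : ρ → Fin 3 → Matrix n n ℝ) (b₀ : n) (N : ℕ)
    (O : Site N → Matrix (Fin 3) (Fin 3) ℝ) :
    ∑ k, qf (ens M b₀ N k) (tens O) =
      titer M (N * 2) (fun p => O ((pos N).symm p)) b₀ b₀ := by
  rw [← wd_quad, Fintype.sum_prod_type]
  refine Finset.sum_congr rfl fun r _ => Finset.sum_congr rfl fun b _ => ?_
  exact qf_tens (pos N) O (fun s => wd M (N * 2) r s b₀ b)

theorem ens_norm (M : ρ → Fin 3 → Matrix n n ℝ) (hM : tmap M 1 1 = 1) (b₀ : n) (N : ℕ) :
    ∑ k, ens M b₀ N k ⬝ᵥ ens M b₀ N k = 1 := by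
  have h := ens_tens M b₀ N (fun _ => 1)
  rw [titer_one M hM, tens_id, Matrix.one_apply_eq] at h
  simpa [qf] using h

theorem ens_even (M : ρ → Fin 3 → Matrix n n ℝ) (hM : tmap M 1 1 = 1) (b₀ : n) (N : ℕ)
    (i : Fin N) (α : Fin 3) :
    ∑ k, qf (ens M b₀ N k) (tens (fun s : Site N => if s.1 = i then Lg α else 1)) =
      ((tmap M 1)^[2 * (i : ℕ)] (tmap M (Lg α) (tmap M (Lg α) 1))) b₀ b₀ := by
  rw [ens_tens, ← titer_bond M hM (Lg α) (2 * (i : ℕ)) (N * 2) (by have := i.2; omega)]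
  congr 2
  funext p
  obtain ⟨⟨j, b⟩, rfl⟩ := (pos N).surjective p
  rw [Equiv.symm_apply_apply, pos_val]
  congr 1
  rw [Fin.ext_iff]
  cases b <;> simp <;> omega

theorem ens_odd (M : ρ → Fin 3 → Matrix n n ℝ) (hM : tmap M 1 1 = 1) (b₀ : n) (N : ℕ)
    [NeZero N] (i : Fin N) (hi : (i : ℕ) + 1 < N) (α : Fin 3) :
    ∑ k, qf (ens M b₀ N k) (tens (fun s : Site N =>
      if s = (i, true) then Lg α
      else if s = (i + 1, false) then
        (if i + 1 = 0 then (1 : Matrix (Fin 3) (Fin 3) ℝ) * Lg α * (1 : Matrix (Fin 3) (Fin 3) ℝ)ᵀ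
          else Lg α)
      else 1)) =
      ((tmap M 1)^[2 * (i : ℕ) + 1] (tmap M (Lg α) (tmap M (Lg α) 1))) b₀ b₀ := by
  rw [ens_tens, ← titer_bond M hM (Lg α) (2 * (i : ℕ) + 1) (N * 2) (by omega)]
  congr 2
  funext p
  obtain ⟨⟨j, b⟩, rfl⟩ := (pos N).surjective p
  rw [Equiv.symm_apply_apply, pos_val]
  have h1 : ((i + 1 : Fin N) : ℕ) = (i : ℕ) + 1 := by
    rw [Fin.val_add, Fin.val_one', Nat.add_mod_mod, Nat.mod_eq_of_lt hi]
  simp only [Matrix.one_mul, transpose_one, Matrix.mul_one, ite_self, Prod.mk.injEq,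
    Fin.ext_iff, h1]
  cases b
  · simp only [Bool.false_eq_true, and_false, if_false, and_true, add_zero]
    congr 1
    exact propext ⟨fun h => by omega, fun h => by omega⟩
  · simp only [and_true, Bool.true_eq_false, and_false, if_false, if_true]
    congr 1
    exact propext ⟨fun h => by omega, fun h => by omega⟩

theorem ens_odd_le (M : ρ → Fin 3 → Matrix n n ℝ) (hM : tmap M 1 1 = 1) (b₀ : n) (N : ℕ)
    [NeZero N] (i : Fin N) (α : Fin 3) :
    -1 ≤ ∑ k, qf (ens M b₀ N k) (tens (fun s : Site N =>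
      if s = (i, true) then Lg α
      else if s = (i + 1, false) then
        (if i + 1 = 0 then (1 : Matrix (Fin 3) (Fin 3) ℝ) * Lg α * (1 : Matrix (Fin 3) (Fin 3) ℝ)ᵀ
          else Lg α)
      else 1)) := by
  rw [← ens_norm M hM b₀ N, ← Finset.sum_neg_distrib]
  refine Finset.sum_le_sum fun k _ => ?_
  refine (abs_le.mp (qf_tens_le _ (fun s b => ?_) (fun s c => ?_) _)).1
  · split_ifs
    · exact Lg_row α b
    · rw [Matrix.one_mul, transpose_one, Matrix.mul_one]
      exact Lg_row α b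
    · exact Lg_row α b
    · exact one_row b
  · split_ifs
    · exact Lg_col α c
    · rw [Matrix.one_mul, transpose_one, Matrix.mul_one]
      exact Lg_col α c
    · exact Lg_col α c
    · exact one_col c

theorem iter_Kop (M : ρ → Fin 3 → Matrix n n ℝ) (b₀ : n) (p : ℕ) :
    ((tmap M 1)^[p] (Kop M)) b₀ b₀ =
      -∑ α, ((tmap M 1)^[p] (tmap M (Lg α) (tmap M (Lg α) 1))) b₀ b₀ := by
  rw [Kop, iter_neg, iter_sum, Matrix.neg_apply, Matrix.sum_apply]

/-- the abstract variational bound -/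
theorem mps_upper (M : ρ → Fin 3 → Matrix n n ℝ) (hM : tmap M 1 1 = 1) {X : Matrix n n ℝ}
    (hX : Xᵀ = X) {e : ℝ}
    (hS : (e • (1 : Matrix n n ℝ) + X - tmap M 1 X - Kop M).PosSemidef) (b₀ : n) :
    ∃ C : ℝ, ∀ (N : ℕ) [NeZero N], ∃ v : Cfg N → ℝ, v ≠ 0 ∧
      v ⬝ᵥ (HR N 1 *ᵥ v) ≤ ((2 * N) * e + C) * (v ⬝ᵥ v) := by
  set c : ℝ := ∑ i, ∑ j, |X i j| with hc
  set a : ℕ → ℝ := fun p => ((tmap M 1)^[p] X) b₀ b₀ with ha
  have hac : ∀ p, |a p| ≤ c := fun p => corr_le M hM hX b₀ p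
  set C' : ℝ := 3 + |e| + 2 * c with hC'
  have hC'0 : 0 ≤ C' := by
    have h1 : 0 ≤ c := (abs_nonneg _).trans (hac 0)
    positivity
  refine ⟨2 * c + C', fun N hN => ?_⟩
  have hNpos : 0 < N := Nat.pos_of_ne_zero (NeZero.ne N)
  obtain ⟨k, hk0, hk⟩ := exists_vec (ens M b₀ N) (HR N 1) (c := (2 * N) * e + (2 * c + C'))
    (ens_norm M hM b₀ N) (by
      have hev : ∑ k, qf (ens M b₀ N k) (Heven N) =
          ∑ i : Fin N, ((tmap M 1)^[2 * (i : ℕ)] (Kop M)) b₀ b₀ := by
        simp only [Heven, qf_neg, qf_sum, iter_Kop, Finset.sum_neg_distrib]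
        rw [Finset.sum_comm]
        congr 1
        refine Finset.sum_congr rfl fun i _ => ?_
        rw [Finset.sum_comm]
        refine Finset.sum_congr rfl fun α _ => ?_
        exact ens_even M hM b₀ N i α
      have hod : ∑ k, qf (ens M b₀ N k) (Hodd N 1) ≤
          ∑ i : Fin N, (e + a (2 * (i : ℕ) + 1) - a (2 * (i : ℕ) + 2) +
            if (i : ℕ) = N - 1 then C' else 0) := by
        simp only [Hodd, qf_neg, qf_sum, Finset.sum_neg_distrib]
        rw [Finset.sum_comm, ← Finset.sum_neg_distrib]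
        refine Finset.sum_le_sum fun i _ => ?_
        rw [Finset.sum_comm]
        by_cases hi : (i : ℕ) + 1 < N
        · rw [if_neg (by omega), add_zero]
          have h1 := bond_le M hM hS b₀ (2 * (i : ℕ) + 1)
          rw [iter_Kop] at h1
          refine le_trans (le_of_eq ?_) h1
          congr 1
          refine Finset.sum_congr rfl fun α _ => ?_
          exact ens_odd M hM b₀ N i hi α
        · have hiN : (i : ℕ) = N - 1 := by have := i.2; omega
          rw [if_pos hiN]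
          have h1 : (3 : ℝ) * (-1) ≤ ∑ α : Fin 3, ∑ k, qf (ens M b₀ N k)
              (tens (fun s : Site N =>
                if s = (i, true) then Lg α
                else if s = (i + 1, false) then
                  (if i + 1 = 0 then (1 : Matrix (Fin 3) (Fin 3) ℝ) * Lg α *
                    (1 : Matrix (Fin 3) (Fin 3) ℝ)ᵀ else Lg α)
                else 1)) := by
            rw [show (3 : ℝ) * (-1) = ∑ _α : Fin 3, (-1 : ℝ) by simp]
            exact Finset.sum_le_sum fun α _ => ens_odd_le M hM b₀ N i α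
          have h2 := abs_le.mp (hac (2 * (i : ℕ) + 1))
          have h3 := abs_le.mp (hac (2 * (i : ℕ) + 2))
          have h4 := neg_abs_le e
          linarith [h2.1, h2.2, h3.1, h3.2]
      have hsum : ∑ k, qf (ens M b₀ N k) (HR N 1) =
          ∑ k, qf (ens M b₀ N k) (Heven N) + ∑ k, qf (ens M b₀ N k) (Hodd N 1) := by
        simp only [HR, qf_add, Finset.sum_add_distrib]
      rw [hsum, hev]
      have hev' : ∑ i : Fin N, ((tmap M 1)^[2 * (i : ℕ)] (Kop M)) b₀ b₀ ≤
          ∑ i : Fin N, (e + a (2 * (i : ℕ)) - a (2 * (i : ℕ) + 1)) :=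
        Finset.sum_le_sum fun i _ => bond_le M hM hS b₀ (2 * (i : ℕ))
      have hdel : ∑ i : Fin N, (if (i : ℕ) = N - 1 then C' else 0) ≤ C' := by
        rw [Fin.sum_univ_eq_sum_range (fun i => if i = N - 1 then C' else 0) N,
          Finset.sum_ite_eq' (Finset.range N) (N - 1) (fun _ => C')]
        split_ifs
        · exact le_rfl
        · exact hC'0
      have htel : ∑ i : Fin N, (e + a (2 * (i : ℕ)) - a (2 * (i : ℕ) + 1)) +
          ∑ i : Fin N, (e + a (2 * (i : ℕ) + 1) - a (2 * (i : ℕ) + 2) +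
            if (i : ℕ) = N - 1 then C' else 0) =
          2 * N * e + (a 0 - a (2 * N)) +
            ∑ i : Fin N, (if (i : ℕ) = N - 1 then C' else 0) := by
        rw [← Finset.sum_add_distrib]
        have h5 : ∀ i : Fin N, (e + a (2 * (i : ℕ)) - a (2 * (i : ℕ) + 1)) +
            (e + a (2 * (i : ℕ) + 1) - a (2 * (i : ℕ) + 2) +
            if (i : ℕ) = N - 1 then C' else 0) =
            (2 * e + (a (2 * (i : ℕ)) - a (2 * ((i : ℕ) + 1)))) +
              (if (i : ℕ) = N - 1 then C' else 0) := by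
          intro i
          rw [show 2 * ((i : ℕ) + 1) = 2 * (i : ℕ) + 2 by ring]
          ring
        simp only [h5]
        rw [Finset.sum_add_distrib, Finset.sum_add_distrib, Finset.sum_const,
          Finset.card_univ, Fintype.card_fin, nsmul_eq_mul,
          Fin.sum_univ_eq_sum_range (fun i => a (2 * i) - a (2 * (i + 1))) N,
          Finset.sum_range_sub' (fun i => a (2 * i)) N]
        ring
      have h6 := abs_le.mp (hac 0)
      have h7 := abs_le.mp (hac (2 * N))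
      linarith [h6.1, h6.2, h7.1, h7.2])
  exact ⟨ens M b₀ N k, hk0, hk⟩

end

end P348
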