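import Vale.Agent.Lib.P348.BrB
import Vale.Agent.Lib.P348.M1C

/-!
P348 bridge, part C: the eigenvalues of the Heisenberg ring of the problem are those of the real
matrix `HR N 1`.
-/

namespace P348.Problem

open Matrix

/-- tensor product of one-site matrices -/
def tensG {R : Type} [CommRing R] {ι : Type} [Fintype ι] (M : ι → Matrix (Fin 3) (Fin 3) R) :
    Matrix (ι → Fin 3) (ι → Fin 3) R :=
  fun s t => ∏ i, M i (s i) (t i)

section

variable {R : Type} [CommRing R] {ι : Type} [Fintype ι] [DecidableEq ι]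

theorem tensG_mul (M M' : ι → Matrix (Fin 3) (Fin 3) R) :
    tensG M * tensG M' = tensG (fun i => M i * M' i) := by
  ext s t
  simp only [Matrix.mul_apply, tensG, ← Finset.prod_mul_distrib]
  rw [Finset.prod_univ_sum, Fintype.piFinset_univ]

theorem tensG_one : tensG (fun _ : ι => (1 : Matrix (Fin 3) (Fin 3) R)) = 1 := by
  ext s t
  rw [tensG, Matrix.one_apply]
  split_ifs with h
  · subst h
    simp
  · obtain ⟨i, hi⟩ : ∃ i, s i ≠ t i := by
      by_contra hcon
      push Not at hcon
      exact h (funext hcon)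
    exact Finset.prod_eq_zero (Finset.mem_univ i) (by rw [Matrix.one_apply_ne hi])

/-- one-site operator, general coefficients -/
def siteG (A : Matrix (Fin 3) (Fin 3) R) (j : ι) : Matrix (ι → Fin 3) (ι → Fin 3) R :=
  tensG (fun i => if i = j then A else 1)

theorem siteG_mul (A B : Matrix (Fin 3) (Fin 3) R) {j k : ι} (hjk : j ≠ k) :
    siteG A j * siteG B k = tensG (fun i => if i = j then A else if i = k then B else 1) := by
  rw [siteG, siteG, tensG_mul]
  congr 1
  funext i
  by_cases h1 : i = j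
  · have h2 : i ≠ k := fun h => hjk (h1.symm.trans h)
    rw [if_pos h1, if_pos h1, if_neg h2, Matrix.mul_one]
  · rw [if_neg h1, if_neg h1, Matrix.one_mul]

theorem siteG_smul (c : R) (A : Matrix (Fin 3) (Fin 3) R) (j : ι) :
    siteG (c • A) j = c • siteG A j := by
  ext s t
  rw [Matrix.smul_apply, siteG, siteG, tensG, tensG,
    ← Finset.mul_prod_erase _ _ (Finset.mem_univ j),
    ← Finset.mul_prod_erase Finset.univ (fun i => (if i = j then A else 1) (s i) (t i))
      (Finset.mem_univ j)]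
  simp only [if_true, Matrix.smul_apply, smul_eq_mul]
  rw [mul_assoc]
  congr 2
  refine Finset.prod_congr rfl fun i hi => ?_
  rw [if_neg (Finset.ne_of_mem_erase hi), if_neg (Finset.ne_of_mem_erase hi)]

end

theorem siteOp_eq {L : ℕ} (A : Matrix (Fin 3) (Fin 3) ℂ) (j : Fin L) :
    siteOp A j = siteG A j := by
  ext s t
  rw [siteOp, siteG, tensG]
  split_ifs with h
  · rw [Finset.prod_eq_single j]
    · rw [if_pos rfl]
    · intro i _ hi
      rw [if_neg hi, h i hi, Matrix.one_apply_eq]
    · intro hj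
      exact absurd (Finset.mem_univ j) hj
  · push Not at h
    obtain ⟨i, hi, hst⟩ := h
    refine (Finset.prod_eq_zero (Finset.mem_univ i) ?_).symm
    rw [if_neg hi, Matrix.one_apply_ne hst]

/-! ### unitary equivalence -/

theorem tensG_conj {L : ℕ} (M : Fin L → Matrix (Fin 3) (Fin 3) ℂ) :
    (tensG M)ᴴ = tensG (fun i => (M i)ᴴ) := by
  ext s t
  simp [conjTranspose_apply, tensG]

theorem siteG_conj {L : ℕ} {U : Matrix (Fin 3) (Fin 3) ℂ} (hU : U * Uᴴ = 1)
    (A : Matrix (Fin 3) (Fin 3) ℂ) (j : Fin L) :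
    siteG (U * A * Uᴴ) j = tensG (fun _ : Fin L => U) * siteG A j *
      (tensG (fun _ : Fin L => U))ᴴ := by
  rw [tensG_conj, siteG, siteG, tensG_mul, tensG_mul]
  congr 1
  funext i
  by_cases h : i = j
  · rw [if_pos h, if_pos h]
  · rw [if_neg h, if_neg h, Matrix.mul_one, hU]

theorem heis_conj {S : Fin 3 → Matrix (Fin 3) (Fin 3) ℂ} {U : Matrix (Fin 3) (Fin 3) ℂ}
    (h1 : Uᴴ * U = 1) (h2 : U * Uᴴ = 1) (hS : ∀ α, S α = U * cart α * Uᴴ) (L : ℕ) :
    heis S L = tensG (fun _ : Fin L => U) * heis cart L * (tensG (fun _ : Fin L => U))ᴴ := by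
  have hT : (tensG (fun _ : Fin L => U))ᴴ * tensG (fun _ : Fin L => U) = 1 := by
    rw [tensG_conj, tensG_mul]
    simp only [h1, tensG_one]
  simp only [heis, siteOp_eq, hS, siteG_conj h2, Finset.mul_sum, Finset.sum_mul]
  refine Finset.sum_congr rfl fun j _ => Finset.sum_congr rfl fun α _ => ?_
  have e : ∀ T A B : Matrix (Fin L → Fin 3) (Fin L → Fin 3) ℂ, Tᴴ * T = 1 →
      T * A * Tᴴ * (T * B * Tᴴ) = T * (A * B) * Tᴴ := by
    intro T A B h
    calc T * A * Tᴴ * (T * B * Tᴴ) = T * A * (Tᴴ * T) * B * Tᴴ := by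
          simp only [Matrix.mul_assoc]
      _ = T * (A * B) * Tᴴ := by rw [h, Matrix.mul_one]; simp only [Matrix.mul_assoc]
  exact e _ _ _ hT

theorem eigs_conj {ι : Type} [Fintype ι] [DecidableEq ι] {T : Matrix ι ι ℂ}
    (h1 : Tᴴ * T = 1) (h2 : T * Tᴴ = 1) (H : Matrix ι ι ℂ) :
    eigs (T * H * Tᴴ) = eigs H := by
  ext x
  constructor
  · rintro ⟨v, hv0, hv⟩
    refine ⟨Tᴴ *ᵥ v, fun h => hv0 ?_, ?_⟩
    · have := congrArg (fun w => T *ᵥ w) h
      simpa [mulVec_mulVec, h2] using this
    · have := congrArg (fun w => Tᴴ *ᵥ w) hv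
      simp only [mulVec_mulVec, mulVec_smul] at this
      rw [← Matrix.mul_assoc, ← Matrix.mul_assoc, h1, Matrix.one_mul] at this
      rw [mulVec_mulVec]
      exact this
  · rintro ⟨v, hv0, hv⟩
    refine ⟨T *ᵥ v, fun h => hv0 ?_, ?_⟩
    · have := congrArg (fun w => Tᴴ *ᵥ w) h
      simpa [mulVec_mulVec, h1] using this
    · rw [mulVec_mulVec, Matrix.mul_assoc, h1, Matrix.mul_one, ← mulVec_mulVec, hv,
        mulVec_smul]

theorem eigs_heis_cart {S : Fin 3 → Matrix (Fin 3) (Fin 3) ℂ} (hS : IsSpinOne S) (L : ℕ) :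
    eigs (heis S L) = eigs (heis cart L) := by
  obtain ⟨U, h1, h2, h3⟩ := exists_unitary hS
  rw [heis_conj h1 h2 h3 L]
  refine eigs_conj ?_ ?_ _
  · rw [tensG_conj, tensG_mul]
    simp only [h1, tensG_one]
  · rw [tensG_conj, tensG_mul]
    simp only [h2, tensG_one]

/-! ### the real form -/

/-- real eigenvalues of a real matrix -/
def eigR {ι : Type} [Fintype ι] (A : Matrix ι ι ℝ) : Set ℝ :=
  {x | ∃ v : ι → ℝ, v ≠ 0 ∧ A *ᵥ v = x • v}

theorem eigs_map {ι : Type} [Fintype ι] (A : Matrix ι ι ℝ) :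
    eigs (A.map (Complex.ofRealHom)) = eigR A := by
  ext x
  constructor
  · rintro ⟨v, hv0, hv⟩
    have hre : A *ᵥ (fun i => (v i).re) = x • (fun i => (v i).re) := by
      funext i
      have h1 := congrArg Complex.re (congrFun hv i)
      simpa [mulVec, dotProduct, Complex.re_sum] using h1
    have him : A *ᵥ (fun i => (v i).im) = x • (fun i => (v i).im) := by
      funext i
      have h1 := congrArg Complex.im (congrFun hv i)
      simpa [mulVec, dotProduct, Complex.im_sum] using h1
    by_cases h0 : (fun i => (v i).re) = 0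
    · refine ⟨_, fun h1 => hv0 ?_, him⟩
      funext i
      exact Complex.ext (congrFun h0 i) (congrFun h1 i)
    · exact ⟨_, h0, hre⟩
  · rintro ⟨v, hv0, hv⟩
    refine ⟨fun i => (v i : ℂ), fun h => hv0 ?_, ?_⟩
    · funext i
      have h1 : (v i : ℂ) = 0 := congrFun h i
      exact Complex.ofReal_eq_zero.mp h1
    · funext i
      have h1 := congrArg (fun y : ℝ => (y : ℂ)) (congrFun hv i)
      simpa [mulVec, dotProduct] using h1

theorem cart_eq (α : Fin 3) : cart α = (-Complex.I) • (Lg α).map (Complex.ofRealHom) := by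
  ext i j
  rw [Matrix.smul_apply, Matrix.map_apply, Lg_apply]
  fin_cases α <;> fin_cases i <;> fin_cases j <;> simp [cart]

theorem siteG_map {ι : Type} [Fintype ι] [DecidableEq ι] (A : Matrix (Fin 3) (Fin 3) ℝ)
    (j : ι) : siteG (A.map (Complex.ofRealHom)) j = (siteG A j).map (Complex.ofRealHom) := by
  ext s t
  rw [Matrix.map_apply, siteG, siteG, tensG, tensG, map_prod]
  refine Finset.prod_congr rfl fun i _ => ?_
  by_cases h : i = j
  · rw [if_pos h, if_pos h, Matrix.map_apply]
  · rw [if_neg h, if_neg h, Matrix.one_apply, Matrix.one_apply]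
    split_ifs <;> simp

/-- real Heisenberg matrix of the ring of length L -/
def heisR (L : ℕ) : Matrix (Fin L → Fin 3) (Fin L → Fin 3) ℝ :=
  -∑ j : Fin L, ∑ α : Fin 3, siteG (Lg α) j * siteG (Lg α) (next j)

theorem heis_cart (L : ℕ) : heis cart L = (heisR L).map (Complex.ofRealHom) := by
  have h1 : ∀ (j k : Fin L) (α : Fin 3), siteOp (cart α) j * siteOp (cart α) k =
      -((siteG (Lg α) j * siteG (Lg α) k).map (Complex.ofRealHom)) := by
    intro j k α
    rw [siteOp_eq, siteOp_eq, cart_eq, siteG_smul, siteG_smul, Matrix.smul_mul,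
      Matrix.mul_smul, smul_smul, neg_mul_neg, Complex.I_mul_I, neg_one_smul, siteG_map,
      siteG_map, Matrix.map_mul]
  have h2 : (heisR L).map (Complex.ofRealHom) =
      -∑ j : Fin L, ∑ α : Fin 3,
        (siteG (Lg α) j * siteG (Lg α) (next j)).map (Complex.ofRealHom) := by
    ext s t
    simp only [heisR, Matrix.map_apply, Matrix.neg_apply, Matrix.sum_apply, map_neg, map_sum]
  rw [h2, heis]
  simp only [h1, Finset.sum_neg_distrib]

/-! ### the ring with sites `Fin N × Bool` -/

theorem next_false (N : ℕ) (i : Fin N) : next (pos N (i, false)) = pos N (i, true) := by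
  apply Fin.ext
  show ((pos N (i, false) : ℕ) + 1) % (N * 2) = (pos N (i, true) : ℕ)
  rw [pos_val, pos_val]
  simp only [Bool.false_eq_true, if_false, if_true, add_zero]
  exact Nat.mod_eq_of_lt (by have := i.2; omega)

theorem next_true (N : ℕ) [NeZero N] (i : Fin N) :
    next (pos N (i, true)) = pos N (i + 1, false) := by
  apply Fin.ext
  show ((pos N (i, true) : ℕ) + 1) % (N * 2) = (pos N (i + 1, false) : ℕ)
  rw [pos_val, pos_val]
  simp only [Bool.false_eq_true, if_false, if_true, add_zero]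
  have hi := i.2
  by_cases h : (i : ℕ) + 1 < N
  · have h1 : ((i + 1 : Fin N) : ℕ) = (i : ℕ) + 1 := by
      rw [Fin.val_add, Fin.val_one', Nat.add_mod_mod, Nat.mod_eq_of_lt h]
    rw [h1, Nat.mod_eq_of_lt (by omega)]
    ring
  · have h2 : (i : ℕ) + 1 = N := by omega
    have h1 : ((i + 1 : Fin N) : ℕ) = 0 := by
      rw [Fin.val_add, Fin.val_one', Nat.add_mod_mod, h2, Nat.mod_self]
    rw [h1]
    have h3 : 2 * (i : ℕ) + 1 + 1 = N * 2 := by omega
    rw [h3, Nat.mod_self]

theorem site_pair {N : ℕ} (A : Matrix (Fin 3) (Fin 3) ℝ) (x y : Site N) (hxy : x ≠ y)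
    (s t : Fin (N * 2) → Fin 3) :
    (siteG A (pos N x) * siteG A (pos N y)) s t =
      tens (fun z : Site N => if z = x then A else if z = y then A else 1)
        (fun z => s (pos N z)) (fun z => t (pos N z)) := by
  rw [siteG_mul A A (fun h => hxy ((pos N).injective h)), tensG, tens,
    ← (pos N).prod_comp]
  refine Finset.prod_congr rfl fun z _ => ?_
  simp only [EmbeddingLike.apply_eq_iff_eq]

theorem heisR_eq (N : ℕ) [NeZero N] (s t : Fin (N * 2) → Fin 3) :
    heisR (N * 2) s t = HR N 1 (fun z => s (pos N z)) (fun z => t (pos N z)) := by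
  have hN : 0 < N := Nat.pos_of_ne_zero (NeZero.ne N)
  rw [heisR, Matrix.neg_apply, Matrix.sum_apply, ← (pos N).sum_comp, Fintype.sum_prod_type]
  simp only [Fintype.sum_bool, next_false, next_true]
  rw [HR, Heven, Hodd, Matrix.add_apply, Matrix.neg_apply, Matrix.neg_apply, ← neg_add,
    Matrix.sum_apply, Matrix.sum_apply, ← Finset.sum_add_distrib]
  congr 1
  refine Finset.sum_congr rfl fun i _ => ?_
  rw [add_comm]
  simp only [Matrix.sum_apply]
  congr 1
  · refine Finset.sum_congr rfl fun α _ => ?_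
    rw [site_pair (Lg α) (i, false) (i, true) (by simp)]
    congr 1
    funext z
    obtain ⟨j, b⟩ := z
    by_cases hj : j = i
    · subst hj
      cases b <;> simp
    · have h1 : (j, b) ≠ (i, false) := fun h => hj (congrArg Prod.fst h)
      have h2 : (j, b) ≠ (i, true) := fun h => hj (congrArg Prod.fst h)
      rw [if_neg h1, if_neg h2, if_neg hj]
  · refine Finset.sum_congr rfl fun α _ => ?_
    rw [site_pair (Lg α) (i, true) (i + 1, false) (by simp)]
    congr 1
    funext z
    simp only [Matrix.one_mul, transpose_one, Matrix.mul_one, ite_self]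

theorem eigR_equiv {ι κ : Type} [Fintype ι] [Fintype κ] (f : ι ≃ κ) (A : Matrix ι ι ℝ)
    (B : Matrix κ κ ℝ) (h : ∀ i j, A i j = B (f i) (f j)) : eigR A = eigR B := by
  ext x
  constructor
  · rintro ⟨v, hv0, hv⟩
    refine ⟨fun k => v (f.symm k), fun h0 => hv0 ?_, ?_⟩
    · funext i
      have := congrFun h0 (f i)
      simpa using this
    · funext k
      have h1 := congrFun hv (f.symm k)
      simp only [mulVec, dotProduct, Pi.smul_apply] at h1 ⊢
      rw [← h1, ← f.sum_comp]
      refine Finset.sum_congr rfl fun i _ => ?_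
      rw [h, Equiv.symm_apply_apply, Equiv.apply_symm_apply]
  · rintro ⟨v, hv0, hv⟩
    refine ⟨fun i => v (f i), fun h0 => hv0 ?_, ?_⟩
    · funext k
      have := congrFun h0 (f.symm k)
      simpa using this
    · funext i
      have h1 := congrFun hv (f i)
      simp only [mulVec, dotProduct, Pi.smul_apply] at h1 ⊢
      rw [← h1, ← f.sum_comp]
      exact Finset.sum_congr rfl fun j _ => by rw [h]

/-- the eigenvalues of the ring -/
theorem eigs_heis {S : Fin 3 → Matrix (Fin 3) (Fin 3) ℂ} (hS : IsSpinOne S) (N : ℕ)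
    [NeZero N] : eigs (heis S (N * 2)) = eigR (HR N 1) := by
  rw [eigs_heis_cart hS, heis_cart, eigs_map]
  exact eigR_equiv ((Equiv.arrowCongr (pos N) (Equiv.refl (Fin 3))).symm) _ _
    (fun s t => heisR_eq N s t)

end P348.Problem
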