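import Vale.Agent.Lib.P348.Chan

/-!
# P348 module Time: the time direction (fixed ring, spectral theorem)

HR N R is real symmetric; if W is an orthogonal matrix commuting with HR N R etc.
`TimeSum g E₀`: g β = ∑_i exp(-β E i) over a finite family with all E i ≥ E₀ and (if `attained`) some E i = E₀.
V = {1, rx, ry, rz} acts by glob N · (symmetric, commuting, squares 1, product of two is the third) and
commutes with HR N 1; the projection on the invariants is (1+gx+gy+gz)/4, on the χ_z-part (1+gz-gx-gy)/4; by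
`ZZ_conj` the three traces agree (cyclic permutation of the axes).
-/

namespace P348

open Matrix

/-- g is a finite sum of exponentials exp(-β E) with exponents E ≥ E₀ -/
def TimeSum (g : ℝ → ℝ) (E₀ : ℝ) : Prop :=
  ∃ (k : ℕ) (E : Fin k → ℝ), (∀ i, E₀ ≤ E i) ∧ ∀ β : ℝ, 0 < β → g β = ∑ i, Real.exp (-(β * E i))

section general
variable {n : Type} [Fintype n] [DecidableEq n]

private theorem time_spec {A : Matrix n n ℝ} (hA : A.IsHermitian) :
    ∃ U : Matrix n n ℝ, Uᵀ * U = 1 ∧ U * Uᵀ = 1 ∧ A = U * diagonal hA.eigenvalues * Uᵀ := by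
  refine ⟨hA.eigenvectorUnitary, ?_, ?_, ?_⟩
  · have := Unitary.coe_star_mul_self hA.eigenvectorUnitary
    simpa [star_eq_conjTranspose] using this
  · have := Unitary.coe_mul_star_self hA.eigenvectorUnitary
    simpa [star_eq_conjTranspose] using this
  · have := hA.spectral_theorem
    rw [Unitary.conjStarAlgAut_apply] at this
    have h2 : (RCLike.ofReal ∘ hA.eigenvalues : n → ℝ) = hA.eigenvalues := by
      funext i; simp
    rw [h2] at this
    simpa [star_eq_conjTranspose] using this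

private theorem time_exp_spec {A : Matrix n n ℝ} {U : Matrix n n ℝ} {d : n → ℝ}
    (h1 : Uᵀ * U = 1) (h2 : U * Uᵀ = 1) (h3 : A = U * diagonal d * Uᵀ) (β : ℝ) :
    NormedSpace.exp (-(β • A)) = U * diagonal (fun i => Real.exp (-(β * d i))) * Uᵀ := by
  have hU : U⁻¹ = Uᵀ := inv_eq_left_inv h1
  have hUu : IsUnit U := ⟨⟨U, Uᵀ, h2, h1⟩, rfl⟩
  have h4 : -(β • A) = U * diagonal (fun i => -(β * d i)) * U⁻¹ := by
    rw [hU]
    conv_lhs => rw [h3]
    have h5 : diagonal (fun i => -(β * d i)) = -(β • diagonal d) := by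
      ext i j
      by_cases h : i = j
      · subst h; simp
      · simp [h]
    rw [h5]
    simp
  rw [h4, exp_conj _ _ hUu, exp_diagonal, hU]
  congr 2
  rw [Pi.exp_def]
  congr 1
  funext i
  rw [Real.exp_eq_exp_ℝ]

private theorem time_exp_mulVec {A : Matrix n n ℝ} (hA : A.IsHermitian) (v : n → ℝ) (x : ℝ)
    (h : A *ᵥ v = x • v) (β : ℝ) :
    NormedSpace.exp (-(β • A)) *ᵥ v = Real.exp (-(β * x)) • v := by
  obtain ⟨U, h1, h2, h3⟩ := time_spec hA
  rw [time_exp_spec h1 h2 h3]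
  have h5 : diagonal hA.eigenvalues *ᵥ (Uᵀ *ᵥ v) = x • (Uᵀ *ᵥ v) := by
    have : Uᵀ *ᵥ (A *ᵥ v) = Uᵀ *ᵥ (x • v) := by rw [h]
    rw [mulVec_smul] at this
    rw [← this]
    conv_rhs => rw [h3]
    rw [mulVec_mulVec, mulVec_mulVec, ← Matrix.mul_assoc, ← Matrix.mul_assoc, h1, Matrix.one_mul]
  have h6 : diagonal (fun i => Real.exp (-(β * hA.eigenvalues i))) *ᵥ (Uᵀ *ᵥ v) =
      Real.exp (-(β * x)) • (Uᵀ *ᵥ v) := by
    funext i
    have h7 := congrFun h5 i
    rw [mulVec_diagonal] at h7 ⊢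
    simp only [Pi.smul_apply, smul_eq_mul] at h7 ⊢
    by_cases h8 : (Uᵀ *ᵥ v) i = 0
    · rw [h8]; simp
    · have := mul_right_cancel₀ h8 h7
      rw [this]
  rw [← mulVec_mulVec, ← mulVec_mulVec, h6, mulVec_smul, mulVec_mulVec, h2, one_mulVec]

private theorem time_trace {M : Matrix n n ℝ} {U : Matrix n n ℝ} {d : n → ℝ}
    (h2 : U * Uᵀ = 1) (h1 : Uᵀ * U = 1) (h3 : ∀ i, M *ᵥ (Uᵀ i) = d i • (Uᵀ i)) :
    M.trace = ∑ i, d i := by
  have h4 : M * U = U * diagonal d := by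
    ext i j
    have := congrFun (h3 j) i
    simp only [mulVec, dotProduct, transpose_apply, Pi.smul_apply, smul_eq_mul] at this
    rw [mul_apply, this, mul_diagonal]
    ring
  have h5 : M = U * diagonal d * Uᵀ := by
    rw [← h4, Matrix.mul_assoc, h2, Matrix.mul_one]
  rw [h5, trace_mul_comm, ← Matrix.mul_assoc, h1, Matrix.one_mul, trace_diagonal]

/-- lowest eigenvalue and Rayleigh quotient -/
private theorem time_rayleigh {A : Matrix n n ℝ} (hA : A.IsHermitian) (m : ℝ)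
    (hm : ∀ i, m ≤ hA.eigenvalues i) (v : n → ℝ) :
    m * (v ⬝ᵥ v) ≤ v ⬝ᵥ (A *ᵥ v) := by
  obtain ⟨U, h1, h2, h3⟩ := time_spec hA
  set w := Uᵀ *ᵥ v with hw
  have hv : v = U *ᵥ w := by rw [hw, mulVec_mulVec, h2, one_mulVec]
  have e1 : v ⬝ᵥ v = w ⬝ᵥ w := by
    conv_lhs => rw [hv]
    rw [dotProduct_mulVec, vecMul_mulVec, h1]
    simp
  have e2 : v ⬝ᵥ (A *ᵥ v) = w ⬝ᵥ (diagonal hA.eigenvalues *ᵥ w) := by
    conv_lhs => rw [h3]
    rw [← mulVec_mulVec, ← mulVec_mulVec, ← hw, dotProduct_mulVec v U, ← mulVec_transpose]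
  rw [e1, e2]
  simp only [dotProduct, mulVec_diagonal]
  rw [Finset.mul_sum]
  apply Finset.sum_le_sum
  intro i _
  nlinarith [hm i, mul_self_nonneg (w i), mul_nonneg (sub_nonneg.2 (hm i)) (mul_self_nonneg (w i))]


/-- restriction to the range of a commuting symmetric idempotent -/
private theorem time_proj {A P : Matrix n n ℝ} (hA : A.IsHermitian) (hP : Pᵀ = P) (hPP : P * P = P)
    (hc : Commute P A) :
    ∃ (k : ℕ) (E : Fin k → ℝ), (∀ i, ∃ v : n → ℝ, v ≠ 0 ∧ P *ᵥ v = v ∧ A *ᵥ v = E i • v) ∧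
      (∀ β : ℝ, (P * NormedSpace.exp (-(β • A))).trace = ∑ i, Real.exp (-(β * E i))) ∧
      (∀ (x : ℝ) (v : n → ℝ), v ≠ 0 → P *ᵥ v = v → A *ᵥ v = x • v → ∃ i, E i = x) := by
  -- a constant c with -c not an eigenvalue
  obtain ⟨m, hm⟩ : ∃ m : ℝ, ∀ i, m ≤ hA.eigenvalues i := by
    obtain ⟨m, hm⟩ := (Set.finite_range hA.eigenvalues).bddBelow
    exact ⟨m, fun i => hm ⟨i, rfl⟩⟩
  set c : ℝ := 1 - m with hcdef
  have hpos : ∀ v : n → ℝ, A *ᵥ v = (-c) • v → v = 0 := by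
    intro v hv
    have h1 := time_rayleigh hA m hm v
    rw [hv, dotProduct_smul, smul_eq_mul] at h1
    have h2 : v ⬝ᵥ v = 0 := by
      have h3 : 0 ≤ v ⬝ᵥ v := by
        simp only [dotProduct]
        exact Finset.sum_nonneg fun i _ => mul_self_nonneg _
      rw [hcdef] at h1
      linarith
    exact dotProduct_self_eq_zero.1 h2
  set K : Matrix n n ℝ := P * (A + c • 1) with hK
  have hcomm : P * A = A * P := hc
  have hKsym : K.IsHermitian := by
    have hAt : Aᵀ = A := by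
      have := hA.eq
      rwa [conjTranspose_eq_transpose_of_trivial] at this
    rw [IsHermitian, conjTranspose_eq_transpose_of_trivial, hK, transpose_mul, hP]
    rw [transpose_add, transpose_smul, transpose_one, hAt]
    rw [Matrix.add_mul, Matrix.mul_add, hcomm]
    simp
  obtain ⟨U, h1, h2, h3⟩ := time_spec hKsym
  set μ := hKsym.eigenvalues with hμ
  have hKv : ∀ i, K *ᵥ (Uᵀ i) = μ i • (Uᵀ i) := by
    intro i
    have h4 : K * U = U * diagonal μ := by
      conv_lhs => rw [h3]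
      rw [Matrix.mul_assoc, h1, Matrix.mul_one]
    funext j
    have h5 := congrFun (congrFun h4 j) i
    rw [mul_apply, mul_diagonal] at h5
    simp only [mulVec, dotProduct, transpose_apply, Pi.smul_apply, smul_eq_mul]
    rw [h5]
    ring
  have hune : ∀ i, (Uᵀ i) ≠ 0 := by
    intro i h0
    have h4 := congrFun (congrFun h1 i) i
    rw [mul_apply, one_apply_eq] at h4
    have h5 : ∀ j, Uᵀ i j = 0 := fun j => congrFun h0 j
    simp only [h5, zero_mul, Finset.sum_const_zero] at h4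
    exact zero_ne_one h4
  -- nonzero eigenvalue
  have hnz : ∀ i, μ i ≠ 0 → P *ᵥ (Uᵀ i) = Uᵀ i ∧ A *ᵥ (Uᵀ i) = (μ i - c) • (Uᵀ i) := by
    intro i hi
    have hPK : P * K = K := by rw [hK, ← Matrix.mul_assoc, hPP]
    have h4 : P *ᵥ (Uᵀ i) = Uᵀ i := by
      have h5 : Uᵀ i = (μ i)⁻¹ • (K *ᵥ (Uᵀ i)) := by
        rw [hKv, smul_smul, inv_mul_cancel₀ hi, one_smul]
      rw [h5, mulVec_smul, mulVec_mulVec, hPK]
    refine ⟨h4, ?_⟩
    have h5 := hKv i
    have h6 : K = (A + c • 1) * P := by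
      rw [hK, Matrix.mul_add, Matrix.add_mul, hcomm]; simp
    rw [h6, ← mulVec_mulVec, h4, add_mulVec, smul_mulVec, one_mulVec] at h5
    rw [sub_smul, ← h5]
    simp
  have hz : ∀ i, μ i = 0 → P *ᵥ (Uᵀ i) = 0 := by
    intro i hi
    have h5 := hKv i
    have h6 : K = (A + c • 1) * P := by
      rw [hK, Matrix.mul_add, Matrix.add_mul, hcomm]; simp
    rw [h6, ← mulVec_mulVec, hi, zero_smul, add_mulVec, smul_mulVec, one_mulVec] at h5
    apply hpos
    rw [neg_smul]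
    exact eq_neg_of_add_eq_zero_left h5
  classical
  let S := {i : n // μ i ≠ 0}
  let e : Fin (Fintype.card S) ≃ S := (Fintype.equivFin S).symm
  refine ⟨Fintype.card S, fun i => μ (e i).1 - c, ?_, ?_, ?_⟩
  · intro i
    exact ⟨Uᵀ (e i).1, hune _, (hnz _ (e i).2).1, (hnz _ (e i).2).2⟩
  · intro β
    have hcE : Commute P (NormedSpace.exp (-(β • A))) := by
      have : Commute P (-(β • A)) := (hc.smul_right β).neg_right
      exact this.exp_right
    rw [time_trace h2 h1 (M := P * NormedSpace.exp (-(β • A)))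
      (d := fun i => if μ i ≠ 0 then Real.exp (-(β * (μ i - c))) else 0)]
    · rw [← Finset.sum_filter]
      rw [Finset.sum_subtype (Finset.univ.filter fun i => μ i ≠ 0) (p := fun i => μ i ≠ 0)
        (by simp)]
      exact (Equiv.sum_comp e (fun s : S => Real.exp (-(β * (μ s.1 - c))))).symm
    · intro i
      by_cases hi : μ i = 0
      · rw [hcE.eq, ← mulVec_mulVec, hz i hi]
        simp [hi]
      · rw [← mulVec_mulVec, time_exp_mulVec hA _ _ (hnz i hi).2, mulVec_smul, (hnz i hi).1]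
        simp [hi]
  · intro x v hv hPv hAv
    have hKv' : K *ᵥ v = (x + c) • v := by
      have h6 : K = (A + c • 1) * P := by
        rw [hK, Matrix.mul_add, Matrix.add_mul, hcomm]; simp
      rw [h6, ← mulVec_mulVec, hPv, add_mulVec, smul_mulVec, one_mulVec, hAv, add_smul]
    have hw : Uᵀ *ᵥ v ≠ 0 := by
      intro h0
      apply hv
      have : U *ᵥ (Uᵀ *ᵥ v) = 0 := by rw [h0, mulVec_zero]
      rwa [mulVec_mulVec, h2, one_mulVec] at this
    obtain ⟨i, hi⟩ : ∃ i, (Uᵀ *ᵥ v) i ≠ 0 := by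
      by_contra hcon
      push Not at hcon
      exact hw (funext hcon)
    have h7 : diagonal μ *ᵥ (Uᵀ *ᵥ v) = (x + c) • (Uᵀ *ᵥ v) := by
      have : Uᵀ *ᵥ (K *ᵥ v) = Uᵀ *ᵥ ((x + c) • v) := by rw [hKv']
      rw [mulVec_smul] at this
      rw [← this]
      conv_rhs => rw [h3]
      rw [mulVec_mulVec, mulVec_mulVec, ← Matrix.mul_assoc, ← Matrix.mul_assoc, h1, Matrix.one_mul]
    have h8 := congrFun h7 i
    rw [mulVec_diagonal] at h8
    simp only [Pi.smul_apply, smul_eq_mul] at h8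
    have h9 := mul_right_cancel₀ hi h8
    have h10 : μ i ≠ 0 := by
      intro h0
      rw [h0] at h9
      have hxc : x = -c := by linarith
      rw [hxc] at hAv
      exact hv (hpos v hAv)
    refine ⟨e.symm ⟨i, h10⟩, ?_⟩
    simp [h9]

end general

private theorem time_tens_transpose {ι : Type} [Fintype ι] (M : ι → Matrix (Fin 3) (Fin 3) ℝ) :
    (tens M)ᵀ = tens (fun i => (M i)ᵀ) := by
  ext s t
  simp [tens]

private theorem time_tens_smul {ι : Type} [Fintype ι] (c : ι → ℝ)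
    (M : ι → Matrix (Fin 3) (Fin 3) ℝ) :
    tens (fun i => c i • M i) = (∏ i, c i) • tens M := by
  ext s t
  simp [tens, Finset.prod_mul_distrib]

private theorem time_Lg_transpose (α : Fin 3) : (Lg α)ᵀ = -Lg α := by
  have h : ∀ α b c : Fin 3, eps α c b = -eps α b c := by decide
  ext b c
  simp [Lg, h α b c]

private theorem time_even (N : ℕ) : (Heven N)ᵀ = Heven N := by
  unfold Heven
  rw [transpose_neg, transpose_sum]
  congr 1
  refine Finset.sum_congr rfl fun i _ => ?_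
  rw [transpose_sum]
  refine Finset.sum_congr rfl fun α _ => ?_
  rw [time_tens_transpose]
  have h1 : (fun s : Site N => (if s.1 = i then Lg α else 1)ᵀ) =
      fun s : Site N => (if s.1 = i then (-1 : ℝ) else 1) • (if s.1 = i then Lg α else 1) := by
    funext s
    by_cases h : s.1 = i
    · simp [h, time_Lg_transpose]
    · simp [h]
  rw [h1, time_tens_smul]
  have h2 : (∏ s : Site N, if s.1 = i then (-1 : ℝ) else 1) = 1 := by
    rw [Fintype.prod_prod_type]
    apply Finset.prod_eq_one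
    intro j _
    rw [Fintype.prod_bool]
    by_cases h : j = i <;> simp [h]
  rw [h2, one_smul]

private theorem time_odd (N : ℕ) [NeZero N] (R : Matrix (Fin 3) (Fin 3) ℝ) :
    (Hodd N R)ᵀ = Hodd N R := by
  unfold Hodd
  rw [transpose_neg, transpose_sum]
  congr 1
  refine Finset.sum_congr rfl fun i _ => ?_
  rw [transpose_sum]
  refine Finset.sum_congr rfl fun α _ => ?_
  rw [time_tens_transpose]
  have h1 : (fun s : Site N => (if s = (i, true) then Lg α
      else if s = (i + 1, false) then (if i + 1 = 0 then R * Lg α * Rᵀ else Lg α) else 1)ᵀ) =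
      fun s : Site N => ((if s = (i, true) then (-1 : ℝ) else 1) *
        (if s = (i + 1, false) then (-1 : ℝ) else 1)) • (if s = (i, true) then Lg α
      else if s = (i + 1, false) then (if i + 1 = 0 then R * Lg α * Rᵀ else Lg α) else 1) := by
    funext s
    by_cases h : s = (i, true)
    · have h' : s ≠ (i + 1, false) := by
        rw [h]; intro h3; simp at h3
      simp [h, time_Lg_transpose]
    · by_cases h' : s = (i + 1, false)
      · by_cases h3 : i + 1 = 0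
        · simp [h', h3, time_Lg_transpose, transpose_mul, Matrix.mul_assoc]
        · simp [h', h3, time_Lg_transpose]
      · simp [h, h']
  rw [h1, time_tens_smul]
  have h2 : (∏ s : Site N, ((if s = (i, true) then (-1 : ℝ) else 1) *
        (if s = (i + 1, false) then (-1 : ℝ) else 1))) = 1 := by
    rw [Finset.prod_mul_distrib, Finset.prod_ite_eq', Finset.prod_ite_eq']
    simp
  rw [h2, one_smul]

private theorem time_HR (N : ℕ) [NeZero N] (R : Matrix (Fin 3) (Fin 3) ℝ) :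
    (HR N R).IsHermitian := by
  rw [IsHermitian, conjTranspose_eq_transpose_of_trivial, HR, transpose_add, time_even, time_odd]

theorem HR_isSymm (N : ℕ) [NeZero N] (R : Matrix (Fin 3) (Fin 3) ℝ) (hR : IsRot R) :
    (HR N R).IsHermitian := time_HR N R

/-- ground state energy of the ring of 2N sites -/
noncomputable def E0 (N : ℕ) [NeZero N] : ℝ :=
  ⨅ i, (HR_isSymm N 1 (by constructor <;> simp)).eigenvalues i

/-- twisted partition functions are sums of exponentials -/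
theorem time_twist (N : ℕ) [NeZero N] (R : Matrix (Fin 3) (Fin 3) ℝ) (hR : IsRot R) :
    ∃ E : ℝ, TimeSum (fun β => ZZ N 1 R β) E := by
  obtain ⟨k, E, -, h2, -⟩ := time_proj (P := 1) (HR_isSymm N R hR) (by simp) (by simp)
    (Commute.one_left _)
  obtain ⟨m, hm⟩ : ∃ m : ℝ, ∀ i, m ≤ E i := by
    obtain ⟨m, hm⟩ := (Set.finite_range E).bddBelow
    exact ⟨m, fun i => hm ⟨i, rfl⟩⟩
  refine ⟨m, k, E, hm, fun β _ => ?_⟩
  rw [← h2 β]
  simp only [ZZ, glob_one]

private theorem time_E0_le (N : ℕ) [NeZero N] (v : Cfg N → ℝ) (hv : v ≠ 0) (x : ℝ)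
    (h : v ⬝ᵥ (HR N 1 *ᵥ v) ≤ x * (v ⬝ᵥ v)) : E0 N ≤ x := by
  have h1 := time_rayleigh (HR_isSymm N 1 (by constructor <;> simp)) (E0 N)
    (fun i => ciInf_le (Set.finite_range _).bddBelow i) v
  have h3 : 0 < v ⬝ᵥ v := by
    have h4 : 0 ≤ v ⬝ᵥ v := by
      simp only [dotProduct]
      exact Finset.sum_nonneg fun i _ => mul_self_nonneg _
    rcases h4.lt_or_eq with h5 | h5
    · exact h5
    · exact absurd (dotProduct_self_eq_zero.1 h5.symm) hv
  exact le_of_mul_le_mul_right (h1.trans h) h3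

private theorem time_rx : rxᵀ = rx ∧ rx * rx = 1 ∧ IsRot rx := by
  have h1 : rxᵀ = rx := by
    ext i j; fin_cases i <;> fin_cases j <;> simp [rx]
  have h2 : rx * rx = 1 := by
    ext i j; fin_cases i <;> fin_cases j <;> simp [rx, Matrix.mul_apply, Fin.sum_univ_three]
  refine ⟨h1, h2, ?_, ?_⟩
  · rw [h1, h2]
  · simp [rx, Matrix.det_fin_three]

private theorem time_ry : ryᵀ = ry ∧ ry * ry = 1 ∧ IsRot ry := by
  have h1 : ryᵀ = ry := by
    ext i j; fin_cases i <;> fin_cases j <;> simp [ry]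
  have h2 : ry * ry = 1 := by
    ext i j; fin_cases i <;> fin_cases j <;> simp [ry, Matrix.mul_apply, Fin.sum_univ_three]
  refine ⟨h1, h2, ?_, ?_⟩
  · rw [h1, h2]
  · simp [ry, Matrix.det_fin_three]

private theorem time_rz : rzᵀ = rz ∧ rz * rz = 1 ∧ IsRot rz := by
  have h1 : rzᵀ = rz := by
    ext i j; fin_cases i <;> fin_cases j <;> simp [rz]
  have h2 : rz * rz = 1 := by
    ext i j; fin_cases i <;> fin_cases j <;> simp [rz, Matrix.mul_apply, Fin.sum_univ_three]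
  refine ⟨h1, h2, ?_, ?_⟩
  · rw [h1, h2]
  · simp [rz, Matrix.det_fin_three]

private theorem time_rr : rx * ry = rz ∧ ry * rx = rz ∧ ry * rz = rx ∧ rz * ry = rx ∧
    rz * rx = ry ∧ rx * rz = ry := by
  refine ⟨?_, ?_, ?_, ?_, ?_, ?_⟩ <;>
  · ext i j
    fin_cases i <;> fin_cases j <;> simp [rx, ry, rz, Matrix.mul_apply, Fin.sum_univ_three]

private theorem time_c3 : IsRot c3 ∧ c3ᵀ * c3 = 1 ∧ c3 * rz * c3ᵀ = rx ∧ c3 * rx * c3ᵀ = ry ∧
    c3 * ry * c3ᵀ = rz := by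
  refine ⟨⟨?_, ?_⟩, ?_, ?_, ?_, ?_⟩
  · ext i j; fin_cases i <;> fin_cases j <;> simp [c3, Matrix.mul_apply, Fin.sum_univ_three]
  · simp [c3, Matrix.det_fin_three]
  · ext i j; fin_cases i <;> fin_cases j <;> simp [c3, Matrix.mul_apply, Fin.sum_univ_three]
  all_goals
    ext i j
    fin_cases i <;> fin_cases j <;>
      simp [c3, rx, ry, rz, Matrix.mul_apply, Fin.sum_univ_three]


private theorem time_one_rot : IsRot (1 : Matrix (Fin 3) (Fin 3) ℝ) := by constructor <;> simp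

/-- the algebra of the four commuting involutions, abstractly -/
private theorem time_klein {n : Type} [Fintype n] [DecidableEq n] {X Y Z : Matrix n n ℝ}
    (hX : Xᵀ = X) (hY : Yᵀ = Y) (hZ : Zᵀ = Z) (hXX : X * X = 1) (hYY : Y * Y = 1)
    (hZZ : Z * Z = 1) (hXY : X * Y = Z) (hYX : Y * X = Z) (hYZ : Y * Z = X) (hZY : Z * Y = X)
    (hZX : Z * X = Y) (hXZ : X * Z = Y) (s t u : ℝ) (hs : s * s = 1) (ht : t * t = 1)
    (hu : u * u = 1) (hst : s * t = u) (htu : t * u = s) (hus : u * s = t) :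
    ((1 / 4 : ℝ) • (1 + s • X + t • Y + u • Z))ᵀ = (1 / 4 : ℝ) • (1 + s • X + t • Y + u • Z) ∧
    ((1 / 4 : ℝ) • (1 + s • X + t • Y + u • Z)) * ((1 / 4 : ℝ) • (1 + s • X + t • Y + u • Z)) =
      (1 / 4 : ℝ) • (1 + s • X + t • Y + u • Z) := by
  constructor
  · rw [transpose_smul, transpose_add, transpose_add, transpose_add, transpose_smul,
      transpose_smul, transpose_smul, hX, hY, hZ, transpose_one]
  · have h1 : (1 + s • X + t • Y + u • Z) * (1 + s • X + t • Y + u • Z) =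
        (1 + s * s + t * t + u * u) • (1 : Matrix n n ℝ) + (2 * s + 2 * (t * u)) • X +
          (2 * t + 2 * (u * s)) • Y + (2 * u + 2 * (s * t)) • Z := by
      simp only [Matrix.add_mul, Matrix.mul_add, Matrix.smul_mul, Matrix.mul_smul, smul_smul,
        Matrix.one_mul, Matrix.mul_one, hXX, hYY, hZZ, hXY, hYX, hYZ, hZY, hZX, hXZ]
      module
    rw [Matrix.smul_mul, Matrix.mul_smul, h1, hs, ht, hu, hst, htu, hus]
    module

private theorem time_cover (N : ℕ) [NeZero N] {x : ℝ} {v : Cfg N → ℝ} (hv : v ≠ 0)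
    (hHv : HR N 1 *ᵥ v = x • v) :
    (∃ w : Cfg N → ℝ, w ≠ 0 ∧
      ((1 / 4 : ℝ) • (1 + (1 : ℝ) • glob N rx + (1 : ℝ) • glob N ry + (1 : ℝ) • glob N rz)) *ᵥ w
        = w ∧ HR N 1 *ᵥ w = x • w) ∨
    (∃ w : Cfg N → ℝ, w ≠ 0 ∧
      ((1 / 4 : ℝ) • (1 + (-1 : ℝ) • glob N rx + (-1 : ℝ) • glob N ry + (1 : ℝ) • glob N rz)) *ᵥ w
        = w ∧ HR N 1 *ᵥ w = x • w) := by
  obtain ⟨hx1, hx2, hx3⟩ := time_rx
  obtain ⟨hy1, hy2, hy3⟩ := time_ry
  obtain ⟨hz1, hz2, hz3⟩ := time_rz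
  obtain ⟨hxy, hyx, hyz, hzy, hzx, hxz⟩ := time_rr
  obtain ⟨hc, hcc, hcz, hcx, hcy⟩ := time_c3
  set X := glob N rx with hX
  set Y := glob N ry with hY
  set Z := glob N rz with hZ
  have key := fun s t u hs ht hu hst htu hus => time_klein (X := X) (Y := Y) (Z := Z)
    (by rw [hX, glob_transpose, hx1]) (by rw [hY, glob_transpose, hy1])
    (by rw [hZ, glob_transpose, hz1]) (by rw [hX, ← glob_mul, hx2, glob_one])
    (by rw [hY, ← glob_mul, hy2, glob_one]) (by rw [hZ, ← glob_mul, hz2, glob_one])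
    (by rw [hX, hY, hZ, ← glob_mul, hxy]) (by rw [hX, hY, hZ, ← glob_mul, hyx])
    (by rw [hX, hY, hZ, ← glob_mul, hyz]) (by rw [hX, hY, hZ, ← glob_mul, hzy])
    (by rw [hX, hY, hZ, ← glob_mul, hzx]) (by rw [hX, hY, hZ, ← glob_mul, hxz])
    s t u hs ht hu hst htu hus
  have hcX : Commute X (HR N 1) := glob_comm_HR N 1 rx hx3 (by simp)
  have hcY : Commute Y (HR N 1) := glob_comm_HR N 1 ry hy3 (by simp)
  have hcZ : Commute Z (HR N 1) := glob_comm_HR N 1 rz hz3 (by simp)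
  have hcP : ∀ s t u : ℝ, Commute ((1 / 4 : ℝ) • (1 + s • X + t • Y + u • Z)) (HR N 1) := by
    intro s t u
    exact ((((Commute.one_left _).add_left (hcX.smul_left s)).add_left (hcY.smul_left t)).add_left
      (hcZ.smul_left u)).smul_left _
  have hstep : ∀ s t u : ℝ, HR N 1 *ᵥ (((1 / 4 : ℝ) • (1 + s • X + t • Y + u • Z)) *ᵥ v) =
      x • (((1 / 4 : ℝ) • (1 + s • X + t • Y + u • Z)) *ᵥ v) := by
    intro s t u
    rw [mulVec_mulVec, ← (hcP s t u).eq, ← mulVec_mulVec, hHv, mulVec_smul]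
  by_cases h1 : ((1 / 4 : ℝ) • (1 + (1 : ℝ) • X + (1 : ℝ) • Y + (1 : ℝ) • Z)) *ᵥ v = 0
  swap
  · left
    refine ⟨_, h1, ?_, hstep _ _ _⟩
    rw [mulVec_mulVec, (key 1 1 1 (by norm_num) (by norm_num) (by norm_num) (by norm_num)
      (by norm_num) (by norm_num)).2]
  right
  by_cases h2 : ((1 / 4 : ℝ) • (1 + (-1 : ℝ) • X + (-1 : ℝ) • Y + (1 : ℝ) • Z)) *ᵥ v = 0
  swap
  · refine ⟨_, h2, ?_, hstep _ _ _⟩
    rw [mulVec_mulVec, (key (-1) (-1) 1 (by norm_num) (by norm_num) (by norm_num) (by norm_num)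
      (by norm_num) (by norm_num)).2]
  by_cases h3 : ((1 / 4 : ℝ) • (1 + (1 : ℝ) • X + (-1 : ℝ) • Y + (-1 : ℝ) • Z)) *ᵥ v = 0
  swap
  · -- w = P_x v, apply c3 transposed
    have hC : IsRot c3ᵀ := by
      refine ⟨by rw [transpose_transpose]; exact hcc, by rw [det_transpose]; exact hc.2⟩
    have hCH : Commute (glob N c3ᵀ) (HR N 1) := glob_comm_HR N 1 _ hC (by simp)
    have hzC : rz * c3ᵀ = c3ᵀ * rx := by
      rw [← hcz]
      rw [← Matrix.mul_assoc, ← Matrix.mul_assoc, hcc, Matrix.one_mul]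
    have hxC : rx * c3ᵀ = c3ᵀ * ry := by
      rw [← hcx]
      rw [← Matrix.mul_assoc, ← Matrix.mul_assoc, hcc, Matrix.one_mul]
    have hyC : ry * c3ᵀ = c3ᵀ * rz := by
      rw [← hcy]
      rw [← Matrix.mul_assoc, ← Matrix.mul_assoc, hcc, Matrix.one_mul]
    have hinter : ((1 / 4 : ℝ) • (1 + (-1 : ℝ) • X + (-1 : ℝ) • Y + (1 : ℝ) • Z)) *
        glob N c3ᵀ = glob N c3ᵀ *
          ((1 / 4 : ℝ) • (1 + (1 : ℝ) • X + (-1 : ℝ) • Y + (-1 : ℝ) • Z)) := by
      simp only [Matrix.smul_mul, Matrix.mul_smul, Matrix.add_mul, Matrix.mul_add, Matrix.one_mul,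
        Matrix.mul_one, hX, hY, hZ, ← glob_mul, hzC, hxC, hyC]
      module
    set Px := ((1 / 4 : ℝ) • (1 + (1 : ℝ) • X + (-1 : ℝ) • Y + (-1 : ℝ) • Z)) with hPx
    refine ⟨glob N c3ᵀ *ᵥ (Px *ᵥ v), ?_, ?_, ?_⟩
    · intro h0
      apply h3
      have h4 : glob N c3 *ᵥ (glob N c3ᵀ *ᵥ (Px *ᵥ v)) = 0 := by rw [h0, mulVec_zero]
      rwa [mulVec_mulVec, ← glob_mul, hc.1, glob_one, one_mulVec] at h4
    · rw [mulVec_mulVec, hinter, ← mulVec_mulVec, mulVec_mulVec v Px Px,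
        (key 1 (-1) (-1) (by norm_num) (by norm_num) (by norm_num) (by norm_num)
          (by norm_num) (by norm_num)).2]
    · rw [mulVec_mulVec, ← hCH.eq, ← mulVec_mulVec, hstep, mulVec_smul]
  by_cases h4 : ((1 / 4 : ℝ) • (1 + (-1 : ℝ) • X + (1 : ℝ) • Y + (-1 : ℝ) • Z)) *ᵥ v = 0
  swap
  · have hCH : Commute (glob N c3) (HR N 1) := glob_comm_HR N 1 _ hc (by simp)
    have hzC : rz * c3 = c3 * ry := by
      rw [← hcy]
      rw [Matrix.mul_assoc, hcc, Matrix.mul_one]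
    have hxC : rx * c3 = c3 * rz := by
      rw [← hcz]
      rw [Matrix.mul_assoc, hcc, Matrix.mul_one]
    have hyC : ry * c3 = c3 * rx := by
      rw [← hcx]
      rw [Matrix.mul_assoc, hcc, Matrix.mul_one]
    have hinter : ((1 / 4 : ℝ) • (1 + (-1 : ℝ) • X + (-1 : ℝ) • Y + (1 : ℝ) • Z)) *
        glob N c3 = glob N c3 *
          ((1 / 4 : ℝ) • (1 + (-1 : ℝ) • X + (1 : ℝ) • Y + (-1 : ℝ) • Z)) := by
      simp only [Matrix.smul_mul, Matrix.mul_smul, Matrix.add_mul, Matrix.mul_add, Matrix.one_mul,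
        Matrix.mul_one, hX, hY, hZ, ← glob_mul, hzC, hxC, hyC]
      module
    set Py := ((1 / 4 : ℝ) • (1 + (-1 : ℝ) • X + (1 : ℝ) • Y + (-1 : ℝ) • Z)) with hPy
    refine ⟨glob N c3 *ᵥ (Py *ᵥ v), ?_, ?_, ?_⟩
    · intro h0
      apply h4
      have h5 : glob N c3ᵀ *ᵥ (glob N c3 *ᵥ (Py *ᵥ v)) = 0 := by rw [h0, mulVec_zero]
      rwa [mulVec_mulVec, ← glob_mul, hcc, glob_one, one_mulVec] at h5
    · rw [mulVec_mulVec, hinter, ← mulVec_mulVec, mulVec_mulVec v Py Py,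
        (key (-1) 1 (-1) (by norm_num) (by norm_num) (by norm_num) (by norm_num)
          (by norm_num) (by norm_num)).2]
    · rw [mulVec_mulVec, ← hCH.eq, ← mulVec_mulVec, hstep, mulVec_smul]
  exfalso
  apply hv
  have h5 : (1 : Matrix (Cfg N) (Cfg N) ℝ) =
      ((1 / 4 : ℝ) • (1 + (1 : ℝ) • X + (1 : ℝ) • Y + (1 : ℝ) • Z)) +
      ((1 / 4 : ℝ) • (1 + (-1 : ℝ) • X + (-1 : ℝ) • Y + (1 : ℝ) • Z)) +
      ((1 / 4 : ℝ) • (1 + (1 : ℝ) • X + (-1 : ℝ) • Y + (-1 : ℝ) • Z)) +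
      ((1 / 4 : ℝ) • (1 + (-1 : ℝ) • X + (1 : ℝ) • Y + (-1 : ℝ) • Z)) := by
    module
  rw [← one_mulVec v, h5, add_mulVec, add_mulVec, add_mulVec, h1, h2, h3, h4]
  simp

/-- the untwisted one: ground energy E0 attained; V-invariant part and χ-part -/
theorem time_split (N : ℕ) [NeZero N] :
    ∃ (k l : ℕ) (E : Fin k → ℝ) (F : Fin l → ℝ),
      (∀ i, E0 N ≤ E i) ∧ (∀ i, E0 N ≤ F i) ∧
      ((∃ i, E i = E0 N) ∨ (∃ i, F i = E0 N)) ∧
      (∀ β : ℝ, 0 < β → (ZZ N 1 1 β + 3 * ZZ N rz 1 β) / 4 = ∑ i, Real.exp (-(β * E i))) ∧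
      (∀ β : ℝ, 0 < β → (ZZ N 1 1 β - ZZ N rz 1 β) / 4 = ∑ i, Real.exp (-(β * F i))) ∧
      (∀ x : ℝ, (∃ v : Cfg N → ℝ, v ≠ 0 ∧ HR N 1 *ᵥ v = x • v) →
        (∃ i, E i = x) ∨ (∃ i, F i = x)) := by
  obtain ⟨hx1, hx2, hx3⟩ := time_rx
  obtain ⟨hy1, hy2, hy3⟩ := time_ry
  obtain ⟨hz1, hz2, hz3⟩ := time_rz
  obtain ⟨hxy, hyx, hyz, hzy, hzx, hxz⟩ := time_rr
  obtain ⟨hc, hcc, hcz, hcx, hcy⟩ := time_c3
  have hH := HR_isSymm N 1 time_one_rot
  have key := fun s t u hs ht hu hst htu hus => time_klein (X := glob N rx) (Y := glob N ry)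
    (Z := glob N rz)
    (by rw [glob_transpose, hx1]) (by rw [glob_transpose, hy1])
    (by rw [glob_transpose, hz1]) (by rw [← glob_mul, hx2, glob_one])
    (by rw [← glob_mul, hy2, glob_one]) (by rw [← glob_mul, hz2, glob_one])
    (by rw [← glob_mul, hxy]) (by rw [← glob_mul, hyx])
    (by rw [← glob_mul, hyz]) (by rw [← glob_mul, hzy])
    (by rw [← glob_mul, hzx]) (by rw [← glob_mul, hxz])
    s t u hs ht hu hst htu hus
  have hcX : Commute (glob N rx) (HR N 1) := glob_comm_HR N 1 rx hx3 (by simp)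
  have hcY : Commute (glob N ry) (HR N 1) := glob_comm_HR N 1 ry hy3 (by simp)
  have hcZ : Commute (glob N rz) (HR N 1) := glob_comm_HR N 1 rz hz3 (by simp)
  have hcP : ∀ s t u : ℝ, Commute
      ((1 / 4 : ℝ) • (1 + s • glob N rx + t • glob N ry + u • glob N rz)) (HR N 1) := by
    intro s t u
    exact ((((Commute.one_left _).add_left (hcX.smul_left s)).add_left (hcY.smul_left t)).add_left
      (hcZ.smul_left u)).smul_left _
  have k1 := key 1 1 1 (by norm_num) (by norm_num) (by norm_num) (by norm_num)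
      (by norm_num) (by norm_num)
  have k2 := key (-1) (-1) 1 (by norm_num) (by norm_num) (by norm_num) (by norm_num)
      (by norm_num) (by norm_num)
  obtain ⟨k, E, hE1, hE2, hE3⟩ := time_proj hH k1.1 k1.2 (hcP 1 1 1)
  obtain ⟨l, F, hF1, hF2, hF3⟩ := time_proj hH k2.1 k2.2 (hcP (-1) (-1) 1)
  have hlow : ∀ (x : ℝ) (v : Cfg N → ℝ), v ≠ 0 → HR N 1 *ᵥ v = x • v → E0 N ≤ x := by
    intro x v hv hx
    apply time_E0_le N v hv x
    rw [hx, dotProduct_smul, smul_eq_mul]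
  have hcov : ∀ x : ℝ, (∃ v : Cfg N → ℝ, v ≠ 0 ∧ HR N 1 *ᵥ v = x • v) →
        (∃ i, E i = x) ∨ (∃ i, F i = x) := by
    rintro x ⟨v, hv, hx⟩
    rcases time_cover N hv hx with ⟨w, hw, hPw, hHw⟩ | ⟨w, hw, hPw, hHw⟩
    · left; exact hE3 x w hw hPw hHw
    · right; exact hF3 x w hw hPw hHw
  have hZx : ∀ β, ZZ N rx 1 β = ZZ N rz 1 β := by
    intro β
    have := ZZ_conj N rz 1 c3 hc β
    rwa [hcz, Matrix.mul_one, hc.1] at this
  have hZy : ∀ β, ZZ N ry 1 β = ZZ N rz 1 β := by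
    intro β
    have := ZZ_conj N rx 1 c3 hc β
    rw [hcx, Matrix.mul_one, hc.1] at this
    rw [this, hZx]
  refine ⟨k, l, E, F, ?_, ?_, ?_, ?_, ?_, hcov⟩
  · intro i
    obtain ⟨v, hv, -, hx⟩ := hE1 i
    exact hlow _ v hv hx
  · intro i
    obtain ⟨v, hv, -, hx⟩ := hF1 i
    exact hlow _ v hv hx
  · apply hcov
    obtain ⟨i, hi⟩ := exists_eq_ciInf_of_finite (f := hH.eigenvalues)
    refine ⟨⇑(hH.eigenvectorBasis i), ?_, ?_⟩
    · intro h0
      have h1 := hH.eigenvectorBasis.orthonormal.ne_zero i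
      apply h1
      ext j
      exact congrFun h0 j
    · have : E0 N = hH.eigenvalues i := hi.symm
      rw [this]
      exact hH.mulVec_eigenvectorBasis i
  · intro β _
    rw [← hE2 β, Matrix.smul_mul, trace_smul, Matrix.add_mul, Matrix.add_mul, Matrix.add_mul,
      trace_add, trace_add, trace_add]
    have e1 := hZx β
    have e2 := hZy β
    simp only [ZZ, glob_one] at e1 e2 ⊢
    simp only [one_smul, e1, e2, smul_eq_mul]
    ring
  · intro β _
    rw [← hF2 β, Matrix.smul_mul, trace_smul, Matrix.add_mul, Matrix.add_mul, Matrix.add_mul,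
      trace_add, trace_add, trace_add]
    have e1 := hZx β
    have e2 := hZy β
    simp only [ZZ, glob_one] at e1 e2 ⊢
    simp only [neg_smul, one_smul, Matrix.neg_mul, trace_neg, e1, e2, smul_eq_mul]
    ring

/-- Rayleigh: the ground energy is at most any Rayleigh quotient -/
theorem E0_le_rayleigh (N : ℕ) [NeZero N] (v : Cfg N → ℝ) (hv : v ≠ 0) (x : ℝ)
    (h : v ⬝ᵥ (HR N 1 *ᵥ v) ≤ x * (v ⬝ᵥ v)) : E0 N ≤ x := time_E0_le N v hv x h

end P348
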