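import Vale.Agent.Lib.P348.BrC
import Vale.Agent.Lib.P348.Time

/-!
P348 bridge, part D: from a uniform gap of the real matrices `HR N 1`, `N ≥ N₀`, to the statement of
the problem.
-/

namespace P348.Problem

open Matrix

section general

variable {ι : Type} [Fintype ι] [DecidableEq ι]

theorem eigR_eq {A : Matrix ι ι ℝ} (hA : A.IsHermitian) :
    eigR A = Set.range hA.eigenvalues := by
  ext x
  constructor
  · rintro ⟨v, hv0, hv⟩
    rw [← hA.spectrum_real_eq_range_eigenvalues, spectrum.mem_iff]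
    intro hu
    apply hv0
    obtain ⟨B, hB⟩ := hu.exists_left_inv
    have h1 : (algebraMap ℝ (Matrix ι ι ℝ) x - A) *ᵥ v = 0 := by
      rw [sub_mulVec, hv, Algebra.algebraMap_eq_smul_one, smul_mulVec, one_mulVec, sub_self]
    have h2 := congrArg (fun w => B *ᵥ w) h1
    simpa [mulVec_mulVec, hB] using h2
  · rintro ⟨i, rfl⟩
    refine ⟨⇑(hA.eigenvectorBasis i), fun h => ?_, hA.mulVec_eigenvectorBasis i⟩
    have h1 := hA.eigenvectorBasis.orthonormal.ne_zero i
    apply h1
    ext j
    exact congrFun h j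

theorem eigR_finite {A : Matrix ι ι ℝ} (hA : A.IsHermitian) : (eigR A).Finite := by
  rw [eigR_eq hA]
  exact Set.finite_range _

theorem eigR_nonempty [Nonempty ι] {A : Matrix ι ι ℝ} (hA : A.IsHermitian) :
    (eigR A).Nonempty := by
  rw [eigR_eq hA]
  exact Set.range_nonempty _

/-- a real symmetric matrix with a nonzero off-diagonal entry has two eigenvalues -/
theorem exists_ne_eig {A : Matrix ι ι ℝ} (hA : A.IsHermitian) {s t : ι} (hst : s ≠ t)
    (h : A s t ≠ 0) (e : ℝ) : ∃ x ∈ eigR A, x ≠ e := by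
  by_contra hcon
  push Not at hcon
  have h1 : ∀ i, hA.eigenvalues i = e := fun i =>
    hcon _ (by rw [eigR_eq hA]; exact ⟨i, rfl⟩)
  have h2 := hA.spectral_theorem
  have h3 : (RCLike.ofReal ∘ hA.eigenvalues : ι → ℝ) = fun _ => e := by
    funext i
    simp [h1 i]
  rw [h3] at h2
  have h4 : (diagonal (fun _ : ι => e)) = e • (1 : Matrix ι ι ℝ) :=
    (smul_one_eq_diagonal e).symm
  rw [h4, map_smul, map_one] at h2
  rw [h2] at h
  apply h
  rw [Matrix.smul_apply, Matrix.one_apply_ne hst, smul_zero]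

/-- the trace of the exponential -/
theorem trace_exp {A : Matrix ι ι ℝ} (hA : A.IsHermitian) (β : ℝ) :
    (NormedSpace.exp (-(β • A))).trace = ∑ i, Real.exp (-(β * hA.eigenvalues i)) := by
  obtain ⟨U, h1, h2, h3⟩ : ∃ U : Matrix ι ι ℝ, Uᵀ * U = 1 ∧ U * Uᵀ = 1 ∧
      A = U * diagonal hA.eigenvalues * Uᵀ := by
    refine ⟨hA.eigenvectorUnitary, ?_, ?_, ?_⟩
    · have := Unitary.coe_star_mul_self hA.eigenvectorUnitary
      simpa [star_eq_conjTranspose] using this
    · have := Unitary.coe_mul_star_self hA.eigenvectorUnitary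
      simpa [star_eq_conjTranspose] using this
    · have := hA.spectral_theorem
      rw [Unitary.conjStarAlgAut_apply] at this
      have h2 : (RCLike.ofReal ∘ hA.eigenvalues : ι → ℝ) = hA.eigenvalues := by
        funext i; simp
      rw [h2] at this
      simpa [star_eq_conjTranspose] using this
  have hU : U⁻¹ = Uᵀ := inv_eq_left_inv h1
  have hUu : IsUnit U := ⟨⟨U, Uᵀ, h2, h1⟩, rfl⟩
  have h4 : -(β • A) = U * diagonal (fun i => -(β * hA.eigenvalues i)) * U⁻¹ := by
    rw [hU]
    conv_lhs => rw [h3]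
    have h5 : diagonal (fun i => -(β * hA.eigenvalues i)) =
        -(β • diagonal hA.eigenvalues) := by
      ext i j
      by_cases h : i = j
      · subst h; simp
      · simp [h]
    rw [h5]
    simp
  rw [h4, exp_conj _ _ hUu, exp_diagonal, hU, trace_mul_comm, ← Matrix.mul_assoc, h1,
    Matrix.one_mul, trace_diagonal]
  refine Finset.sum_congr rfl fun i _ => ?_
  rw [Pi.exp_def, ← Real.exp_eq_exp_ℝ]

/-- gap from the trace of the exponential -/
theorem gap_of_trace {A : Matrix ι ι ℝ} (hA : A.IsHermitian) {β c x y : ℝ} (hβ : 0 < β)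
    (hx : x ∈ eigR A) (hy : y ∈ eigR A) (hxy : x ≠ y)
    (h : (NormedSpace.exp (-(β • A))).trace ≤ (1 + Real.exp (-(c * β))) * Real.exp (-(β * x))) :
    x + c ≤ y := by
  rw [eigR_eq hA] at hx hy
  obtain ⟨i, rfl⟩ := hx
  obtain ⟨j, rfl⟩ := hy
  have hij : i ≠ j := fun h => hxy (by rw [h])
  rw [trace_exp hA] at h
  have h1 : Real.exp (-(β * hA.eigenvalues i)) + Real.exp (-(β * hA.eigenvalues j)) ≤
      ∑ i, Real.exp (-(β * hA.eigenvalues i)) := by
    rw [← Finset.sum_pair (f := fun i => Real.exp (-(β * hA.eigenvalues i))) hij]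
    exact Finset.sum_le_sum_of_subset_of_nonneg (Finset.subset_univ _)
      (fun k _ _ => (Real.exp_pos _).le)
  have h2 : Real.exp (-(β * hA.eigenvalues j)) ≤
      Real.exp (-(c * β) + -(β * hA.eigenvalues i)) := by
    rw [Real.exp_add]
    linarith
  have h3 := Real.exp_le_exp.mp h2
  have h4 : β * (hA.eigenvalues i + c) ≤ β * hA.eigenvalues j := by linarith
  exact le_of_mul_le_mul_left h4 hβ

end general

/-! ### the Heisenberg matrix is not a scalar -/

theorem HR_offdiag (N : ℕ) [NeZero N] (hN : 2 ≤ N) :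
    HR N 1 (fun _ => 0) (fun z => if z.1 = 0 then 1 else 0) = -1 := by
  have hne : (0 : Fin N) + 1 ≠ 0 := by
    intro h
    have h1 := congrArg Fin.val h
    rw [zero_add, Fin.val_one', Fin.val_zero, Nat.mod_eq_of_lt (by omega)] at h1
    omega
  have hodd : Hodd N 1 (fun _ => 0) (fun z => if z.1 = 0 then 1 else 0) = 0 := by
    rw [Hodd, Matrix.neg_apply, Matrix.sum_apply, neg_eq_zero]
    refine Finset.sum_eq_zero fun i _ => ?_
    rw [Matrix.sum_apply]
    refine Finset.sum_eq_zero fun α _ => ?_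
    rw [tens]
    by_cases hi : i = 0
    · subst hi
      refine Finset.prod_eq_zero (Finset.mem_univ ((0 : Fin N), false)) ?_
      have h1 : (((0 : Fin N), false) : Site N) ≠ (0, true) := by simp
      have h2 : (((0 : Fin N), false) : Site N) ≠ ((0 : Fin N) + 1, false) := by
        intro h
        exact hne (congrArg Prod.fst h).symm
      rw [if_neg h1, if_neg h2]
      simp
    · refine Finset.prod_eq_zero (Finset.mem_univ ((0 : Fin N), true)) ?_
      have h1 : (((0 : Fin N), true) : Site N) ≠ (i, true) := by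
        intro h
        exact hi (congrArg Prod.fst h).symm
      have h2 : (((0 : Fin N), true) : Site N) ≠ (i + 1, false) := by simp
      rw [if_neg h1, if_neg h2]
      simp
  have heven : Heven N (fun _ => 0) (fun z => if z.1 = 0 then 1 else 0) = -1 := by
    rw [Heven, Matrix.neg_apply, Matrix.sum_apply]
    congr 1
    rw [Finset.sum_eq_single (0 : Fin N)]
    · rw [Matrix.sum_apply]
      have h1 : ∀ α : Fin 3, tens (fun s : Site N => if s.1 = 0 then Lg α else 1) (fun _ => 0)
          (fun z => if z.1 = 0 then 1 else 0) = Lg α 0 1 * Lg α 0 1 := by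
        intro α
        rw [tens, Fintype.prod_prod_type, Finset.prod_eq_single (0 : Fin N)]
        · simp [pow_two]
        · intro j _ hj
          refine Finset.prod_eq_one fun b _ => ?_
          show (if j = 0 then Lg α else 1) 0 (if j = 0 then 1 else 0) = 1
          rw [if_neg hj, if_neg hj, Matrix.one_apply_eq]
        · intro h
          exact absurd (Finset.mem_univ _) h
      simp only [h1, Fin.sum_univ_three, Lg_apply]
      simp
    · intro i _ hi
      rw [Matrix.sum_apply]
      refine Finset.sum_eq_zero fun α _ => ?_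
      rw [tens]
      refine Finset.prod_eq_zero (Finset.mem_univ ((0 : Fin N), false)) ?_
      rw [if_neg (fun h => hi h.symm)]
      simp
    · intro h
      exact absurd (Finset.mem_univ _) h
  rw [HR, Matrix.add_apply, hodd, heven, add_zero]

/-! ### the statement of the problem -/

/-- uniform gap of the real matrices -/
def UniformGap : Prop := ∃ c : ℝ, 0 < c ∧ ∃ N₀ : ℕ, ∀ (N : ℕ) [NeZero N], N₀ ≤ N →
  ∀ x y : ℝ, IsLeast (eigR (HR N 1)) x → y ∈ eigR (HR N 1) → x < y → x + c ≤ y

theorem least_two {s : Set ℝ} (hf : s.Finite) (hn : s.Nonempty)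
    (h2 : ∀ e : ℝ, ∃ x ∈ s, x ≠ e) : IsLeast s (sInf s) ∧
      IsLeast {x ∈ s | sInf s < x} (sInf {x ∈ s | sInf s < x}) := by
  have h0 : IsLeast s (sInf s) := ⟨hn.csInf_mem hf, fun x hx => csInf_le hf.bddBelow hx⟩
  have hf1 : {x ∈ s | sInf s < x}.Finite := hf.subset fun x hx => hx.1
  have hn1 : {x ∈ s | sInf s < x}.Nonempty := by
    obtain ⟨x, hx, hne⟩ := h2 (sInf s)
    exact ⟨x, hx, lt_of_le_of_ne (h0.2 hx) hne.symm⟩
  exact ⟨h0, hn1.csInf_mem hf1, fun x hx => csInf_le hf1.bddBelow hx⟩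

theorem ring_least {S : Fin 3 → Matrix (Fin 3) (Fin 3) ℂ} (hS : IsSpinOne S) {L : ℕ}
    (hL : Even L) (hL4 : 4 ≤ L) : IsLeast (eigs (heis S L)) (energy0 S L) ∧
      IsLeast {x ∈ eigs (heis S L) | energy0 S L < x} (energy1 S L) := by
  obtain ⟨N, rfl⟩ : ∃ N, L = N * 2 := by
    obtain ⟨N, hN⟩ := hL
    exact ⟨N, by omega⟩
  have hN : 2 ≤ N := by omega
  have : NeZero N := ⟨by omega⟩
  have hH : (HR N 1).IsHermitian := HR_isSymm N 1 (by constructor <;> simp)
  rw [energy1, energy0, eigs_heis hS]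
  refine least_two (eigR_finite hH) (eigR_nonempty hH) fun e => ?_
  refine exists_ne_eig hH (s := fun _ => 0) (t := fun z => if z.1 = 0 then 1 else 0) ?_ ?_ e
  · intro h
    have := congrFun h ((0 : Fin N), false)
    simp at this
  · rw [HR_offdiag N hN]
    norm_num

theorem small_gap {S : Fin 3 → Matrix (Fin 3) (Fin 3) ℂ} (hS : IsSpinOne S) (K : ℕ) :
    ∃ c : ℝ, 0 < c ∧ ∀ L : ℕ, L < K → Even L → 4 ≤ L → c ≤ gap S L := by
  induction K with
  | zero => exact ⟨1, one_pos, fun L hL => absurd hL (Nat.not_lt_zero L)⟩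
  | succ K ih =>
    obtain ⟨c, hc, h⟩ := ih
    by_cases hK : Even K ∧ 4 ≤ K
    · have hg : 0 < gap S K := by
        have h1 := (ring_least hS hK.1 hK.2).2.1.2
        rw [gap]
        linarith
      refine ⟨min c (gap S K), lt_min hc hg, fun L hL he h4 => ?_⟩
      rcases Nat.lt_succ_iff_lt_or_eq.mp hL with h1 | h1
      · exact (min_le_left _ _).trans (h L h1 he h4)
      · subst h1
        exact min_le_right _ _
    · refine ⟨c, hc, fun L hL he h4 => ?_⟩
      rcases Nat.lt_succ_iff_lt_or_eq.mp hL with h1 | h1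
      · exact h L h1 he h4
      · subst h1
        exact absurd ⟨he, h4⟩ hK

/-- the statement of the problem follows from the uniform gap of the real matrices -/
theorem haldane_of (h : UniformGap) {S : Fin 3 → Matrix (Fin 3) (Fin 3) ℂ}
    (hS : IsSpinOne S) :
    (∀ L : ℕ, Even L → 4 ≤ L → IsLeast (eigs (heis S L)) (energy0 S L) ∧
      IsLeast {x ∈ eigs (heis S L) | energy0 S L < x} (energy1 S L)) ∧
    (∃ c : ℝ, 0 < c ∧ ∀ L : ℕ, Even L → 4 ≤ L → c ≤ gap S L) ∧ 0 < haldaneGap S := by
  have hunif : ∃ c : ℝ, 0 < c ∧ ∀ L : ℕ, Even L → 4 ≤ L → c ≤ gap S L := by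
    obtain ⟨c, hc, N₀, hg⟩ := h
    obtain ⟨c', hc', hs⟩ := small_gap hS (N₀ * 2)
    refine ⟨min c c', lt_min hc hc', fun L he h4 => ?_⟩
    by_cases hL : L < N₀ * 2
    · exact (min_le_right _ _).trans (hs L hL he h4)
    · obtain ⟨h0, h1⟩ := ring_least hS he h4
      obtain ⟨N, rfl⟩ : ∃ N, L = N * 2 := by
        obtain ⟨N, hN⟩ := he
        exact ⟨N, by omega⟩
      have : NeZero N := ⟨by omega⟩
      rw [eigs_heis hS] at h0 h1
      have h2 := hg N (by omega) _ _ h0 h1.1.1 h1.1.2
      rw [gap]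
      have := min_le_left c c'
      linarith
  refine ⟨fun L he h4 => ring_least hS he h4, hunif, ?_⟩
  obtain ⟨c, hc, hg⟩ := hunif
  have h1 : ((c : ℝ) : EReal) ≤ haldaneGap S := by
    refine Filter.le_liminf_of_le ?_ ?_
    · isBoundedDefault
    · rw [Filter.eventually_inf_principal]
      filter_upwards [Filter.eventually_ge_atTop 4] with L hL he
      exact EReal.coe_le_coe_iff.mpr (hg L he hL)
  exact lt_of_lt_of_le (EReal.coe_pos.mpr hc) h1

end P348.Problem
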