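import Vale.Agent.Lib.P348.Contr

/-!
# P348 module ContrX: the final contraction with an explicit constant
-/

namespace P348

namespace Boot

variable (S : Boot)

private theorem ypow_one {β : ℝ} (hβ : 0 < β) (N : ℕ) : 1 ≤ S.y β ^ N :=
  one_le_pow₀ (S.y_one β hβ)

private theorem Xpow_one {β : ℝ} (hβ : 0 < β) {N : ℕ} (hN : 1 ≤ N) : 1 ≤ S.X N ^ β :=
  Real.one_le_rpow (S.X_one N hN) hβ.le

private theorem Z_one {β : ℝ} (hβ : 0 < β) {N : ℕ} (hN : 1 ≤ N) : 1 ≤ S.Z β N :=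
  (S.ypow_one hβ N).trans (S.y_le β N hβ hN)

private theorem Z_between {β : ℝ} (hβ : 0 < β) {N N' : ℕ} (hN : 1 ≤ N) (h1 : N ≤ N')
    (h2 : N' ≤ 2 * N) (hZ : S.Z β N ≤ 2) : S.Z β N' ≤ S.Z β N ^ 2 := by
  have h := S.Z_powS β N N' hβ hN h1
  have hy := S.ypow_one hβ N
  have hyZ := S.y_le β N hβ hN
  have hN0 : (0 : ℝ) < N := by
    have : 0 < N := by omega
    positivity
  have hr : 1 ≤ (N' : ℝ) / N := by
    rw [le_div_iff₀ hN0, one_mul]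
    exact_mod_cast h1
  have ht0 : 0 ≤ S.Z β N - S.y β ^ N := by linarith
  have ht1 : S.Z β N - S.y β ^ N ≤ 1 := by linarith
  have h3 : (S.Z β N - S.y β ^ N) ^ ((N' : ℝ) / N) ≤ S.Z β N - S.y β ^ N := by
    calc (S.Z β N - S.y β ^ N) ^ ((N' : ℝ) / N)
        ≤ (S.Z β N - S.y β ^ N) ^ (1 : ℝ) :=
          Real.rpow_le_rpow_of_exponent_ge' ht0 ht1 zero_le_one hr
      _ = _ := Real.rpow_one _
  have h4 : S.y β ^ N' ≤ (S.y β ^ N) ^ 2 := by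
    rw [← pow_mul]
    exact pow_le_pow_right₀ (S.y_one β hβ) (by omega)
  nlinarith [mul_nonneg (show 0 ≤ S.y β ^ N by linarith) ht0]

end Boot

private theorem boot_iterX (S : Boot) (β₀ : ℝ) (N₀ : ℕ) (q : ℝ) (hβ : 0 < β₀) (hN : 1 ≤ N₀)
    (hq : 0 < q) (hq' : q ≤ 1 / 40) (h : S.Z β₀ N₀ ≤ 1 + q) (k : ℕ) :
    S.Z (2 ^ k * β₀) (2 ^ k * N₀) ≤ 1 + 1 / 32 * (32 * q) ^ (2 ^ k) := by
  induction k with
  | zero =>
    rw [pow_zero, pow_zero, one_mul, one_mul, pow_one]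
    linarith
  | succ k ih =>
    have h2 : (32 * q) ^ (2 ^ k) ≤ 32 * q := by
      have := pow_le_pow_of_le_one (show (0 : ℝ) ≤ 32 * q by positivity) (by linarith)
        (show 1 ≤ 2 ^ k from Nat.one_le_two_pow)
      simpa using this
    have h1 := boot_double S (2 ^ k * β₀) (2 ^ k * N₀) (1 / 32 * (32 * q) ^ (2 ^ k))
      (by positivity) (Nat.mul_pos (by positivity) hN) (by positivity) (by linarith) ih
    have e1 : 2 * (2 ^ k * β₀) = 2 ^ (k + 1) * β₀ := by ring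
    have e2 : 2 * (2 ^ k * N₀) = 2 ^ (k + 1) * N₀ := by ring
    have e3 : 32 * (1 / 32 * (32 * q) ^ (2 ^ k)) ^ 2 = 1 / 32 * (32 * q) ^ (2 ^ (k + 1)) := by
      rw [pow_succ 2 k, pow_mul]
      ring
    rw [e1, e2, e3] at h1
    exact h1

/-- exponential smallness of the excess over the ground state, explicit constant -/
theorem boot_gap_explicit (S : Boot) (β₀ : ℝ) (N₀ : ℕ) (q c : ℝ) (hβ : 0 < β₀) (hN : 1 ≤ N₀)
    (hq : 0 < q) (hq' : q ≤ 1 / 40) (h : S.Z β₀ N₀ ≤ 1 + q)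
    (hc : 32 * q ≤ Real.exp (-(c * β₀))) :
    ∀ N : ℕ, N₀ ≤ N → ∃ β : ℝ, 0 < β ∧
      S.Z β N - S.X N ^ β ≤ Real.exp (-(c * β)) * S.X N ^ β := by
  intro N hNN
  set k := Nat.log 2 (N / N₀) with hk
  have hq0 : N / N₀ ≠ 0 := by
    have : 0 < N / N₀ := Nat.div_pos hNN hN
    omega
  have hk1 : 2 ^ k * N₀ ≤ N := by
    have h1 : 2 ^ k ≤ N / N₀ := Nat.pow_log_le_self 2 hq0
    exact (Nat.le_div_iff_mul_le hN).1 h1
  have hk2 : N ≤ 2 * (2 ^ k * N₀) := by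
    have h1 : N / N₀ < 2 ^ (k + 1) := Nat.lt_pow_succ_log_self (by norm_num) _
    have h2 : N < 2 ^ (k + 1) * N₀ := (Nat.div_lt_iff_lt_mul hN).1 h1
    have e2 : 2 ^ (k + 1) * N₀ = 2 * (2 ^ k * N₀) := by ring
    omega
  have hβk : (0 : ℝ) < 2 ^ k * β₀ := by positivity
  have hNk : 1 ≤ 2 ^ k * N₀ := Nat.mul_pos (by positivity) hN
  have hN1 : 1 ≤ N := hN.trans hNN
  have hit := boot_iterX S β₀ N₀ q hβ hN hq hq' h k
  set r : ℝ := (32 * q) ^ (2 ^ k) with hr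
  have hr0 : 0 ≤ r := by positivity
  have hr1 : r ≤ 1 := pow_le_one₀ (by positivity) (by linarith)
  have hZN := S.Z_between hβk hNk hk1 hk2 (by linarith)
  have hz1 := S.Z_one hβk hNk
  have hZN2 : S.Z (2 ^ k * β₀) N ≤ (1 + 1 / 32 * r) ^ 2 :=
    hZN.trans (pow_le_pow_left₀ (by linarith) hit 2)
  have hX1 := S.Xpow_one hβk hN1
  refine ⟨2 ^ k * β₀, hβk, ?_⟩
  have hexp : r ≤ Real.exp (-(c * (2 ^ k * β₀))) := by
    have e1 : -(c * (2 ^ k * β₀)) = ((2 ^ k : ℕ) : ℝ) * (-(c * β₀)) := by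
      push_cast
      ring
    rw [e1, Real.exp_nat_mul]
    exact pow_le_pow_left₀ (by positivity) hc _
  have h5 : (1 + 1 / 32 * r) ^ 2 - 1 ≤ r := by nlinarith
  have h6 : r ≤ r * S.X N ^ (2 ^ k * β₀) := by nlinarith
  have h7 : r * S.X N ^ (2 ^ k * β₀)
      ≤ Real.exp (-(c * (2 ^ k * β₀))) * S.X N ^ (2 ^ k * β₀) :=
    mul_le_mul_of_nonneg_right hexp (by linarith)
  linarith

end P348
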