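import Vale.Agent.Lib.P348.GapU
import Vale.Agent.Lib.P348.ContrX

/-!
# P348 module BrX: the statement of the problem with an explicit constant
-/

namespace P348

open Matrix

theorem explicit_of (S : Boot) (f : ℝ) (hI : IsInst S f) (β₀ : ℝ) (N₀ : ℕ) (q c : ℝ)
    (hβ : 0 < β₀) (hN : 1 ≤ N₀) (hq : 0 < q) (hq' : q ≤ 1 / 40) (h : S.Z β₀ N₀ ≤ 1 + q)
    (hc : 32 * q ≤ Real.exp (-(c * β₀))) :
    ∀ (N : ℕ) [NeZero N], N₀ ≤ N → ∀ x y : ℝ, IsLeast (Problem.eigR (HR N 1)) x →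
      y ∈ Problem.eigR (HR N 1) → x < y → x + c ≤ y := by
  intro N _ hN0 x y hx hy hxy
  obtain ⟨β, hβ0, hZ⟩ := boot_gap_explicit S β₀ N₀ q c hβ hN hq hq' h hc N hN0
  have hN1 : 1 ≤ N := hN.trans hN0
  have hxe : x = E0 N := hx.unique (E0_isLeast N)
  subst hxe
  obtain ⟨M, rfl⟩ : ∃ M, N = M + 1 := ⟨N - 1, by omega⟩
  rw [hI.Z β (M + 1) hβ0 hN1, hI.X (M + 1) hN1, ← Real.exp_mul] at hZ
  have e1 : (-en (M + 1) - 2 * ((M + 1 : ℕ) : ℝ) * f) * β =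
      -(β * E0 (M + 1)) + -(2 * ((M + 1 : ℕ) : ℝ) * β * f) := by
    show (-E0 (M + 1) - 2 * ((M + 1 : ℕ) : ℝ) * f) * β = _
    ring
  rw [e1, Real.exp_add] at hZ
  have hpos : 0 < Real.exp (-(2 * ((M + 1 : ℕ) : ℝ) * β * f)) := Real.exp_pos _
  have h2 : zz 1 1 β (M + 1) * Real.exp (-(2 * ((M + 1 : ℕ) : ℝ) * β * f)) ≤
      ((1 + Real.exp (-(c * β))) * Real.exp (-(β * E0 (M + 1)))) *
        Real.exp (-(2 * ((M + 1 : ℕ) : ℝ) * β * f)) := by linarith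
  have h3 := le_of_mul_le_mul_right h2 hpos
  refine Problem.gap_of_trace (HR_isSymm (M + 1) 1 (by constructor <;> simp)) hβ0 hx.1 hy
    hxy.ne ?_
  have h4 : zz 1 1 β (M + 1) = (NormedSpace.exp (-(β • HR (M + 1) 1))).trace := by
    show ZZ (M + 1) 1 1 β = _
    rw [ZZ, glob_one, Matrix.one_mul]
  rw [← h4]
  exact h3

namespace Problem

/-- the explicit form: a bound `c` for the gaps of the real matrices `HR N 1`, `N ≥ N₀`, is a bound
for the gaps of all rings of even length `L ≥ 2 N₀` and for `Δ₁` -/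
theorem haldane_explicit (c : ℝ) (N₀ : ℕ)
    (h : ∀ (N : ℕ) [NeZero N], N₀ ≤ N → ∀ x y : ℝ, IsLeast (eigR (HR N 1)) x →
      y ∈ eigR (HR N 1) → x < y → x + c ≤ y)
    {S : Fin 3 → Matrix (Fin 3) (Fin 3) ℂ} (hS : IsSpinOne S) :
    (∀ L : ℕ, Even L → 4 ≤ L → 2 * N₀ ≤ L → c ≤ gap S L) ∧
      ((c : ℝ) : EReal) ≤ haldaneGap S := by
  have hg : ∀ L : ℕ, Even L → 4 ≤ L → 2 * N₀ ≤ L → c ≤ gap S L := by
    intro L he h4 hL
    obtain ⟨h0, h1⟩ := ring_least hS he h4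
    obtain ⟨N, rfl⟩ : ∃ N, L = N * 2 := by
      obtain ⟨N, hN⟩ := he
      exact ⟨N, by omega⟩
    have : NeZero N := ⟨by omega⟩
    rw [eigs_heis hS] at h0 h1
    have h2 := h N (by omega) _ _ h0 h1.1.1 h1.1.2
    rw [gap]
    linarith
  refine ⟨hg, ?_⟩
  refine Filter.le_liminf_of_le ?_ ?_
  · isBoundedDefault
  · rw [Filter.eventually_inf_principal]
    filter_upwards [Filter.eventually_ge_atTop 4, Filter.eventually_ge_atTop (2 * N₀)]
      with L hL hL2 he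
    exact EReal.coe_le_coe_iff.mpr (hg L he hL hL2)

end Problem

end P348
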