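import Vale.Agent.Lib.P348.Checker

/-!
# P348 module CheckTrie: the trie is a correct finite map; validity of init; reading a fact
get/set by induction on the fuel (12 bits, keys < 4096).
-/

namespace P348

theorem get_set_same (n : ℕ) (s : Tr) (k v : ℕ) : (Tr.set n s k v).get n k = some v := by
  induction n generalizing s k with
  | zero => cases s <;> rfl
  | succ n ih =>
    cases s with
    | nil =>
      by_cases h : k % 2 = 0
      · simp [Tr.set, Tr.get, h, ih]
      · simp [Tr.set, Tr.get, h, ih]
    | node w l r =>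
      by_cases h : k % 2 = 0
      · simp [Tr.set, Tr.get, h, ih]
      · simp [Tr.set, Tr.get, h, ih]

theorem get_set_ne (n : ℕ) (s : Tr) (k k' v : ℕ) (hk : k < 2 ^ n) (hk' : k' < 2 ^ n)
    (h : k' ≠ k) : (Tr.set n s k v).get n k' = s.get n k' := by
  induction n generalizing s k k' with
  | zero =>
    exfalso
    simp at hk hk'
    omega
  | succ n ih =>
    have e1 : k / 2 < 2 ^ n := by
      rw [pow_succ] at hk
      omega
    have e2 : k' / 2 < 2 ^ n := by
      rw [pow_succ] at hk'
      omega
    cases s with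
    | nil =>
      by_cases h1 : k % 2 = 0 <;> by_cases h2 : k' % 2 = 0
      · have h3 : k' / 2 ≠ k / 2 := by omega
        simp [Tr.set, Tr.get, h1, h2, ih .nil (k / 2) (k' / 2) e1 e2 h3]
      · simp [Tr.set, Tr.get, h1, h2]
      · simp [Tr.set, Tr.get, h1, h2]
      · have h3 : k' / 2 ≠ k / 2 := by omega
        simp [Tr.set, Tr.get, h1, h2, ih .nil (k / 2) (k' / 2) e1 e2 h3]
    | node w l r =>
      by_cases h1 : k % 2 = 0 <;> by_cases h2 : k' % 2 = 0
      · have h3 : k' / 2 ≠ k / 2 := by omega
        simp [Tr.set, Tr.get, h1, h2, ih l (k / 2) (k' / 2) e1 e2 h3]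
      · simp [Tr.set, Tr.get, h1, h2]
      · simp [Tr.set, Tr.get, h1, h2]
      · have h3 : k' / 2 ≠ k / 2 := by omega
        simp [Tr.set, Tr.get, h1, h2, ih r (k / 2) (k' / 2) e1 e2 h3]

theorem valid_set (S : Boot) (s : Tr) (k v : ℕ) (hk : k < 4096) (hs : Valid S s)
    (h : HoldsK S k v) : Valid S (Tr.set 12 s k v) := by
  intro k' v' hk' hg
  by_cases hkk : k' = k
  · subst hkk
    rw [get_set_same] at hg
    have : v = v' := Option.some.inj hg
    rwa [← this]
  · rw [get_set_ne 12 s k k' v (by omega) (by omega) hkk] at hg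
    exact hs k' v' hk' hg

theorem valid_init (S : Boot) (s : Tr) (l : List (ℕ × ℕ)) (hs : Valid S s)
    (hl : ∀ p ∈ l, p.1 < 4096 ∧ HoldsK S p.1 p.2) : Valid S (initC s l) := by
  induction l generalizing s with
  | nil => exact hs
  | cons p l ih =>
    show Valid S (initC (Tr.set 12 s p.1 p.2) l)
    have hp := hl p (List.mem_cons_self ..)
    exact ih _ (valid_set S s p.1 p.2 hp.1 hs hp.2)
      (fun q hq => hl q (List.mem_cons_of_mem _ hq))

/-- reading: facts stored at (kind, j, i), i, j < 16, kind < 16, are true -/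
theorem valid_get (S : Boot) (s : Tr) (hs : Valid S s) (kind j i v : ℕ) (hkind : kind < 16)
    (hj : j < 16) (hi : i < 16) (h : gt s kind j i = some v) : Holds S kind j i v := by
  have h1 := hs (key kind j i) v (by unfold key; omega) h
  unfold HoldsK at h1
  have e1 : key kind j i / 256 = kind := by unfold key; omega
  have e2 : key kind j i / 16 % 16 = j := by unfold key; omega
  have e3 : key kind j i % 16 = i := by unfold key; omega
  rw [e1, e2, e3] at h1
  exact h1

end P348
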