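/-!
# P348 module CheckerC: the bootstrap certificate checker (definitions)

All bounds are natural numbers over the denominator `DD = 10^9`.  Keys: kind * 256 + j * 16 + i, where
β = BQ[j]/4 and N = NL[i].  Kinds (all UPPER bounds, meaning in `Holds`):
0: y β (i = 0);  1: (X N)^(1/4) (j = 0);  2: Z;  3: A;  4: t;  5: B;  6: Z - y^N;
7: (Z+3A+8t)/12 - y^N;  8: (Z+3A-4t)/12;  9: (Z-A)/4;  10: Z - X^β;  11: (Z+3B)/4 - X^β;  12: (Z-B)/4;
13: flag: some Z β M < 2 (i = 0);  14: flag: some Z β N < 3 (j = 0).
-/

namespace P348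

/-- common denominator -/
def DD : Nat := 1000000000

/-- the values of N -/
def NL : List Nat := [4, 8, 12, 16, 24, 32, 48, 64, 96, 128]

/-- the values of 4 β -/
def BQ : List Nat := [16, 20, 25, 32, 40, 50, 64, 80, 100, 128, 160, 200, 256, 320, 400, 512]

/-- N of index i -/
def nn (i : Nat) : Nat := NL.getD i 4

/-- 4 β of index j -/
def bq (j : Nat) : Nat := BQ.getD j 16

/-- binary trie of bounds -/
inductive Tr where
  | nil : Tr
  | node : Option Nat → Tr → Tr → Tr

/-- look up, `fuel` bits of the key -/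
def Tr.get : Tr → Nat → Nat → Option Nat
  | .nil, _, _ => none
  | .node v _ _, 0, _ => v
  | .node _ l r, fuel + 1, k => if k % 2 = 0 then l.get fuel (k / 2) else r.get fuel (k / 2)

/-- update -/
def Tr.set : Nat → Tr → Nat → Nat → Tr
  | 0, _, _, v => .node (some v) .nil .nil
  | fuel + 1, .nil, k, v =>
      if k % 2 = 0 then .node none (Tr.set fuel .nil (k / 2) v) .nil
      else .node none .nil (Tr.set fuel .nil (k / 2) v)
  | fuel + 1, .node w l r, k, v =>
      if k % 2 = 0 then .node w (Tr.set fuel l (k / 2) v) r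
      else .node w l (Tr.set fuel r (k / 2) v)

/-- key -/
def key (kind j i : Nat) : Nat := kind * 256 + j * 16 + i

/-- bound stored for a key (12 bits) -/
def gt (s : Tr) (kind j i : Nat) : Option Nat := s.get 12 (key kind j i)

/-- one step of the certificate: rule, indices j i k, claimed value v, hints a b c d -/
structure Stp where
  op : Nat
  j : Nat
  i : Nat
  k : Nat
  v : Nat
  a : Nat
  b : Nat
  c : Nat
  d : Nat

/-- two-group bound -/
def gg (q al T wM wT : Nat) : Nat :=
  if wM ≤ wT then
    (wT * min (3 * T) q + wM * min al (q - min (3 * T) q)) / DD + 1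
  else
    (wT * min (3 * T) (q - min al q) + wM * min al q) / DD + 1

/-- u^p ≤ v^q over DD, i.e. (u/DD)^p ≤ (v/DD)^q -/
def powLe (u p v q : Nat) : Bool := decide (u ^ p * DD ^ q ≤ v ^ q * DD ^ p)

/-- check of a step; the new fact is (kind, j, i) with value v -/
def stepOK (s : Tr) (x : Stp) : Bool :=
  let N := nn x.i
  let b := bq x.j
  match x.op with
  | 0 => match gt s 0 x.j 0, gt s 6 x.j x.i with
    | some y, some e => decide (e ≤ x.v) && decide (y ^ N ≤ (x.v - e) * DD ^ (N - 1))
    | _, _ => false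
  | 1 => match gt s 1 0 x.i, gt s 10 x.j x.i with
    | some y, some e => decide (e ≤ x.v) && decide (y ^ b ≤ (x.v - e) * DD ^ (b - 1))
    | _, _ => false
  | 2 => match gt s 0 x.j 0, gt s 7 x.j x.i, gt s 8 x.j x.i with
    | some y, some a, some e =>
        decide (a + 2 * e ≤ x.v) && decide (y ^ N ≤ (x.v - (a + 2 * e)) * DD ^ (N - 1))
    | _, _, _ => false
  | 3 => match gt s 0 x.j 0, gt s 7 x.j x.i with
    | some y, some a => decide (a ≤ x.v) && decide (y ^ N ≤ (x.v - a) * DD ^ (N - 1))
    | _, _ => false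
  | 4 => match gt s 1 0 x.i, gt s 11 x.j x.i with
    | some y, some a => decide (a ≤ x.v) && decide (y ^ b ≤ (x.v - a) * DD ^ (b - 1))
    | _, _ => false
  | 5 => match gt s 2 x.j x.i with
    | some z => decide (z ≤ x.v)
    | _ => false
  | 6 => match gt s 2 x.j x.i with
    | some z => decide (z ≤ x.v)
    | _ => false
  | 7 => match gt s 2 x.j x.i with
    | some z => decide (z ≤ x.v)
    | _ => false
  | 8 => match gt s 7 x.j x.i, gt s 8 x.j x.i, gt s 9 x.j x.i with
    | some a, some e, some t => decide (a + 2 * e + 3 * t ≤ x.v)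
    | _, _, _ => false
  | 9 => match gt s 11 x.j x.i, gt s 12 x.j x.i with
    | some a, some t => decide (a + 3 * t ≤ x.v)
    | _, _ => false
  | 10 => match gt s 2 x.j x.i with
    | some z => decide (z ≤ x.v + DD)
    | _ => false
  | 11 => match gt s 2 x.j x.i with
    | some z => decide (z ≤ x.v + DD)
    | _ => false
  | 12 => match gt s 13 x.j 0, gt s 6 x.j x.i with
    | some _, some e => decide (e ≤ 3 * x.v)
    | _, _ => false
  | 13 => match gt s 14 0 x.i, gt s 10 x.j x.i with
    | some _, some e => decide (e ≤ 3 * x.v)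
    | _, _ => false
  | 14 => match gt s 2 x.j x.i, gt s 3 x.j x.i, gt s 4 x.j x.i with
    | some z, some a, some t => decide (z + 3 * a + 8 * t ≤ 12 * (x.v + DD))
    | _, _, _ => false
  | 15 => match gt s 2 x.j x.i, gt s 3 x.j x.i with
    | some z, some a => decide (z + 3 * a ≤ 4 * (x.v + DD))
    | _, _ => false
  | 16 => match gt s 2 x.j x.i, gt s 5 x.j x.i with
    | some z, some a => decide (z + 3 * a ≤ 4 * (x.v + DD))
    | _, _ => false
  | 17 => match gt s 13 x.j 0, gt s 2 x.j x.i, gt s 3 x.j x.i with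
    | some _, some z, some a => decide (z + 3 * a ≤ 8 * x.v + 4 * DD)
    | _, _, _ => false
  | 18 => match gt s 13 x.j 0, gt s 2 x.j x.k, gt s 3 x.j x.k with
    | some _, some z, some a => decide ((z + 3 * a) * DD ^ (nn x.k - 1) ≤ 4 * x.v ^ nn x.k)
    | _, _, _ => false
  | 19 => match gt s 13 x.j 0, gt s 2 x.j x.k, gt s 3 x.j x.k, gt s 4 x.j x.k with
    | some _, some z, some a, some t =>
        decide ((z + 3 * a + 8 * t) * DD ^ (nn x.k - 1) ≤ 12 * x.v ^ nn x.k)
    | _, _, _, _ => false
  | 20 => match gt s 14 0 x.i, gt s 2 x.k x.i, gt s 5 x.k x.i with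
    | some _, some z, some a => decide ((z + 3 * a) * DD ^ (bq x.k - 1) ≤ 4 * x.v ^ bq x.k)
    | _, _, _ => false
  | 21 => match gt s 0 x.k 0 with
    | some y => decide (y ≤ x.v) && decide (x.k ≤ x.j) && decide (x.j < 16)
    | _ => false
  | 22 => match gt s 1 0 x.k with
    | some y => decide (y ≤ x.v) && decide (x.k ≤ x.i) && decide (x.i < 10)
    | _ => false
  | 23 => match gt s 7 x.j x.k, gt s 13 x.j 0 with
    | some u, some _ => decide (x.k ≤ x.i) && decide (x.i < 10) && powLe u N x.v (nn x.k)
    | _, _ => false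
  | 24 => match gt s 8 x.j x.k with
    | some u => decide (x.k ≤ x.i) && decide (x.i < 10) && powLe u N x.v (nn x.k)
    | _ => false
  | 25 => match gt s 9 x.j x.k with
    | some u => decide (x.k ≤ x.i) && decide (x.i < 10) && powLe u N x.v (nn x.k)
    | _ => false
  | 26 => match gt s 5 x.j x.k with
    | some u => decide (x.k ≤ x.i) && decide (x.i < 10) && powLe u N x.v (nn x.k)
    | _ => false
  | 27 => match gt s 11 x.k x.i, gt s 14 0 x.i with
    | some u, some _ => decide (x.k ≤ x.j) && decide (x.j < 16) && powLe u b x.v (bq x.k)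
    | _, _ => false
  | 28 => match gt s 12 x.k x.i with
    | some u => decide (x.k ≤ x.j) && decide (x.j < 16) && powLe u b x.v (bq x.k)
    | _ => false
  | 29 => match gt s 3 x.k x.i with
    | some u => decide (x.k ≤ x.j) && decide (x.j < 16) && powLe u b x.v (bq x.k)
    | _ => false
  | 30 => match gt s 4 x.k x.i with
    | some u => decide (x.k ≤ x.j) && decide (x.j < 16) && powLe u b x.v (bq x.k)
    | _ => false
  | 31 => match gt s 13 x.j 0, gt s 0 x.j 0, gt s 2 x.j x.k, gt s 3 x.j x.k, gt s 4 x.j x.k,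
        gt s 7 x.j x.k, gt s 8 x.j x.k, gt s 9 x.j x.k with
    | some _, some y, some z, some A, some t, some a, some e, some u =>
        let M := nn x.k
        let n1 := (z + 3 * A + 8 * t) / 12 + 1
        let n4 := (z + 3 * A) / 4 + 1
        let q := z - x.a
        let aP := min a (min n1 n4 - x.a)
        let eP := min e ((n4 - x.a) / 2 + 1)
        let al := min (a + 2 * e) (n4 - x.a)
        let T := min u (q / 3 + 1)
        decide (x.k ≤ x.i) && decide (x.i < 10) && decide (a ≤ DD) && decide (e ≤ DD) &&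
        decide (u ≤ DD) && decide (DD ≤ x.a) && decide (y ^ M ≤ x.a * DD ^ (M - 1)) &&
        powLe x.a N x.b M && powLe (max aP eP) (N - M) x.c M && powLe T (N - M) x.d M &&
        decide (x.b + gg q al T x.c x.d ≤ x.v)
    | _, _, _, _, _, _, _, _ => false
  | 32 => match gt s 14 0 x.i, gt s 1 0 x.i, gt s 2 x.k x.i, gt s 5 x.k x.i,
        gt s 11 x.k x.i, gt s 12 x.k x.i with
    | some _, some y, some z, some B, some a, some u =>
        let M := bq x.k
        let n4 := (z + 3 * B) / 4 + 1
        let q := z - x.a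
        let al := min a (n4 - x.a)
        let T := min u (q / 3 + 1)
        decide (x.k ≤ x.j) && decide (x.j < 16) && decide (a ≤ DD) &&
        decide (u ≤ DD) && decide (DD ≤ x.a) && decide (y ^ M ≤ x.a * DD ^ (M - 1)) &&
        powLe x.a b x.b M && powLe al (b - M) x.c M && powLe T (b - M) x.d M &&
        decide (x.b + gg q al T x.c x.d ≤ x.v)
    | _, _, _, _, _, _ => false
  | 33 => match gt s 2 x.j x.k with
    | some z => decide (z < 2 * DD)
    | _ => false
  | 34 => match gt s 2 x.k x.i with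
    | some z => decide (z < 3 * DD)
    | _ => false
  | _ => false

/-- kind and position of the new fact of a step -/
def newKey (x : Stp) : Nat :=
  match x.op with
  | 0 => key 2 x.j x.i
  | 1 => key 2 x.j x.i
  | 2 => key 3 x.j x.i
  | 3 => key 4 x.j x.i
  | 4 => key 5 x.j x.i
  | 5 => key 3 x.j x.i
  | 6 => key 4 x.j x.i
  | 7 => key 5 x.j x.i
  | 8 => key 6 x.j x.i
  | 9 => key 10 x.j x.i
  | 10 => key 6 x.j x.i
  | 11 => key 10 x.j x.i
  | 12 => key 9 x.j x.i
  | 13 => key 12 x.j x.i
  | 14 => key 7 x.j x.i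
  | 15 => key 7 x.j x.i
  | 16 => key 11 x.j x.i
  | 17 => key 8 x.j x.i
  | 18 => key 0 x.j 0
  | 19 => key 0 x.j 0
  | 20 => key 1 0 x.i
  | 21 => key 0 x.j 0
  | 22 => key 1 0 x.i
  | 23 => key 7 x.j x.i
  | 24 => key 8 x.j x.i
  | 25 => key 9 x.j x.i
  | 26 => key 5 x.j x.i
  | 27 => key 11 x.j x.i
  | 28 => key 12 x.j x.i
  | 29 => key 3 x.j x.i
  | 30 => key 4 x.j x.i
  | 31 => key 2 x.j x.i
  | 32 => key 2 x.j x.i
  | 33 => key 13 x.j 0
  | _ => key 14 0 x.i

/-- apply one step (only if it checks and the indices are in range) -/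
def doStep (s : Tr) (x : Stp) : Tr :=
  if (decide (x.j < 16) && decide (x.i < 16) && decide (x.k < 16) && stepOK s x) = true then
    Tr.set 12 s (newKey x) x.v
  else s

/-- run a certificate -/
def runC : Tr → List Stp → Tr
  | s, [] => s
  | s, x :: l => runC (doStep s x) l

/-- enter the base facts (key, value) -/
def initC : Tr → List (Nat × Nat) → Tr
  | s, [] => s
  | s, p :: l => initC (Tr.set 12 s p.1 p.2) l

end P348
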