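import Vale.Agent.Lib.P348.Boot
import Vale.Agent.Lib.P348.CheckerC

/-!
# P348 module Checker: meaning of the facts of the bootstrap certificate
-/

namespace P348

/-- meaning of a fact -/
noncomputable def Holds (S : Boot) (kind j i v : ℕ) : Prop :=
  let β : ℝ := (bq j : ℝ) / 4
  let N : ℕ := nn i
  let x : ℝ := (v : ℝ) / DD
  match kind with
  | 0 => S.y β ≤ x
  | 1 => S.X N ^ ((1 : ℝ) / 4) ≤ x
  | 2 => S.Z β N ≤ x
  | 3 => S.A β N ≤ x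
  | 4 => S.t β N ≤ x
  | 5 => S.B β N ≤ x
  | 6 => S.Z β N - S.y β ^ N ≤ x
  | 7 => (S.Z β N + 3 * S.A β N + 8 * S.t β N) / 12 - S.y β ^ N ≤ x
  | 8 => (S.Z β N + 3 * S.A β N - 4 * S.t β N) / 12 ≤ x
  | 9 => (S.Z β N - S.A β N) / 4 ≤ x
  | 10 => S.Z β N - S.X N ^ β ≤ x
  | 11 => (S.Z β N + 3 * S.B β N) / 4 - S.X N ^ β ≤ x
  | 12 => (S.Z β N - S.B β N) / 4 ≤ x
  | 13 => ∃ M : ℕ, 1 ≤ M ∧ S.Z β M < 2
  | 14 => ∃ β₀ : ℝ, 0 < β₀ ∧ S.Z β₀ N < 3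
  | _ => True

/-- meaning of a key -/
noncomputable def HoldsK (S : Boot) (k v : ℕ) : Prop := Holds S (k / 256) (k / 16 % 16) (k % 16) v

/-- all stored facts are true -/
def Valid (S : Boot) (s : Tr) : Prop :=
  ∀ k v : ℕ, k < 4096 → s.get 12 k = some v → HoldsK S k v

end P348
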