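import Mathlib.Algebra.Order.Ring.Star
import Mathlib.Analysis.Convex.SpecificFunctions.Basic
import Mathlib.Tactic.Positivity
import Vale.Agent.Lib.P348.Checker

/-!
# P348 module TwoGroup: the extremal inequality behind rules 31 and 32

Shift lemma.  1 ≤ y ≤ Y, 0 ≤ a, e, u ≤ 1, r ≥ 1.  Let d = Y - y.  Remove mass d from (a, then 2e, then 3u), i.e.
a' = max(a-d,0), then the rest of d from 2e, then from 3u.  Each removed unit of mass decreases
a^r + 2e^r + 3u^r by at most r (derivative r a^(r-1) ≤ r), while Y^r - y^r ≥ r d (Bernoulli, y ≥ 1).  Hence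
y^r + a^r + 2 e^r + 3 u^r ≤ Y^r + a'^r + 2 e'^r + 3 u'^r, and the constraints
y + a ≤ n1, y + a + 2e ≤ n4, y + a + 2e + 3u ≤ z become a' ≤ (n1-Y)⁺, a'+2e' ≤ (n4-Y)⁺, a'+2e'+3u' ≤ (z-Y)⁺.
(If all mass is exhausted, a' = e' = u' = 0 and the inequality is still true: total mass removed ≤ d.)
Then a'^r + 2e'^r ≤ M^(r-1) (a'+2e') with M ≥ a', e', 3u'^r ≤ T^(r-1) 3u' with T ≥ u', and the linear function
wM α + wT τ with α ≤ al, τ ≤ 3T, α + τ ≤ q is maximal at the greedy point.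
-/

namespace P348

/-- tangent line from above on the unit interval -/
theorem twoGroup_small (r s t : ℝ) (hr : 1 ≤ r) (hs : 0 ≤ s) (hst : s ≤ t) (ht : t ≤ 1) :
    t ^ r - s ^ r ≤ r * (t - s) := by
  rcases (le_trans hs hst).eq_or_lt with h0 | h0
  · have hs0 : s = 0 := le_antisymm (hst.trans h0.symm.le) hs
    have ht0 : t = 0 := h0.symm
    rw [hs0, ht0]
    simp
  · have h1 := one_add_mul_self_le_rpow_one_add
      (s := s / t - 1) (by linarith [div_nonneg hs h0.le]) (p := r) hr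
    have h2 : (1 + (s / t - 1)) ^ r = s ^ r / t ^ r := by
      rw [show 1 + (s / t - 1) = s / t by ring, Real.div_rpow hs h0.le]
    rw [h2] at h1
    have htr : 0 < t ^ r := Real.rpow_pos_of_pos h0 r
    rw [le_div_iff₀ htr] at h1
    have h3 : t ^ r = t ^ (r - 1) * t := by
      rw [← Real.rpow_add_one h0.ne' (r - 1)]
      congr 1
      ring
    have h4 : t ^ (r - 1) ≤ 1 := Real.rpow_le_one h0.le ht (by linarith)
    have h5 : (1 + r * (s / t - 1)) * t ^ r = t ^ r + r * t ^ (r - 1) * (s - t) := by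
      rw [h3]
      field_simp
    rw [h5] at h1
    have h6 : r * t ^ (r - 1) * (t - s) ≤ r * 1 * (t - s) := by
      apply mul_le_mul_of_nonneg_right _ (by linarith)
      exact mul_le_mul_of_nonneg_left h4 (by linarith)
    nlinarith

/-- tangent line from below above one -/
theorem twoGroup_large (r y Y : ℝ) (hr : 1 ≤ r) (hy : 1 ≤ y) (hyY : y ≤ Y) :
    r * (Y - y) ≤ Y ^ r - y ^ r := by
  have h0 : 0 < y := by linarith
  have h1 := one_add_mul_self_le_rpow_one_add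
    (s := Y / y - 1) (by linarith [div_nonneg (h0.le.trans hyY) h0.le]) (p := r) hr
  have h2 : (1 + (Y / y - 1)) ^ r = Y ^ r / y ^ r := by
    rw [show 1 + (Y / y - 1) = Y / y by ring, Real.div_rpow (h0.le.trans hyY) h0.le]
  rw [h2] at h1
  have htr : 0 < y ^ r := Real.rpow_pos_of_pos h0 r
  rw [le_div_iff₀ htr] at h1
  have h3 : y ^ r = y ^ (r - 1) * y := by
    rw [← Real.rpow_add_one h0.ne' (r - 1)]
    congr 1
    ring
  have h4 : 1 ≤ y ^ (r - 1) := Real.one_le_rpow hy (by linarith)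
  have h5 : (1 + r * (Y / y - 1)) * y ^ r = y ^ r + r * y ^ (r - 1) * (Y - y) := by
    rw [h3]
    field_simp
  rw [h5] at h1
  have h6 : r * 1 * (Y - y) ≤ r * y ^ (r - 1) * (Y - y) := by
    apply mul_le_mul_of_nonneg_right _ (by linarith)
    exact mul_le_mul_of_nonneg_left h4 (by linarith)
  linarith

theorem shift_lemma (r y Y a e u n1 n4 z : ℝ) (hr : 1 ≤ r) (hy : 1 ≤ y) (hyY : y ≤ Y)
    (ha : 0 ≤ a) (he : 0 ≤ e) (hu : 0 ≤ u) (ha1 : a ≤ 1) (he1 : e ≤ 1) (hu1 : u ≤ 1)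
    (h1 : y + a ≤ n1) (h4 : y + a + 2 * e ≤ n4) (hz : y + a + 2 * e + 3 * u ≤ z) :
    ∃ a' e' u' : ℝ, 0 ≤ a' ∧ 0 ≤ e' ∧ 0 ≤ u' ∧ a' ≤ a ∧ e' ≤ e ∧ u' ≤ u ∧
      a' ≤ max 0 (n1 - Y) ∧ a' + 2 * e' ≤ max 0 (n4 - Y) ∧
      a' + 2 * e' + 3 * u' ≤ max 0 (z - Y) ∧
      y ^ r + a ^ r + 2 * e ^ r + 3 * u ^ r ≤ Y ^ r + a' ^ r + 2 * e' ^ r + 3 * u' ^ r := by
  have key : ∀ a' e' u' : ℝ, 0 ≤ a' → 0 ≤ e' → 0 ≤ u' → a' ≤ a → e' ≤ e → u' ≤ u →
      (a - a') + 2 * (e - e') + 3 * (u - u') ≤ Y - y →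
      y ^ r + a ^ r + 2 * e ^ r + 3 * u ^ r ≤ Y ^ r + a' ^ r + 2 * e' ^ r + 3 * u' ^ r := by
    intro a' e' u' h0a h0e h0u hla hle hlu hsum
    have A := twoGroup_small r a' a hr h0a hla ha1
    have E := twoGroup_small r e' e hr h0e hle he1
    have U := twoGroup_small r u' u hr h0u hlu hu1
    have L := twoGroup_large r y Y hr hy hyY
    have S : r * ((a - a') + 2 * (e - e') + 3 * (u - u')) ≤ r * (Y - y) :=
      mul_le_mul_of_nonneg_left hsum (by linarith)
    linarith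
  rcases le_total (Y - y) a with c1 | c1
  · refine ⟨a - (Y - y), e, u, by linarith, he, hu, by linarith, le_rfl, le_rfl, ?_, ?_, ?_, ?_⟩
    · exact le_max_of_le_right (by linarith)
    · exact le_max_of_le_right (by linarith)
    · exact le_max_of_le_right (by linarith)
    · exact key _ _ _ (by linarith) he hu (by linarith) le_rfl le_rfl (by linarith)
  · rcases le_total (Y - y - a) (2 * e) with c2 | c2
    · refine ⟨0, e - (Y - y - a) / 2, u, le_rfl, by linarith, hu, ha, by linarith, le_rfl,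
        le_max_left _ _, ?_, ?_, ?_⟩
      · exact le_max_of_le_right (by linarith)
      · exact le_max_of_le_right (by linarith)
      · exact key _ _ _ le_rfl (by linarith) hu ha (by linarith) le_rfl (by linarith)
    · rcases le_total (Y - y - a - 2 * e) (3 * u) with c3 | c3
      · refine ⟨0, 0, u - (Y - y - a - 2 * e) / 3, le_rfl, le_rfl, by linarith, ha, he,
          by linarith, le_max_left _ _, ?_, ?_, ?_⟩
        · exact le_max_of_le_left (by linarith)
        · exact le_max_of_le_right (by linarith)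
        · exact key _ _ _ le_rfl le_rfl (by linarith) ha he (by linarith) (by linarith)
      · refine ⟨0, 0, 0, le_rfl, le_rfl, le_rfl, ha, he, hu, le_max_left _ _, ?_, ?_, ?_⟩
        · exact le_max_of_le_left (by linarith)
        · exact le_max_of_le_left (by linarith)
        · exact key _ _ _ le_rfl le_rfl le_rfl ha he hu (by linarith)

/-- greedy bound, real form -/
theorem twoGroup_greedy (q al t wM wT α τ : ℝ) (hM : 0 ≤ wM) (hMT : wM ≤ wT)
    (h1 : α ≤ al) (h2 : τ ≤ t) (h3 : α + τ ≤ q) (hα : 0 ≤ α) :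
    wM * α + wT * τ ≤ wT * min t q + wM * min al (q - min t q) := by
  have hτ : τ ≤ min t q := le_min h2 (by linarith)
  have hT : wT * τ ≤ wT * min t q := mul_le_mul_of_nonneg_left hτ (by linarith)
  rcases le_total al (q - min t q) with c | c
  · rw [min_eq_left c]
    have : wM * α ≤ wM * al := mul_le_mul_of_nonneg_left h1 hM
    linarith
  · rw [min_eq_right c]
    have h5 : wM * α ≤ wM * (q - τ) := mul_le_mul_of_nonneg_left (by linarith) hM
    have h6 : (wT - wM) * τ ≤ (wT - wM) * min t q :=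
      mul_le_mul_of_nonneg_left hτ (by linarith)
    nlinarith

theorem twoGroup_floor (G : ℕ) : (G : ℝ) / DD ≤ ((G / DD + 1 : ℕ) : ℝ) := by
  have hD : 0 < DD := by norm_num [DD]
  have hD' : (0 : ℝ) < DD := by exact_mod_cast hD
  rw [div_le_iff₀ hD']
  have h : G < DD * (G / DD + 1) := Nat.lt_mul_div_succ G hD
  have h' : (G : ℝ) < (DD : ℝ) * ((G / DD + 1 : ℕ) : ℝ) := by exact_mod_cast h
  linarith [mul_comm (DD : ℝ) ((G / DD + 1 : ℕ) : ℝ)]

/-- greedy bound, in natural numbers over DD -/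
theorem greedy (q al T wM wT : ℕ) (α τ : ℝ) (hα : 0 ≤ α) (hτ : 0 ≤ τ)
    (h1 : α ≤ (al : ℝ) / DD) (h2 : τ ≤ 3 * ((T : ℝ) / DD)) (h3 : α + τ ≤ (q : ℝ) / DD) :
    (wM : ℝ) / DD * α + (wT : ℝ) / DD * τ ≤ (gg q al T wM wT : ℝ) / DD := by
  have hD : 0 < DD := by norm_num [DD]
  have hD' : (0 : ℝ) < DD := by exact_mod_cast hD
  have e1 : α * DD ≤ al := by rwa [le_div_iff₀ hD'] at h1
  have e2 : τ * DD ≤ 3 * T := by
    have : τ ≤ (3 * (T : ℝ)) / DD := by rw [mul_div_assoc]; exact h2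
    rwa [le_div_iff₀ hD'] at this
  have e3 : α * DD + τ * DD ≤ q := by
    rw [le_div_iff₀ hD'] at h3
    linarith [add_mul α τ (DD : ℝ)]
  have hα' : 0 ≤ α * DD := mul_nonneg hα hD'.le
  have hτ' : 0 ≤ τ * DD := mul_nonneg hτ hD'.le
  have hred : ∀ G : ℕ, (wM : ℝ) * (α * DD) + wT * (τ * DD) ≤ G →
      (wM : ℝ) / DD * α + (wT : ℝ) / DD * τ ≤ ((G / DD + 1 : ℕ) : ℝ) / DD := by
    intro G hG
    have hfl := twoGroup_floor G
    rw [le_div_iff₀ hD']
    have h7 : ((wM : ℝ) / DD * α + (wT : ℝ) / DD * τ) * DD =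
        ((wM : ℝ) * (α * DD) + wT * (τ * DD)) / DD := by
      field_simp
    rw [h7]
    exact (div_le_div_of_nonneg_right hG hD'.le).trans hfl
  unfold gg
  split_ifs with hc
  · apply hred
    have hq : min (3 * T) q ≤ q := min_le_right _ _
    have g := twoGroup_greedy q al (3 * T) wM wT (α * DD) (τ * DD) (Nat.cast_nonneg _)
      (by exact_mod_cast hc) e1 e2 e3 hα'
    push_cast [Nat.cast_sub hq]
    exact g
  · apply hred
    have hq : min al q ≤ q := min_le_right _ _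
    have g := twoGroup_greedy q (3 * T) al wT wM (τ * DD) (α * DD) (Nat.cast_nonneg _)
      (by exact_mod_cast (not_le.mp hc).le) e2 e1 (by linarith) hτ'
    push_cast [Nat.cast_sub hq]
    linarith

/-- meaning of powLe -/
theorem powLe_real (u p v q : ℕ) (hq : 1 ≤ q) (h : powLe u p v q = true) :
    ((u : ℝ) / DD) ^ ((p : ℝ) / q) ≤ (v : ℝ) / DD := by
  have hD : 0 < DD := by norm_num [DD]
  have hD' : (0 : ℝ) < DD := by exact_mod_cast hD
  have h' : u ^ p * DD ^ q ≤ v ^ q * DD ^ p := of_decide_eq_true h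
  have h'' : (u : ℝ) ^ p * (DD : ℝ) ^ q ≤ (v : ℝ) ^ q * (DD : ℝ) ^ p := by exact_mod_cast h'
  have hu : (0 : ℝ) ≤ (u : ℝ) / DD := div_nonneg (Nat.cast_nonneg _) hD'.le
  have hv : (0 : ℝ) ≤ (v : ℝ) / DD := div_nonneg (Nat.cast_nonneg _) hD'.le
  have h3 : ((u : ℝ) / DD) ^ p ≤ ((v : ℝ) / DD) ^ q := by
    rw [div_pow, div_pow, div_le_div_iff₀ (pow_pos hD' p) (pow_pos hD' q)]
    exact h''
  have hq0 : (q : ℝ) ≠ 0 := by
    have : q ≠ 0 := by omega
    exact_mod_cast this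
  have h4 : ((u : ℝ) / DD) ^ ((p : ℝ) / q) = (((u : ℝ) / DD) ^ p) ^ ((1 : ℝ) / q) := by
    rw [← Real.rpow_natCast, ← Real.rpow_mul hu]
    congr 1
    field_simp
  have h5 : (v : ℝ) / DD = (((v : ℝ) / DD) ^ q) ^ ((1 : ℝ) / q) := by
    rw [← Real.rpow_natCast, ← Real.rpow_mul hv, mul_one_div_cancel hq0, Real.rpow_one]
  rw [h4, h5]
  exact Real.rpow_le_rpow (pow_nonneg hu p) h3 (by positivity)

end P348
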