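import Mathlib.Tactic.IntervalCases
import Vale.Agent.Lib.P348.CheckTrie
import Vale.Agent.Lib.P348.TwoGroup

/-!
# P348 module Rules2: soundness of the power rules 23-30
tau_pow, e_pow, goodS (with the flag 13), B_pow in the N direction; tauT_pow, goodT (flag 14), A_pow, t_pow in the
β direction; monotonicity of x ^ r on x ≥ 0 and `powLe_real`.
-/

namespace P348

private theorem ru2_nn (i k : ℕ) (hi : i < 10) (hk : k ≤ i) : 1 ≤ nn k ∧ nn k ≤ nn i := by
  interval_cases i <;> interval_cases k <;> decide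

private theorem ru2_bq (j k : ℕ) (hj : j < 16) (hk : k ≤ j) : 1 ≤ bq k ∧ bq k ≤ bq j := by
  interval_cases j <;> interval_cases k <;> decide

private theorem ru2_key (S : Boot) (kind j i v : ℕ) (hj : j < 16) (hi : i < 16)
    (h : Holds S kind j i v) : HoldsK S (key kind j i) v := by
  unfold HoldsK key
  have h1 : (kind * 256 + j * 16 + i) / 256 = kind := by omega
  have h2 : (kind * 256 + j * 16 + i) / 16 % 16 = j := by omega
  have h3 : (kind * 256 + j * 16 + i) % 16 = i := by omega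
  rw [h1, h2, h3]
  exact h

/-- the power step -/
private theorem ru2_pow {x0 x1 : ℝ} {u v p q : ℕ} {r : ℝ} (hr : r = (p : ℝ) / q) (hq : 1 ≤ q)
    (h0 : 0 ≤ x0) (hu : x0 ≤ (u : ℝ) / DD) (h1 : x1 ≤ x0 ^ r) (h : powLe u p v q = true) :
    x1 ≤ (v : ℝ) / DD := by
  have hr0 : 0 ≤ r := by
    rw [hr]
    positivity
  have h2 := powLe_real u p v q hq h
  rw [← hr] at h2
  exact h1.trans ((Real.rpow_le_rpow h0 hu hr0).trans h2)

private theorem ru2_ratio (j k : ℕ) (hk : 1 ≤ bq k) :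
    ((bq j : ℝ) / 4) / ((bq k : ℝ) / 4) = (bq j : ℝ) / (bq k : ℝ) := by
  have : (0 : ℝ) < bq k := by exact_mod_cast hk
  field_simp

private theorem ru2_bpos (j : ℕ) (hj : 1 ≤ bq j) : (0 : ℝ) < (bq j : ℝ) / 4 := by
  have : (0 : ℝ) < bq j := by exact_mod_cast hj
  positivity

theorem rules_powS (S : Boot) (s : Tr) (x : Stp) (hs : Valid S s) (hj : x.j < 16) (hi : x.i < 16)
    (hop : 23 ≤ x.op) (hop' : x.op < 27) (h : stepOK s x = true) : HoldsK S (newKey x) x.v := by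
  obtain ⟨op, j, i, k, v, a, b, c, d⟩ := x
  simp only at hj hi hop hop' ⊢
  have hbj : 1 ≤ bq j := (ru2_bq j j hj le_rfl).1
  have hβ := ru2_bpos j hbj
  have hcases : op = 23 ∨ op = 24 ∨ op = 25 ∨ op = 26 := by omega
  rcases hcases with rfl | rfl | rfl | rfl
  · -- rule 23
    simp only [stepOK] at h
    split at h
    · rename_i u u' hu hu'
      simp only [Bool.and_eq_true, decide_eq_true_eq] at h
      obtain ⟨⟨hki, hi10⟩, hpow⟩ := h
      obtain ⟨hk1, hkN⟩ := ru2_nn i k hi10 hki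
      have hF : ∃ M : ℕ, 1 ≤ M ∧ S.Z ((bq j : ℝ) / 4) M < 2 :=
        valid_get S s hs 13 j 0 u' (by norm_num) hj (by norm_num) hu'
      obtain ⟨M, hM, hZ⟩ := hF
      have hH : (S.Z ((bq j : ℝ) / 4) (nn k) + 3 * S.A ((bq j : ℝ) / 4) (nn k) +
          8 * S.t ((bq j : ℝ) / 4) (nn k)) / 12 - S.y ((bq j : ℝ) / 4) ^ (nn k) ≤ (u : ℝ) / DD :=
        valid_get S s hs 7 j k u (by norm_num) hj (by omega) hu
      obtain ⟨g1, g2⟩ := S.goodS _ M hβ hM hZ
      refine ru2_key S 7 j i v hj hi ?_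
      show (S.Z ((bq j : ℝ) / 4) (nn i) + 3 * S.A ((bq j : ℝ) / 4) (nn i) +
          8 * S.t ((bq j : ℝ) / 4) (nn i)) / 12 - S.y ((bq j : ℝ) / 4) ^ (nn i) ≤ (v : ℝ) / DD
      exact ru2_pow rfl hk1 (sub_nonneg.mpr (g1 _ hk1)) hH (g2 _ _ hk1 hkN) hpow
    · simp at h
  · -- rule 24
    simp only [stepOK] at h
    split at h
    · rename_i u hu
      simp only [Bool.and_eq_true, decide_eq_true_eq] at h
      obtain ⟨⟨hki, hi10⟩, hpow⟩ := h
      obtain ⟨hk1, hkN⟩ := ru2_nn i k hi10 hki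
      have hH : (S.Z ((bq j : ℝ) / 4) (nn k) + 3 * S.A ((bq j : ℝ) / 4) (nn k) -
          4 * S.t ((bq j : ℝ) / 4) (nn k)) / 12 ≤ (u : ℝ) / DD :=
        valid_get S s hs 8 j k u (by norm_num) hj (by omega) hu
      refine ru2_key S 8 j i v hj hi ?_
      show (S.Z ((bq j : ℝ) / 4) (nn i) + 3 * S.A ((bq j : ℝ) / 4) (nn i) -
          4 * S.t ((bq j : ℝ) / 4) (nn i)) / 12 ≤ (v : ℝ) / DD
      exact ru2_pow rfl hk1 (S.e_nonneg _ _ hβ hk1) hH (S.e_pow _ _ _ hβ hk1 hkN) hpow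
    · simp at h
  · -- rule 25
    simp only [stepOK] at h
    split at h
    · rename_i u hu
      simp only [Bool.and_eq_true, decide_eq_true_eq] at h
      obtain ⟨⟨hki, hi10⟩, hpow⟩ := h
      obtain ⟨hk1, hkN⟩ := ru2_nn i k hi10 hki
      have hH : (S.Z ((bq j : ℝ) / 4) (nn k) - S.A ((bq j : ℝ) / 4) (nn k)) / 4 ≤ (u : ℝ) / DD :=
        valid_get S s hs 9 j k u (by norm_num) hj (by omega) hu
      refine ru2_key S 9 j i v hj hi ?_
      show (S.Z ((bq j : ℝ) / 4) (nn i) - S.A ((bq j : ℝ) / 4) (nn i)) / 4 ≤ (v : ℝ) / DD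
      exact ru2_pow rfl hk1 (S.tau_nonneg _ _ hβ hk1) hH (S.tau_pow _ _ _ hβ hk1 hkN) hpow
    · simp at h
  · -- rule 26
    simp only [stepOK] at h
    split at h
    · rename_i u hu
      simp only [Bool.and_eq_true, decide_eq_true_eq] at h
      obtain ⟨⟨hki, hi10⟩, hpow⟩ := h
      obtain ⟨hk1, hkN⟩ := ru2_nn i k hi10 hki
      have hH : S.B ((bq j : ℝ) / 4) (nn k) ≤ (u : ℝ) / DD :=
        valid_get S s hs 5 j k u (by norm_num) hj (by omega) hu
      refine ru2_key S 5 j i v hj hi ?_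
      show S.B ((bq j : ℝ) / 4) (nn i) ≤ (v : ℝ) / DD
      exact ru2_pow rfl hk1 (S.B_nonneg _ _ hβ hk1) hH (S.B_pow _ _ _ hβ hk1 hkN) hpow
    · simp at h

private theorem ru2_nn1 (i : ℕ) : 1 ≤ nn i := by
  rcases lt_or_ge i 10 with h | h
  · exact (ru2_nn i i h le_rfl).1
  · have : nn i = 4 := by
      unfold nn NL
      rw [List.getD_eq_getElem?_getD, List.getElem?_eq_none (by simpa using h)]
      rfl
    omega

theorem rules_powT (S : Boot) (s : Tr) (x : Stp) (hs : Valid S s) (hj : x.j < 16) (hi : x.i < 16)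
    (hop : 27 ≤ x.op) (hop' : x.op < 31) (h : stepOK s x = true) : HoldsK S (newKey x) x.v := by
  obtain ⟨op, j, i, k, v, a, b, c, d⟩ := x
  simp only at hj hi hop hop' ⊢
  have hN := ru2_nn1 i
  have hcases : op = 27 ∨ op = 28 ∨ op = 29 ∨ op = 30 := by omega
  have hle : ∀ k : ℕ, bq k ≤ bq j → (bq k : ℝ) / 4 ≤ (bq j : ℝ) / 4 := by
    intro k hk
    have : (bq k : ℝ) ≤ bq j := by exact_mod_cast hk
    linarith
  rcases hcases with rfl | rfl | rfl | rfl
  · -- rule 27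
    simp only [stepOK] at h
    split at h
    · rename_i u u' hu hu'
      simp only [Bool.and_eq_true, decide_eq_true_eq] at h
      obtain ⟨⟨hki, hj16⟩, hpow⟩ := h
      obtain ⟨hk1, hkN⟩ := ru2_bq j k hj hki
      have hF : ∃ β₀ : ℝ, 0 < β₀ ∧ S.Z β₀ (nn i) < 3 :=
        valid_get S s hs 14 0 i u' (by norm_num) (by norm_num) hi hu'
      obtain ⟨β₀, hβ₀, hZ⟩ := hF
      have hH : (S.Z ((bq k : ℝ) / 4) (nn i) + 3 * S.B ((bq k : ℝ) / 4) (nn i)) / 4 -
          S.X (nn i) ^ ((bq k : ℝ) / 4) ≤ (u : ℝ) / DD :=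
        valid_get S s hs 11 k i u (by norm_num) (by omega) hi hu
      obtain ⟨g1, g2⟩ := S.goodT _ β₀ hN hβ₀ hZ
      refine ru2_key S 11 j i v hj hi ?_
      show (S.Z ((bq j : ℝ) / 4) (nn i) + 3 * S.B ((bq j : ℝ) / 4) (nn i)) / 4 -
          S.X (nn i) ^ ((bq j : ℝ) / 4) ≤ (v : ℝ) / DD
      exact ru2_pow (ru2_ratio j k hk1) hk1 (sub_nonneg.mpr (g1 _ (ru2_bpos k hk1))) hH
        (g2 _ _ (ru2_bpos k hk1) (hle k hkN)) hpow
    · simp at h
  · -- rule 28
    simp only [stepOK] at h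
    split at h
    · rename_i u hu
      simp only [Bool.and_eq_true, decide_eq_true_eq] at h
      obtain ⟨⟨hki, hj16⟩, hpow⟩ := h
      obtain ⟨hk1, hkN⟩ := ru2_bq j k hj hki
      have hH : (S.Z ((bq k : ℝ) / 4) (nn i) - S.B ((bq k : ℝ) / 4) (nn i)) / 4 ≤ (u : ℝ) / DD :=
        valid_get S s hs 12 k i u (by norm_num) (by omega) hi hu
      refine ru2_key S 12 j i v hj hi ?_
      show (S.Z ((bq j : ℝ) / 4) (nn i) - S.B ((bq j : ℝ) / 4) (nn i)) / 4 ≤ (v : ℝ) / DD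
      exact ru2_pow (ru2_ratio j k hk1) hk1 (S.tauT_nonneg _ _ (ru2_bpos k hk1) hN) hH
        (S.tauT_pow _ _ _ (ru2_bpos k hk1) (hle k hkN) hN) hpow
    · simp at h
  · -- rule 29
    simp only [stepOK] at h
    split at h
    · rename_i u hu
      simp only [Bool.and_eq_true, decide_eq_true_eq] at h
      obtain ⟨⟨hki, hj16⟩, hpow⟩ := h
      obtain ⟨hk1, hkN⟩ := ru2_bq j k hj hki
      have hH : S.A ((bq k : ℝ) / 4) (nn i) ≤ (u : ℝ) / DD :=
        valid_get S s hs 3 k i u (by norm_num) (by omega) hi hu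
      refine ru2_key S 3 j i v hj hi ?_
      show S.A ((bq j : ℝ) / 4) (nn i) ≤ (v : ℝ) / DD
      exact ru2_pow (ru2_ratio j k hk1) hk1 (S.A_nonneg _ _ (ru2_bpos k hk1) hN) hH
        (S.A_pow _ _ _ (ru2_bpos k hk1) (hle k hkN) hN) hpow
    · simp at h
  · -- rule 30
    simp only [stepOK] at h
    split at h
    · rename_i u hu
      simp only [Bool.and_eq_true, decide_eq_true_eq] at h
      obtain ⟨⟨hki, hj16⟩, hpow⟩ := h
      obtain ⟨hk1, hkN⟩ := ru2_bq j k hj hki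
      have hH : S.t ((bq k : ℝ) / 4) (nn i) ≤ (u : ℝ) / DD :=
        valid_get S s hs 4 k i u (by norm_num) (by omega) hi hu
      refine ru2_key S 4 j i v hj hi ?_
      show S.t ((bq j : ℝ) / 4) (nn i) ≤ (v : ℝ) / DD
      exact ru2_pow (ru2_ratio j k hk1) hk1 (S.t_nonneg _ _ (ru2_bpos k hk1) hN) hH
        (S.t_pow _ _ _ (ru2_bpos k hk1) (hle k hkN) hN) hpow
    · simp at h

end P348
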