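import Vale.Agent.Lib.P348.CheckTrie
import Vale.Agent.Lib.P348.TwoGroup

/-!
# P348 module Rules3: soundness of the two-group rules 31 (space) and 32 (time)
Rule 31: with r = N/M, y0 = y^M, a = n1(M) - y0, e, u = τ(M): Z(N) = n1(N) + 2e(N) + 3τ(N) ≤
y0^r + a^r + 2e^r + 3u^r (goodS, e_pow, tau_pow), then shift_lemma with Y = x.a/DD and greedy.
Rule 32: the same in the time direction with e = 0: y0 = X^β, r = β'/β, a = nT - y0, u = τT.
-/

namespace P348

private theorem r3_DD : (0 : ℝ) < DD := by norm_num [DD]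

private theorem r3_sub (n m : ℕ) : ((n - m : ℕ) : ℝ) / DD = max 0 ((n : ℝ) / DD - (m : ℝ) / DD) := by
  have hD := r3_DD
  rcases le_total m n with h | h
  · rw [Nat.cast_sub h, sub_div, max_eq_right]
    rw [sub_nonneg]
    exact div_le_div_of_nonneg_right (by exact_mod_cast h) hD.le
  · rw [Nat.sub_eq_zero_of_le h, max_eq_left]
    · simp
    · rw [sub_nonpos]
      exact div_le_div_of_nonneg_right (by exact_mod_cast h) hD.le

private theorem r3_min (n m : ℕ) (x : ℝ) (h1 : x ≤ (n : ℝ) / DD) (h2 : x ≤ (m : ℝ) / DD) :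
    x ≤ ((min n m : ℕ) : ℝ) / DD := by
  rcases le_total n m with h | h
  · rwa [min_eq_left h]
  · rwa [min_eq_right h]

private theorem r3_div (n k : ℕ) (hk : 0 < k) (x : ℝ) (h : (k : ℝ) * x ≤ (n : ℝ) / DD) :
    x ≤ ((n / k + 1 : ℕ) : ℝ) / DD := by
  have hD := r3_DD
  have hk' : (0 : ℝ) < k := by exact_mod_cast hk
  have h1 : (n : ℝ) ≤ k * ((n / k + 1 : ℕ) : ℝ) := by
    have h2 : n < k * (n / k + 1) := Nat.lt_mul_div_succ n hk
    exact_mod_cast h2.le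
  rw [le_div_iff₀ hD]
  rw [le_div_iff₀ hD] at h
  have h3 : k * (x * DD) ≤ k * ((n / k + 1 : ℕ) : ℝ) := by
    calc (k : ℝ) * (x * DD) = k * x * DD := by ring
      _ ≤ n := h
      _ ≤ _ := h1
  exact le_of_mul_le_mul_left h3 hk'

private theorem r3_pow (x : ℝ) (hx : 0 ≤ x) (M N : ℕ) (hM : 1 ≤ M) (hMN : M ≤ N) :
    x ^ ((N : ℝ) / M) = x ^ (((N - M : ℕ) : ℝ) / M) * x := by
  have hM' : (0 : ℝ) < M := by exact_mod_cast hM
  have h1 : (N : ℝ) / M = ((N - M : ℕ) : ℝ) / M + 1 := by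
    rw [Nat.cast_sub hMN]
    field_simp
    ring
  have h0 : (0 : ℝ) ≤ ((N - M : ℕ) : ℝ) / M := by positivity
  rw [h1]
  rcases hx.eq_or_lt with h | h
  · rw [← h, mul_zero, Real.zero_rpow (by linarith)]
  · rw [Real.rpow_add_one h.ne']

private theorem r3_core (y0 a0 e0 u0 : ℝ) (M N xa xb xc xd a e u n1 n4 z : ℕ)
    (hM : 1 ≤ M) (hMN : M ≤ N) (hy : 1 ≤ y0) (ha : 0 ≤ a0) (he : 0 ≤ e0) (hu : 0 ≤ u0)
    (hyY : y0 ≤ (xa : ℝ) / DD) (haD : a0 ≤ (a : ℝ) / DD) (heD : e0 ≤ (e : ℝ) / DD)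
    (huD : u0 ≤ (u : ℝ) / DD) (a1 : a ≤ DD) (e1 : e ≤ DD) (u1 : u ≤ DD)
    (h1 : y0 + a0 ≤ (n1 : ℝ) / DD) (h4 : y0 + a0 + 2 * e0 ≤ (n4 : ℝ) / DD)
    (hz : y0 + a0 + 2 * e0 + 3 * u0 ≤ (z : ℝ) / DD)
    (hb : powLe xa N xb M = true)
    (hc : powLe (max (min a (min n1 n4 - xa)) (min e ((n4 - xa) / 2 + 1))) (N - M) xc M = true)
    (hd : powLe (min u ((z - xa) / 3 + 1)) (N - M) xd M = true) :
    y0 ^ ((N : ℝ) / M) + a0 ^ ((N : ℝ) / M) + 2 * e0 ^ ((N : ℝ) / M) + 3 * u0 ^ ((N : ℝ) / M) ≤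
      ((xb + gg (z - xa) (min (a + 2 * e) (n4 - xa)) (min u ((z - xa) / 3 + 1)) xc xd : ℕ) : ℝ)
        / DD := by
  have hD := r3_DD
  have hM' : (0 : ℝ) < M := by exact_mod_cast hM
  have hr : 1 ≤ (N : ℝ) / M := by
    rw [le_div_iff₀ hM', one_mul]; exact_mod_cast hMN
  have hle1 : ∀ (n : ℕ) (x : ℝ), x ≤ (n : ℝ) / DD → n ≤ DD → x ≤ 1 := by
    intro n x h2 h3
    refine h2.trans ?_
    rw [div_le_one hD]
    exact_mod_cast h3
  obtain ⟨a', e', u', ha', he', hu', haa, hee, huu, ha2, he2, hu2, hmain⟩ :=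
    shift_lemma ((N : ℝ) / M) y0 ((xa : ℝ) / DD) a0 e0 u0 ((n1 : ℝ) / DD) ((n4 : ℝ) / DD)
      ((z : ℝ) / DD) hr hy hyY ha he hu (hle1 a a0 haD a1) (hle1 e e0 heD e1) (hle1 u u0 huD u1)
      h1 h4 hz
  rw [← r3_sub] at ha2 he2 hu2
  -- bounds on a', e', u'
  have ba : a' ≤ ((min a (min n1 n4 - xa) : ℕ) : ℝ) / DD := by
    apply r3_min
    · exact haa.trans haD
    · rcases le_total n1 n4 with h | h
      · rw [min_eq_left h]; exact ha2
      · rw [min_eq_right h]; linarith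
  have be : e' ≤ ((min e ((n4 - xa) / 2 + 1) : ℕ) : ℝ) / DD := by
    apply r3_min
    · exact hee.trans heD
    · apply r3_div _ 2 (by norm_num)
      push_cast
      linarith
  have bu : u' ≤ ((min u ((z - xa) / 3 + 1) : ℕ) : ℝ) / DD := by
    apply r3_min
    · exact huu.trans huD
    · apply r3_div _ 3 (by norm_num)
      push_cast
      linarith
  have bal : a' + 2 * e' ≤ ((min (a + 2 * e) (n4 - xa) : ℕ) : ℝ) / DD := by
    apply r3_min
    · have : ((a + 2 * e : ℕ) : ℝ) / DD = (a : ℝ) / DD + 2 * ((e : ℝ) / DD) := by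
        push_cast; ring
      rw [this]
      linarith
    · exact he2
  have hY := powLe_real xa N xb M hM hb
  have hW := powLe_real _ (N - M) xc M hM hc
  have hT := powLe_real _ (N - M) xd M hM hd
  have h0 : (0 : ℝ) ≤ ((N - M : ℕ) : ℝ) / M := by positivity
  have hmax1 : ((min a (min n1 n4 - xa) : ℕ) : ℝ) / DD ≤
      ((max (min a (min n1 n4 - xa)) (min e ((n4 - xa) / 2 + 1)) : ℕ) : ℝ) / DD := by
    apply div_le_div_of_nonneg_right _ hD.le
    exact_mod_cast le_max_left _ _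
  have hmax2 : ((min e ((n4 - xa) / 2 + 1) : ℕ) : ℝ) / DD ≤
      ((max (min a (min n1 n4 - xa)) (min e ((n4 - xa) / 2 + 1)) : ℕ) : ℝ) / DD := by
    apply div_le_div_of_nonneg_right _ hD.le
    exact_mod_cast le_max_right _ _
  have pa : a' ^ ((N : ℝ) / M) ≤ (xc : ℝ) / DD * a' := by
    rw [r3_pow a' ha' M N hM hMN]
    apply mul_le_mul_of_nonneg_right _ ha'
    exact (Real.rpow_le_rpow ha' (ba.trans hmax1) h0).trans hW
  have pe : e' ^ ((N : ℝ) / M) ≤ (xc : ℝ) / DD * e' := by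
    rw [r3_pow e' he' M N hM hMN]
    apply mul_le_mul_of_nonneg_right _ he'
    exact (Real.rpow_le_rpow he' (be.trans hmax2) h0).trans hW
  have pu : u' ^ ((N : ℝ) / M) ≤ (xd : ℝ) / DD * u' := by
    rw [r3_pow u' hu' M N hM hMN]
    apply mul_le_mul_of_nonneg_right _ hu'
    exact (Real.rpow_le_rpow hu' bu h0).trans hT
  have hg := greedy (z - xa) (min (a + 2 * e) (n4 - xa)) (min u ((z - xa) / 3 + 1)) xc xd
    (a' + 2 * e') (3 * u') (by positivity) (by positivity) bal (by linarith) hu2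
  push_cast at hg ⊢
  rw [add_div]
  linarith [hmain, hY, pa, pe, pu, hg]


private theorem r3_nn : ∀ i < 10, ∀ k ≤ i, 1 ≤ nn k ∧ nn k ≤ nn i := by decide

private theorem r3_bq : ∀ i < 16, ∀ k ≤ i, 1 ≤ bq k ∧ bq k ≤ bq i := by decide

private theorem r3_key (S : Boot) (kind j i v : ℕ) (hj : j < 16) (hi : i < 16)
    (h : Holds S kind j i v) : HoldsK S (key kind j i) v := by
  unfold HoldsK key
  have h1 : (kind * 256 + j * 16 + i) / 256 = kind := by omega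
  have h2 : (kind * 256 + j * 16 + i) / 16 % 16 = j := by omega
  have h3 : (kind * 256 + j * 16 + i) % 16 = i := by omega
  rw [h1, h2, h3]
  exact h

private theorem r3_ypow (y Y M : ℕ) (hM : 1 ≤ M) (h : y ^ M ≤ Y * DD ^ (M - 1)) :
    ((y : ℝ) / DD) ^ M ≤ (Y : ℝ) / DD := by
  have hD := r3_DD
  rw [div_pow, div_le_div_iff₀ (by positivity) hD]
  obtain ⟨m, rfl⟩ : ∃ m, M = m + 1 := ⟨M - 1, by omega⟩
  have h2 : (y : ℝ) ^ (m + 1) ≤ Y * (DD : ℝ) ^ m := by
    have : y ^ (m + 1) ≤ Y * DD ^ m := by simpa using h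
    exact_mod_cast this
  calc (y : ℝ) ^ (m + 1) * DD ≤ Y * (DD : ℝ) ^ m * DD := by
        apply mul_le_mul_of_nonneg_right h2 hD.le
    _ = Y * (DD : ℝ) ^ (m + 1) := by ring

theorem rule_31 (S : Boot) (s : Tr) (x : Stp) (hs : Valid S s) (hj : x.j < 16) (hi : x.i < 16)
    (hop : x.op = 31) (h : stepOK s x = true) : HoldsK S (newKey x) x.v := by
  obtain ⟨op, j, i, k, v, xa, xb, xc, xd⟩ := x
  simp only at hop hj hi
  subst hop
  unfold stepOK at h
  simp only at h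
  split at h
  swap
  · exact absurd h (by simp)
  rename_i w y z A t a e u g13 g0 g2 g3 g4 g7 g8 g9
  simp only [Bool.and_eq_true, decide_eq_true_eq] at h
  obtain ⟨⟨⟨⟨⟨⟨⟨⟨⟨⟨hki, hi10⟩, a1⟩, e1⟩, u1⟩, hxa⟩, hyM⟩, hb⟩, hc⟩, hd⟩, hv⟩ := h
  have hk : k < 16 := by omega
  obtain ⟨hM, hMN⟩ := r3_nn i hi10 k hki
  have f13 := valid_get S s hs 13 j 0 w (by norm_num) hj (by norm_num) g13
  have f0 := valid_get S s hs 0 j 0 y (by norm_num) hj (by norm_num) g0
  have f2 := valid_get S s hs 2 j k z (by norm_num) hj hk g2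
  have f3 := valid_get S s hs 3 j k A (by norm_num) hj hk g3
  have f4 := valid_get S s hs 4 j k t (by norm_num) hj hk g4
  have f7 := valid_get S s hs 7 j k a (by norm_num) hj hk g7
  have f8 := valid_get S s hs 8 j k e (by norm_num) hj hk g8
  have f9 := valid_get S s hs 9 j k u (by norm_num) hj hk g9
  simp only [Holds] at f13 f0 f2 f3 f4 f7 f8 f9
  have hβ : (0 : ℝ) < (bq j : ℝ) / 4 := by
    have := (r3_bq j hj j le_rfl).1
    have : (0 : ℝ) < bq j := by exact_mod_cast this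
    positivity
  set β : ℝ := (bq j : ℝ) / 4 with hβdef
  obtain ⟨M0, hM0, hZM0⟩ := f13
  obtain ⟨good1, good2⟩ := S.goodS β M0 hβ hM0 hZM0
  have hD := r3_DD
  have hy1 := S.y_one β hβ
  have hy0 : (0 : ℝ) ≤ S.y β := by linarith
  have hN1 : 1 ≤ nn i := le_trans hM hMN
  have hcore := r3_core (S.y β ^ nn k)
    ((S.Z β (nn k) + 3 * S.A β (nn k) + 8 * S.t β (nn k)) / 12 - S.y β ^ nn k)
    ((S.Z β (nn k) + 3 * S.A β (nn k) - 4 * S.t β (nn k)) / 12)
    ((S.Z β (nn k) - S.A β (nn k)) / 4) (nn k) (nn i) xa xb xc xd a e u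
    ((z + 3 * A + 8 * t) / 12 + 1) ((z + 3 * A) / 4 + 1) z hM hMN (one_le_pow₀ hy1)
    (sub_nonneg.2 (good1 _ hM)) (S.e_nonneg β _ hβ hM) (S.tau_nonneg β _ hβ hM)
    ((pow_le_pow_left₀ hy0 f0 _).trans (r3_ypow y xa (nn k) hM hyM)) f7 f8 f9 a1 e1 u1
    (by
      apply r3_div _ 12 (by norm_num)
      push_cast
      have : ((z : ℝ) + 3 * A + 8 * t) / DD = z / DD + 3 * (A / DD) + 8 * (t / DD) := by ring
      rw [this]
      linarith)
    (by
      apply r3_div _ 4 (by norm_num)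
      push_cast
      have : ((z : ℝ) + 3 * A) / DD = z / DD + 3 * (A / DD) := by ring
      rw [this]
      linarith)
    (by linarith) hb hc hd
  have hgood := good2 (nn k) (nn i) hM hMN
  have he := S.e_pow β (nn k) (nn i) hβ hM hMN
  have hτ := S.tau_pow β (nn k) (nn i) hβ hM hMN
  have hyr : (S.y β ^ nn k) ^ ((nn i : ℝ) / (nn k : ℝ)) = S.y β ^ nn i := by
    have hk0 : (nn k : ℝ) ≠ 0 := by
      have : (0 : ℝ) < nn k := by exact_mod_cast hM
      exact this.ne'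
    rw [← Real.rpow_natCast, ← Real.rpow_mul hy0, mul_div_cancel₀ _ hk0, Real.rpow_natCast]
  rw [hyr] at hcore
  have hfin : S.Z β (nn i) ≤ (v : ℝ) / DD := by
    have h1 : ((xb + gg (z - xa) (min (a + 2 * e) ((z + 3 * A) / 4 + 1 - xa))
        (min u ((z - xa) / 3 + 1)) xc xd : ℕ) : ℝ) / DD ≤ (v : ℝ) / DD := by
      apply div_le_div_of_nonneg_right _ hD.le
      exact_mod_cast hv
    have h2 : S.Z β (nn i) = ((S.Z β (nn i) + 3 * S.A β (nn i) + 8 * S.t β (nn i)) / 12) +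
        2 * ((S.Z β (nn i) + 3 * S.A β (nn i) - 4 * S.t β (nn i)) / 12) +
        3 * ((S.Z β (nn i) - S.A β (nn i)) / 4) := by ring
    rw [h2]
    refine le_trans ?_ (hcore.trans h1)
    linarith
  show HoldsK S (key 2 j i) v
  exact r3_key S 2 j i v hj hi (by simpa only [Holds] using hfin)

theorem rule_32 (S : Boot) (s : Tr) (x : Stp) (hs : Valid S s) (hj : x.j < 16) (hi : x.i < 16)
    (hop : x.op = 32) (h : stepOK s x = true) : HoldsK S (newKey x) x.v := by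
  obtain ⟨op, j, i, k, v, xa, xb, xc, xd⟩ := x
  simp only at hop hj hi
  subst hop
  unfold stepOK at h
  simp only at h
  split at h
  swap
  · exact absurd h (by simp)
  rename_i w y z B a u g14 g1 g2 g5 g11 g12
  simp only [Bool.and_eq_true, decide_eq_true_eq] at h
  obtain ⟨⟨⟨⟨⟨⟨⟨⟨⟨hkj, -⟩, a1⟩, u1⟩, hxa⟩, hyM⟩, hb⟩, hc⟩, hd⟩, hv⟩ := h
  have hk : k < 16 := by omega
  obtain ⟨hM, hMN⟩ := r3_bq j hj k hkj
  have hN1 : 1 ≤ nn i := by
    have h16 : ∀ i < 16, 1 ≤ nn i := by decide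
    exact h16 i hi
  have f14 := valid_get S s hs 14 0 i w (by norm_num) (by norm_num) hi g14
  have f1 := valid_get S s hs 1 0 i y (by norm_num) (by norm_num) hi g1
  have f2 := valid_get S s hs 2 k i z (by norm_num) hk hi g2
  have f5 := valid_get S s hs 5 k i B (by norm_num) hk hi g5
  have f11 := valid_get S s hs 11 k i a (by norm_num) hk hi g11
  have f12 := valid_get S s hs 12 k i u (by norm_num) hk hi g12
  simp only [Holds] at f14 f1 f2 f5 f11 f12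
  have hM' : (0 : ℝ) < bq k := by exact_mod_cast hM
  have hMN' : (bq k : ℝ) ≤ bq j := by exact_mod_cast hMN
  have hβ : (0 : ℝ) < (bq k : ℝ) / 4 := by positivity
  have hββ : (bq k : ℝ) / 4 ≤ (bq j : ℝ) / 4 := by linarith
  set β : ℝ := (bq k : ℝ) / 4 with hβdef
  set β' : ℝ := (bq j : ℝ) / 4 with hβ'def
  have hrr : β' / β = (bq j : ℝ) / (bq k : ℝ) := by
    rw [hβdef, hβ'def]
    field_simp
  obtain ⟨β₀, hβ₀, hZ0⟩ := f14
  obtain ⟨good1, good2⟩ := S.goodT (nn i) β₀ hN1 hβ₀ hZ0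
  have hD := r3_DD
  have hX1 := S.X_one (nn i) hN1
  have hX0 : (0 : ℝ) ≤ S.X (nn i) := by linarith
  have hXr : (S.X (nn i) ^ ((1 : ℝ) / 4)) ^ bq k = S.X (nn i) ^ β := by
    rw [← Real.rpow_natCast, ← Real.rpow_mul hX0, hβdef]
    congr 1
    ring
  have hXβ1 : 1 ≤ S.X (nn i) ^ β := Real.one_le_rpow hX1 hβ.le
  have hcore := r3_core (S.X (nn i) ^ β)
    ((S.Z β (nn i) + 3 * S.B β (nn i)) / 4 - S.X (nn i) ^ β) 0
    ((S.Z β (nn i) - S.B β (nn i)) / 4) (bq k) (bq j) xa xb xc xd a 0 u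
    ((z + 3 * B) / 4 + 1) ((z + 3 * B) / 4 + 1) z hM hMN hXβ1
    (sub_nonneg.2 (good1 _ hβ)) le_rfl (S.tauT_nonneg β _ hβ hN1)
    (by
      rw [← hXr]
      exact (pow_le_pow_left₀ (Real.rpow_nonneg hX0 _) f1 _).trans (r3_ypow y xa (bq k) hM hyM))
    f11 (by simp) f12 a1 (Nat.zero_le _) u1
    (by
      apply r3_div _ 4 (by norm_num)
      push_cast
      have : ((z : ℝ) + 3 * B) / DD = z / DD + 3 * (B / DD) := by ring
      rw [this]
      linarith)
    (by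
      apply r3_div _ 4 (by norm_num)
      push_cast
      have : ((z : ℝ) + 3 * B) / DD = z / DD + 3 * (B / DD) := by ring
      rw [this]
      linarith)
    (by linarith) hb (by simpa using hc) hd
  have hgood := good2 β β' hβ hββ
  have hτ := S.tauT_pow β β' (nn i) hβ hββ hN1
  rw [hrr] at hgood hτ
  have hyr : (S.X (nn i) ^ β) ^ ((bq j : ℝ) / (bq k : ℝ)) = S.X (nn i) ^ β' := by
    rw [← Real.rpow_mul hX0, ← hrr, mul_div_cancel₀ _ hβ.ne']
  rw [hyr] at hcore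
  have h0r : (0 : ℝ) ^ ((bq j : ℝ) / (bq k : ℝ)) = 0 := by
    apply Real.zero_rpow
    have : 0 < (bq j : ℝ) / (bq k : ℝ) := div_pos (hM'.trans_le hMN') hM'
    exact this.ne'
  rw [h0r] at hcore
  have hfin : S.Z β' (nn i) ≤ (v : ℝ) / DD := by
    have h1 : ((xb + gg (z - xa) (min (a + 2 * 0) ((z + 3 * B) / 4 + 1 - xa))
        (min u ((z - xa) / 3 + 1)) xc xd : ℕ) : ℝ) / DD ≤ (v : ℝ) / DD := by
      apply div_le_div_of_nonneg_right _ hD.le
      have hv' := hv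
      rw [show a + 2 * 0 = a by omega]
      exact_mod_cast hv'
    have h2 : S.Z β' (nn i) = ((S.Z β' (nn i) + 3 * S.B β' (nn i)) / 4) +
        3 * ((S.Z β' (nn i) - S.B β' (nn i)) / 4) := by ring
    rw [h2]
    refine le_trans ?_ (hcore.trans h1)
    linarith
  show HoldsK S (key 2 j i) v
  exact r3_key S 2 j i v hj hi (by simpa only [Holds] using hfin)

end P348
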