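import Vale.Agent.Lib.P348.Rules1
import Vale.Agent.Lib.P348.Rules2
import Vale.Agent.Lib.P348.Rules3

/-!
# P348 module CheckSound: soundness of the checker
-/

namespace P348

theorem newKey_lt (x : Stp) (hj : x.j < 16) (hi : x.i < 16) : newKey x < 4096 := by
  unfold newKey
  split <;> (unfold key; omega)

theorem stepOK_big (s : Tr) (x : Stp) (hop : 35 ≤ x.op) : stepOK s x = false := by
  obtain ⟨op, j, i, k, v, a, b, c, d⟩ := x
  obtain ⟨m, rfl⟩ : ∃ m, op = m + 35 := ⟨op - 35, by simp only at hop; omega⟩
  rfl

theorem doStep_sound (S : Boot) (s : Tr) (x : Stp) (hs : Valid S s) : Valid S (doStep s x) := by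
  unfold doStep
  split
  · rename_i h
    simp only [Bool.and_eq_true, decide_eq_true_eq] at h
    obtain ⟨⟨⟨hj, hi⟩, hk⟩, hok⟩ := h
    apply valid_set S s (newKey x) x.v (newKey_lt x hj hi) hs
    by_cases h12 : x.op < 12
    · exact rules_low S s x hs hj hi h12 hok
    by_cases h23 : x.op < 23
    · exact rules_mid S s x hs hj hi hk (by omega) h23 hok
    by_cases h27 : x.op < 27
    · exact rules_powS S s x hs hj hi (by omega) h27 hok
    by_cases h31 : x.op < 31
    · exact rules_powT S s x hs hj hi (by omega) h31 hok
    by_cases e31 : x.op = 31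
    · exact rule_31 S s x hs hj hi e31 hok
    by_cases e32 : x.op = 32
    · exact rule_32 S s x hs hj hi e32 hok
    by_cases e34 : x.op < 35
    · exact rules_flag S s x hs hj hi hk (by omega) hok
    · rw [stepOK_big s x (by omega)] at hok
      exact absurd hok (by decide)
  · exact hs

theorem run_sound (S : Boot) (s : Tr) (l : List Stp) (hs : Valid S s) : Valid S (runC s l) := by
  induction l generalizing s with
  | nil => exact hs
  | cons x l ih =>
    show Valid S (runC (doStep s x) l)
    exact ih _ (doStep_sound S s x hs)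

/-- what is read at the end -/
theorem final_read (S : Boot) (base : List (ℕ × ℕ)) (l : List Stp)
    (hb : ∀ p ∈ base, p.1 < 4096 ∧ HoldsK S p.1 p.2) (j i v : ℕ) (hj : j < 16) (hi : i < 16)
    (h : gt (runC (initC .nil base) l) 2 j i = some v) : S.Z ((bq j : ℝ) / 4) (nn i) ≤ (v : ℝ) / DD := by
  have h0 : Valid S .nil := by
    intro k v _ hk
    simp [Tr.get] at hk
  have h1 := valid_init S .nil base h0 hb
  have h2 := run_sound S _ l h1
  exact valid_get S _ h2 2 j i v (by norm_num) hj hi h

end P348
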