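import Vale.Agent.Lib.P348.CertC0
import Vale.Agent.Lib.P348.CertC1
import Vale.Agent.Lib.P348.CertC2
import Vale.Agent.Lib.P348.CertC3
import Vale.Agent.Lib.P348.CheckSound

/-!
# P348: the kernel runs the bootstrap certificate (in four chunks)
-/

namespace P348

theorem runF_eq (l : List ℕ) (s : Tr) : runF l s = runC s (l.map decS) := by
  induction l generalizing s with
  | nil => rfl
  | cons n l ih =>
    rw [List.map_cons, runC, runF]
    cases h : doStep s (decS n) with
    | nil => simpa using ih _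
    | node w a b => simpa using ih _

theorem chkL_sound (S : Boot) (s : Tr) (hs : Valid S s) (l : List (ℕ × ℕ)) (h : chkL s l = true) :
    ∀ p ∈ l, p.1 < 4096 ∧ HoldsK S p.1 p.2 := by
  induction l with
  | nil => intro p hp; simp at hp
  | cons q l ih =>
    rw [chkL] at h
    cases hg : s.get 12 q.1 with
    | none => rw [hg] at h; exact absurd h (by simp)
    | some v =>
      rw [hg] at h
      simp only [Bool.and_eq_true] at h
      obtain ⟨⟨h1, h2⟩, h3⟩ := h
      have h1' : q.1 < 4096 := Nat.blt_eq.mp h1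
      have h2' : v = q.2 := Nat.beq_eq.mp h2
      intro p hp
      rcases List.mem_cons.mp hp with rfl | hp
      · exact ⟨h1', h2' ▸ hs p.1 v h1' hg⟩
      · exact ih h3 p hp

theorem chunk_sound (S : Boot) (B B' : List (ℕ × ℕ)) (l : List ℕ)
    (hB : ∀ p ∈ B, p.1 < 4096 ∧ HoldsK S p.1 p.2) (h : chkL (runF l (initC .nil B)) B' = true) :
    ∀ p ∈ B', p.1 < 4096 ∧ HoldsK S p.1 p.2 := by
  have h0 : Valid S .nil := by
    intro k v _ hk
    simp [Tr.get] at hk
  have h1 := valid_init S .nil B h0 hB
  have h2 := run_sound S _ (l.map decS) h1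
  rw [runF_eq] at h
  exact chkL_sound S _ h2 B' h

/-- the value read at the end -/
theorem cert_final (S : Boot) (hb : ∀ p ∈ baseL, p.1 < 4096 ∧ HoldsK S p.1 p.2) :
    S.Z ((bq 12 : ℝ) / 4) (nn 8) ≤ ((1008552463 : ℕ) : ℝ) / DD := by
  have h := chunk_sound S _ _ _ (chunk_sound S _ _ _ (chunk_sound S _ _ _ (chunk_sound S _ _ _ hb
    chunk0) chunk1) chunk2) chunk3
  exact (h (712, 1008552463) (by simp [factL4])).2

end P348
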