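import Mathlib.Analysis.Normed.Algebra.Exponential
import Mathlib.Topology.Instances.Matrix

/-!
# P348 (Haldane gap of the periodic spin-one Heisenberg chain): common definitions

Cartesian basis of the spin-one representation: S^alpha = -i L^alpha with
(L^alpha)_{bc} = eps_{alpha b c} (real antisymmetric).  The bond term is
  S_1 . S_2 = - sum_alpha L^alpha (x) L^alpha  = (swap) - (pair),
where pair = sum |bb><cc| (eigenvalues: spin 2: 1, spin 1: -1, spin 0: -2).
A twisted bond is  - sum_alpha L^alpha (x) (R L^alpha R^T), R a rotation.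

Sites of the ring of length 2N: `Fin N × Bool`; even bonds join (i,false) to (i,true), odd bonds join
(i,true) to (i+1,false) (cyclically); the twist R sits on the odd bond which arrives at (0,false).
Everything is a REAL matrix.
-/

namespace P348

open Matrix

/-- Levi-Civita symbol -/
def eps (a b c : Fin 3) : ℤ :=
  (((a : ℕ) : ℤ) - ((b : ℕ) : ℤ)) * (((b : ℕ) : ℤ) - ((c : ℕ) : ℤ)) *
    (((c : ℕ) : ℤ) - ((a : ℕ) : ℤ)) / 2

/-- the real antisymmetric generator L^alpha, S^alpha = -i L^alpha -/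
def Lg (α : Fin 3) : Matrix (Fin 3) (Fin 3) ℝ := fun b c => (eps α b c : ℝ)

/-- labels: `none` is the identity, `some α` the generator -/
abbrev Lab := Option (Fin 3)

/-- the matrix of a label -/
def Am : Lab → Matrix (Fin 3) (Fin 3) ℝ
  | none => 1
  | some α => Lg α

/-- tensor product matrix on `ι → Fin 3` -/
def tens {ι : Type} [Fintype ι] (M : ι → Matrix (Fin 3) (Fin 3) ℝ) :
    Matrix (ι → Fin 3) (ι → Fin 3) ℝ :=
  fun s t => ∏ i, M i (s i) (t i)

/-- sites of the ring of length 2N -/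
abbrev Site (N : ℕ) := Fin N × Bool

/-- configurations of the ring of length 2N -/
abbrev Cfg (N : ℕ) := Site N → Fin 3

/-- sum of the even bond terms -/
def Heven (N : ℕ) : Matrix (Cfg N) (Cfg N) ℝ :=
  -∑ i : Fin N, ∑ α : Fin 3, tens (fun s : Site N => if s.1 = i then Lg α else 1)

/-- sum of the odd bond terms; the bond arriving at (0,false) is twisted by R -/
def Hodd (N : ℕ) [NeZero N] (R : Matrix (Fin 3) (Fin 3) ℝ) : Matrix (Cfg N) (Cfg N) ℝ :=
  -∑ i : Fin N, ∑ α : Fin 3, tens (fun s : Site N =>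
    if s = (i, true) then Lg α
    else if s = (i + 1, false) then (if i + 1 = 0 then R * Lg α * Rᵀ else Lg α)
    else 1)

/-- the Heisenberg Hamiltonian on the ring of length 2N, one bond twisted by R -/
def HR (N : ℕ) [NeZero N] (R : Matrix (Fin 3) (Fin 3) ℝ) : Matrix (Cfg N) (Cfg N) ℝ :=
  Heven N + Hodd N R

/-- global rotation by W on every site -/
def glob (N : ℕ) (W : Matrix (Fin 3) (Fin 3) ℝ) : Matrix (Cfg N) (Cfg N) ℝ :=
  tens (fun _ : Site N => W)

/-- rotations -/
def IsRot (R : Matrix (Fin 3) (Fin 3) ℝ) : Prop := R * Rᵀ = 1 ∧ R.det = 1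

/-- partition function twisted by W in time and by R in space, ring of length 2N -/
noncomputable def ZZ (N : ℕ) [NeZero N] (W R : Matrix (Fin 3) (Fin 3) ℝ) (β : ℝ) : ℝ :=
  (glob N W * NormedSpace.exp (-(β • HR N R))).trace

/-- rotation by pi about the z axis -/
def rz : Matrix (Fin 3) (Fin 3) ℝ := !![-1, 0, 0; 0, -1, 0; 0, 0, 1]
/-- rotation by pi about the x axis -/
def rx : Matrix (Fin 3) (Fin 3) ℝ := !![1, 0, 0; 0, -1, 0; 0, 0, -1]
/-- rotation by pi about the y axis -/
def ry : Matrix (Fin 3) (Fin 3) ℝ := !![-1, 0, 0; 0, 1, 0; 0, 0, -1]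
/-- rotation by pi/2 about the z axis -/
def qz : Matrix (Fin 3) (Fin 3) ℝ := !![0, -1, 0; 1, 0, 0; 0, 0, 1]
/-- rotation by 2pi/3 about the (1,1,1) axis (x -> y -> z -> x) -/
def c3 : Matrix (Fin 3) (Fin 3) ℝ := !![0, 0, 1; 1, 0, 0; 0, 1, 0]

end P348
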