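import Mathlib.Analysis.Normed.Algebra.MatrixExponential
import Vale.Agent.Lib.P348.Defs

/-!
# P348 module Conj: invariance of the twisted partition functions under a global rotation

For Q orthogonal: ∑_α (Q Lg α Qᵀ) ⊗ (Q Lg α Qᵀ) = ∑_α Lg α ⊗ Lg α (the bond is swap - pair, or: for a rotation
Q Lg α Qᵀ = ∑_β Q β α Lg β and Q orthogonal), so glob N Q * HR N R * (glob N Q)ᵀ = HR N (Q * R * Qᵀ)
(on the twisted bond: Lg α ⊗ R Lg α Rᵀ becomes Q Lg α Qᵀ ⊗ (QRQᵀ)(Q Lg α Qᵀ)(QRQᵀ)ᵀ), glob N is multiplicative, and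
exp (Q H Q⁻¹) = Q exp(H) Q⁻¹, trace is cyclic.
-/

namespace P348

open Matrix

/-! ### rotation of the generators (copied from T2) -/

private theorem cj_adjugate (R : Matrix (Fin 3) (Fin 3) ℝ) (hR : IsRot R) : R.adjugate = Rᵀ := by
  have h1 : R.adjugate * (R * Rᵀ) = Rᵀ := by
    rw [← Matrix.mul_assoc, Matrix.adjugate_mul, hR.2, one_smul, Matrix.one_mul]
  rw [hR.1, Matrix.mul_one] at h1
  exact h1

private theorem cj_Lg0 : Lg 0 = !![0, 0, 0; 0, 0, 1; 0, -1, 0] := by
  ext i j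
  fin_cases i <;> fin_cases j <;> simp [Lg, eps]

private theorem cj_Lg1 : Lg 1 = !![0, 0, -1; 0, 0, 0; 1, 0, 0] := by
  ext i j
  fin_cases i <;> fin_cases j <;> simp [Lg, eps]

private theorem cj_Lg2 : Lg 2 = !![0, 1, 0; -1, 0, 0; 0, 0, 0] := by
  ext i j
  fin_cases i <;> fin_cases j <;> simp [Lg, eps]

private theorem cj_conj_entry (R X : Matrix (Fin 3) (Fin 3) ℝ) (i j : Fin 3) :
    (R * X * Rᵀ) i j = ∑ b, ∑ c, R i c * X c b * R j b := by
  rw [Matrix.mul_apply]
  refine Finset.sum_congr rfl fun b _ => ?_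
  rw [Matrix.mul_apply, Finset.sum_mul]
  rfl

private theorem cj_rhs_entry (R : Matrix (Fin 3) (Fin 3) ℝ) (α i j : Fin 3) :
    (∑ β : Fin 3, R β α • Lg β) i j = R 0 α * Lg 0 i j + R 1 α * Lg 1 i j + R 2 α * Lg 2 i j := by
  rw [Fin.sum_univ_three]
  rfl

private theorem cj_rot_Lg (R : Matrix (Fin 3) (Fin 3) ℝ) (hR : IsRot R) (α : Fin 3) :
    R * Lg α * Rᵀ = ∑ β : Fin 3, R β α • Lg β := by
  have h := cj_adjugate R hR
  rw [Matrix.adjugate_fin_three] at h
  have e00 : R 1 1 * R 2 2 - R 1 2 * R 2 1 = R 0 0 := by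
    have := congrFun (congrFun h 0) 0
    simpa using this
  have e01 : -(R 0 1 * R 2 2) + R 0 2 * R 2 1 = R 1 0 := by
    have := congrFun (congrFun h 0) 1
    simpa using this
  have e02 : R 0 1 * R 1 2 - R 0 2 * R 1 1 = R 2 0 := by
    have := congrFun (congrFun h 0) 2
    simpa using this
  have e10 : -(R 1 0 * R 2 2) + R 1 2 * R 2 0 = R 0 1 := by
    have := congrFun (congrFun h 1) 0
    simpa using this
  have e11 : R 0 0 * R 2 2 - R 0 2 * R 2 0 = R 1 1 := by
    have := congrFun (congrFun h 1) 1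
    simpa using this
  have e12 : -(R 0 0 * R 1 2) + R 0 2 * R 1 0 = R 2 1 := by
    have := congrFun (congrFun h 1) 2
    simpa using this
  have e20 : R 1 0 * R 2 1 - R 1 1 * R 2 0 = R 0 2 := by
    have := congrFun (congrFun h 2) 0
    simpa using this
  have e21 : -(R 0 0 * R 2 1) + R 0 1 * R 2 0 = R 1 2 := by
    have := congrFun (congrFun h 2) 1
    simpa using this
  have e22 : R 0 0 * R 1 1 - R 0 1 * R 1 0 = R 2 2 := by
    have := congrFun (congrFun h 2) 2
    simpa using this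
  clear h
  ext i j
  rw [cj_rhs_entry, cj_conj_entry, Fin.sum_univ_three, Fin.sum_univ_three, Fin.sum_univ_three,
    Fin.sum_univ_three, cj_Lg0, cj_Lg1, cj_Lg2]
  fin_cases α
  · change _ = R 0 0 * _ + R 1 0 * _ + R 2 0 * _
    rw [show Lg ((fun i => i) ⟨0, by decide⟩) = Lg 0 from rfl, cj_Lg0]
    fin_cases i <;> fin_cases j <;> simp <;> linarith
  · change _ = R 0 1 * _ + R 1 1 * _ + R 2 1 * _
    rw [show Lg ((fun i => i) ⟨1, by decide⟩) = Lg 1 from rfl, cj_Lg1]
    fin_cases i <;> fin_cases j <;> simp <;> linarith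
  · change _ = R 0 2 * _ + R 1 2 * _ + R 2 2 * _
    rw [show Lg ((fun i => i) ⟨2, by decide⟩) = Lg 2 from rfl, cj_Lg2]
    fin_cases i <;> fin_cases j <;> simp <;> linarith

/-! ### tensor products (copied from T2) -/

private theorem cj_tens_mul {ι : Type} [Fintype ι] [DecidableEq ι]
    (M M' : ι → Matrix (Fin 3) (Fin 3) ℝ) :
    tens M * tens M' = tens (fun i => M i * M' i) := by
  ext s t
  rw [Matrix.mul_apply]
  unfold tens
  simp only [Matrix.mul_apply]
  rw [Fintype.prod_sum]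
  refine Finset.sum_congr rfl fun u _ => ?_
  rw [Finset.prod_mul_distrib]

private theorem cj_tens_one {ι : Type} [Fintype ι] [DecidableEq ι] :
    tens (fun _ : ι => (1 : Matrix (Fin 3) (Fin 3) ℝ)) = 1 := by
  ext s t
  unfold tens
  by_cases h : s = t
  · subst h
    simp
  · rw [Matrix.one_apply_ne h]
    obtain ⟨i, hi⟩ := Function.ne_iff.1 h
    exact Finset.prod_eq_zero (Finset.mem_univ i) (Matrix.one_apply_ne hi)

private theorem cj_tens_two {ι : Type} [Fintype ι] [DecidableEq ι] (p q : ι) (hpq : p ≠ q)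
    (X Y : Matrix (Fin 3) (Fin 3) ℝ) (s t : ι → Fin 3) :
    tens (fun i => if i = p then X else if i = q then Y else 1) s t =
      X (s p) (t p) * (Y (s q) (t q) *
        ∏ i ∈ (Finset.univ.erase p).erase q, (1 : Matrix (Fin 3) (Fin 3) ℝ) (s i) (t i)) := by
  have h1 : tens (fun i => if i = p then X else if i = q then Y else 1) s t =
      ∏ i, (if i = p then X else if i = q then Y else 1 : Matrix (Fin 3) (Fin 3) ℝ) (s i) (t i) :=
    rfl
  rw [h1, ← Finset.mul_prod_erase Finset.univ _ (Finset.mem_univ p),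
    ← Finset.mul_prod_erase (Finset.univ.erase p) _
      (Finset.mem_erase.2 ⟨hpq.symm, Finset.mem_univ q⟩)]
  simp only [if_true, if_neg hpq.symm]
  refine congrArg (fun z => X (s p) (t p) * (Y (s q) (t q) * z)) ?_
  refine Finset.prod_congr rfl fun i hi => ?_
  rw [Finset.mem_erase, Finset.mem_erase] at hi
  simp only [if_neg hi.2.1, if_neg hi.1]

private theorem cj_orth (Q : Matrix (Fin 3) (Fin 3) ℝ) (hQ : IsRot Q) (β γ : Fin 3) :
    ∑ α, Q β α * Q γ α = if β = γ then 1 else 0 := by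
  have h := congrFun (congrFun hQ.1 β) γ
  rw [Matrix.mul_apply, Matrix.one_apply] at h
  simpa using h

private theorem cj_lin (A Q : Matrix (Fin 3) (Fin 3) ℝ) (hQ : IsRot Q) (α a b : Fin 3) :
    (A * (Q * Lg α * Qᵀ) * Aᵀ) a b = ∑ β, Q β α * (A * Lg β * Aᵀ) a b := by
  rw [cj_rot_Lg Q hQ, Matrix.mul_sum, Matrix.sum_mul, Matrix.sum_apply]
  refine Finset.sum_congr rfl fun β _ => ?_
  rw [Matrix.mul_smul, Matrix.smul_mul, Matrix.smul_apply, smul_eq_mul]

/-- the key identity: the bond is invariant under a simultaneous rotation -/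
private theorem cj_bond {ι : Type} [Fintype ι] [DecidableEq ι] (p q : ι) (hpq : p ≠ q)
    (A B Q : Matrix (Fin 3) (Fin 3) ℝ) (hQ : IsRot Q) :
    ∑ α : Fin 3, tens (fun i => if i = p then A * (Q * Lg α * Qᵀ) * Aᵀ
      else if i = q then B * (Q * Lg α * Qᵀ) * Bᵀ else 1) =
    ∑ α : Fin 3, tens (fun i => if i = p then A * Lg α * Aᵀ
      else if i = q then B * Lg α * Bᵀ else 1) := by
  ext s t
  rw [Matrix.sum_apply, Matrix.sum_apply]
  simp only [cj_tens_two p q hpq, cj_lin _ Q hQ]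
  have h1 : ∀ (c : ℝ) (F G : Fin 3 → ℝ),
      ∑ α, ((∑ β, Q β α * F β) * ((∑ γ, Q γ α * G γ) * c)) = ∑ β, F β * (G β * c) := by
    intro c F G
    have h2 : ∀ α, ((∑ β, Q β α * F β) * ((∑ γ, Q γ α * G γ) * c)) =
        ∑ β, ∑ γ, (Q β α * Q γ α) * (F β * (G γ * c)) := by
      intro α
      rw [Finset.sum_mul]
      refine Finset.sum_congr rfl fun β _ => ?_
      rw [Finset.sum_mul, Finset.mul_sum]
      refine Finset.sum_congr rfl fun γ _ => ?_
      ring
    rw [Finset.sum_congr rfl fun α _ => h2 α, Finset.sum_comm]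
    refine Finset.sum_congr rfl fun β _ => ?_
    rw [Finset.sum_comm]
    have h3 : ∀ γ, ∑ α, (Q β α * Q γ α) * (F β * (G γ * c)) =
        (if β = γ then 1 else 0) * (F β * (G γ * c)) := by
      intro γ
      rw [← Finset.sum_mul, cj_orth Q hQ]
    rw [Finset.sum_congr rfl fun γ _ => h3 γ]
    simp
  exact h1 _ (fun β => (A * Lg β * Aᵀ) (s p) (t p)) (fun β => (B * Lg β * Bᵀ) (s q) (t q))

/-! ### the results -/

theorem glob_mul (N : ℕ) (A B : Matrix (Fin 3) (Fin 3) ℝ) : glob N (A * B) = glob N A * glob N B := by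
  unfold glob
  rw [cj_tens_mul]

theorem glob_one (N : ℕ) : glob N (1 : Matrix (Fin 3) (Fin 3) ℝ) = 1 := by
  unfold glob
  exact cj_tens_one

theorem glob_transpose (N : ℕ) (A : Matrix (Fin 3) (Fin 3) ℝ) : (glob N A)ᵀ = glob N Aᵀ := by
  ext s t
  rfl

private theorem cj_conj_tens (N : ℕ) (Q : Matrix (Fin 3) (Fin 3) ℝ) (hQ : IsRot Q)
    (p q : Site N) (X Y : Matrix (Fin 3) (Fin 3) ℝ) :
    glob N Q * tens (fun s : Site N => if s = p then X else if s = q then Y else 1) *
      (glob N Q)ᵀ = tens (fun s : Site N => if s = p then Q * X * Qᵀ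
        else if s = q then Q * Y * Qᵀ else 1) := by
  rw [glob_transpose]
  unfold glob
  rw [cj_tens_mul, cj_tens_mul]
  congr 1
  funext s
  by_cases h1 : s = p
  · rw [if_pos h1, if_pos h1]
  · rw [if_neg h1, if_neg h1]
    by_cases h2 : s = q
    · rw [if_pos h2, if_pos h2]
    · rw [if_neg h2, if_neg h2, Matrix.mul_one]
      exact hQ.1

private theorem cj_even (N : ℕ) (i : Fin N) (X : Matrix (Fin 3) (Fin 3) ℝ) :
    (fun s : Site N => if s.1 = i then X else 1) =
      fun s : Site N => if s = (i, true) then X else if s = (i, false) then X else 1 := by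
  funext s
  obtain ⟨j, b⟩ := s
  by_cases h : j = i
  · subst h
    cases b <;> simp
  · rw [if_neg h, if_neg fun h' => h (Prod.ext_iff.1 h').1,
      if_neg fun h' => h (Prod.ext_iff.1 h').1]

theorem glob_conj_HR (N : ℕ) [NeZero N] (R Q : Matrix (Fin 3) (Fin 3) ℝ) (hQ : IsRot Q) :
    glob N Q * HR N R * (glob N Q)ᵀ = HR N (Q * R * Qᵀ) := by
  have hQ' : Qᵀ * Q = 1 := mul_eq_one_comm.1 hQ.1
  unfold HR
  rw [Matrix.mul_add, Matrix.add_mul]
  congr 1
  · unfold Heven
    rw [Matrix.mul_neg, Matrix.neg_mul, Matrix.mul_sum, Matrix.sum_mul]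
    congr 1
    refine Finset.sum_congr rfl fun i _ => ?_
    rw [Matrix.mul_sum, Matrix.sum_mul]
    have hne : ((i, true) : Site N) ≠ (i, false) := by simp
    have h := cj_bond ((i, true) : Site N) (i, false) hne 1 1 Q hQ
    simp only [Matrix.one_mul, Matrix.transpose_one, Matrix.mul_one] at h
    simp only [cj_even, cj_conj_tens N Q hQ]
    exact h
  · unfold Hodd
    rw [Matrix.mul_neg, Matrix.neg_mul, Matrix.mul_sum, Matrix.sum_mul]
    congr 1
    refine Finset.sum_congr rfl fun i _ => ?_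
    rw [Matrix.mul_sum, Matrix.sum_mul]
    have hne : ((i, true) : Site N) ≠ (i + 1, false) := by simp
    simp only [cj_conj_tens N Q hQ]
    by_cases hi : i + 1 = 0
    · simp only [if_pos hi]
      have h := cj_bond ((i, true) : Site N) (i + 1, false) hne 1 (Q * R * Qᵀ) Q hQ
      simp only [Matrix.one_mul, Matrix.transpose_one, Matrix.mul_one] at h
      rw [← h]
      refine Finset.sum_congr rfl fun α _ => ?_
      have h2 : Q * (R * Lg α * Rᵀ) * Qᵀ =
          Q * R * Qᵀ * (Q * Lg α * Qᵀ) * (Q * R * Qᵀ)ᵀ := by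
        rw [Matrix.transpose_mul, Matrix.transpose_mul, Matrix.transpose_transpose]
        calc Q * (R * Lg α * Rᵀ) * Qᵀ = Q * R * 1 * Lg α * 1 * Rᵀ * Qᵀ := by
              simp only [Matrix.mul_one, Matrix.mul_assoc]
          _ = Q * R * (Qᵀ * Q) * Lg α * (Qᵀ * Q) * Rᵀ * Qᵀ := by rw [hQ']
          _ = Q * R * Qᵀ * (Q * Lg α * Qᵀ) * (Q * (Rᵀ * Qᵀ)) := by
              simp only [Matrix.mul_assoc]
      rw [h2]
    · simp only [if_neg hi]
      have h := cj_bond ((i, true) : Site N) (i + 1, false) hne 1 1 Q hQ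
      simp only [Matrix.one_mul, Matrix.transpose_one, Matrix.mul_one] at h
      exact h

private theorem cj_glob_orth (N : ℕ) (Q : Matrix (Fin 3) (Fin 3) ℝ) (hQ : IsRot Q) :
    glob N Q * (glob N Q)ᵀ = 1 := by
  rw [glob_transpose, ← glob_mul, hQ.1, glob_one]

private theorem cj_glob_orth' (N : ℕ) (Q : Matrix (Fin 3) (Fin 3) ℝ) (hQ : IsRot Q) :
    (glob N Q)ᵀ * glob N Q = 1 := mul_eq_one_comm.1 (cj_glob_orth N Q hQ)

/-- rotations commuting with R commute with the twisted Hamiltonian -/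
theorem glob_comm_HR (N : ℕ) [NeZero N] (R Q : Matrix (Fin 3) (Fin 3) ℝ) (hQ : IsRot Q)
    (h : Q * R = R * Q) : Commute (glob N Q) (HR N R) := by
  have h1 := glob_conj_HR N R Q hQ
  rw [h, Matrix.mul_assoc R Q, hQ.1, Matrix.mul_one] at h1
  change glob N Q * HR N R = HR N R * glob N Q
  calc glob N Q * HR N R = glob N Q * HR N R * ((glob N Q)ᵀ * glob N Q) := by
        rw [cj_glob_orth' N Q hQ, Matrix.mul_one]
    _ = glob N Q * HR N R * (glob N Q)ᵀ * glob N Q := by simp only [Matrix.mul_assoc]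
    _ = HR N R * glob N Q := by rw [h1]

theorem ZZ_conj (N : ℕ) [NeZero N] (W R Q : Matrix (Fin 3) (Fin 3) ℝ) (hQ : IsRot Q) (β : ℝ) :
    ZZ N (Q * W * Qᵀ) (Q * R * Qᵀ) β = ZZ N W R β := by
  have hinv : (glob N Q)⁻¹ = (glob N Q)ᵀ := Matrix.inv_eq_right_inv (cj_glob_orth N Q hQ)
  have hunit : IsUnit (glob N Q) := by
    rw [Matrix.isUnit_iff_isUnit_det]
    exact Matrix.isUnit_det_of_right_inverse (cj_glob_orth N Q hQ)
  unfold ZZ
  rw [← glob_conj_HR N R Q hQ, glob_mul, glob_mul, ← glob_transpose]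
  have h1 : -(β • (glob N Q * HR N R * (glob N Q)ᵀ)) =
      glob N Q * (-(β • HR N R)) * (glob N Q)⁻¹ := by
    rw [hinv, Matrix.mul_neg, Matrix.neg_mul, Matrix.mul_smul, Matrix.smul_mul]
  rw [h1, Matrix.exp_conj _ _ hunit, hinv]
  have h2 : glob N Q * glob N W * (glob N Q)ᵀ *
      (glob N Q * NormedSpace.exp (-(β • HR N R)) * (glob N Q)ᵀ) =
      glob N Q * (glob N W * NormedSpace.exp (-(β • HR N R)) * (glob N Q)ᵀ) := by
    calc glob N Q * glob N W * (glob N Q)ᵀ *
        (glob N Q * NormedSpace.exp (-(β • HR N R)) * (glob N Q)ᵀ) =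
        glob N Q * glob N W * ((glob N Q)ᵀ * glob N Q) *
          NormedSpace.exp (-(β • HR N R)) * (glob N Q)ᵀ := by
          simp only [Matrix.mul_assoc]
      _ = glob N Q * (glob N W * NormedSpace.exp (-(β • HR N R)) * (glob N Q)ᵀ) := by
          rw [cj_glob_orth' N Q hQ, Matrix.mul_one]
          simp only [Matrix.mul_assoc]
  rw [h2, Matrix.trace_mul_comm, Matrix.mul_assoc, cj_glob_orth' N Q hQ, Matrix.mul_one]

end P348
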