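import Vale.Agent.Lib.P348.Defs

/-!
# P348: transfer matrices (definitions)
`cw δ` is the square root of the gate weight; `KW n δ W` is the one-site kernel between the label history
`a` of its even bond and the label history `b` of its odd bond; `UR n R` rotates label histories.
-/

namespace P348

open Matrix

/-- square root of the weight of a label: identity 1, generator sqrt δ -/
noncomputable def cw (δ : ℝ) : Lab → ℝ
  | none => 1
  | some _ => Real.sqrt δ

/-- one-site kernel -/
noncomputable def KW (n : ℕ) (δ : ℝ) (W : Matrix (Fin 3) (Fin 3) ℝ) :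
    Matrix (Fin n → Lab) (Fin n → Lab) ℝ :=
  fun a b => (∏ t, cw δ (a t) * cw δ (b t)) *
    (W * (List.ofFn fun t => Am (a t) * Am (b t)).prod).trace

/-- rotation of one label -/
def uR (R : Matrix (Fin 3) (Fin 3) ℝ) : Matrix Lab Lab ℝ
  | none, none => 1
  | some β, some α => R β α
  | _, _ => 0

/-- rotation of label histories -/
def UR (n : ℕ) (R : Matrix (Fin 3) (Fin 3) ℝ) : Matrix (Fin n → Lab) (Fin n → Lab) ℝ :=
  fun a b => ∏ t, uR R (a t) (b t)

/-- one layer of even gates, expanded in labels -/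
noncomputable def Fev (N : ℕ) (δ : ℝ) : Matrix (Cfg N) (Cfg N) ℝ :=
  ∑ a : Fin N → Lab, (∏ i, cw δ (a i) ^ 2) • tens (fun s : Site N => Am (a s.1))

/-- one layer of odd gates, expanded in labels -/
noncomputable def Fod (N : ℕ) [NeZero N] (R : Matrix (Fin 3) (Fin 3) ℝ) (δ : ℝ) :
    Matrix (Cfg N) (Cfg N) ℝ :=
  ∑ b : Fin N → Lab, (∏ i, cw δ (b i) ^ 2) • tens (fun s : Site N =>
    if s.2 = true then Am (b s.1)
    else if s.1 = 0 then R * Am (b (s.1 - 1)) * Rᵀ
    else Am (b (s.1 - 1)))

end P348
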