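import Mathlib.Analysis.Calculus.Deriv.Mul
import Mathlib.Analysis.Calculus.Deriv.Slope
import Mathlib.Analysis.Matrix.Normed
import Mathlib.Analysis.SpecialFunctions.Exponential
import Mathlib.LinearAlgebra.Matrix.FiniteDimensional
import Vale.Agent.Lib.P348.TDefs

/-!
# P348 module T1: Trotter product formula
Fev N δ = 1 - δ Heven + O(δ²) and the same for Fod (the labels with exactly one generator give the
linear term, cw^2 = δ), so Fev * Fod = 1 - δ HR + O(δ²), and (1 - (β/n) H + O(1/n²))^n → exp(-β H)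
(telescoping: ‖X^n - Y^n‖ ≤ n max(‖X‖,‖Y‖)^(n-1) ‖X - Y‖ with Y = exp(-(β/n) H)).
-/

namespace P348

open Matrix Filter Topology

section general

variable {A : Type*} [NormedRing A] [NormOneClass A]

private theorem norm_pow_sub_pow_le_aux {F G : A} {M : ℝ} (hM : 1 ≤ M) (hF : ‖F‖ ≤ M)
    (hG : ‖G‖ ≤ M) (n : ℕ) : ‖F ^ n - G ^ n‖ ≤ n * M ^ n * ‖F - G‖ := by
  have hM0 : 0 ≤ M := zero_le_one.trans hM
  induction n with
  | zero => simp
  | succ n ih =>
    have h1 : F ^ (n + 1) - G ^ (n + 1) = F ^ n * (F - G) + (F ^ n - G ^ n) * G := by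
      rw [pow_succ, pow_succ]; noncomm_ring
    have hFn : ‖F ^ n‖ ≤ M ^ n := (norm_pow_le F n).trans (pow_le_pow_left₀ (norm_nonneg _) hF n)
    have hd := norm_nonneg (F - G)
    have hMn : 0 ≤ M ^ n := pow_nonneg hM0 n
    calc ‖F ^ (n + 1) - G ^ (n + 1)‖ ≤ ‖F ^ n * (F - G)‖ + ‖(F ^ n - G ^ n) * G‖ := by
          rw [h1]; exact norm_add_le _ _
      _ ≤ M ^ n * ‖F - G‖ + n * M ^ n * ‖F - G‖ * M := by
          gcongr
          · exact (norm_mul_le _ _).trans (mul_le_mul_of_nonneg_right hFn hd)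
          · exact (norm_mul_le _ _).trans
              (mul_le_mul ih hG (norm_nonneg _) (by positivity))
      _ ≤ M ^ n * M * ‖F - G‖ + n * M ^ n * ‖F - G‖ * M := by
          gcongr
          exact le_mul_of_one_le_right hMn hM
      _ = (n + 1 : ℕ) * M ^ (n + 1) * ‖F - G‖ := by
          push_cast; ring

variable [NormedAlgebra ℝ A]

/-- `n (exp (X / n) - 1)` tends to `X` -/
private theorem tendsto_exp_smul [CompleteSpace A] (X : A) :
    Tendsto (fun n : ℕ => (n : ℝ) • (NormedSpace.exp ((1 / (n : ℝ)) • X) - 1)) atTop (𝓝 X) := by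
  have h1 : HasDerivAt (fun t : ℝ => NormedSpace.exp (t • X)) X 0 := by
    have h := hasDerivAt_exp_smul_const (𝕂 := ℝ) X (0 : ℝ)
    simpa using h
  have h2 := h1.tendsto_slope_zero
  have h3 : Tendsto (fun n : ℕ => (1 / (n : ℝ))) atTop (𝓝[≠] 0) := by
    refine tendsto_nhdsWithin_iff.2 ⟨tendsto_one_div_atTop_nhds_zero_nat, ?_⟩
    filter_upwards [eventually_gt_atTop 0] with n hn
    have : (0 : ℝ) < n := by exact_mod_cast hn
    exact (one_div_pos.2 this).ne'
  have h4 := h2.comp h3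
  refine h4.congr fun n => ?_
  simp

/-- general product formula -/
theorem tendsto_pow_exp_seq [CompleteSpace A] {X : A} {F : ℕ → A}
    (hF : Tendsto (fun n : ℕ => (n : ℝ) • (F n - 1)) atTop (𝓝 X)) :
    Tendsto (fun n : ℕ => F n ^ n) atTop (𝓝 (NormedSpace.exp X)) := by
  set G : ℕ → A := fun n => NormedSpace.exp ((1 / (n : ℝ)) • X) with hG
  have hG1 := tendsto_exp_smul X
  have hdiff : Tendsto (fun n : ℕ => (n : ℝ) * ‖F n - G n‖) atTop (𝓝 0) := by
    have h := (hF.sub hG1).norm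
    rw [sub_self, norm_zero] at h
    refine h.congr fun n => ?_
    rw [← smul_sub, sub_sub_sub_cancel_right, norm_smul, Real.norm_natCast]
  set c := ‖X‖ + 1 with hc
  have hc0 : 0 ≤ c := by positivity
  have hbF : ∀ᶠ n : ℕ in atTop, ‖F n‖ ≤ 1 + c / n := by
    have h := hF.norm.eventually (ge_mem_nhds (show ‖X‖ < c by rw [hc]; linarith))
    filter_upwards [h, eventually_gt_atTop 0] with n hn hn0
    have hn' : (0 : ℝ) < n := by exact_mod_cast hn0
    rw [norm_smul, Real.norm_natCast] at hn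
    have h1 : ‖F n - 1‖ ≤ c / n := by
      rw [le_div_iff₀ hn']; linarith
    calc ‖F n‖ = ‖1 + (F n - 1)‖ := by congr 1; abel
      _ ≤ ‖(1 : A)‖ + ‖F n - 1‖ := norm_add_le _ _
      _ ≤ 1 + c / n := by rw [norm_one]; linarith
  have hbG : ∀ᶠ n : ℕ in atTop, ‖G n‖ ≤ 1 + c / n := by
    have h := hG1.norm.eventually (ge_mem_nhds (show ‖X‖ < c by rw [hc]; linarith))
    filter_upwards [h, eventually_gt_atTop 0] with n hn hn0
    have hn' : (0 : ℝ) < n := by exact_mod_cast hn0
    rw [norm_smul, Real.norm_natCast] at hn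
    have h1 : ‖G n - 1‖ ≤ c / n := by
      rw [le_div_iff₀ hn']; linarith
    calc ‖G n‖ = ‖1 + (G n - 1)‖ := by congr 1; abel
      _ ≤ ‖(1 : A)‖ + ‖G n - 1‖ := norm_add_le _ _
      _ ≤ 1 + c / n := by rw [norm_one]; linarith
  have hGn : ∀ᶠ n : ℕ in atTop, G n ^ n = NormedSpace.exp X := by
    filter_upwards [eventually_gt_atTop 0] with n hn0
    have hn' : (n : ℝ) ≠ 0 := by exact_mod_cast hn0.ne'
    rw [hG]
    simp only
    let _ : NormedAlgebra ℚ A := NormedAlgebra.restrictScalars ℚ ℝ A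
    rw [← NormedSpace.exp_nsmul, ← Nat.cast_smul_eq_nsmul ℝ, smul_smul,
      mul_one_div_cancel hn', one_smul]
  have hlim : Tendsto (fun n : ℕ => F n ^ n - G n ^ n) atTop (𝓝 0) := by
    rw [tendsto_zero_iff_norm_tendsto_zero]
    have hup : Tendsto (fun n : ℕ => Real.exp c * ((n : ℝ) * ‖F n - G n‖)) atTop (𝓝 0) := by
      simpa using hdiff.const_mul (Real.exp c)
    refine squeeze_zero' (Eventually.of_forall fun n => norm_nonneg _) ?_ hup
    filter_upwards [hbF, hbG, eventually_gt_atTop 0] with n h1 h2 hn0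
    have hn' : (0 : ℝ) < n := by exact_mod_cast hn0
    have hM : 1 ≤ 1 + c / n := by
      have : 0 ≤ c / n := by positivity
      linarith
    have h3 := norm_pow_sub_pow_le_aux hM h1 h2 n
    have h4 : (1 + c / n) ^ n ≤ Real.exp c := by
      calc (1 + c / n) ^ n ≤ (Real.exp (c / n)) ^ n := by
            refine pow_le_pow_left₀ (by linarith) ?_ n
            have := Real.add_one_le_exp (c / n)
            linarith
        _ = Real.exp c := by
            rw [← Real.exp_nat_mul, mul_div_cancel₀ _ hn'.ne']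
    have h5 := norm_nonneg (F n - G n)
    calc ‖F n ^ n - G n ^ n‖ ≤ n * (1 + c / n) ^ n * ‖F n - G n‖ := h3
      _ ≤ n * Real.exp c * ‖F n - G n‖ := by gcongr
      _ = Real.exp c * (n * ‖F n - G n‖) := by ring
  have h := hlim.add (tendsto_const_nhds (x := NormedSpace.exp X))
  rw [zero_add] at h
  refine h.congr' ?_
  filter_upwards [hGn] with n hn
  rw [← hn]; abel

/-- products -/
theorem tendsto_mul_expand {X Y : A} {F G : ℕ → A}
    (hF : Tendsto (fun n : ℕ => (n : ℝ) • (F n - 1)) atTop (𝓝 X))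
    (hG : Tendsto (fun n : ℕ => (n : ℝ) • (G n - 1)) atTop (𝓝 Y)) :
    Tendsto (fun n : ℕ => (n : ℝ) • (F n * G n - 1)) atTop (𝓝 (X + Y)) := by
  have hG1 : Tendsto G atTop (𝓝 1) := by
    have h0 : Tendsto (fun n : ℕ => (1 / (n : ℝ))) atTop (𝓝 0) :=
      tendsto_one_div_atTop_nhds_zero_nat
    have h := (h0.smul hG).add (tendsto_const_nhds (x := (1 : A)))
    rw [zero_smul, zero_add] at h
    refine h.congr' ?_
    filter_upwards [eventually_gt_atTop 0] with n hn0
    have hn' : (n : ℝ) ≠ 0 := by exact_mod_cast hn0.ne'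
    rw [smul_smul, one_div_mul_cancel hn', one_smul]; abel
  have h := (hF.mul hG1).add hG
  rw [mul_one] at h
  refine h.congr fun n => ?_
  rw [smul_mul_assoc, ← smul_add]
  congr 1
  noncomm_ring

end general

section matrixv

variable {m : Type*} [Fintype m] [DecidableEq m] [Nonempty m]

attribute [local instance] Matrix.linftyOpNormedRing Matrix.linftyOpNormedAlgebra
  Matrix.linfty_opNormOneClass

theorem matrix_trotter {X Y : Matrix m m ℝ} {F G : ℕ → Matrix m m ℝ}
    (hF : Tendsto (fun n : ℕ => (n : ℝ) • (F n - 1)) atTop (𝓝 X))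
    (hG : Tendsto (fun n : ℕ => (n : ℝ) • (G n - 1)) atTop (𝓝 Y)) :
    Tendsto (fun n : ℕ => (F n * G n) ^ n) atTop (𝓝 (NormedSpace.exp (X + Y))) :=
  tendsto_pow_exp_seq (tendsto_mul_expand hF hG)

end matrixv

section entries

variable {N : ℕ}

/-- one step of a product expansion -/
private theorem tendsto_prod_expand {ι : Type*} [Fintype ι] [DecidableEq ι] (D Q : ι → ℝ)
    (β : ℝ) :
    Tendsto (fun n : ℕ => (n : ℝ) * ((∏ i, (D i + (β / n) * Q i)) - ∏ i, D i)) atTop
      (𝓝 (β * ∑ i, (∏ j ∈ Finset.univ.erase i, D j) * Q i)) := by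
  have h1 : HasDerivAt (fun x : ℝ => ∏ i, (D i + (β * x) * Q i))
      (∑ i, (∏ j ∈ Finset.univ.erase i, D j) * (β * Q i)) 0 := by
    have h2 : ∀ i ∈ (Finset.univ : Finset ι),
        HasDerivAt (fun x : ℝ => D i + (β * x) * Q i) (β * Q i) 0 := by
      intro i _
      have h := (((hasDerivAt_id (0 : ℝ)).const_mul β).mul_const (Q i)).const_add (D i)
      simpa using h
    have h3 := HasDerivAt.fun_finsetProd h2
    simpa [smul_eq_mul] using h3
  have h2 := h1.tendsto_slope_zero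
  have h3 : Tendsto (fun n : ℕ => (1 / (n : ℝ))) atTop (𝓝[≠] 0) := by
    refine tendsto_nhdsWithin_iff.2 ⟨tendsto_one_div_atTop_nhds_zero_nat, ?_⟩
    filter_upwards [eventually_gt_atTop 0] with n hn
    have : (0 : ℝ) < n := by exact_mod_cast hn
    exact (one_div_pos.2 this).ne'
  have h4 := h2.comp h3
  have e : ∑ i, (∏ j ∈ Finset.univ.erase i, D j) * (β * Q i) =
      β * ∑ i, (∏ j ∈ Finset.univ.erase i, D j) * Q i := by
    rw [Finset.mul_sum]
    refine Finset.sum_congr rfl fun i _ => ?_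
    ring
  rw [e] at h4
  refine h4.congr fun n => ?_
  simp only [Function.comp, smul_eq_mul, one_div, inv_inv, zero_add, mul_zero, zero_mul, add_zero]
  congr 2

private theorem prod_site (f : Site N → ℝ) :
    ∏ s, f s = ∏ i, (f (i, true) * f (i, false)) := by
  rw [Fintype.prod_prod_type]
  refine Finset.prod_congr rfl fun i _ => ?_
  rw [Fintype.prod_bool]

private theorem one_entry (s t : Cfg N) :
    (1 : Matrix (Cfg N) (Cfg N) ℝ) s t =
      ∏ i, ((1 : Matrix (Fin 3) (Fin 3) ℝ) (s (i, true)) (t (i, true)) *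
        (1 : Matrix (Fin 3) (Fin 3) ℝ) (s (i, false)) (t (i, false))) := by
  rw [← prod_site (fun x => (1 : Matrix (Fin 3) (Fin 3) ℝ) (s x) (t x))]
  simp only [Matrix.one_apply]
  rw [Finset.prod_ite_zero]
  simp [funext_iff]

private theorem cw_none (δ : ℝ) : cw δ none ^ 2 = 1 := by simp [cw]

private theorem cw_some {δ : ℝ} (hδ : 0 ≤ δ) (α : Fin 3) : cw δ (some α) ^ 2 = δ := by
  simp [cw, Real.sq_sqrt hδ]

private theorem sum_lab {δ : ℝ} (hδ : 0 ≤ δ) (f : Lab → ℝ) :
    ∑ l : Lab, cw δ l ^ 2 * f l = f none + δ * ∑ α : Fin 3, f (some α) := by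
  rw [Fintype.sum_option, cw_none, one_mul, Finset.mul_sum]
  congr 1
  refine Finset.sum_congr rfl fun α _ => ?_
  rw [cw_some hδ]

private theorem sum_prod_lab {ι : Type} [Fintype ι] [DecidableEq ι] (f : ι → Lab → ℝ) :
    ∑ a : ι → Lab, ∏ i, f i (a i) = ∏ i, ∑ l, f i l := by
  rw [Finset.prod_univ_sum, Fintype.piFinset_univ]

private theorem Fev_entry {δ : ℝ} (hδ : 0 ≤ δ) (s t : Cfg N) :
    Fev N δ s t = ∏ i, ((1 : Matrix (Fin 3) (Fin 3) ℝ) (s (i, true)) (t (i, true)) *
        (1 : Matrix (Fin 3) (Fin 3) ℝ) (s (i, false)) (t (i, false)) +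
      δ * ∑ α : Fin 3, Lg α (s (i, true)) (t (i, true)) * Lg α (s (i, false)) (t (i, false))) := by
  unfold Fev
  rw [Matrix.sum_apply]
  have h1 : ∀ a : Fin N → Lab, ((∏ i, cw δ (a i) ^ 2) • tens (fun s : Site N => Am (a s.1))) s t =
      ∏ i, (cw δ (a i) ^ 2 * (Am (a i) (s (i, true)) (t (i, true)) *
        Am (a i) (s (i, false)) (t (i, false)))) := by
    intro a
    rw [Matrix.smul_apply, smul_eq_mul, tens, prod_site, ← Finset.prod_mul_distrib]
  rw [Finset.sum_congr rfl fun a _ => h1 a, sum_prod_lab (fun i l => cw δ l ^ 2 *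
    (Am l (s (i, true)) (t (i, true)) * Am l (s (i, false)) (t (i, false))))]
  refine Finset.prod_congr rfl fun i _ => ?_
  rw [sum_lab hδ (fun l => Am l (s (i, true)) (t (i, true)) * Am l (s (i, false)) (t (i, false)))]
  rfl

private theorem prod_ite_erase {ι : Type*} [Fintype ι] [DecidableEq ι] (i : ι) (A B : ι → ℝ) :
    ∏ j, (if j = i then A j else B j) = (∏ j ∈ Finset.univ.erase i, B j) * A i := by
  rw [← Finset.prod_erase_mul Finset.univ _ (Finset.mem_univ i), if_pos rfl]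
  congr 1
  refine Finset.prod_congr rfl fun j hj => ?_
  rw [if_neg (Finset.ne_of_mem_erase hj)]

private theorem Heven_entry (s t : Cfg N) :
    Heven N s t = -∑ i, (∏ j ∈ Finset.univ.erase i,
      ((1 : Matrix (Fin 3) (Fin 3) ℝ) (s (j, true)) (t (j, true)) *
        (1 : Matrix (Fin 3) (Fin 3) ℝ) (s (j, false)) (t (j, false)))) *
      ∑ α : Fin 3, Lg α (s (i, true)) (t (i, true)) * Lg α (s (i, false)) (t (i, false)) := by
  unfold Heven
  rw [Matrix.neg_apply, Matrix.sum_apply]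
  congr 1
  refine Finset.sum_congr rfl fun i _ => ?_
  rw [Matrix.sum_apply, Finset.mul_sum]
  refine Finset.sum_congr rfl fun α _ => ?_
  rw [tens, prod_site, ← prod_ite_erase i
    (fun j => Lg α (s (j, true)) (t (j, true)) * Lg α (s (j, false)) (t (j, false)))]
  refine Finset.prod_congr rfl fun j _ => ?_
  by_cases h : j = i
  · simp only [h, if_true]
  · simp only [h, if_false]

theorem Fev_tendsto (N : ℕ) (β : ℝ) (hβ : 0 ≤ β) :
    Tendsto (fun n : ℕ => (n : ℝ) • (Fev N (β / n) - 1)) atTop (𝓝 (-(β • Heven N))) := by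
  refine tendsto_pi_nhds.2 fun s => tendsto_pi_nhds.2 fun t => ?_
  have h := tendsto_prod_expand (fun i : Fin N =>
    (1 : Matrix (Fin 3) (Fin 3) ℝ) (s (i, true)) (t (i, true)) *
        (1 : Matrix (Fin 3) (Fin 3) ℝ) (s (i, false)) (t (i, false)))
    (fun i => ∑ α : Fin 3, Lg α (s (i, true)) (t (i, true)) * Lg α (s (i, false)) (t (i, false))) β
  have e : (-(β • Heven N)) s t = β * ∑ i : Fin N, (∏ j ∈ Finset.univ.erase i,
      ((1 : Matrix (Fin 3) (Fin 3) ℝ) (s (j, true)) (t (j, true)) *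
        (1 : Matrix (Fin 3) (Fin 3) ℝ) (s (j, false)) (t (j, false)))) *
      ∑ α : Fin 3, Lg α (s (i, true)) (t (i, true)) * Lg α (s (i, false)) (t (i, false)) := by
    rw [Matrix.neg_apply, Matrix.smul_apply, Heven_entry, smul_eq_mul]
    ring
  rw [e]
  refine h.congr fun n => ?_
  have hn : 0 ≤ β / n := by positivity
  change _ = (n : ℝ) * (Fev N (β / n) s t - (1 : Matrix (Cfg N) (Cfg N) ℝ) s t)
  rw [Fev_entry hn, one_entry]

variable [NeZero N]

/-- matrix of a label seen from the odd bond arriving at `i + 1` -/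
private noncomputable def GG (R : Matrix (Fin 3) (Fin 3) ℝ) (i : Fin N)
    (M : Matrix (Fin 3) (Fin 3) ℝ) : Matrix (Fin 3) (Fin 3) ℝ :=
  if i + 1 = 0 then R * M * Rᵀ else M

private theorem GG_one {R : Matrix (Fin 3) (Fin 3) ℝ} (hR : R * Rᵀ = 1) (i : Fin N) :
    GG R i 1 = 1 := by
  unfold GG
  split_ifs
  · rw [mul_one, hR]
  · rfl

private theorem prod_shift (f : Fin N → ℝ) : ∏ i, f i = ∏ i, f (i + 1) :=
  (Equiv.prod_comp (Equiv.addRight (1 : Fin N)) f).symm

private theorem prod_site_shift (f : Site N → ℝ) :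
    ∏ s, f s = ∏ i, (f (i, true) * f (i + 1, false)) := by
  rw [prod_site, Finset.prod_mul_distrib, Finset.prod_mul_distrib,
    prod_shift (fun i => f (i, false))]

private theorem one_entry_shift (s t : Cfg N) :
    (1 : Matrix (Cfg N) (Cfg N) ℝ) s t =
      ∏ i, ((1 : Matrix (Fin 3) (Fin 3) ℝ) (s (i, true)) (t (i, true)) *
        (1 : Matrix (Fin 3) (Fin 3) ℝ) (s (i + 1, false)) (t (i + 1, false))) := by
  rw [one_entry, ← prod_site (fun x => (1 : Matrix (Fin 3) (Fin 3) ℝ) (s x) (t x)),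
    prod_site_shift]

private theorem Fod_entry {R : Matrix (Fin 3) (Fin 3) ℝ} (hR : R * Rᵀ = 1) {δ : ℝ} (hδ : 0 ≤ δ)
    (s t : Cfg N) :
    Fod N R δ s t = ∏ i, ((1 : Matrix (Fin 3) (Fin 3) ℝ) (s (i, true)) (t (i, true)) *
        (1 : Matrix (Fin 3) (Fin 3) ℝ) (s (i + 1, false)) (t (i + 1, false)) +
      δ * ∑ α : Fin 3, Lg α (s (i, true)) (t (i, true)) *
        GG R i (Lg α) (s (i + 1, false)) (t (i + 1, false))) := by
  unfold Fod
  rw [Matrix.sum_apply]
  have h1 : ∀ b : Fin N → Lab, ((∏ i, cw δ (b i) ^ 2) • tens (fun s : Site N =>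
      if s.2 = true then Am (b s.1)
      else if s.1 = 0 then R * Am (b (s.1 - 1)) * Rᵀ
      else Am (b (s.1 - 1)))) s t =
      ∏ i, (cw δ (b i) ^ 2 * (Am (b i) (s (i, true)) (t (i, true)) *
        GG R i (Am (b i)) (s (i + 1, false)) (t (i + 1, false)))) := by
    intro b
    rw [Matrix.smul_apply, smul_eq_mul, tens, prod_site_shift, ← Finset.prod_mul_distrib]
    refine Finset.prod_congr rfl fun i _ => ?_
    simp only [if_true, Bool.false_eq_true, if_false, add_sub_cancel_right, GG]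
  rw [Finset.sum_congr rfl fun b _ => h1 b, sum_prod_lab (fun i l => cw δ l ^ 2 *
    (Am l (s (i, true)) (t (i, true)) * GG R i (Am l) (s (i + 1, false)) (t (i + 1, false))))]
  refine Finset.prod_congr rfl fun i _ => ?_
  rw [sum_lab hδ (fun l => Am l (s (i, true)) (t (i, true)) *
    GG R i (Am l) (s (i + 1, false)) (t (i + 1, false)))]
  have e1 : Am none = 1 := rfl
  rw [e1, GG_one hR]
  rfl

private theorem Hodd_entry {R : Matrix (Fin 3) (Fin 3) ℝ} (s t : Cfg N) :
    Hodd N R s t = -∑ i, (∏ j ∈ Finset.univ.erase i,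
      ((1 : Matrix (Fin 3) (Fin 3) ℝ) (s (j, true)) (t (j, true)) *
        (1 : Matrix (Fin 3) (Fin 3) ℝ) (s (j + 1, false)) (t (j + 1, false)))) *
      ∑ α : Fin 3, Lg α (s (i, true)) (t (i, true)) *
        GG R i (Lg α) (s (i + 1, false)) (t (i + 1, false)) := by
  unfold Hodd
  rw [Matrix.neg_apply, Matrix.sum_apply]
  congr 1
  refine Finset.sum_congr rfl fun i _ => ?_
  rw [Matrix.sum_apply, Finset.mul_sum]
  refine Finset.sum_congr rfl fun α _ => ?_
  rw [tens, prod_site_shift, ← prod_ite_erase i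
    (fun j => Lg α (s (j, true)) (t (j, true)) *
      GG R j (Lg α) (s (j + 1, false)) (t (j + 1, false)))]
  refine Finset.prod_congr rfl fun j _ => ?_
  by_cases h : j = i
  · subst h
    simp [GG]
  · have h' : ¬ (j + 1 = i + 1) := fun h' => h (add_right_cancel h')
    simp [h, h']

theorem Fod_tendsto (N : ℕ) [NeZero N] {R : Matrix (Fin 3) (Fin 3) ℝ} (hR : R * Rᵀ = 1) (β : ℝ)
    (hβ : 0 ≤ β) :
    Tendsto (fun n : ℕ => (n : ℝ) • (Fod N R (β / n) - 1)) atTop (𝓝 (-(β • Hodd N R))) := by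
  refine tendsto_pi_nhds.2 fun s => tendsto_pi_nhds.2 fun t => ?_
  have h := tendsto_prod_expand (fun i : Fin N =>
    (1 : Matrix (Fin 3) (Fin 3) ℝ) (s (i, true)) (t (i, true)) *
        (1 : Matrix (Fin 3) (Fin 3) ℝ) (s (i + 1, false)) (t (i + 1, false)))
    (fun i => ∑ α : Fin 3, Lg α (s (i, true)) (t (i, true)) *
        GG R i (Lg α) (s (i + 1, false)) (t (i + 1, false))) β
  have e : (-(β • Hodd N R)) s t = β * ∑ i : Fin N, (∏ j ∈ Finset.univ.erase i,
      ((1 : Matrix (Fin 3) (Fin 3) ℝ) (s (j, true)) (t (j, true)) *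
        (1 : Matrix (Fin 3) (Fin 3) ℝ) (s (j + 1, false)) (t (j + 1, false)))) *
      ∑ α : Fin 3, Lg α (s (i, true)) (t (i, true)) *
        GG R i (Lg α) (s (i + 1, false)) (t (i + 1, false)) := by
    rw [Matrix.neg_apply, Matrix.smul_apply, Hodd_entry, smul_eq_mul]
    ring
  rw [e]
  refine h.congr fun n => ?_
  have hn : 0 ≤ β / n := by positivity
  change _ = (n : ℝ) * (Fod N R (β / n) s t - (1 : Matrix (Cfg N) (Cfg N) ℝ) s t)
  rw [Fod_entry hR hn, one_entry_shift]

end entries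

theorem trotter_limit (N : ℕ) [NeZero N] (W R : Matrix (Fin 3) (Fin 3) ℝ) (hR : IsRot R) (β : ℝ)
    (hβ : 0 ≤ β) :
    Tendsto (fun n : ℕ => (glob N W * (Fev N (β / n) * Fod N R (β / n)) ^ n).trace) atTop
      (𝓝 (ZZ N W R β)) := by
  have h1 := matrix_trotter (Fev_tendsto N β hβ) (Fod_tendsto N hR.1 β hβ)
  have e : -(β • Heven N) + -(β • Hodd N R) = -(β • HR N R) := by
    rw [HR, smul_add, neg_add]
  rw [e] at h1
  have h2 : Continuous fun M : Matrix (Cfg N) (Cfg N) ℝ => (glob N W * M).trace := by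
    fun_prop
  exact (h2.tendsto _).comp h1

end P348
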