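import Vale.Agent.Lib.P348.TDefs

/-!
# P348 module T2: the trace identity (space-time duality), finite n

Proof.  `tens M * tens M' = tens (fun i => M i * M' i)`, `trace (tens M) = ∏ trace (M i)`
(Finset.prod_univ_sum / Fintype.piFinset).  So (Fev * Fod)^n is the sum over all label histories
a t, b t of tens of the ordered products, and the trace is
  ∑_{a : Fin N → Fin n → Lab} ∑_{b : Fin N → Fin n → Lab}
     ∏_j KW (a_j) (b_j) * ∏_j K'_j (a_j) (b_{j-1}),
K'_j = KW for j ≠ 0 and K'_0 (a,b) = ∑_{b'} KW (a,b') UR (b',b) because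
R * Am l * Rᵀ = ∑_{l'} uR R l' l • Am l' for a rotation R.  Summing over a gives the cyclic product of
M = KWᵀ KW, with one factor (UR)ᵀ; a cyclic product of matrices is a trace.
-/

namespace P348

open Matrix

/-! ### rotation of the generators -/

theorem rot_adjugate (R : Matrix (Fin 3) (Fin 3) ℝ) (hR : IsRot R) : R.adjugate = Rᵀ := by
  have h1 : R.adjugate * (R * Rᵀ) = Rᵀ := by
    rw [← Matrix.mul_assoc, Matrix.adjugate_mul, hR.2, one_smul, Matrix.one_mul]
  rw [hR.1, Matrix.mul_one] at h1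
  exact h1

private theorem Lg0 : Lg 0 = !![0, 0, 0; 0, 0, 1; 0, -1, 0] := by
  ext i j
  fin_cases i <;> fin_cases j <;> simp [Lg, eps]

private theorem Lg1 : Lg 1 = !![0, 0, -1; 0, 0, 0; 1, 0, 0] := by
  ext i j
  fin_cases i <;> fin_cases j <;> simp [Lg, eps]

private theorem Lg2 : Lg 2 = !![0, 1, 0; -1, 0, 0; 0, 0, 0] := by
  ext i j
  fin_cases i <;> fin_cases j <;> simp [Lg, eps]

private theorem conj_entry (R X : Matrix (Fin 3) (Fin 3) ℝ) (i j : Fin 3) :
    (R * X * Rᵀ) i j = ∑ b, ∑ c, R i c * X c b * R j b := by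
  rw [Matrix.mul_apply]
  refine Finset.sum_congr rfl fun b _ => ?_
  rw [Matrix.mul_apply, Finset.sum_mul]
  rfl

private theorem rhs_entry (R : Matrix (Fin 3) (Fin 3) ℝ) (α i j : Fin 3) :
    (∑ β : Fin 3, R β α • Lg β) i j = R 0 α * Lg 0 i j + R 1 α * Lg 1 i j + R 2 α * Lg 2 i j := by
  rw [Fin.sum_univ_three]
  rfl

theorem rot_Lg (R : Matrix (Fin 3) (Fin 3) ℝ) (hR : IsRot R) (α : Fin 3) :
    R * Lg α * Rᵀ = ∑ β : Fin 3, R β α • Lg β := by
  have h := rot_adjugate R hR
  rw [Matrix.adjugate_fin_three] at h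
  have e00 : R 1 1 * R 2 2 - R 1 2 * R 2 1 = R 0 0 := by
    have := congrFun (congrFun h 0) 0
    simpa using this
  have e01 : -(R 0 1 * R 2 2) + R 0 2 * R 2 1 = R 1 0 := by
    have := congrFun (congrFun h 0) 1
    simpa using this
  have e02 : R 0 1 * R 1 2 - R 0 2 * R 1 1 = R 2 0 := by
    have := congrFun (congrFun h 0) 2
    simpa using this
  have e10 : -(R 1 0 * R 2 2) + R 1 2 * R 2 0 = R 0 1 := by
    have := congrFun (congrFun h 1) 0
    simpa using this
  have e11 : R 0 0 * R 2 2 - R 0 2 * R 2 0 = R 1 1 := by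
    have := congrFun (congrFun h 1) 1
    simpa using this
  have e12 : -(R 0 0 * R 1 2) + R 0 2 * R 1 0 = R 2 1 := by
    have := congrFun (congrFun h 1) 2
    simpa using this
  have e20 : R 1 0 * R 2 1 - R 1 1 * R 2 0 = R 0 2 := by
    have := congrFun (congrFun h 2) 0
    simpa using this
  have e21 : -(R 0 0 * R 2 1) + R 0 1 * R 2 0 = R 1 2 := by
    have := congrFun (congrFun h 2) 1
    simpa using this
  have e22 : R 0 0 * R 1 1 - R 0 1 * R 1 0 = R 2 2 := by
    have := congrFun (congrFun h 2) 2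
    simpa using this
  clear h
  ext i j
  rw [rhs_entry, conj_entry, Fin.sum_univ_three, Fin.sum_univ_three, Fin.sum_univ_three,
    Fin.sum_univ_three, Lg0, Lg1, Lg2]
  fin_cases α
  · change _ = R 0 0 * _ + R 1 0 * _ + R 2 0 * _
    rw [show Lg ((fun i => i) ⟨0, by decide⟩) = Lg 0 from rfl, Lg0]
    fin_cases i <;> fin_cases j <;> simp <;> linarith
  · change _ = R 0 1 * _ + R 1 1 * _ + R 2 1 * _
    rw [show Lg ((fun i => i) ⟨1, by decide⟩) = Lg 1 from rfl, Lg1]
    fin_cases i <;> fin_cases j <;> simp <;> linarith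
  · change _ = R 0 2 * _ + R 1 2 * _ + R 2 2 * _
    rw [show Lg ((fun i => i) ⟨2, by decide⟩) = Lg 2 from rfl, Lg2]
    fin_cases i <;> fin_cases j <;> simp <;> linarith

theorem rot_Am (R : Matrix (Fin 3) (Fin 3) ℝ) (hR : IsRot R) (l : Lab) :
    R * Am l * Rᵀ = ∑ l' : Lab, uR R l' l • Am l' := by
  rw [Fintype.sum_option]
  cases l with
  | none =>
    have h1 : ∀ β : Fin 3, uR R (some β) none • Am (some β) = 0 := by
      intro β
      simp [uR]
    rw [Finset.sum_eq_zero fun β _ => h1 β]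
    simp [uR, Am, hR.1]
  | some α =>
    have h1 : uR R none (some α) • Am none = 0 := by simp [uR]
    rw [h1, zero_add]
    exact rot_Lg R hR α

/-! ### tensor products -/

theorem tens_mul {ι : Type} [Fintype ι] [DecidableEq ι] (M M' : ι → Matrix (Fin 3) (Fin 3) ℝ) :
    tens M * tens M' = tens (fun i => M i * M' i) := by
  ext s t
  rw [Matrix.mul_apply]
  unfold tens
  simp only [Matrix.mul_apply]
  rw [Fintype.prod_sum]
  refine Finset.sum_congr rfl fun u _ => ?_
  rw [Finset.prod_mul_distrib]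

theorem trace_tens {ι : Type} [Fintype ι] [DecidableEq ι] (M : ι → Matrix (Fin 3) (Fin 3) ℝ) :
    (tens M).trace = ∏ i, (M i).trace := by
  unfold tens Matrix.trace
  simp only [Matrix.diag_apply]
  rw [Fintype.prod_sum]
  rfl

theorem tens_one {ι : Type} [Fintype ι] [DecidableEq ι] :
    tens (fun _ : ι => (1 : Matrix (Fin 3) (Fin 3) ℝ)) = 1 := by
  ext s t
  unfold tens
  by_cases h : s = t
  · subst h
    simp
  · rw [Matrix.one_apply_ne h]
    obtain ⟨i, hi⟩ := Function.ne_iff.1 h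
    exact Finset.prod_eq_zero (Finset.mem_univ i) (Matrix.one_apply_ne hi)

/-- product of sums, noncommutative -/
theorem sum_ofFn {I A : Type} [Fintype I] [Ring A] (n : ℕ) (f : Fin n → I → A) :
    (List.ofFn fun t => ∑ i, f t i).prod = ∑ c : Fin n → I, (List.ofFn fun t => f t (c t)).prod := by
  induction n with
  | zero => simp
  | succ n ih =>
    rw [List.ofFn_succ, List.prod_cons, ih, ← (Fin.consEquiv fun _ => I).sum_comp,
      Fintype.sum_prod_type, Finset.sum_mul]
    refine Finset.sum_congr rfl fun i _ => ?_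
    rw [Finset.mul_sum]
    refine Finset.sum_congr rfl fun c _ => ?_
    rw [List.ofFn_succ, List.prod_cons]
    rfl

/-- power of a sum, noncommutative -/
theorem sum_pow_ofFn {I A : Type} [Fintype I] [Ring A] (f : I → A) (n : ℕ) :
    (∑ i, f i) ^ n = ∑ c : Fin n → I, (List.ofFn fun t => f (c t)).prod := by
  rw [← sum_ofFn n fun _ => f, List.ofFn_const, List.prod_replicate]

theorem tens_ofFn {ι : Type} [Fintype ι] [DecidableEq ι] (n : ℕ)
    (M : Fin n → ι → Matrix (Fin 3) (Fin 3) ℝ) (w : Fin n → ℝ) :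
    (List.ofFn fun t => w t • tens (M t)).prod =
      (∏ t, w t) • tens (fun i => (List.ofFn fun t => M t i).prod) := by
  induction n with
  | zero => simp [tens_one]
  | succ n ih =>
    rw [List.ofFn_succ, List.prod_cons, ih, Fin.prod_univ_succ, Matrix.smul_mul, Matrix.mul_smul,
      tens_mul, smul_smul]
    congr 2
    funext i
    rw [List.ofFn_succ, List.prod_cons]

/-- a sum over closed paths is a trace -/
theorem sum_path {B : Type} [Fintype B] [DecidableEq B] (M : Matrix B B ℝ) (k : ℕ) :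
    ∀ g : B → B → ℝ, ∑ b : Fin (k + 1) → B, g (b 0) (b (Fin.last k)) *
      ∏ j : Fin k, M (b j.succ) (b j.castSucc) = ∑ x, ∑ y, g x y * (M ^ k) y x := by
  induction k with
  | zero =>
    intro g
    rw [← (Fin.consEquiv fun _ => B).sum_comp, Fintype.sum_prod_type]
    refine Finset.sum_congr rfl fun x _ => ?_
    simp [Fin.consEquiv, Matrix.one_apply]
  | succ k ih =>
    intro g
    have h := ih (fun x y => ∑ z, g z y * M x z)
    rw [← (Fin.consEquiv fun _ => B).sum_comp, Fintype.sum_prod_type, Finset.sum_comm]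
    have h1 : ∀ b : Fin (k + 1) → B, ∑ z : B,
        g ((Fin.consEquiv fun _ => B) (z, b) 0) ((Fin.consEquiv fun _ => B) (z, b) (Fin.last (k + 1))) *
          ∏ j : Fin (k + 1), M ((Fin.consEquiv fun _ => B) (z, b) j.succ)
            ((Fin.consEquiv fun _ => B) (z, b) j.castSucc) =
        (∑ z, g z (b (Fin.last k)) * M (b 0) z) * ∏ j : Fin k, M (b j.succ) (b j.castSucc) := by
      intro b
      rw [Finset.sum_mul]
      refine Finset.sum_congr rfl fun z _ => ?_
      rw [Fin.prod_univ_succ, ← mul_assoc]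
      rfl
    rw [Finset.sum_congr rfl fun b _ => h1 b, h]
    rw [Finset.sum_comm]
    have h2 : ∀ y x : B, (∑ z, g z y * M x z) * (M ^ k) y x =
        ∑ z, g z y * ((M ^ k) y x * M x z) := by
      intro y x
      rw [Finset.sum_mul]
      refine Finset.sum_congr rfl fun z _ => ?_
      ring
    simp_rw [h2]
    rw [Finset.sum_congr rfl fun y _ => Finset.sum_comm]
    rw [Finset.sum_comm]
    refine Finset.sum_congr rfl fun z _ => Finset.sum_congr rfl fun y _ => ?_
    rw [pow_succ, Matrix.mul_apply, Finset.mul_sum]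

/-! ### the trace identity -/

/-- the kernel with the twist -/
noncomputable def KR (n : ℕ) (δ : ℝ) (W R : Matrix (Fin 3) (Fin 3) ℝ) :
    Matrix (Fin n → Lab) (Fin n → Lab) ℝ :=
  fun a b => (∏ t, cw δ (a t) * cw δ (b t)) *
    (W * (List.ofFn fun t => Am (a t) * (R * Am (b t) * Rᵀ)).prod).trace

theorem cw_uR (δ : ℝ) (R : Matrix (Fin 3) (Fin 3) ℝ) (l l' : Lab) :
    cw δ l * uR R l' l = cw δ l' * uR R l' l := by
  cases l <;> cases l' <;> simp [cw, uR]

theorem smul_ofFn (n : ℕ) (M : Fin n → Matrix (Fin 3) (Fin 3) ℝ) (w : Fin n → ℝ) :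
    (List.ofFn fun t => w t • M t).prod = (∏ t, w t) • (List.ofFn fun t => M t).prod := by
  induction n with
  | zero => simp
  | succ n ih =>
    rw [List.ofFn_succ, List.prod_cons, ih, Fin.prod_univ_succ, Matrix.smul_mul, Matrix.mul_smul,
      smul_smul, List.ofFn_succ, List.prod_cons]

theorem KR_eq (n : ℕ) (δ : ℝ) (W R : Matrix (Fin 3) (Fin 3) ℝ) (hR : IsRot R) :
    KR n δ W R = KW n δ W * UR n R := by
  ext a b
  rw [Matrix.mul_apply]
  unfold KR KW UR
  have h1 : (List.ofFn fun t => Am (a t) * (R * Am (b t) * Rᵀ)).prod =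
      ∑ c : Fin n → Lab, (∏ t, uR R (c t) (b t)) •
        (List.ofFn fun t => Am (a t) * Am (c t)).prod := by
    have h2 : ∀ t, Am (a t) * (R * Am (b t) * Rᵀ) =
        ∑ l' : Lab, uR R l' (b t) • (Am (a t) * Am l') := by
      intro t
      rw [rot_Am R hR, Matrix.mul_sum]
      refine Finset.sum_congr rfl fun l' _ => ?_
      rw [Matrix.mul_smul]
    simp_rw [h2]
    rw [sum_ofFn]
    refine Finset.sum_congr rfl fun c _ => ?_
    rw [smul_ofFn]
  rw [h1, Matrix.mul_sum, Matrix.trace_sum, Finset.mul_sum]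
  refine Finset.sum_congr rfl fun c _ => ?_
  rw [Matrix.mul_smul, Matrix.trace_smul, smul_eq_mul]
  have h3 : (∏ t, cw δ (a t) * cw δ (b t)) * ∏ t, uR R (c t) (b t) =
      (∏ t, cw δ (a t) * cw δ (c t)) * ∏ t, uR R (c t) (b t) := by
    rw [← Finset.prod_mul_distrib, ← Finset.prod_mul_distrib]
    refine Finset.prod_congr rfl fun t _ => ?_
    rw [mul_assoc, cw_uR, mul_assoc]
  rw [← mul_assoc, h3]
  ring

theorem trace_identity (N n : ℕ) [NeZero N] (hn : 0 < n) (δ : ℝ) (hδ : 0 ≤ δ)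
    (W R : Matrix (Fin 3) (Fin 3) ℝ) (hR : IsRot R) :
    (glob N W * (Fev N δ * Fod N R δ) ^ n).trace =
      (((KW n δ W)ᵀ * KW n δ W) ^ N * UR n R).trace := by
  -- one layer
  obtain ⟨Od, hOd⟩ : ∃ Od : (Fin N → Lab) → Site N → Matrix (Fin 3) (Fin 3) ℝ,
      Od = fun b s => if s.2 = true then Am (b s.1)
        else if s.1 = 0 then R * Am (b (s.1 - 1)) * Rᵀ else Am (b (s.1 - 1)) := ⟨_, rfl⟩
  have hlayer : Fev N δ * Fod N R δ = ∑ p : (Fin N → Lab) × (Fin N → Lab),
      ((∏ i, cw δ (p.1 i) ^ 2) * ∏ i, cw δ (p.2 i) ^ 2) •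
        tens (fun s : Site N => Am (p.1 s.1) * Od p.2 s) := by
    rw [Fintype.sum_prod_type]
    unfold Fev Fod
    rw [Matrix.sum_mul]
    refine Finset.sum_congr rfl fun a _ => ?_
    rw [Matrix.mul_sum]
    refine Finset.sum_congr rfl fun b _ => ?_
    rw [Matrix.smul_mul, Matrix.mul_smul, smul_smul, tens_mul, hOd]
  -- the power
  have hpow : (glob N W * (Fev N δ * Fod N R δ) ^ n).trace =
      ∑ c : Fin n → (Fin N → Lab) × (Fin N → Lab),
        (∏ t, ((∏ i, cw δ ((c t).1 i) ^ 2) * ∏ i, cw δ ((c t).2 i) ^ 2)) *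
        ∏ s : Site N, (W * (List.ofFn fun t => Am ((c t).1 s.1) * Od (c t).2 s).prod).trace := by
    rw [hlayer, sum_pow_ofFn, Matrix.mul_sum, Matrix.trace_sum]
    refine Finset.sum_congr rfl fun c _ => ?_
    rw [tens_ofFn n (fun t (s : Site N) => Am ((c t).1 s.1) * Od (c t).2 s)
      (fun t => (∏ i, cw δ ((c t).1 i) ^ 2) * ∏ i, cw δ ((c t).2 i) ^ 2)]
    unfold glob
    rw [Matrix.mul_smul, Matrix.trace_smul, smul_eq_mul, tens_mul, trace_tens]
  -- reindex
  obtain ⟨e, he⟩ : ∃ e : ((Fin N → Fin n → Lab) × (Fin N → Fin n → Lab)) ≃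
      (Fin n → (Fin N → Lab) × (Fin N → Lab)),
      ∀ p t, e p t = (fun i => p.1 i t, fun i => p.2 i t) :=
    ⟨⟨fun p t => (fun i => p.1 i t, fun i => p.2 i t),
      fun c => (fun i t => (c t).1 i, fun i t => (c t).2 i), fun p => rfl, fun c => rfl⟩,
      fun p t => rfl⟩
  have hterm : ∀ p : (Fin N → Fin n → Lab) × (Fin N → Fin n → Lab),
      (∏ t, ((∏ i, cw δ ((e p t).1 i) ^ 2) * ∏ i, cw δ ((e p t).2 i) ^ 2)) *
        ∏ s : Site N, (W * (List.ofFn fun t => Am ((e p t).1 s.1) * Od (e p t).2 s).prod).trace =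
      ∏ i : Fin N, KW n δ W (p.1 i) (p.2 i) *
        (if i = 0 then KR n δ W R else KW n δ W) (p.1 i) (p.2 (i - 1)) := by
    rintro ⟨a, b⟩
    simp only [he]
    rw [Fintype.prod_prod_type]
    simp only [Fintype.prod_bool]
    have h1 : ∏ t : Fin n, ((∏ i : Fin N, cw δ (a i t) ^ 2) * ∏ i : Fin N, cw δ (b i t) ^ 2) =
        ∏ i : Fin N, ((∏ t, cw δ (a i t) * cw δ (b i t)) *
          ∏ t, cw δ (a i t) * cw δ (b (i - 1) t)) := by
      rw [Finset.prod_mul_distrib, Finset.prod_comm, Finset.prod_comm (s := Finset.univ (α := Fin n))]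
      simp only [Finset.prod_mul_distrib]
      have h2 : ∏ i : Fin N, ∏ t : Fin n, cw δ (b (i - 1) t) = ∏ i : Fin N, ∏ t, cw δ (b i t) :=
        (Equiv.subRight (1 : Fin N)).prod_comp fun i => ∏ t, cw δ (b i t)
      rw [h2]
      simp only [sq, Finset.prod_mul_distrib]
      ring
    rw [h1, ← Finset.prod_mul_distrib]
    refine Finset.prod_congr rfl fun i _ => ?_
    have h3 : ∀ t : Fin n, Od (fun i => b i t) (i, true) = Am (b i t) := by
      intro t
      rw [hOd]
      simp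
    have h4 : ∀ t : Fin n, Od (fun i => b i t) (i, false) =
        if i = 0 then R * Am (b (i - 1) t) * Rᵀ else Am (b (i - 1) t) := by
      intro t
      rw [hOd]
      simp
    simp only [h3, h4]
    by_cases hi : i = 0
    · simp only [if_pos hi]
      unfold KR KW
      ring
    · simp only [if_neg hi]
      unfold KW
      ring
  rw [hpow, ← e.sum_comp, Finset.sum_congr rfl fun p _ => hterm p, Fintype.sum_prod_type_right]
  -- sum over the labels of the even bonds
  have hsum : ∀ b : Fin N → Fin n → Lab, ∑ a : Fin N → Fin n → Lab,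
      ∏ i : Fin N, KW n δ W (a i) (b i) *
        (if i = 0 then KR n δ W R else KW n δ W) (a i) (b (i - 1)) =
      ∏ i : Fin N, ((KW n δ W)ᵀ * (if i = 0 then KR n δ W R else KW n δ W)) (b i) (b (i - 1)) := by
    intro b
    simp only [Matrix.mul_apply, Matrix.transpose_apply]
    rw [Fintype.prod_sum]
  rw [Finset.sum_congr rfl fun b _ => hsum b]
  -- the closed path
  obtain ⟨k, rfl⟩ : ∃ k, N = k + 1 := ⟨N - 1, by have := NeZero.pos N; omega⟩
  have h5 : ∀ b : Fin (k + 1) → Fin n → Lab, ∏ i : Fin (k + 1),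
      ((KW n δ W)ᵀ * (if i = 0 then KR n δ W R else KW n δ W)) (b i) (b (i - 1)) =
      ((KW n δ W)ᵀ * (KW n δ W * UR n R)) (b 0) (b (Fin.last k)) *
        ∏ j : Fin k, ((KW n δ W)ᵀ * KW n δ W) (b j.succ) (b j.castSucc) := by
    intro b
    rw [Fin.prod_univ_succ, if_pos rfl, KR_eq n δ W R hR]
    have h6 : (0 : Fin (k + 1)) - 1 = Fin.last k := by
      rw [sub_eq_iff_eq_add]
      exact (Fin.last_add_one k).symm
    rw [h6]
    congr 1
    refine Finset.prod_congr rfl fun j _ => ?_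
    rw [if_neg (Fin.succ_ne_zero j)]
    have h7 : j.succ - 1 = j.castSucc := by
      rw [sub_eq_iff_eq_add]
      exact (Fin.coeSucc_eq_succ).symm
    rw [h7]
  rw [Finset.sum_congr rfl fun b _ => h5 b,
    sum_path ((KW n δ W)ᵀ * KW n δ W) k (fun x y => ((KW n δ W)ᵀ * (KW n δ W * UR n R)) x y)]
  have h8 : ∑ x, ∑ y, ((KW n δ W)ᵀ * (KW n δ W * UR n R)) x y *
      (((KW n δ W)ᵀ * KW n δ W) ^ k) y x =
      (((KW n δ W)ᵀ * (KW n δ W * UR n R)) * ((KW n δ W)ᵀ * KW n δ W) ^ k).trace := by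
    unfold Matrix.trace
    refine Finset.sum_congr rfl fun x _ => ?_
    rw [Matrix.diag_apply, Matrix.mul_apply]
  rw [h8, Matrix.trace_mul_comm, pow_succ]
  simp only [Matrix.mul_assoc]

end P348
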