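import Mathlib.LinearAlgebra.Matrix.InvariantBasisNumber
import Vale.Agent.Lib.P348.T2

/-!
# P348 module T4: algebra of the rotations of label histories
UR is multiplicative, orthogonal, and commutes with the one-site kernel when R commutes with W:
(URᵀ K_W UR)(a,b) = tr(W ∏ (R A R⁻¹)...) = K_{R⁻¹ W R}(a,b), using rot_Am in every slot
(cw is constant on the generators so it commutes with uR), and URᵀ UR = 1.
-/

namespace P348

open Matrix

theorem uR_one : uR (1 : Matrix (Fin 3) (Fin 3) ℝ) = 1 := by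
  ext a b
  cases a with
  | none => cases b <;> simp [uR, Matrix.one_apply]
  | some a => cases b <;> simp [uR, Matrix.one_apply]

theorem uR_mul (R S : Matrix (Fin 3) (Fin 3) ℝ) : uR (R * S) = uR R * uR S := by
  ext a b
  rw [Matrix.mul_apply, Fintype.sum_option]
  cases a with
  | none => cases b <;> simp [uR]
  | some a =>
    cases b with
    | none => simp [uR]
    | some b =>
      simp only [uR, zero_mul, zero_add]
      rw [Matrix.mul_apply]

theorem uR_transpose (R : Matrix (Fin 3) (Fin 3) ℝ) (a b : Lab) : uR R a b = uR Rᵀ b a := by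
  cases a <;> cases b <;> simp [uR]

theorem UR_one (n : ℕ) : UR n (1 : Matrix (Fin 3) (Fin 3) ℝ) = 1 := by
  ext a b
  unfold UR
  rw [uR_one]
  by_cases h : a = b
  · subst h
    simp
  · rw [Matrix.one_apply_ne h]
    obtain ⟨i, hi⟩ := Function.ne_iff.1 h
    exact Finset.prod_eq_zero (Finset.mem_univ i) (Matrix.one_apply_ne hi)

theorem UR_mul (n : ℕ) (R S : Matrix (Fin 3) (Fin 3) ℝ) : UR n (R * S) = UR n R * UR n S := by
  ext a b
  rw [Matrix.mul_apply]
  unfold UR
  simp only [uR_mul, Matrix.mul_apply]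
  rw [Fintype.prod_sum]
  refine Finset.sum_congr rfl fun c _ => ?_
  rw [Finset.prod_mul_distrib]

theorem UR_transpose (n : ℕ) (R : Matrix (Fin 3) (Fin 3) ℝ) : (UR n R)ᵀ = UR n Rᵀ := by
  ext a b
  rw [Matrix.transpose_apply]
  unfold UR
  refine Finset.prod_congr rfl fun t _ => ?_
  rw [uR_transpose]

theorem IsRot.transpose {R : Matrix (Fin 3) (Fin 3) ℝ} (hR : IsRot R) : IsRot Rᵀ := by
  refine ⟨?_, ?_⟩
  · rw [Matrix.transpose_transpose]
    exact mul_eq_one_comm.1 hR.1
  · rw [Matrix.det_transpose]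
    exact hR.2

theorem ofFn_conj (n : ℕ) (u v : Matrix (Fin 3) (Fin 3) ℝ) (X Y : Fin n → Matrix (Fin 3) (Fin 3) ℝ) :
    (List.ofFn fun t => (u * X t * v) * Y t).prod * u =
      u * (List.ofFn fun t => X t * (v * Y t * u)).prod := by
  induction n with
  | zero => simp
  | succ n ih =>
    rw [List.ofFn_succ, List.prod_cons, List.ofFn_succ, List.prod_cons]
    have h := ih (fun t => X t.succ) (fun t => Y t.succ)
    rw [Matrix.mul_assoc, h]
    simp only [Matrix.mul_assoc]

theorem UR_comm (n : ℕ) (δ : ℝ) (hδ : 0 ≤ δ) (W R : Matrix (Fin 3) (Fin 3) ℝ)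
    (hR : IsRot R) (hWR : W * R = R * W) :
    Commute (UR n R) (KW n δ W) := by
  have hRt : Rᵀ * R = 1 := mul_eq_one_comm.1 hR.1
  rw [commute_iff_eq, ← KR_eq n δ W R hR]
  ext a b
  rw [Matrix.mul_apply]
  unfold UR KW KR
  -- expand the rotated labels
  have h1 : (List.ofFn fun t => (Rᵀ * Am (a t) * R) * Am (b t)).prod =
      ∑ c : Fin n → Lab, (∏ t, uR R (a t) (c t)) •
        (List.ofFn fun t => Am (c t) * Am (b t)).prod := by
    have h2 : ∀ t, (Rᵀ * Am (a t) * R) * Am (b t) =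
        ∑ l' : Lab, uR R (a t) l' • (Am l' * Am (b t)) := by
      intro t
      have h3 := rot_Am Rᵀ hR.transpose (a t)
      rw [Matrix.transpose_transpose] at h3
      rw [h3, Matrix.sum_mul]
      refine Finset.sum_congr rfl fun l' _ => ?_
      rw [Matrix.smul_mul, uR_transpose R]
    simp_rw [h2]
    rw [sum_ofFn]
    refine Finset.sum_congr rfl fun c _ => ?_
    rw [smul_ofFn]
  have h4 : (W * (List.ofFn fun t => (Rᵀ * Am (a t) * R) * Am (b t)).prod).trace =
      (W * (List.ofFn fun t => Am (a t) * (R * Am (b t) * Rᵀ)).prod).trace := by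
    have h5 := ofFn_conj n Rᵀ R (fun t => Am (a t)) (fun t => Am (b t))
    have h6 : (List.ofFn fun t => (Rᵀ * Am (a t) * R) * Am (b t)).prod =
        Rᵀ * (List.ofFn fun t => Am (a t) * (R * Am (b t) * Rᵀ)).prod * R := by
      rw [← h5, Matrix.mul_assoc, hRt, Matrix.mul_one]
    rw [h6]
    have h7 : W * (Rᵀ * (List.ofFn fun t => Am (a t) * (R * Am (b t) * Rᵀ)).prod * R) =
        (W * Rᵀ * (List.ofFn fun t => Am (a t) * (R * Am (b t) * Rᵀ)).prod) * R := by
      simp only [Matrix.mul_assoc]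
    rw [h7, Matrix.trace_mul_comm]
    have h8 : R * (W * Rᵀ * (List.ofFn fun t => Am (a t) * (R * Am (b t) * Rᵀ)).prod) =
        (R * W) * Rᵀ * (List.ofFn fun t => Am (a t) * (R * Am (b t) * Rᵀ)).prod := by
      simp only [Matrix.mul_assoc]
    rw [h8, ← hWR, Matrix.mul_assoc W, hR.1, Matrix.mul_one]
  rw [← h4, h1, Matrix.mul_sum, Matrix.trace_sum, Finset.mul_sum]
  refine Finset.sum_congr rfl fun c _ => ?_
  rw [Matrix.mul_smul, Matrix.trace_smul, smul_eq_mul]
  have h9 : (∏ t, cw δ (a t) * cw δ (b t)) * ∏ t, uR R (a t) (c t) =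
      (∏ t, cw δ (c t) * cw δ (b t)) * ∏ t, uR R (a t) (c t) := by
    rw [← Finset.prod_mul_distrib, ← Finset.prod_mul_distrib]
    refine Finset.prod_congr rfl fun t _ => ?_
    have h10 := cw_uR δ R (c t) (a t)
    calc cw δ (a t) * cw δ (b t) * uR R (a t) (c t)
        = cw δ (b t) * (cw δ (a t) * uR R (a t) (c t)) := by ring
      _ = cw δ (b t) * (cw δ (c t) * uR R (a t) (c t)) := by rw [h10]
      _ = cw δ (c t) * cw δ (b t) * uR R (a t) (c t) := by ring
  calc (∏ t, uR R (a t) (c t)) * ((∏ t, cw δ (c t) * cw δ (b t)) *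
        (W * (List.ofFn fun t => Am (c t) * Am (b t)).prod).trace)
      = ((∏ t, cw δ (c t) * cw δ (b t)) * ∏ t, uR R (a t) (c t)) *
        (W * (List.ofFn fun t => Am (c t) * Am (b t)).prod).trace := by ring
    _ = _ := by rw [← h9]; ring

theorem UR_comm_gram (n : ℕ) (δ : ℝ) (hδ : 0 ≤ δ) (W R : Matrix (Fin 3) (Fin 3) ℝ)
    (hR : IsRot R) (hWR : W * R = R * W) :
    Commute (UR n R) ((KW n δ W)ᵀ * KW n δ W) := by
  have h1 := UR_comm n δ hδ W R hR hWR
  have hRt : Rᵀ * R = 1 := mul_eq_one_comm.1 hR.1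
  have hWRt : W * Rᵀ = Rᵀ * W := by
    have h2 : Rᵀ * (W * R) * Rᵀ = Rᵀ * (R * W) * Rᵀ := by rw [hWR]
    have h3 : Rᵀ * (W * R) * Rᵀ = Rᵀ * W := by
      rw [Matrix.mul_assoc, Matrix.mul_assoc W, hR.1, Matrix.mul_one]
    have h4 : Rᵀ * (R * W) * Rᵀ = W * Rᵀ := by
      rw [← Matrix.mul_assoc, hRt, Matrix.one_mul]
    rw [← h4, ← h2, h3]
  have h5 := UR_comm n δ hδ W Rᵀ hR.transpose hWRt
  have h6 : Commute (UR n R) (KW n δ W)ᵀ := by
    rw [commute_iff_eq] at h5 ⊢
    have h7 := congrArg Matrix.transpose h5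
    rw [Matrix.transpose_mul, Matrix.transpose_mul, UR_transpose, Matrix.transpose_transpose] at h7
    exact h7.symm
  exact h6.mul_right h1

end P348
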