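import Mathlib.Analysis.Matrix.PosDef
import Vale.Agent.Lib.P348.T1
import Vale.Agent.Lib.P348.T4
import Vale.Agent.Lib.P348.PS
import Vale.Agent.Lib.P348.Conj

/-!
# P348 module Chan: space channels are limits of power sums

For fixed β > 0 and W, let M_n = K_Wᵀ K_W (n time steps, δ = β/n), positive semidefinite, real symmetric.
By `trace_identity` and `trotter_limit`: zz W R β N = lim_n tr(M_n^N UR n R) for all N ≥ 1.
If P_n = ∑ c_g UR n g (g in a finite group G of rotations commuting with W) is a symmetric idempotent, then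
tr(M_n^N P_n) = tr((P_n M_n P_n)^N) = ∑ (eigenvalues of P_n M_n P_n)^N, N ≥ 1: a power sum.
Projections: (1/|G|) ∑ χ(g) U_g for a character χ : G → {±1}, and the difference of the projections on
the D4-invariants and on the O-invariants.  The class functions are then evaluated with `ZZ_conj`
(Q = rotation by pi/4 about z, permutations, ...), which uses that swap and pair commute with Q ⊗ Q for
every orthogonal Q, so glob Q conjugates HR N R to HR N (Q R Qᵀ) after moving the twist.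
-/

namespace P348

open Matrix

/-- total version of `ZZ` -/
noncomputable def zz (W R : Matrix (Fin 3) (Fin 3) ℝ) (β : ℝ) : ℕ → ℝ
  | 0 => 0
  | (N + 1) => ZZ (N + 1) W R β

section aux

open Filter Topology

/-- traces of powers of a positive semidefinite matrix -/
private theorem trace_pow_psd {m : Type} [Fintype m] [DecidableEq m] (A : Matrix m m ℝ)
    (hA : A.PosSemidef) :
    ∃ x : m → ℝ, (∀ i, 0 ≤ x i) ∧ ∀ N : ℕ, (A ^ N).trace = ∑ i, x i ^ N := by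
  refine ⟨hA.1.eigenvalues, hA.eigenvalues_nonneg, fun N => ?_⟩
  have h := hA.1.spectral_theorem
  have h2 : A ^ N = Unitary.conjStarAlgAut ℝ _ hA.1.eigenvectorUnitary
      (diagonal (fun i => hA.1.eigenvalues i ^ N)) := by
    conv_lhs => rw [h]
    rw [← map_pow, Matrix.diagonal_pow]
    rfl
  rw [h2, Unitary.conjStarAlgAut_apply, Matrix.trace_mul_comm, ← mul_assoc,
    Unitary.coe_star_mul_self, one_mul, Matrix.trace_diagonal]

/-- trace of powers of a Gram matrix times a commuting projection -/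
private theorem trace_pow_proj {m : Type} [Fintype m] [DecidableEq m] (K P : Matrix m m ℝ)
    (hP : P * P = P) (hPt : Pᵀ = P) (hc : Commute P (Kᵀ * K)) :
    ∃ (k : ℕ) (x : Fin k → ℝ), (∀ i, 0 ≤ x i) ∧ ∀ N : ℕ, 1 ≤ N →
      ((Kᵀ * K) ^ N * P).trace = ∑ i, x i ^ N := by
  have hA : ((K * P)ᵀ * (K * P)).PosSemidef := by
    have := Matrix.posSemidef_conjTranspose_mul_self (K * P)
    rwa [Matrix.conjTranspose_eq_transpose_of_trivial] at this
  obtain ⟨x, hx, hx2⟩ := trace_pow_psd _ hA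
  have e1 : (K * P)ᵀ * (K * P) = (Kᵀ * K) * P := by
    rw [Matrix.transpose_mul, hPt]
    calc P * Kᵀ * (K * P) = (P * (Kᵀ * K)) * P := by simp only [Matrix.mul_assoc]
      _ = ((Kᵀ * K) * P) * P := by rw [hc.eq]
      _ = (Kᵀ * K) * P := by rw [Matrix.mul_assoc, hP]
  have e2 : ∀ N : ℕ, 1 ≤ N → ((K * P)ᵀ * (K * P)) ^ N = (Kᵀ * K) ^ N * P := by
    intro N hN
    rw [e1, hc.symm.mul_pow]
    congr 1
    obtain ⟨j, rfl⟩ : ∃ j, N = j + 1 := ⟨N - 1, by omega⟩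
    exact IsIdempotentElem.pow_succ_eq j hP
  refine ⟨Fintype.card m, fun i => x ((Fintype.equivFin m).symm i), fun i => hx _, fun N hN => ?_⟩
  rw [← e2 N hN, hx2, ← (Fintype.equivFin m).symm.sum_comp]

/-- `zz` is a limit of traces -/
private theorem zz_tendsto (W R : Matrix (Fin 3) (Fin 3) ℝ) (hR : IsRot R) (β : ℝ) (hβ : 0 < β)
    (N : ℕ) (hN : 1 ≤ N) :
    Tendsto (fun n : ℕ => (((KW n (β / n) W)ᵀ * KW n (β / n) W) ^ N * UR n R).trace) atTop
      (𝓝 (zz W R β N)) := by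
  obtain ⟨j, rfl⟩ : ∃ j, N = j + 1 := ⟨N - 1, by omega⟩
  change Tendsto _ _ (𝓝 (ZZ (j + 1) W R β))
  refine (trotter_limit (j + 1) W R hR β hβ.le).congr' ?_
  filter_upwards [eventually_gt_atTop 0] with n hn
  exact trace_identity (j + 1) n hn (β / n) (by positivity) W R hR

/-- integer matrix as a real matrix -/
private noncomputable abbrev rl (g : Matrix (Fin 3) (Fin 3) ℤ) : Matrix (Fin 3) (Fin 3) ℝ :=
  g.map (Int.cast : ℤ → ℝ)

private theorem rl_mul (g h : Matrix (Fin 3) (Fin 3) ℤ) : rl (g * h) = rl g * rl h := by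
  exact Matrix.map_mul (f := Int.castRingHom ℝ)

private theorem rl_transpose (g : Matrix (Fin 3) (Fin 3) ℤ) : rl gᵀ = (rl g)ᵀ := rfl

private theorem rl_inv (g : Matrix (Fin 3) (Fin 3) ℤ) (h : IsRot (rl g)) :
    g * gᵀ = 1 ∧ gᵀ * g = 1 := by
  have h1 : rl (g * gᵀ) = rl 1 := by
    rw [rl_mul, rl_transpose, h.1]
    unfold rl
    ext i j
    by_cases hij : i = j
    · subst hij; simp
    · simp [hij]
  have h2 : g * gᵀ = 1 := by
    ext i j
    have := congrFun (congrFun h1 i) j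
    simpa [rl] using this
  exact ⟨h2, mul_eq_one_comm.1 h2⟩

/-- average of the rotations of label histories -/
private noncomputable def avg (n : ℕ) (G : Finset (Matrix (Fin 3) (Fin 3) ℤ))
    (χ : Matrix (Fin 3) (Fin 3) ℤ → ℤ) : Matrix (Fin n → Lab) (Fin n → Lab) ℝ :=
  (G.card : ℝ)⁻¹ • ∑ g ∈ G, (χ g : ℝ) • UR n (rl g)

private theorem avg_mul (n : ℕ) (G H : Finset (Matrix (Fin 3) (Fin 3) ℤ))
    (χ : Matrix (Fin 3) (Fin 3) ℤ → ℤ) (hne : G.Nonempty)
    (hrot : ∀ g ∈ G, IsRot (rl g))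
    (hmul : ∀ g ∈ G, ∀ h ∈ H, g * h ∈ H ∧ gᵀ * h ∈ H ∧ χ (g * h) = χ g * χ h) :
    avg n G χ * avg n H χ = avg n H χ := by
  unfold avg
  have hc : (G.card : ℝ) ≠ 0 := by exact_mod_cast hne.card_pos.ne'
  rw [Matrix.smul_mul, Matrix.mul_smul, smul_comm, Matrix.sum_mul]
  congr 1
  have h1 : ∀ g ∈ G, (χ g : ℝ) • UR n (rl g) * ∑ h ∈ H, (χ h : ℝ) • UR n (rl h) =
      ∑ h ∈ H, (χ h : ℝ) • UR n (rl h) := by
    intro g hg
    rw [Matrix.mul_sum]
    have h2 : ∀ h ∈ H, (χ g : ℝ) • UR n (rl g) * (χ h : ℝ) • UR n (rl h) =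
        (χ (g * h) : ℝ) • UR n (rl (g * h)) := by
      intro h hh
      rw [(hmul g hg h hh).2.2, rl_mul, UR_mul, Matrix.smul_mul, Matrix.mul_smul, smul_smul]
      push_cast
      rfl
    rw [Finset.sum_congr rfl h2]
    refine Finset.sum_nbij' (fun h => g * h) (fun h => gᵀ * h) (fun h hh => (hmul g hg h hh).1)
      (fun h hh => (hmul g hg h hh).2.1) (fun h hh => ?_) (fun h hh => ?_) (fun h hh => rfl)
    · change gᵀ * (g * h) = h
      rw [← Matrix.mul_assoc, (rl_inv g (hrot g hg)).2, Matrix.one_mul]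
    · change g * (gᵀ * h) = h
      rw [← Matrix.mul_assoc, (rl_inv g (hrot g hg)).1, Matrix.one_mul]
  rw [Finset.sum_congr rfl h1, Finset.sum_const, ← Nat.cast_smul_eq_nsmul ℝ, smul_smul,
    inv_mul_cancel₀ hc, one_smul]

private theorem avg_transpose (n : ℕ) (G : Finset (Matrix (Fin 3) (Fin 3) ℤ))
    (χ : Matrix (Fin 3) (Fin 3) ℤ → ℤ) (htr : ∀ g ∈ G, gᵀ ∈ G ∧ χ gᵀ = χ g) :
    (avg n G χ)ᵀ = avg n G χ := by
  unfold avg
  rw [Matrix.transpose_smul, Matrix.transpose_sum]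
  congr 1
  refine Finset.sum_nbij' (fun h => hᵀ) (fun h => hᵀ) (fun h hh => (htr h hh).1)
      (fun h hh => (htr h hh).1) (fun h hh => Matrix.transpose_transpose h)
      (fun h hh => Matrix.transpose_transpose h) (fun h hh => ?_)
  rw [Matrix.transpose_smul, UR_transpose, (htr h hh).2, rl_transpose]

private theorem avg_comm (n : ℕ) (G : Finset (Matrix (Fin 3) (Fin 3) ℤ))
    (χ : Matrix (Fin 3) (Fin 3) ℤ → ℤ) (δ : ℝ) (hδ : 0 ≤ δ) (W : Matrix (Fin 3) (Fin 3) ℝ)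
    (hrot : ∀ g ∈ G, IsRot (rl g)) (hcomm : ∀ g ∈ G, W * rl g = rl g * W) :
    Commute (avg n G χ) ((KW n δ W)ᵀ * KW n δ W) := by
  unfold avg
  refine Commute.smul_left (Commute.sum_left _ _ _ fun g hg => ?_) _
  exact Commute.smul_left (UR_comm_gram n δ hδ W _ (hrot g hg) (hcomm g hg)) _

private theorem avg_trace (n : ℕ) (G : Finset (Matrix (Fin 3) (Fin 3) ℤ))
    (χ : Matrix (Fin 3) (Fin 3) ℤ → ℤ) (M : Matrix (Fin n → Lab) (Fin n → Lab) ℝ) :
    (M * avg n G χ).trace = (∑ g ∈ G, (χ g : ℝ) * (M * UR n (rl g)).trace) / G.card := by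
  unfold avg
  rw [Matrix.mul_smul, Matrix.trace_smul, Matrix.mul_sum, Matrix.trace_sum, smul_eq_mul,
    div_eq_inv_mul]
  congr 1
  refine Finset.sum_congr rfl fun g _ => ?_
  rw [Matrix.mul_smul, Matrix.trace_smul, smul_eq_mul]

private theorem avg_tendsto (W : Matrix (Fin 3) (Fin 3) ℝ) (G : Finset (Matrix (Fin 3) (Fin 3) ℤ))
    (χ : Matrix (Fin 3) (Fin 3) ℤ → ℤ) (hrot : ∀ g ∈ G, IsRot (rl g)) (β : ℝ) (hβ : 0 < β)
    (N : ℕ) (hN : 1 ≤ N) :
    Tendsto (fun n : ℕ => (((KW n (β / n) W)ᵀ * KW n (β / n) W) ^ N * avg n G χ).trace) atTop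
      (𝓝 ((∑ g ∈ G, (χ g : ℝ) * zz W (rl g) β N) / G.card)) := by
  simp only [avg_trace]
  refine Tendsto.div_const ?_ _
  exact tendsto_finsetSum _ fun g hg => (zz_tendsto W _ (hrot g hg) β hβ N hN).const_mul _

/-- limits of traces against projections -/
private theorem powSum_of_proj (W : Matrix (Fin 3) (Fin 3) ℝ) (β : ℝ) (f : ℕ → ℝ)
    (P : (n : ℕ) → Matrix (Fin n → Lab) (Fin n → Lab) ℝ)
    (hP : ∀ n, P n * P n = P n) (hPt : ∀ n, (P n)ᵀ = P n)
    (hc : ∀ n : ℕ, Commute (P n) ((KW n (β / n) W)ᵀ * KW n (β / n) W))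
    (hf : ∀ N : ℕ, 1 ≤ N → Tendsto
      (fun n : ℕ => (((KW n (β / n) W)ᵀ * KW n (β / n) W) ^ N * P n).trace) atTop (𝓝 (f N))) :
    PowSum f := by
  have h := fun n : ℕ => trace_pow_proj (KW n (β / n) W) (P n) (hP n) (hPt n) (hc n)
  choose k x hx hx2 using h
  refine ⟨k, x, hx, fun N hN => ?_⟩
  refine (hf N hN).congr fun n => ?_
  exact hx2 n N hN

end aux

/-- characters of a finite group of integer rotations commuting with W -/
theorem powSum_char (W : Matrix (Fin 3) (Fin 3) ℝ) (G : Finset (Matrix (Fin 3) (Fin 3) ℤ))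
    (χ : Matrix (Fin 3) (Fin 3) ℤ → ℤ)
    (hrot : ∀ g ∈ G, IsRot (g.map (Int.cast : ℤ → ℝ)))
    (hcomm : ∀ g ∈ G, W * g.map (Int.cast : ℤ → ℝ) = g.map (Int.cast : ℤ → ℝ) * W)
    (h1 : (1 : Matrix (Fin 3) (Fin 3) ℤ) ∈ G)
    (hmul : ∀ g ∈ G, ∀ h ∈ G, g * h ∈ G ∧ χ (g * h) = χ g * χ h)
    (htr : ∀ g ∈ G, gᵀ ∈ G ∧ χ gᵀ = χ g) (hχ1 : χ 1 = 1)
    (β : ℝ) (hβ : 0 < β) :
    PowSum (fun N => (∑ g ∈ G, (χ g : ℝ) * zz W (g.map (Int.cast : ℤ → ℝ)) β N) / G.card) := by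
  refine powSum_of_proj W β _ (fun n => avg n G χ) (fun n => ?_) (fun n => ?_) (fun n => ?_)
    (fun N hN => ?_)
  · exact avg_mul n G G χ ⟨1, h1⟩ hrot fun g hg h hh =>
      ⟨(hmul g hg h hh).1, (hmul _ (htr g hg).1 h hh).1, (hmul g hg h hh).2⟩
  · exact avg_transpose n G χ htr
  · exact avg_comm n G χ _ (by positivity) W hrot hcomm
  · exact avg_tendsto W G χ hrot β hβ N hN

/-- difference of the invariants of a subgroup and of a bigger group -/
theorem powSum_diff (W : Matrix (Fin 3) (Fin 3) ℝ) (G H : Finset (Matrix (Fin 3) (Fin 3) ℤ))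
    (hGH : G ⊆ H)
    (hrot : ∀ g ∈ H, IsRot (g.map (Int.cast : ℤ → ℝ)))
    (hcomm : ∀ g ∈ H, W * g.map (Int.cast : ℤ → ℝ) = g.map (Int.cast : ℤ → ℝ) * W)
    (h1 : (1 : Matrix (Fin 3) (Fin 3) ℤ) ∈ G)
    (hmulG : ∀ g ∈ G, ∀ h ∈ G, g * h ∈ G) (hmulH : ∀ g ∈ H, ∀ h ∈ H, g * h ∈ H)
    (htrG : ∀ g ∈ G, gᵀ ∈ G) (htrH : ∀ g ∈ H, gᵀ ∈ H)
    (β : ℝ) (hβ : 0 < β) :
    PowSum (fun N => (∑ g ∈ G, zz W (g.map (Int.cast : ℤ → ℝ)) β N) / G.card -
      (∑ g ∈ H, zz W (g.map (Int.cast : ℤ → ℝ)) β N) / H.card) := by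
  have hrG : ∀ g ∈ G, IsRot (rl g) := fun g hg => hrot g (hGH hg)
  have mGG : ∀ n, avg n G (fun _ => 1) * avg n G (fun _ => 1) = avg n G (fun _ => 1) := fun n =>
    avg_mul n G G _ ⟨1, h1⟩ hrG fun g hg h hh =>
      ⟨hmulG g hg h hh, hmulG _ (htrG g hg) h hh, by norm_num⟩
  have mHH : ∀ n, avg n H (fun _ => 1) * avg n H (fun _ => 1) = avg n H (fun _ => 1) := fun n =>
    avg_mul n H H _ ⟨1, hGH h1⟩ hrot fun g hg h hh =>
      ⟨hmulH g hg h hh, hmulH _ (htrH g hg) h hh, by norm_num⟩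
  have mGH : ∀ n, avg n G (fun _ => 1) * avg n H (fun _ => 1) = avg n H (fun _ => 1) := fun n =>
    avg_mul n G H _ ⟨1, h1⟩ hrG fun g hg h hh =>
      ⟨hmulH g (hGH hg) h hh, hmulH _ (htrH g (hGH hg)) h hh, by norm_num⟩
  have tG : ∀ n, (avg n G (fun _ => 1))ᵀ = avg n G (fun _ => 1) := fun n =>
    avg_transpose n G _ fun g hg => ⟨htrG g hg, rfl⟩
  have tH : ∀ n, (avg n H (fun _ => 1))ᵀ = avg n H (fun _ => 1) := fun n =>
    avg_transpose n H _ fun g hg => ⟨htrH g hg, rfl⟩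
  have mHG : ∀ n, avg n H (fun _ => 1) * avg n G (fun _ => 1) = avg n H (fun _ => 1) := by
    intro n
    have := congrArg Matrix.transpose (mGH n)
    rwa [Matrix.transpose_mul, tG, tH] at this
  refine powSum_of_proj W β _ (fun n => avg n G (fun _ => 1) - avg n H (fun _ => 1))
    (fun n => ?_) (fun n => ?_) (fun n => ?_) (fun N hN => ?_)
  · change (avg n G (fun _ => 1) - avg n H (fun _ => 1)) *
      (avg n G (fun _ => 1) - avg n H (fun _ => 1)) = _
    rw [Matrix.mul_sub, Matrix.sub_mul, Matrix.sub_mul, mGG, mHH, mGH, mHG]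
    abel
  · rw [Matrix.transpose_sub, tG, tH]
  · exact (avg_comm n G _ _ (by positivity) W hrG fun g hg => hcomm g (hGH hg)).sub_left
      (avg_comm n H _ _ (by positivity) W hrot hcomm)
  · have e1 := avg_tendsto W G (fun _ => 1) hrG β hβ N hN
    have e2 := avg_tendsto W H (fun _ => 1) hrot β hβ N hN
    have e3 := e1.sub e2
    simp only [Int.cast_one, one_mul] at e3
    refine e3.congr fun n => ?_
    rw [Matrix.mul_sub, Matrix.trace_sub]

end P348
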