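import Vale.Agent.Lib.P348.Chan

/-!
# P348 module Chan2, auxiliary: the integer rotation groups and class functions
-/

namespace P348.C2

open Matrix

/-- integer 3x3 matrices -/
abbrev MZ := Matrix (Fin 3) (Fin 3) ℤ

/-- signed permutation matrices of determinant one -/
def OL : List MZ :=
  [!![1, 0, 0; 0, 1, 0; 0, 0, 1],
  !![1, 0, 0; 0, -1, 0; 0, 0, -1],
  !![-1, 0, 0; 0, 1, 0; 0, 0, -1],
  !![-1, 0, 0; 0, -1, 0; 0, 0, 1],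
  !![1, 0, 0; 0, 0, 1; 0, -1, 0],
  !![1, 0, 0; 0, 0, -1; 0, 1, 0],
  !![-1, 0, 0; 0, 0, 1; 0, 1, 0],
  !![-1, 0, 0; 0, 0, -1; 0, -1, 0],
  !![0, 1, 0; 1, 0, 0; 0, 0, -1],
  !![0, 1, 0; -1, 0, 0; 0, 0, 1],
  !![0, -1, 0; 1, 0, 0; 0, 0, 1],
  !![0, -1, 0; -1, 0, 0; 0, 0, -1],
  !![0, 1, 0; 0, 0, 1; 1, 0, 0],
  !![0, 1, 0; 0, 0, -1; -1, 0, 0],
  !![0, -1, 0; 0, 0, 1; -1, 0, 0],
  !![0, -1, 0; 0, 0, -1; 1, 0, 0],
  !![0, 0, 1; 1, 0, 0; 0, 1, 0],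
  !![0, 0, 1; -1, 0, 0; 0, -1, 0],
  !![0, 0, -1; 1, 0, 0; 0, -1, 0],
  !![0, 0, -1; -1, 0, 0; 0, 1, 0],
  !![0, 0, 1; 0, 1, 0; -1, 0, 0],
  !![0, 0, 1; 0, -1, 0; 1, 0, 0],
  !![0, 0, -1; 0, 1, 0; 1, 0, 0],
  !![0, 0, -1; 0, -1, 0; -1, 0, 0]]

/-- the octahedral rotation group -/
def OG : Finset MZ := OL.toFinset

/-- the dihedral group about the z axis -/
def DL : List MZ :=
  [!![1, 0, 0; 0, 1, 0; 0, 0, 1],
  !![1, 0, 0; 0, -1, 0; 0, 0, -1],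
  !![-1, 0, 0; 0, 1, 0; 0, 0, -1],
  !![-1, 0, 0; 0, -1, 0; 0, 0, 1],
  !![0, 1, 0; 1, 0, 0; 0, 0, -1],
  !![0, 1, 0; -1, 0, 0; 0, 0, 1],
  !![0, -1, 0; 1, 0, 0; 0, 0, 1],
  !![0, -1, 0; -1, 0, 0; 0, 0, -1]]

/-- the dihedral group about the z axis -/
def DG : Finset MZ := DL.toFinset

/-- the Klein group -/
def VG : Finset MZ :=
  [!![1, 0, 0; 0, 1, 0; 0, 0, 1],
  !![1, 0, 0; 0, -1, 0; 0, 0, -1],
  !![-1, 0, 0; 0, 1, 0; 0, 0, -1],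
  !![-1, 0, 0; 0, -1, 0; 0, 0, 1]].toFinset

/-- the sign of the permutation of a signed permutation matrix -/
def chP (g : MZ) : ℤ :=
  if g 0 0 * g 0 0 + g 1 1 * g 1 1 + g 2 2 * g 2 2 = 1 then -1 else 1

/-- the character B2 of the dihedral group -/
def chB (g : MZ) : ℤ := g 2 2 * (2 * (g 0 0 * g 0 0) - 1)

/-- explicit determinant -/
def det3 (g : MZ) : ℤ :=
  g 0 0 * g 1 1 * g 2 2 - g 0 0 * g 1 2 * g 2 1 - g 0 1 * g 1 0 * g 2 2 +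
    g 0 1 * g 1 2 * g 2 0 + g 0 2 * g 1 0 * g 2 1 - g 0 2 * g 1 1 * g 2 0

theorem det3_eq (g : MZ) : g.det = det3 g := by
  rw [Matrix.det_fin_three, det3]

theorem OG_rot : ∀ g ∈ OG, g * gᵀ = 1 ∧ det3 g = 1 := by decide +kernel

theorem OG_one : (1 : MZ) ∈ OG := by decide +kernel

theorem OG_card : OG.card = 24 := by decide +kernel

theorem OG_mul : ∀ g ∈ OG, ∀ h ∈ OG, g * h ∈ OG ∧ chP (g * h) = chP g * chP h := by
  decide +kernel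

theorem OG_tr : ∀ g ∈ OG, gᵀ ∈ OG ∧ chP gᵀ = chP g := by
  decide +kernel

theorem DG_sub : DG ⊆ OG := by decide +kernel

theorem VG_sub : VG ⊆ DG := by decide +kernel

theorem DG_one : (1 : MZ) ∈ DG := by decide +kernel

theorem VG_one : (1 : MZ) ∈ VG := by decide +kernel

theorem DG_card : DG.card = 8 := by decide +kernel

theorem VG_card : VG.card = 4 := by decide +kernel

theorem DG_mul : ∀ g ∈ DG, ∀ h ∈ DG, g * h ∈ DG ∧ chB (g * h) = chB g * chB h ∧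
    (g * h) 2 2 = g 2 2 * h 2 2 := by
  decide +kernel

theorem DG_tr : ∀ g ∈ DG, gᵀ ∈ DG ∧ chB gᵀ = chB g := by
  decide +kernel

theorem VG_mul : ∀ g ∈ VG, ∀ h ∈ VG, g * h ∈ VG ∧ (g * h) 0 0 = g 0 0 * h 0 0 := by
  decide +kernel

theorem VG_tr : ∀ g ∈ VG, gᵀ ∈ VG := by
  decide +kernel

/-- integer versions of the special rotations -/
def zrz : MZ := !![-1, 0, 0; 0, -1, 0; 0, 0, 1]
/-- integer versions of the special rotations -/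
def zrx : MZ := !![1, 0, 0; 0, -1, 0; 0, 0, -1]
/-- integer versions of the special rotations -/
def zqz : MZ := !![0, -1, 0; 1, 0, 0; 0, 0, 1]
/-- integer versions of the special rotations -/
def zc3 : MZ := !![0, 0, 1; 1, 0, 0; 0, 1, 0]
/-- integer versions of the special rotations -/
def zdd : MZ := !![0, 1, 0; 1, 0, 0; 0, 0, -1]

/-- trace label -/
def labT (g : MZ) : ℤ := g 0 0 + g 1 1 + g 2 2
/-- label for the twisted case -/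
def labW (g : MZ) : ℤ := g 0 0 + g 1 1 + 3 * g 2 2

theorem OG_class : ∀ g ∈ OG, (labT g = 3 ∧ g = 1) ∨
    (labT g = 0 ∧ ∃ q ∈ OG, q * g * qᵀ = zc3) ∨
    (labT g = 1 ∧ ∃ q ∈ OG, q * g * qᵀ = zqz) ∨
    (labT g = -1 ∧ ∃ q ∈ OG, q * g * qᵀ = zrz) ∨
    (labT g = -1 ∧ ∃ q ∈ OG, q * g * qᵀ = zdd) := by
  decide +kernel

theorem DG_class : ∀ g ∈ DG, (labW g = 5 ∧ g = 1) ∨
    (labW g = 3 ∧ ∃ q ∈ DG, q * g * qᵀ = zqz) ∨
    (labW g = 1 ∧ g = zrz) ∨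
    (labW g = -3 ∧ ∃ q ∈ DG, q * g * qᵀ = zrx) ∨
    (labW g = -3 ∧ ∃ q ∈ DG, q * g * qᵀ = zdd) := by
  decide +kernel

theorem DG_comm : ∀ g ∈ DG, zrz * g = g * zrz := by decide +kernel

theorem lab_maps_O : ∀ g ∈ OG, labT g ∈ ({3, 0, 1, -1} : Finset ℤ) := by decide +kernel

theorem lab_maps_D : ∀ g ∈ DG, labW g ∈ ({5, 3, 1, -3} : Finset ℤ) := by decide +kernel

end P348.C2
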