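import Vale.Agent.Lib.P348.Chan2a

/-!
# P348 module Chan2, auxiliary: evaluation of the class functions
-/

namespace P348.C2

open Matrix

/-- real version of an integer matrix -/
noncomputable def toR (g : MZ) : Matrix (Fin 3) (Fin 3) ℝ := g.map (Int.cast : ℤ → ℝ)

theorem toR_mul (g h : MZ) : toR (g * h) = toR g * toR h := by
  unfold toR
  exact Matrix.map_mul (f := Int.castRingHom ℝ) (L := g) (M := h)

theorem toR_one : toR 1 = 1 := by
  unfold toR
  exact Matrix.map_one _ (by simp) (by simp)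

theorem toR_tr (g : MZ) : toR gᵀ = (toR g)ᵀ := by
  unfold toR
  exact Matrix.transpose_map

theorem toR_det (g : MZ) : (toR g).det = ((g.det : ℤ) : ℝ) := by
  unfold toR
  exact (Int.cast_det g).symm

theorem toR_rot (g : MZ) (h : g * gᵀ = 1) (h' : det3 g = 1) : IsRot (toR g) := by
  refine ⟨?_, ?_⟩
  · rw [← toR_tr, ← toR_mul, h, toR_one]
  · rw [toR_det, det3_eq, h', Int.cast_one]

theorem toR_rot_O (g : MZ) (h : g ∈ OG) : IsRot (toR g) :=
  toR_rot g (OG_rot g h).1 (OG_rot g h).2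

theorem zz_conj (W R Q : Matrix (Fin 3) (Fin 3) ℝ) (hQ : IsRot Q) (β : ℝ) (N : ℕ) :
    zz (Q * W * Qᵀ) (Q * R * Qᵀ) β N = zz W R β N := by
  cases N with
  | zero => rfl
  | succ N => exact ZZ_conj (N + 1) W R Q hQ β

theorem zz_conj_one (R Q : Matrix (Fin 3) (Fin 3) ℝ) (hQ : IsRot Q) (β : ℝ) (N : ℕ) :
    zz 1 (Q * R * Qᵀ) β N = zz 1 R β N := by
  have h := zz_conj 1 R Q hQ β N
  rwa [Matrix.mul_one, hQ.1] at h

theorem toR_zrz : toR zrz = rz := by
  ext i j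
  fin_cases i <;> fin_cases j <;> simp [toR, zrz, rz]

theorem toR_zrx : toR zrx = rx := by
  ext i j
  fin_cases i <;> fin_cases j <;> simp [toR, zrx, rx]

theorem toR_zqz : toR zqz = qz := by
  ext i j
  fin_cases i <;> fin_cases j <;> simp [toR, zqz, qz]

theorem toR_zc3 : toR zc3 = c3 := by
  ext i j
  fin_cases i <;> fin_cases j <;> simp [toR, zc3, c3]

/-- rotation by -pi/4 about the z axis -/
noncomputable def q8 : Matrix (Fin 3) (Fin 3) ℝ :=
  !![√2 / 2, √2 / 2, 0; -(√2 / 2), √2 / 2, 0; 0, 0, 1]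

theorem sq_half : √2 / 2 * (√2 / 2) = (1 / 2 : ℝ) := by
  have h : √2 * √2 = (2 : ℝ) := Real.mul_self_sqrt (by norm_num)
  linarith

theorem q8_rot : IsRot q8 := by
  refine ⟨?_, ?_⟩
  · ext i j
    have h := sq_half
    fin_cases i <;> fin_cases j <;>
      simp [q8, Matrix.mul_apply, Fin.sum_univ_three] <;> linarith
  · have h := sq_half
    rw [Matrix.det_fin_three]
    simp [q8]
    linarith

/-- the flip about the face diagonal of the xy plane -/
def dd : Matrix (Fin 3) (Fin 3) ℝ := !![0, 1, 0; 1, 0, 0; 0, 0, -1]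

theorem toR_zdd : toR zdd = dd := by
  ext i j
  fin_cases i <;> fin_cases j <;> simp [toR, zdd, dd]

theorem q8_dd : q8 * dd * q8ᵀ = rx := by
  have h := sq_half
  ext i j
  fin_cases i <;> fin_cases j <;>
    simp [q8, dd, rx, Matrix.mul_apply, Fin.sum_univ_three] <;> linarith

theorem q8_rz : q8 * rz * q8ᵀ = rz := by
  have h := sq_half
  ext i j
  fin_cases i <;> fin_cases j <;>
    simp [q8, rz, Matrix.mul_apply, Fin.sum_univ_three] <;> linarith

theorem rep_O (q g h : MZ) (hq : q ∈ OG) (e : q * g * qᵀ = h) (β : ℝ) (N : ℕ) :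
    zz 1 (toR g) β N = zz 1 (toR h) β N := by
  rw [← e, toR_mul, toR_mul, toR_tr]
  exact (zz_conj_one (toR g) (toR q) (toR_rot_O q hq) β N).symm

theorem rep_D (q g h : MZ) (hq : q ∈ DG) (e : q * g * qᵀ = h) (β : ℝ) (N : ℕ) :
    zz rz (toR g) β N = zz rz (toR h) β N := by
  have hr := toR_rot_O q (DG_sub hq)
  have h1 := zz_conj rz (toR g) (toR q) hr β N
  have h2 : toR q * rz * (toR q)ᵀ = rz := by
    rw [← toR_zrz, ← toR_mul, ← DG_comm q hq, toR_mul, Matrix.mul_assoc, hr.1, Matrix.mul_one]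
  rw [h2] at h1
  rw [← e, toR_mul, toR_mul, toR_tr]
  exact h1.symm

theorem zz_dd (β : ℝ) (N : ℕ) : zz 1 dd β N = zz 1 rx β N := by
  rw [← q8_dd]
  exact (zz_conj_one dd q8 q8_rot β N).symm

theorem zz_dd_rz (β : ℝ) (N : ℕ) : zz rz dd β N = zz rz rx β N := by
  have h1 := zz_conj rz dd q8 q8_rot β N
  rw [q8_rz, q8_dd] at h1
  exact h1.symm

theorem rx_to_rz : ∃ q ∈ OG, q * zrx * qᵀ = zrz := by decide +kernel

theorem zz_rx (β : ℝ) (N : ℕ) : zz 1 rx β N = zz 1 rz β N := by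
  obtain ⟨q, hq, e⟩ := rx_to_rz
  have h := rep_O q zrx zrz hq e β N
  rwa [toR_zrx, toR_zrz] at h

/-- class function for W = 1 -/
noncomputable def FT (β : ℝ) (N : ℕ) (t : ℤ) : ℝ :=
  if t = 3 then zz 1 1 β N else if t = 0 then zz 1 c3 β N else
    if t = 1 then zz 1 qz β N else zz 1 rz β N

/-- class function for W = rz -/
noncomputable def FW (β : ℝ) (N : ℕ) (t : ℤ) : ℝ :=
  if t = 5 then zz rz 1 β N else if t = 3 then zz rz qz β N else
    if t = 1 then zz rz rz β N else zz rz rx β N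

theorem eval_O (g : MZ) (hg : g ∈ OG) (β : ℝ) (N : ℕ) :
    zz 1 (toR g) β N = FT β N (labT g) := by
  rcases OG_class g hg with ⟨h, e⟩ | ⟨h, q, hq, e⟩ | ⟨h, q, hq, e⟩ | ⟨h, q, hq, e⟩ |
    ⟨h, q, hq, e⟩
  · rw [h, e, toR_one]; rfl
  · rw [h, rep_O q g _ hq e, toR_zc3]; rfl
  · rw [h, rep_O q g _ hq e, toR_zqz]; rfl
  · rw [h, rep_O q g _ hq e, toR_zrz]; rfl
  · rw [h, rep_O q g _ hq e, toR_zdd, zz_dd, zz_rx]; rfl

theorem eval_D (g : MZ) (hg : g ∈ DG) (β : ℝ) (N : ℕ) :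
    zz rz (toR g) β N = FW β N (labW g) := by
  rcases DG_class g hg with ⟨h, e⟩ | ⟨h, q, hq, e⟩ | ⟨h, e⟩ | ⟨h, q, hq, e⟩ |
    ⟨h, q, hq, e⟩
  · rw [h, e, toR_one]; rfl
  · rw [h, rep_D q g _ hq e, toR_zqz]; rfl
  · rw [h, e, toR_zrz]; rfl
  · rw [h, rep_D q g _ hq e, toR_zrx]; rfl
  · rw [h, rep_D q g _ hq e, toR_zdd, zz_dd_rz]; rfl

/-- number of group elements with a given label, weighted by the character -/
def cnt (G : Finset MZ) (χ lab : MZ → ℤ) (t : ℤ) : ℤ :=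
  ∑ g ∈ G.filter (fun g => lab g = t), χ g

theorem sum_label (G : Finset MZ) (χ lab : MZ → ℤ) (T : Finset ℤ) (hT : ∀ g ∈ G, lab g ∈ T)
    (F : ℤ → ℝ) (z : MZ → ℝ) (hz : ∀ g ∈ G, z g = F (lab g)) :
    ∑ g ∈ G, (χ g : ℝ) * z g = ∑ t ∈ T, (cnt G χ lab t : ℝ) * F t := by
  rw [← Finset.sum_fiberwise_of_maps_to hT]
  refine Finset.sum_congr rfl fun t _ => ?_
  rw [cnt, Int.cast_sum, Finset.sum_mul]
  refine Finset.sum_congr rfl fun g hg => ?_
  rw [Finset.mem_filter] at hg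
  rw [hz g hg.1, hg.2]

theorem sum_O (G : Finset MZ) (hG : G ⊆ OG) (χ : MZ → ℤ) (β : ℝ) (N : ℕ) :
    ∑ g ∈ G, (χ g : ℝ) * zz 1 (g.map (Int.cast : ℤ → ℝ)) β N =
      cnt G χ labT 3 * zz 1 1 β N + cnt G χ labT 0 * zz 1 c3 β N +
      cnt G χ labT 1 * zz 1 qz β N + cnt G χ labT (-1) * zz 1 rz β N := by
  rw [sum_label G χ labT {3, 0, 1, -1} (fun g hg => lab_maps_O g (hG hg)) (FT β N)
    (fun g => zz 1 (g.map (Int.cast : ℤ → ℝ)) β N) (fun g hg => eval_O g (hG hg) β N)]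
  rw [Finset.sum_insert (by decide), Finset.sum_insert (by decide),
    Finset.sum_insert (by decide), Finset.sum_singleton]
  simp only [FT]
  norm_num
  ring

theorem sum_D (G : Finset MZ) (hG : G ⊆ DG) (χ : MZ → ℤ) (β : ℝ) (N : ℕ) :
    ∑ g ∈ G, (χ g : ℝ) * zz rz (g.map (Int.cast : ℤ → ℝ)) β N =
      cnt G χ labW 5 * zz rz 1 β N + cnt G χ labW 3 * zz rz qz β N +
      cnt G χ labW 1 * zz rz rz β N + cnt G χ labW (-3) * zz rz rx β N := by
  rw [sum_label G χ labW {5, 3, 1, -3} (fun g hg => lab_maps_D g (hG hg)) (FW β N)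
    (fun g => zz rz (g.map (Int.cast : ℤ → ℝ)) β N) (fun g hg => eval_D g (hG hg) β N)]
  rw [Finset.sum_insert (by decide), Finset.sum_insert (by decide),
    Finset.sum_insert (by decide), Finset.sum_singleton]
  simp only [FW]
  norm_num
  ring

end P348.C2
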