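import Mathlib.Algebra.Order.Ring.Star
import Mathlib.Algebra.Order.Star.Real
import Mathlib.Tactic.Positivity
import Vale.Agent.Lib.P348.Boot

/-!
# P348 module Contr: the final contraction

Lemma (doubling).  If Z β N ≤ 1 + q, 0 ≤ q ≤ 1/40, then Z (2β) (2N) ≤ 1 + 32 q².
Proof.  Put t(β,N) = Z β N - y β^N, ε(β,N) = Z β N - X N^β; since y, X ≥ 1 both are ≤ q.
Z_powS with N' = 2N gives t(β,2N) ≤ t(β,N)², hence Z β (2N) ≤ (y^N)² + t² ≤ (y^N + t)² ≤ (1+q)², the same for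
Z (2β) N, and Z β (4N) ≤ (1+q)^4.  So t(2β,2N) ≤ t(2β,N)² ≤ ((1+q)²-1)² =: T, ε(2β,2N) ≤ ε(β,2N)² ≤ T,
ε(2β,4N) ≤ ε(β,4N)² ≤ ((1+q)^4-1)² =: E.  With w = X(2N)^(2β), s = y(2β)^(2N):
  w ≤ Z(2β)(2N) = s + t(2β,2N) ≤ s (1+T),   s² = y(2β)^(4N) ≤ Z(2β)(4N) ≤ X(4N)^(2β) + E ≤ w (1+E)
(X antitone), so w² ≤ w (1+E)(1+T)², w ≤ (1+E)(1+T)², and Z(2β)(2N) ≤ w + T ≤ 1 + 32 q².

Iterating from q₀ ≤ 1/40: q_k ≤ (1/32) (4/5)^(2^k) at (2^k β, 2^k N).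
For N' ∈ [N_k, 2 N_k]: Z β_k N' ≤ (1+q_k)² so ε(β_k,N') ≤ 3 q_k, and
gap(N') ≥ -log(3 q_k)/β_k ≥ c > 0.
-/

namespace P348

namespace Boot

variable (S : Boot)

private theorem ypow_one {β : ℝ} (hβ : 0 < β) (N : ℕ) : 1 ≤ S.y β ^ N :=
  one_le_pow₀ (S.y_one β hβ)

private theorem Xpow_one {β : ℝ} (hβ : 0 < β) {N : ℕ} (hN : 1 ≤ N) : 1 ≤ S.X N ^ β :=
  Real.one_le_rpow (S.X_one N hN) hβ.le

private theorem Z_one {β : ℝ} (hβ : 0 < β) {N : ℕ} (hN : 1 ≤ N) : 1 ≤ S.Z β N :=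
  (S.ypow_one hβ N).trans (S.y_le β N hβ hN)

private theorem t_two {β : ℝ} (hβ : 0 < β) {N : ℕ} (hN : 1 ≤ N) :
    S.Z β (2 * N) - S.y β ^ (2 * N) ≤ (S.Z β N - S.y β ^ N) ^ 2 := by
  have h := S.Z_powS β N (2 * N) hβ hN (by omega)
  have hN0 : (N : ℝ) ≠ 0 := by
    have : 0 < N := by omega
    positivity
  have e : ((2 * N : ℕ) : ℝ) / N = (2 : ℕ) := by
    push_cast
    field_simp
  rw [e, Real.rpow_natCast] at h
  exact h

private theorem e_two {β : ℝ} (hβ : 0 < β) {N : ℕ} (hN : 1 ≤ N) :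
    S.Z (2 * β) N - S.X N ^ (2 * β) ≤ (S.Z β N - S.X N ^ β) ^ 2 := by
  have h := S.Z_powT β (2 * β) N hβ (by linarith) hN
  have e : 2 * β / β = (2 : ℕ) := by
    push_cast
    field_simp
  rw [e, Real.rpow_natCast] at h
  exact h

/-- doubling in space -/
private theorem dS {β : ℝ} (hβ : 0 < β) {N : ℕ} (hN : 1 ≤ N) :
    S.Z β (2 * N) ≤ S.Z β N ^ 2 := by
  have h := S.t_two hβ hN
  have h1 := S.ypow_one hβ N
  have h2 := S.y_le β N hβ hN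
  have e : S.y β ^ (2 * N) = (S.y β ^ N) ^ 2 := by rw [← pow_mul, mul_comm]
  rw [e] at h
  nlinarith [mul_nonneg (show 0 ≤ S.y β ^ N by linarith) (show 0 ≤ S.Z β N - S.y β ^ N by linarith)]

/-- doubling in time -/
private theorem dT {β : ℝ} (hβ : 0 < β) {N : ℕ} (hN : 1 ≤ N) :
    S.Z (2 * β) N ≤ S.Z β N ^ 2 := by
  have h := S.e_two hβ hN
  have h1 := S.Xpow_one hβ hN
  have h2 := S.X_le β N hβ hN
  have hX : 0 ≤ S.X N := by linarith [S.X_one N hN]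
  have e : S.X N ^ (2 * β) = (S.X N ^ β) ^ 2 := by
    rw [mul_comm, Real.rpow_mul hX]
    norm_num
  rw [e] at h
  nlinarith [mul_nonneg (show 0 ≤ S.X N ^ β by linarith) (show 0 ≤ S.Z β N - S.X N ^ β by linarith)]

/-- between `N` and `2 N` -/
private theorem Z_between {β : ℝ} (hβ : 0 < β) {N N' : ℕ} (hN : 1 ≤ N) (h1 : N ≤ N')
    (h2 : N' ≤ 2 * N) (hZ : S.Z β N ≤ 2) : S.Z β N' ≤ S.Z β N ^ 2 := by
  have h := S.Z_powS β N N' hβ hN h1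
  have hy := S.ypow_one hβ N
  have hyZ := S.y_le β N hβ hN
  have hN0 : (0 : ℝ) < N := by
    have : 0 < N := by omega
    positivity
  have hr : 1 ≤ (N' : ℝ) / N := by
    rw [le_div_iff₀ hN0, one_mul]
    exact_mod_cast h1
  have ht0 : 0 ≤ S.Z β N - S.y β ^ N := by linarith
  have ht1 : S.Z β N - S.y β ^ N ≤ 1 := by linarith
  have h3 : (S.Z β N - S.y β ^ N) ^ ((N' : ℝ) / N) ≤ S.Z β N - S.y β ^ N := by
    calc (S.Z β N - S.y β ^ N) ^ ((N' : ℝ) / N)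
        ≤ (S.Z β N - S.y β ^ N) ^ (1 : ℝ) :=
          Real.rpow_le_rpow_of_exponent_ge' ht0 ht1 zero_le_one hr
      _ = _ := Real.rpow_one _
  have h4 : S.y β ^ N' ≤ (S.y β ^ N) ^ 2 := by
    rw [← pow_mul]
    exact pow_le_pow_right₀ (S.y_one β hβ) (by omega)
  nlinarith [mul_nonneg (show 0 ≤ S.y β ^ N by linarith) ht0]

end Boot

private theorem contr_num {q T E : ℝ} (hq : 0 ≤ q) (hq' : q ≤ 1 / 40)
    (hT : T = ((1 + q) ^ 2 - 1) ^ 2) (hE : E = ((1 + q) ^ 4 - 1) ^ 2) :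
    (1 + E) * (1 + T) ^ 2 + T ≤ 1 + 32 * q ^ 2 := by
  have hq2 : q ^ 2 ≤ 1 / 1600 := by nlinarith
  have hT1 : T ≤ 42 / 10 * q ^ 2 := by
    have e : T = q ^ 2 * (2 + q) ^ 2 := by rw [hT]; ring
    have h1 : (2 + q) ^ 2 ≤ 42 / 10 := by nlinarith
    rw [e]
    nlinarith [sq_nonneg q]
  have hE1 : E ≤ 175 / 10 * q ^ 2 := by
    have e : E = q ^ 2 * (4 + 6 * q + 4 * q ^ 2 + q ^ 3) ^ 2 := by rw [hE]; ring
    have h0 : q ^ 3 ≤ 1 / 1600 := by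
      have : q ^ 3 = q * q ^ 2 := by ring
      nlinarith [sq_nonneg q]
    have h0' : 0 ≤ q ^ 3 := by positivity
    have h1 : 4 + 6 * q + 4 * q ^ 2 + q ^ 3 ≤ 416 / 100 := by linarith
    have h2 : 0 ≤ 4 + 6 * q + 4 * q ^ 2 + q ^ 3 := by positivity
    have h3 : (4 + 6 * q + 4 * q ^ 2 + q ^ 3) ^ 2 ≤ 175 / 10 := by nlinarith
    rw [e]
    nlinarith [sq_nonneg q]
  have hT0 : 0 ≤ T := by rw [hT]; positivity
  have hE0 : 0 ≤ E := by rw [hE]; positivity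
  have hq20 : 0 ≤ q ^ 2 := sq_nonneg q
  have hT2 : T ≤ 1 / 380 := by linarith
  have hE2 : E ≤ 1 / 91 := by linarith
  have hTT : T * T ≤ 1 / 380 * T := mul_le_mul_of_nonneg_right hT2 hT0
  have hET : E * T ≤ 1 / 91 * T := mul_le_mul_of_nonneg_right hE2 hT0
  have hETT : E * (T * T) ≤ 1 / 91 * (T * T) := mul_le_mul_of_nonneg_right hE2 (by positivity)
  have e : (1 + E) * (1 + T) ^ 2 + T = 1 + E + 3 * T + T * T + 2 * (E * T) + E * (T * T) := by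
    ring
  rw [e]
  linarith

theorem boot_double (S : Boot) (β : ℝ) (N : ℕ) (q : ℝ) (hβ : 0 < β) (hN : 1 ≤ N)
    (hq : 0 ≤ q) (hq' : q ≤ 1 / 40) (h : S.Z β N ≤ 1 + q) :
    S.Z (2 * β) (2 * N) ≤ 1 + 32 * q ^ 2 := by
  have hβ2 : 0 < 2 * β := by linarith
  have hN2 : 1 ≤ 2 * N := by omega
  have hN4 : 1 ≤ 2 * (2 * N) := by omega
  have z1 := S.Z_one hβ hN
  have a1 : S.Z β (2 * N) ≤ (1 + q) ^ 2 := (S.dS hβ hN).trans (by nlinarith)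
  have a2 : S.Z (2 * β) N ≤ (1 + q) ^ 2 := (S.dT hβ hN).trans (by nlinarith)
  have z2 := S.Z_one hβ hN2
  have a4 : S.Z β (2 * (2 * N)) ≤ (1 + q) ^ 4 := by
    refine (S.dS hβ hN2).trans ?_
    have : (1 + q) ^ 4 = ((1 + q) ^ 2) ^ 2 := by ring
    rw [this]
    exact pow_le_pow_left₀ (by linarith) a1 2
  set T := ((1 + q) ^ 2 - 1) ^ 2 with hT
  set E := ((1 + q) ^ 4 - 1) ^ 2 with hE
  have hT0 : 0 ≤ T := sq_nonneg _
  have hE0 : 0 ≤ E := sq_nonneg _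
  -- t(2β, 2N) ≤ T
  have t22 : S.Z (2 * β) (2 * N) - S.y (2 * β) ^ (2 * N) ≤ T := by
    refine (S.t_two hβ2 hN).trans ?_
    apply pow_le_pow_left₀
    · linarith [S.y_le (2 * β) N hβ2 hN]
    · linarith [S.ypow_one hβ2 N]
  have e22 : S.Z (2 * β) (2 * N) - S.X (2 * N) ^ (2 * β) ≤ T := by
    refine (S.e_two hβ hN2).trans ?_
    apply pow_le_pow_left₀
    · linarith [S.X_le β (2 * N) hβ hN2]
    · linarith [S.Xpow_one hβ hN2]
  have e24 : S.Z (2 * β) (2 * (2 * N)) - S.X (2 * (2 * N)) ^ (2 * β) ≤ E := by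
    refine (S.e_two hβ hN4).trans ?_
    apply pow_le_pow_left₀
    · linarith [S.X_le β (2 * (2 * N)) hβ hN4]
    · linarith [S.Xpow_one hβ hN4]
  set w := S.X (2 * N) ^ (2 * β) with hw
  set s := S.y (2 * β) ^ (2 * N) with hs
  have w1 : 1 ≤ w := S.Xpow_one hβ2 hN2
  have s1 : 1 ≤ s := S.ypow_one hβ2 (2 * N)
  have hws : w ≤ s * (1 + T) := by
    have := S.X_le (2 * β) (2 * N) hβ2 hN2
    nlinarith
  have hX4 : S.X (2 * (2 * N)) ^ (2 * β) ≤ w := by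
    apply Real.rpow_le_rpow
    · linarith [S.X_one (2 * (2 * N)) hN4]
    · exact S.X_anti _ _ hN2 (by omega)
    · exact hβ2.le
  have hs2 : s ^ 2 ≤ w * (1 + E) := by
    have e : s ^ 2 = S.y (2 * β) ^ (2 * (2 * N)) := by
      rw [hs, ← pow_mul, mul_comm (2 * N) 2]
    rw [e]
    have := S.y_le (2 * β) (2 * (2 * N)) hβ2 hN4
    nlinarith
  have hw2 : w ≤ (1 + E) * (1 + T) ^ 2 := by
    have h1 : w ^ 2 ≤ (s * (1 + T)) ^ 2 := pow_le_pow_left₀ (by linarith) hws 2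
    have h2 : (s * (1 + T)) ^ 2 ≤ w * ((1 + E) * (1 + T) ^ 2) := by
      have : (s * (1 + T)) ^ 2 = s ^ 2 * (1 + T) ^ 2 := by ring
      rw [this]
      have h3 := mul_le_mul_of_nonneg_right hs2 (sq_nonneg (1 + T))
      linarith
    have h4 : w * w ≤ w * ((1 + E) * (1 + T) ^ 2) := by
      have : w * w = w ^ 2 := by ring
      linarith
    exact le_of_mul_le_mul_left h4 (by linarith)
  have hnum := contr_num hq hq' hT hE
  linarith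

private theorem boot_iter (S : Boot) (β₀ : ℝ) (N₀ : ℕ) (hβ : 0 < β₀) (hN : 1 ≤ N₀)
    (h : S.Z β₀ N₀ ≤ 1 + 1 / 40) (k : ℕ) :
    S.Z (2 ^ k * β₀) (2 ^ k * N₀) ≤ 1 + 1 / 32 * (4 / 5 : ℝ) ^ (2 ^ k) := by
  induction k with
  | zero =>
    rw [pow_zero, pow_zero, one_mul, one_mul, pow_one]
    linarith
  | succ k ih =>
    have h2 : (4 / 5 : ℝ) ^ (2 ^ k) ≤ 4 / 5 := by
      have := pow_le_pow_of_le_one (show (0 : ℝ) ≤ 4 / 5 by norm_num) (by norm_num)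
        (show 1 ≤ 2 ^ k from Nat.one_le_two_pow)
      simpa using this
    have h1 := boot_double S (2 ^ k * β₀) (2 ^ k * N₀) (1 / 32 * (4 / 5 : ℝ) ^ (2 ^ k))
      (by positivity) (Nat.mul_pos (by positivity) hN) (by positivity) (by linarith) ih
    have e1 : 2 * (2 ^ k * β₀) = 2 ^ (k + 1) * β₀ := by ring
    have e2 : 2 * (2 ^ k * N₀) = 2 ^ (k + 1) * N₀ := by ring
    have e3 : 32 * (1 / 32 * (4 / 5 : ℝ) ^ (2 ^ k)) ^ 2 = 1 / 32 * (4 / 5 : ℝ) ^ (2 ^ (k + 1)) := by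
      rw [pow_succ 2 k, pow_mul]
      ring
    rw [e1, e2, e3] at h1
    exact h1

/-- uniform exponential smallness of the excess over the ground state -/
theorem boot_gap (S : Boot) (β₀ : ℝ) (N₀ : ℕ) (hβ : 0 < β₀) (hN : 1 ≤ N₀)
    (h : S.Z β₀ N₀ ≤ 1 + 1 / 40) :
    ∃ c : ℝ, 0 < c ∧ ∀ N : ℕ, N₀ ≤ N → ∃ β : ℝ, 0 < β ∧
      S.Z β N - S.X N ^ β ≤ Real.exp (-(c * β)) * S.X N ^ β := by
  refine ⟨Real.log (5 / 4) / β₀, div_pos (Real.log_pos (by norm_num)) hβ, fun N hNN => ?_⟩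
  set k := Nat.log 2 (N / N₀) with hk
  have hq0 : N / N₀ ≠ 0 := by
    have : 0 < N / N₀ := Nat.div_pos hNN hN
    omega
  have hk1 : 2 ^ k * N₀ ≤ N := by
    have h1 : 2 ^ k ≤ N / N₀ := Nat.pow_log_le_self 2 hq0
    exact (Nat.le_div_iff_mul_le hN).1 h1
  have hk2 : N ≤ 2 * (2 ^ k * N₀) := by
    have h1 : N / N₀ < 2 ^ (k + 1) := Nat.lt_pow_succ_log_self (by norm_num) _
    have h2 : N < 2 ^ (k + 1) * N₀ := (Nat.div_lt_iff_lt_mul hN).1 h1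
    have e2 : 2 ^ (k + 1) * N₀ = 2 * (2 ^ k * N₀) := by ring
    omega
  have hβk : (0 : ℝ) < 2 ^ k * β₀ := by positivity
  have hNk : 1 ≤ 2 ^ k * N₀ := Nat.mul_pos (by positivity) hN
  have hN1 : 1 ≤ N := hN.trans hNN
  have hit := boot_iter S β₀ N₀ hβ hN h k
  set r : ℝ := (4 / 5 : ℝ) ^ (2 ^ k) with hr
  have hr0 : 0 ≤ r := by positivity
  have hr1 : r ≤ 1 := pow_le_one₀ (by norm_num) (by norm_num)
  have hZN := S.Z_between hβk hNk hk1 hk2 (by linarith)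
  have hz1 := S.Z_one hβk hNk
  have hZN2 : S.Z (2 ^ k * β₀) N ≤ (1 + 1 / 32 * r) ^ 2 :=
    hZN.trans (pow_le_pow_left₀ (by linarith) hit 2)
  have hX1 := S.Xpow_one hβk hN1
  refine ⟨2 ^ k * β₀, hβk, ?_⟩
  have hexp : Real.exp (-(Real.log (5 / 4) / β₀ * (2 ^ k * β₀))) = r := by
    have e1 : -(Real.log (5 / 4) / β₀ * (2 ^ k * β₀)) = ((2 ^ k : ℕ) : ℝ) * Real.log (4 / 5) := by
      have e2 : Real.log (4 / 5) = -Real.log (5 / 4) := by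
        rw [← Real.log_inv]
        norm_num
      rw [e2]
      push_cast
      field_simp
    rw [e1, Real.exp_nat_mul, Real.exp_log (by norm_num)]
  rw [hexp]
  have h5 : (1 + 1 / 32 * r) ^ 2 - 1 ≤ r := by nlinarith
  have h6 : r ≤ r * S.X N ^ (2 ^ k * β₀) := by nlinarith
  linarith

end P348
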