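import Vale.Agent.Lib.P348.IDefs
import Vale.Agent.Lib.P348.Contr
import Vale.Agent.Lib.P348.BrD

/-!
# P348 module GapU: from one small value of the normalised partition function to the uniform gap
-/

namespace P348

open Matrix

theorem E0_isLeast (N : ℕ) [NeZero N] : IsLeast (Problem.eigR (HR N 1)) (E0 N) := by
  rw [Problem.eigR_eq (HR_isSymm N 1 (by constructor <;> simp))]
  have hfin : (Set.range (HR_isSymm N 1 (by constructor <;> simp)).eigenvalues).Finite :=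
    Set.finite_range _
  refine ⟨?_, ?_⟩
  · exact (Set.range_nonempty _).csInf_mem hfin
  · rintro _ ⟨i, rfl⟩
    exact ciInf_le hfin.bddBelow i

theorem uniformGap_of (S : Boot) (f : ℝ) (hI : IsInst S f) (β₀ : ℝ) (N₀ : ℕ) (hβ : 0 < β₀)
    (hN : 1 ≤ N₀) (h : S.Z β₀ N₀ ≤ 1 + 1 / 40) : Problem.UniformGap := by
  obtain ⟨c, hc, hg⟩ := boot_gap S β₀ N₀ hβ hN h
  refine ⟨c, hc, N₀, fun N _ hN0 x y hx hy hxy => ?_⟩
  obtain ⟨β, hβ0, hZ⟩ := hg N hN0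
  have hN1 : 1 ≤ N := hN.trans hN0
  have hxe : x = E0 N := hx.unique (E0_isLeast N)
  subst hxe
  obtain ⟨M, rfl⟩ : ∃ M, N = M + 1 := ⟨N - 1, by omega⟩
  rw [hI.Z β (M + 1) hβ0 hN1, hI.X (M + 1) hN1, ← Real.exp_mul] at hZ
  have e1 : (-en (M + 1) - 2 * ((M + 1 : ℕ) : ℝ) * f) * β =
      -(β * E0 (M + 1)) + -(2 * ((M + 1 : ℕ) : ℝ) * β * f) := by
    show (-E0 (M + 1) - 2 * ((M + 1 : ℕ) : ℝ) * f) * β = _
    ring
  rw [e1, Real.exp_add] at hZ
  have hpos : 0 < Real.exp (-(2 * ((M + 1 : ℕ) : ℝ) * β * f)) := Real.exp_pos _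
  have h2 : zz 1 1 β (M + 1) * Real.exp (-(2 * ((M + 1 : ℕ) : ℝ) * β * f)) ≤
      ((1 + Real.exp (-(c * β))) * Real.exp (-(β * E0 (M + 1)))) *
        Real.exp (-(2 * ((M + 1 : ℕ) : ℝ) * β * f)) := by linarith
  have h3 := le_of_mul_le_mul_right h2 hpos
  refine Problem.gap_of_trace (HR_isSymm (M + 1) 1 (by constructor <;> simp)) hβ0 hx.1 hy
    hxy.ne ?_
  have h4 : zz 1 1 β (M + 1) = (NormedSpace.exp (-(β • HR (M + 1) 1))).trace := by
    show ZZ (M + 1) 1 1 β = _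
    rw [ZZ, glob_one, Matrix.one_mul]
  rw [← h4]
  exact h3

end P348
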