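import Vale.Agent.Lib.P348.IDefs

/-!
# P348 module InstT: the time-direction fields of Boot for the Heisenberg ring

Fix N ≥ 1 (zz at N is ZZ N, en N = E0 N).  By `time_split` (ZZ 1 1 + 3 ZZ rz 1)/4 = ∑ exp(-β E i),
(ZZ 1 1 - ZZ rz 1)/4 = ∑ exp(-β F i), so Z β = ∑ x_i^β + 3 ∑ z_i^β with x_i = exp(-E_i - 2Nf),
z_i = exp(-F_i - 2Nf), all ≤ X = exp(-E0 - 2Nf), one of them equal to X.  Removing that term:
Z β' - X^β' = sum over the other terms (with multiplicity) of x^β' ≤ (∑ x^β)^(β'/β) (β'/β ≥ 1: superadditivity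
of u ↦ u^r).  goodT: if X occurs among the z_i then Z β₀ ≥ 3 X^β₀ ≥ 3; so it occurs among the x_i.
Twisted ones: `time_twist` with R = rz, c3 (rotations).
-/

namespace P348

private theorem it_sum_rpow {ι : Type*} (s : Finset ι) (x : ι → ℝ) (hx : ∀ i, 0 < x i)
    {β β' : ℝ} (hβ : 0 < β) (h : β ≤ β') :
    ∑ i ∈ s, x i ^ β' ≤ (∑ i ∈ s, x i ^ β) ^ (β' / β) := by
  have hp : (1 : ℝ) ≤ β' / β := by
    rw [le_div_iff₀ hβ]
    linarith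
  have key : ∀ i, x i ^ β' = (x i ^ β) ^ (β' / β) := by
    intro i
    rw [← Real.rpow_mul (hx i).le, mul_div_cancel₀ _ hβ.ne']
  simp_rw [key]
  exact sum_rpow_le_rpow_sum s (fun i => x i ^ β) (fun i => (Real.rpow_pos_of_pos (hx i) β).le) hp

/-- a finite sum of powers of positive numbers, one of them is X -/
private theorem it_top {ι : Type*} [Fintype ι] [DecidableEq ι] (x : ι → ℝ) (hx : ∀ i, 0 < x i)
    (X : ℝ) (a : ι) (ha : x a = X) (Z : ℝ → ℝ) (hZ : ∀ β : ℝ, 0 < β → Z β = ∑ i, x i ^ β) :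
    (∀ β : ℝ, 0 < β → X ^ β ≤ Z β) ∧
    (∀ β β' : ℝ, 0 < β → β ≤ β' → Z β' - X ^ β' ≤ (Z β - X ^ β) ^ (β' / β)) := by
  have h1 : ∀ β : ℝ, 0 < β → Z β - X ^ β = ∑ i ∈ Finset.univ.erase a, x i ^ β := by
    intro β hβ
    rw [hZ β hβ, ← Finset.add_sum_erase Finset.univ _ (Finset.mem_univ a), ha]
    ring
  refine ⟨fun β hβ => ?_, fun β β' hβ h => ?_⟩
  · have h2 := h1 β hβ
    have h3 : 0 ≤ ∑ i ∈ Finset.univ.erase a, x i ^ β :=
      Finset.sum_nonneg fun i _ => (Real.rpow_pos_of_pos (hx i) β).le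
    linarith
  · rw [h1 β hβ, h1 β' (lt_of_lt_of_le hβ h)]
    exact it_sum_rpow _ x hx hβ h

private theorem it_exp (E β f : ℝ) (N : ℕ) :
    Real.exp (-(β * E)) * Real.exp (-(2 * N * β * f)) = Real.exp (-E - 2 * N * f) ^ β := by
  rw [← Real.exp_add, ← Real.exp_mul]
  congr 1
  ring

private theorem it_data (f : ℝ) (N : ℕ) (hN : 1 ≤ N) (X : ℝ)
    (hX : X = Real.exp (-(en N) - 2 * N * f)) :
    ∃ (k l : ℕ) (x : Fin k → ℝ) (z : Fin l → ℝ), (∀ i, 0 < x i) ∧ (∀ i, 0 < z i) ∧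
      ((∃ i, x i = X) ∨ (∃ i, z i = X)) ∧
      (∀ β : ℝ, 0 < β → (zz 1 1 β N * Real.exp (-(2 * N * β * f)) +
        3 * (zz rz 1 β N * Real.exp (-(2 * N * β * f)))) / 4 = ∑ i, x i ^ β) ∧
      (∀ β : ℝ, 0 < β → (zz 1 1 β N * Real.exp (-(2 * N * β * f)) -
        zz rz 1 β N * Real.exp (-(2 * N * β * f))) / 4 = ∑ i, z i ^ β) := by
  obtain ⟨j, rfl⟩ : ∃ j, N = j + 1 := ⟨N - 1, by omega⟩
  obtain ⟨k, l, E, F, -, -, h3, h4, h5, -⟩ := time_split (j + 1)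
  refine ⟨k, l, fun i => Real.exp (-E i - 2 * ((j + 1 : ℕ) : ℝ) * f),
    fun i => Real.exp (-F i - 2 * ((j + 1 : ℕ) : ℝ) * f), fun i => Real.exp_pos _,
    fun i => Real.exp_pos _, ?_, ?_, ?_⟩
  · rcases h3 with ⟨i, hi⟩ | ⟨i, hi⟩
    · exact Or.inl ⟨i, by rw [hX]; simp only [hi, en]⟩
    · exact Or.inr ⟨i, by rw [hX]; simp only [hi, en]⟩
  · intro β hβ
    have h6 := h4 β hβ
    have h7 : (zz 1 1 β (j + 1) * Real.exp (-(2 * ((j + 1 : ℕ) : ℝ) * β * f)) +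
        3 * (zz rz 1 β (j + 1) * Real.exp (-(2 * ((j + 1 : ℕ) : ℝ) * β * f)))) / 4 =
        (ZZ (j + 1) 1 1 β + 3 * ZZ (j + 1) rz 1 β) / 4 *
          Real.exp (-(2 * ((j + 1 : ℕ) : ℝ) * β * f)) := by
      change (ZZ (j + 1) 1 1 β * _ + 3 * (ZZ (j + 1) rz 1 β * _)) / 4 = _
      ring
    rw [h7, h6, Finset.sum_mul]
    exact Finset.sum_congr rfl fun i _ => it_exp (E i) β f (j + 1)
  · intro β hβ
    have h6 := h5 β hβ
    have h7 : (zz 1 1 β (j + 1) * Real.exp (-(2 * ((j + 1 : ℕ) : ℝ) * β * f)) -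
        zz rz 1 β (j + 1) * Real.exp (-(2 * ((j + 1 : ℕ) : ℝ) * β * f))) / 4 =
        (ZZ (j + 1) 1 1 β - ZZ (j + 1) rz 1 β) / 4 *
          Real.exp (-(2 * ((j + 1 : ℕ) : ℝ) * β * f)) := by
      change (ZZ (j + 1) 1 1 β * _ - ZZ (j + 1) rz 1 β * _) / 4 = _
      ring
    rw [h7, h6, Finset.sum_mul]
    exact Finset.sum_congr rfl fun i _ => it_exp (F i) β f (j + 1)

theorem time_basic (f : ℝ) (N : ℕ) (hN : 1 ≤ N) (X : ℝ) (hX : X = Real.exp (-(en N) - 2 * N * f))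
    (Z : ℝ → ℝ) (hZ : Z = fun β => zz 1 1 β N * Real.exp (-(2 * N * β * f))) :
    (∀ β : ℝ, 0 < β → X ^ β ≤ Z β) ∧
    (∀ β β' : ℝ, 0 < β → β ≤ β' → Z β' - X ^ β' ≤ (Z β - X ^ β) ^ (β' / β)) := by
  obtain ⟨k, l, x, z, hx, hz, h3, h4, h5⟩ := it_data f N hN X hX
  obtain ⟨w, hw⟩ : ∃ w : Fin k ⊕ (Fin 3 × Fin l) → ℝ, w = Sum.elim x (fun p => z p.2) := ⟨_, rfl⟩
  have hw0 : ∀ i, 0 < w i := by
    rintro (i | p)
    · rw [hw]; exact hx i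
    · rw [hw]; exact hz p.2
  have hwZ : ∀ β : ℝ, 0 < β → Z β = ∑ i, w i ^ β := by
    intro β hβ
    rw [Fintype.sum_sum_type, hw, hZ]
    simp only [Sum.elim_inl, Sum.elim_inr]
    rw [Fintype.sum_prod_type]
    simp only [Finset.sum_const, Finset.card_univ, Fintype.card_fin, nsmul_eq_mul]
    have h6 := h4 β hβ
    have h7 := h5 β hβ
    rw [← h6, ← h7]
    push_cast
    ring
  obtain ⟨a, ha⟩ : ∃ a, w a = X := by
    rcases h3 with ⟨i, hi⟩ | ⟨i, hi⟩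
    · exact ⟨Sum.inl i, by rw [hw]; exact hi⟩
    · exact ⟨Sum.inr (0, i), by rw [hw]; exact hi⟩
  exact it_top w hw0 X a ha Z hwZ

theorem time_tau (f : ℝ) (N : ℕ) (hN : 1 ≤ N) (Z B : ℝ → ℝ)
    (hZ : Z = fun β => zz 1 1 β N * Real.exp (-(2 * N * β * f)))
    (hB : B = fun β => zz rz 1 β N * Real.exp (-(2 * N * β * f))) :
    (∀ β : ℝ, 0 < β → 0 ≤ (Z β - B β) / 4) ∧
    (∀ β β' : ℝ, 0 < β → β ≤ β' → (Z β' - B β') / 4 ≤ ((Z β - B β) / 4) ^ (β' / β)) := by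
  obtain ⟨k, l, x, z, hx, hz, -, -, h5⟩ := it_data f N hN _ rfl
  have h6 : ∀ β : ℝ, 0 < β → (Z β - B β) / 4 = ∑ i, z i ^ β := by
    intro β hβ
    rw [hZ, hB]
    exact h5 β hβ
  refine ⟨fun β hβ => ?_, fun β β' hβ h => ?_⟩
  · rw [h6 β hβ]
    exact Finset.sum_nonneg fun i _ => (Real.rpow_pos_of_pos (hz i) β).le
  · rw [h6 β hβ, h6 β' (lt_of_lt_of_le hβ h)]
    exact it_sum_rpow _ z hz hβ h

theorem time_good (f : ℝ) (N : ℕ) (hN : 1 ≤ N) (X : ℝ) (hX : X = Real.exp (-(en N) - 2 * N * f))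
    (hX1 : 1 ≤ X) (Z B : ℝ → ℝ)
    (hZ : Z = fun β => zz 1 1 β N * Real.exp (-(2 * N * β * f)))
    (hB : B = fun β => zz rz 1 β N * Real.exp (-(2 * N * β * f)))
    (β₀ : ℝ) (hβ₀ : 0 < β₀) (h3 : Z β₀ < 3) :
    (∀ β : ℝ, 0 < β → X ^ β ≤ (Z β + 3 * B β) / 4) ∧
    (∀ β β' : ℝ, 0 < β → β ≤ β' →
      (Z β' + 3 * B β') / 4 - X ^ β' ≤ ((Z β + 3 * B β) / 4 - X ^ β) ^ (β' / β)) := by
  obtain ⟨k, l, x, z, hx, hz, h4, h5, h6⟩ := it_data f N hN X hX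
  have h5' : ∀ β : ℝ, 0 < β → (Z β + 3 * B β) / 4 = ∑ i, x i ^ β := by
    intro β hβ
    rw [hZ, hB]
    exact h5 β hβ
  have h6' : ∀ β : ℝ, 0 < β → (Z β - B β) / 4 = ∑ i, z i ^ β := by
    intro β hβ
    rw [hZ, hB]
    exact h6 β hβ
  have h7 : ∃ i, x i = X := by
    rcases h4 with h | ⟨i, hi⟩
    · exact h
    · exfalso
      have h8 := h5' β₀ hβ₀
      have h9 := h6' β₀ hβ₀
      have h10 : 0 ≤ ∑ i, x i ^ β₀ := Finset.sum_nonneg fun i _ => (Real.rpow_pos_of_pos (hx i) _).le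
      have h11 : X ^ β₀ ≤ ∑ i, z i ^ β₀ := by
        rw [← hi]
        exact Finset.single_le_sum (f := fun i => z i ^ β₀)
          (fun i _ => (Real.rpow_pos_of_pos (hz i) _).le) (Finset.mem_univ i)
      have h12 : 1 ≤ X ^ β₀ := Real.one_le_rpow hX1 hβ₀.le
      linarith
  obtain ⟨a, ha⟩ := h7
  exact it_top x hx X a ha (fun β => (Z β + 3 * B β) / 4) h5'

/-- for R = rz and R = c3 -/
theorem time_tw (f : ℝ) (N : ℕ) (hN : 1 ≤ N) (R : Matrix (Fin 3) (Fin 3) ℝ) (hR : IsRot R) (A : ℝ → ℝ)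
    (hA : A = fun β => zz 1 R β N * Real.exp (-(2 * N * β * f))) :
    (∀ β : ℝ, 0 < β → 0 ≤ A β) ∧
    (∀ β β' : ℝ, 0 < β → β ≤ β' → A β' ≤ A β ^ (β' / β)) := by
  obtain ⟨j, rfl⟩ : ∃ j, N = j + 1 := ⟨N - 1, by omega⟩
  obtain ⟨E, k, F, -, h2⟩ := time_twist (j + 1) R hR
  have h3 : ∀ β : ℝ, 0 < β → A β = ∑ i, Real.exp (-F i - 2 * ((j + 1 : ℕ) : ℝ) * f) ^ β := by
    intro β hβ
    rw [hA]
    change ZZ (j + 1) 1 R β * Real.exp (-(2 * ((j + 1 : ℕ) : ℝ) * β * f)) = _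
    have := h2 β hβ
    simp only at this
    rw [this, Finset.sum_mul]
    exact Finset.sum_congr rfl fun i _ => it_exp (F i) β f (j + 1)
  refine ⟨fun β hβ => ?_, fun β β' hβ h => ?_⟩
  · rw [h3 β hβ]
    exact Finset.sum_nonneg fun i _ => (Real.rpow_pos_of_pos (Real.exp_pos _) β).le
  · rw [h3 β hβ, h3 β' (lt_of_lt_of_le hβ h)]
    exact it_sum_rpow _ _ (fun i => Real.exp_pos _) hβ h

theorem isRot_rz : IsRot rz := by
  refine ⟨?_, ?_⟩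
  · ext i j
    fin_cases i <;> fin_cases j <;> simp [rz, Matrix.mul_apply, Fin.sum_univ_three]
  · simp [rz, Matrix.det_fin_three]

theorem isRot_c3 : IsRot c3 := by
  refine ⟨?_, ?_⟩
  · ext i j
    fin_cases i <;> fin_cases j <;> simp [c3, Matrix.mul_apply, Fin.sum_univ_three]
  · simp [c3, Matrix.det_fin_three]

end P348
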