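import Vale.Agent.Lib.P348.M1F

/-!
P348: variational upper bound on the ground energy of the periodic spin-one Heisenberg chain,
E_0(2N) ≤ -1.401482 (2N) + C (matrix product vector certificate, files M1A-M1G).
-/

namespace P348

open Matrix

/-- sharper form -/
theorem energy_upper' : ∃ C : ℝ, ∀ (N : ℕ) [NeZero N], ∃ v : Cfg N → ℝ, v ≠ 0 ∧
    v ⬝ᵥ (HR N 1 *ᵥ v) ≤ (-(2 * N) * 1.401482 + C) * (v ⬝ᵥ v) := by
  obtain ⟨C, hC⟩ := energy_upper0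
  refine ⟨C, fun N _ => ?_⟩
  obtain ⟨v, hv, hv2⟩ := hC N
  refine ⟨v, hv, hv2.trans (le_of_eq ?_)⟩
  congr 1
  norm_num

theorem energy_upper : ∃ C : ℝ, ∀ (N : ℕ) [NeZero N], ∃ v : Cfg N → ℝ, v ≠ 0 ∧
    v ⬝ᵥ (HR N 1 *ᵥ v) ≤ (-(2 * N) * 1.40147 + C) * (v ⬝ᵥ v) := by
  obtain ⟨C, hC⟩ := energy_upper'
  refine ⟨C, fun N _ => ?_⟩
  obtain ⟨v, hv, hv2⟩ := hC N
  refine ⟨v, hv, hv2.trans (mul_le_mul_of_nonneg_right ?_ ?_)⟩
  · have : (0 : ℝ) ≤ N := Nat.cast_nonneg N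
    linarith
  · exact Finset.sum_nonneg fun i _ => mul_self_nonneg (v i)

end P348
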