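import Vale.Agent.Lib.P348.InstS
import Vale.Agent.Lib.P348.InstT
import Vale.Agent.Lib.P348.M1

/-!
# P348 module Inst: the Heisenberg ring gives a Boot structure

`mono_abstract` with g = zz 1 1, e = en: PowSum from the space channels (Z = A1 + A2 + 2E + 3T1 + 3T2 as in
InstS; `powSum_char` with the trivial group also gives it), the exponential sums from `time_split` (a sum
∑ exp(-βE i) + 3 ∑ exp(-βF i), reindexed by Fin (k + 3 l)), hlow from `energy_upper'` and `E0_le_rayleigh`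
(-en N ≥ 2N·1.401482 - C ≥ N (2.802964 - |C|)).
It gives f; f ≥ 1.401482 because -en N' ≤ 2N'f + (-en 1 - 2f) for all N' (third conclusion with N = 1) and
-en N' ≥ 2N'·1.401482 - C.  S.y β := (chosen top of zz 1 1 β) exp(-2βf) for β > 0 (and 1 otherwise),
S.X N := exp(-en N - 2Nf).  Fields from InstS, InstT and `mono_abstract`.
-/

namespace P348

open Matrix C2

private theorem inst_powSum (β : ℝ) (hβ : 0 < β) : PowSum (zz 1 1 β) := by
  have h := powSum_char 1 {1} (fun _ => 1)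
    (fun g hg => by
      rw [Finset.mem_singleton] at hg
      subst hg
      exact toR_rot_O 1 OG_one)
    (fun g _ => by rw [Matrix.one_mul, Matrix.mul_one])
    (Finset.mem_singleton_self _)
    (fun g hg h hh => by
      rw [Finset.mem_singleton] at hg hh
      subst hg
      subst hh
      exact ⟨by simp, rfl⟩)
    (fun g hg => by
      rw [Finset.mem_singleton] at hg
      subst hg
      exact ⟨by simp, rfl⟩) rfl β hβ
  refine C2.fin_eq h fun N => ?_
  rw [Finset.sum_singleton, Finset.card_singleton]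
  change ((1 : ℤ) : ℝ) * zz 1 (toR 1) β N / ((1 : ℕ) : ℝ) = _
  rw [toR_one]
  simp

private theorem inst_hts (N : ℕ) (hN : 1 ≤ N) :
    ∃ (k : ℕ) (E : Fin k → ℝ), (∀ i, en N ≤ E i) ∧ (∃ i, E i = en N) ∧
      ∀ β : ℝ, 0 < β → zz 1 1 β N = ∑ i, Real.exp (-(β * E i)) := by
  obtain ⟨M, rfl⟩ : ∃ M, N = M + 1 := ⟨N - 1, by omega⟩
  obtain ⟨k, l, E, F, hE, hF, hatt, h1, h2, -⟩ := time_split (M + 1)
  let φ : Fin k ⊕ (Fin 3 × Fin l) → ℝ := Sum.elim E (fun p => F p.2)
  let e : Fin (Fintype.card (Fin k ⊕ (Fin 3 × Fin l))) ≃ (Fin k ⊕ (Fin 3 × Fin l)) :=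
    (Fintype.equivFin _).symm
  refine ⟨_, fun i => φ (e i), ?_, ?_, ?_⟩
  · intro i
    change E0 (M + 1) ≤ φ (e i)
    rcases e i with a | ⟨b, c⟩
    · exact hE a
    · exact hF c
  · rcases hatt with ⟨i, hi⟩ | ⟨i, hi⟩
    · refine ⟨e.symm (Sum.inl i), ?_⟩
      change φ (e (e.symm (Sum.inl i))) = E0 (M + 1)
      rw [Equiv.apply_symm_apply]
      exact hi
    · refine ⟨e.symm (Sum.inr (0, i)), ?_⟩
      change φ (e (e.symm (Sum.inr (0, i)))) = E0 (M + 1)
      rw [Equiv.apply_symm_apply]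
      exact hi
  · intro β hβ
    have e1 := h1 β hβ
    have e2 := h2 β hβ
    rw [Equiv.sum_comp e (fun j => Real.exp (-(β * φ j))), Fintype.sum_sum_type,
      Fintype.sum_prod_type]
    change ZZ (M + 1) 1 1 β = ∑ i, Real.exp (-(β * E i)) +
      ∑ _x : Fin 3, ∑ j, Real.exp (-(β * F j))
    rw [← e1, ← e2, Finset.sum_const, Finset.card_univ, Fintype.card_fin, nsmul_eq_mul]
    push_cast
    ring

private theorem inst_low : ∃ C : ℝ, ∀ N : ℕ, 1 ≤ N → 2 * N * 1.401482 - C ≤ -en N := by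
  obtain ⟨C, hC⟩ := energy_upper'
  refine ⟨C, fun N hN => ?_⟩
  obtain ⟨M, rfl⟩ : ∃ M, N = M + 1 := ⟨N - 1, by omega⟩
  obtain ⟨v, hv, hv2⟩ := hC (M + 1)
  have h := E0_le_rayleigh (M + 1) v hv _ hv2
  change 2 * ((M + 1 : ℕ) : ℝ) * 1.401482 - C ≤ -E0 (M + 1)
  linarith

theorem exists_inst : ∃ (S : Boot) (f : ℝ), IsInst S f := by
  obtain ⟨C, hC⟩ := inst_low
  have hlow : ∃ c : ℝ, ∀ N : ℕ, 1 ≤ N → c * N ≤ -en N := by
    refine ⟨2.802964 - |C|, fun N hN => ?_⟩
    have h1 := hC N hN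
    have h2 : (1 : ℝ) ≤ N := by exact_mod_cast hN
    have h3 := le_abs_self C
    have h4 := abs_nonneg C
    nlinarith
  obtain ⟨f, f1, f2, f3, f4, f5⟩ := mono_abstract (zz 1 1) en inst_powSum inst_hts hlow
  have hf : (1.401482 : ℝ) ≤ f := by
    by_contra hcon
    push Not at hcon
    obtain ⟨n, hn⟩ := exists_nat_gt ((C + |(-en 1 - 2 * f)|) / (2 * (1.401482 - f)))
    have hpos : 0 < 2 * (1.401482 - f) := by linarith
    rw [div_lt_iff₀ hpos] at hn
    have h1 := f3 1 (n + 1) le_rfl (by omega)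
    have h2 := hC (n + 1) (by omega)
    have h3 := le_abs_self (-en 1 - 2 * f)
    push_cast at h1 h2
    nlinarith
  -- tops
  have htop : ∀ β : ℝ, 0 < β → ∃ l : ℝ, IsTop (zz 1 1 β) l := fun β hβ =>
    (inst_powSum β hβ).exists_top
  choose! L hL using htop
  have hy1 : ∀ β : ℝ, 0 < β → 1 ≤ L β * Real.exp (-(2 * β * f)) := by
    intro β hβ
    have h := f4 β (L β) hβ (hL β hβ)
    have h2 : Real.exp (2 * f * β) * Real.exp (-(2 * β * f)) = 1 := by
      rw [← Real.exp_add, show 2 * f * β + -(2 * β * f) = 0 by ring, Real.exp_zero]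
    rw [← h2]
    exact mul_le_mul_of_nonneg_right h (Real.exp_pos _).le
  have hX1 : ∀ N : ℕ, 1 ≤ N → 1 ≤ Real.exp (-(en N) - 2 * N * f) := by
    intro N hN
    rw [← Real.exp_zero]
    apply Real.exp_le_exp.mpr
    have := f1 N hN
    linarith
  let S : Boot :=
    { Z := fun β N => zz 1 1 β N * Real.exp (-(2 * N * β * f))
      A := fun β N => zz 1 rz β N * Real.exp (-(2 * N * β * f))
      t := fun β N => zz 1 c3 β N * Real.exp (-(2 * N * β * f))
      B := fun β N => zz rz 1 β N * Real.exp (-(2 * N * β * f))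
      y := fun β => L β * Real.exp (-(2 * β * f))
      X := fun N => Real.exp (-(en N) - 2 * N * f)
      y_one := hy1
      y_anti := by
        intro β β' hβ hββ'
        have h := f5 β β' (L β) (L β') hβ hββ' (hL β hβ) (hL β' (lt_of_lt_of_le hβ hββ'))
        have e1 : 2 * β * f = 2 * f * β := by ring
        have e2 : 2 * β' * f = 2 * f * β' := by ring
        rw [e1, e2]
        exact h
      X_one := hX1
      X_anti := by
        intro N N' hN hNN'
        exact Real.exp_le_exp.mpr (f3 N N' hN hNN')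
      y_le := fun β N hβ hN => (space_basic f β (L β) hβ (hL β hβ) _ rfl _ rfl).1 N hN
      X_le := fun β N hβ hN => (time_basic f N hN _ rfl _ rfl).1 β hβ
      Z_powS := fun β N N' hβ hN hNN' =>
        (space_basic f β (L β) hβ (hL β hβ) _ rfl _ rfl).2 N N' hN hNN'
      Z_powT := fun β β' N hβ hββ' hN => (time_basic f N hN _ rfl _ rfl).2 β β' hβ hββ'
      tau_nonneg := fun β N hβ hN => (space_tau f β hβ _ _ rfl rfl).1 N hN
      tau_pow := fun β N N' hβ hN hNN' => (space_tau f β hβ _ _ rfl rfl).2 N N' hN hNN'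
      e_nonneg := fun β N hβ hN => (space_e f β hβ _ _ _ rfl rfl rfl).1 N hN
      e_pow := fun β N N' hβ hN hNN' => (space_e f β hβ _ _ _ rfl rfl rfl).2 N N' hN hNN'
      goodS := fun β M hβ hM h2 =>
        space_good f β (L β) hβ (hL β hβ) _ rfl (hy1 β hβ) _ _ _ rfl rfl rfl M hM h2
      tauT_nonneg := fun β N hβ hN => (time_tau f N hN _ _ rfl rfl).1 β hβ
      tauT_pow := fun β β' N hβ hββ' hN => (time_tau f N hN _ _ rfl rfl).2 β β' hβ hββ'
      goodT := fun N β₀ hN hβ₀ h3 =>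
        time_good f N hN _ rfl (hX1 N hN) _ _ rfl rfl β₀ hβ₀ h3
      A_nonneg := fun β N hβ hN => (time_tw f N hN rz isRot_rz _ rfl).1 β hβ
      A_pow := fun β β' N hβ hββ' hN => (time_tw f N hN rz isRot_rz _ rfl).2 β β' hβ hββ'
      t_nonneg := fun β N hβ hN => (time_tw f N hN c3 isRot_c3 _ rfl).1 β hβ
      t_pow := fun β β' N hβ hββ' hN => (time_tw f N hN c3 isRot_c3 _ rfl).2 β β' hβ hββ'
      B_nonneg := fun β N hβ hN => (space_B f β hβ _ rfl).1 N hN
      B_pow := fun β N N' hβ hN hNN' => (space_B f β hβ _ rfl).2 N N' hN hNN' }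
  refine ⟨S, f, ?_⟩
  refine ⟨by linarith, fun _ _ _ _ => rfl, fun _ _ _ _ => rfl, fun _ _ _ _ => rfl,
    fun _ _ _ _ => rfl, fun _ _ => rfl, ?_⟩
  intro β l hβ hl
  have h := IsTop.unique _ _ _ (hL β hβ) hl
  change L β * Real.exp (-(2 * β * f)) = _
  rw [h]

end P348
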