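import Vale.Agent.Lib.P348.KE4
import Vale.Agent.Lib.P348.Inst
import Vale.Agent.Lib.P348.BaseB
import Vale.Agent.Lib.P348.CertRun
import Vale.Agent.Lib.P348.GapU
import Vale.Agent.Lib.P348.Stmt

/-!
# P348: closing file, the Haldane gap of the spin-one Heisenberg ring
-/

namespace P348

open Matrix

/-- the certificate: the normalised partition function of the ring of 192 sites at β = 64 -/
theorem cert_value : ∃ (S : Boot) (f : ℝ), IsInst S f ∧ S.Z 64 96 ≤ 1 + 8552463 / 1000000000 := by
  obtain ⟨S, f, h⟩ := exists_inst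
  refine ⟨S, f, h, ?_⟩
  have h1 := cert_final S (base_ok S f h)
  have h2 : ((bq 12 : ℝ) / 4) = 64 := by
    norm_num [bq, BQ]
  have h3 : nn 8 = 96 := by
    norm_num [nn, NL]
  rw [h2, h3] at h1
  refine h1.trans ?_
  norm_num [DD]

theorem uniformGap : Problem.UniformGap := by
  obtain ⟨S, f, h, hZ⟩ := cert_value
  refine uniformGap_of S f h 64 96 (by norm_num) (by norm_num) (hZ.trans ?_)
  norm_num

end P348
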