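import Vale.Agent.Lib.P348.Close
import Vale.Agent.Lib.P348.BrX
import Mathlib.Analysis.Complex.ExponentialBounds

/-!
# P348: closing file with an explicit constant
-/

namespace P348

open Matrix

theorem exp_bound : 32 * (8552463 / 1000000000 : ℝ) ≤ Real.exp (-((1 / 50 : ℝ) * 64)) := by
  have h1 : Real.exp (-((1 / 50 : ℝ) * 64)) = (Real.exp ((1 / 50 : ℝ) * 64))⁻¹ := Real.exp_neg _
  have h2 : Real.exp ((1 / 50 : ℝ) * 64) ^ 25 = Real.exp 1 ^ 32 := by
    rw [← Real.exp_nat_mul, ← Real.exp_nat_mul]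
    norm_num
  have h3 : Real.exp 1 < 2.7182818286 := Real.exp_one_lt_d9
  have h4 : Real.exp ((1 / 50 : ℝ) * 64) ≤ 3.653 := by
    by_contra hcon
    have h5 : (3.653 : ℝ) < Real.exp ((1 / 50 : ℝ) * 64) := not_le.mp hcon
    have h6 : (3.653 : ℝ) ^ 25 < Real.exp ((1 / 50 : ℝ) * 64) ^ 25 :=
      pow_lt_pow_left₀ h5 (by norm_num) (by norm_num)
    have h7 : Real.exp 1 ^ 32 ≤ (2.7182818286 : ℝ) ^ 32 :=
      pow_le_pow_left₀ (Real.exp_pos 1).le h3.le 32
    have h8 : (2.7182818286 : ℝ) ^ 32 < (3.653 : ℝ) ^ 25 := by norm_num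
    rw [h2] at h6
    linarith
  rw [h1]
  have h9 : (3.653 : ℝ)⁻¹ ≤ (Real.exp ((1 / 50 : ℝ) * 64))⁻¹ :=
    inv_anti₀ (Real.exp_pos _) h4
  refine le_trans ?_ h9
  norm_num

/-- the gap of the rings of even length at least 192 is at least 1/50, for every spin-one triple -/
theorem explicitGap {S : Fin 3 → Matrix (Fin 3) (Fin 3) ℂ} (hS : Problem.IsSpinOne S) :
    (∀ L : ℕ, Even L → 192 ≤ L → 1 / 50 ≤ Problem.gap S L) ∧
      (((1 / 50 : ℝ) : ℝ) : EReal) ≤ Problem.haldaneGap S := by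
  obtain ⟨B, f, h, hZ⟩ := cert_value
  have h1 := explicit_of B f h 64 96 (8552463 / 1000000000) (1 / 50) (by norm_num) (by norm_num)
    (by norm_num) (by norm_num) hZ exp_bound
  obtain ⟨h2, h3⟩ := Problem.haldane_explicit (1 / 50) 96 h1 hS
  exact ⟨fun L he hL => h2 L he (by omega) (by omega), h3⟩

end P348
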