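import Vale.Agent.Lib.P348.IDefs

/-!
# P348 module InstS: the space-direction fields of Boot for the Heisenberg ring

Fix β > 0 and write c = exp(-2βf), so exp(-2Nβf) = c^N and `PowSum.scale` applies.
n1 = (Z+3A+8t)/12 = A1 + A2 (channels `pow_A1`, `pow_A2`), e = (Z+3A-4t)/12 = `pow_E`,
τ = (Z-A)/4 = T1 + T2 (`pow_T1`, `pow_T2`), B = `pow_B`; all are PowSum; Z = n1 + 2 e + 3 τ.
goodS: by `IsTop.add` and uniqueness the top y of Z is the max of the tops of n1, e, τ.  If y is not the top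
of n1 then it is the top of e or of τ, and 2 y^M ≤ 2 e(M) ≤ Z(M) or 3 y^M ≤ 3 τ(M) ≤ Z(M), but y ≥ 1 and
Z(M) < 2, contradiction; so IsTop n1 y.
-/

namespace P348

namespace InstSAux

theorem exp_pow (β f : ℝ) (N : ℕ) :
    Real.exp (-(2 * N * β * f)) = Real.exp (-(2 * β * f)) ^ N := by
  rw [← Real.exp_nat_mul]
  congr 1
  ring

/-- scaling of the two inequalities of a top -/
theorem scale_top (g : ℕ → ℝ) (l c : ℝ) (hc : 0 < c) (h : IsTop g l) :
    (∀ N : ℕ, 1 ≤ N → (l * c) ^ N ≤ g N * c ^ N) ∧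
    (∀ N N' : ℕ, 1 ≤ N → N ≤ N' →
      g N' * c ^ N' - (l * c) ^ N' ≤ (g N * c ^ N - (l * c) ^ N) ^ ((N' : ℝ) / N)) := by
  constructor
  · intro N hN
    rw [mul_pow]
    exact mul_le_mul_of_nonneg_right (h.le N hN) (pow_nonneg hc.le N)
  · intro N N' hN hNN
    have hN0 : (N : ℝ) ≠ 0 := by
      have : (0 : ℝ) < N := by exact_mod_cast hN
      exact this.ne'
    have h0 : 0 ≤ g N - l ^ N := by
      have := h.le N hN
      linarith
    have e1 : g N' * c ^ N' - (l * c) ^ N' = (g N' - l ^ N') * c ^ N' := by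
      rw [mul_pow]
      ring
    have e2 : g N * c ^ N - (l * c) ^ N = (g N - l ^ N) * c ^ N := by
      rw [mul_pow]
      ring
    have e3 : (c ^ N) ^ ((N' : ℝ) / N) = c ^ N' := by
      rw [← Real.rpow_natCast c N, ← Real.rpow_mul hc.le, mul_div_cancel₀ _ hN0,
        Real.rpow_natCast]
    rw [e1, e2, Real.mul_rpow h0 (pow_nonneg hc.le N), e3]
    exact mul_le_mul_of_nonneg_right (h.pow N N' hN hNN) (pow_nonneg hc.le N')

theorem powSum_congr {g g' : ℕ → ℝ} (h : PowSum g) (e : ∀ N, g N = g' N) : PowSum g' := by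
  have : g = g' := funext e
  rwa [this] at h

/-- the three multiplicity-free channels as power sums (before normalisation) -/
theorem pow_n1 (β : ℝ) (hβ : 0 < β) :
    PowSum (fun N => (zz 1 1 β N + 3 * zz 1 rz β N + 8 * zz 1 c3 β N) / 12) :=
  powSum_congr (PowSum.add _ _ (pow_A1 β hβ) (pow_A2 β hβ)) fun N => by ring

theorem pow_tau (β : ℝ) (hβ : 0 < β) :
    PowSum (fun N => (zz 1 1 β N - zz 1 rz β N) / 4) :=
  powSum_congr (PowSum.add _ _ (pow_T1 β hβ) (pow_T2 β hβ)) fun N => by ring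

theorem pow_e (β : ℝ) (hβ : 0 < β) :
    PowSum (fun N => (zz 1 1 β N + 3 * zz 1 rz β N - 4 * zz 1 c3 β N) / 12) :=
  pow_E β hβ

/-- scaled version of the two basic inequalities of a power sum -/
theorem scaled (g : ℕ → ℝ) (hg : PowSum g) (β f : ℝ) (G : ℕ → ℝ)
    (hG : ∀ N, G N = g N * Real.exp (-(2 * N * β * f))) :
    (∀ N : ℕ, 1 ≤ N → 0 ≤ G N) ∧
    (∀ N N' : ℕ, 1 ≤ N → N ≤ N' → G N' ≤ G N ^ ((N' : ℝ) / N)) := by
  have h : PowSum G := powSum_congr
    (PowSum.scale g hg (Real.exp (-(2 * β * f))) (Real.exp_pos _).le) fun N => by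
      rw [hG, exp_pow]
      ring
  exact ⟨fun N hN => h.nonneg _ N hN, fun N N' hN hNN => h.pow_le _ N N' hN hNN⟩

end InstSAux

open InstSAux

theorem space_basic (f β l : ℝ) (hβ : 0 < β) (hl : IsTop (zz 1 1 β) l)
    (y : ℝ) (hy : y = l * Real.exp (-(2 * β * f)))
    (Z : ℕ → ℝ) (hZ : Z = fun N => zz 1 1 β N * Real.exp (-(2 * N * β * f))) :
    (∀ N : ℕ, 1 ≤ N → y ^ N ≤ Z N) ∧
    (∀ N N' : ℕ, 1 ≤ N → N ≤ N' → Z N' - y ^ N' ≤ (Z N - y ^ N) ^ ((N' : ℝ) / N)) := by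
  subst hy hZ
  simp only [exp_pow]
  exact scale_top _ _ _ (Real.exp_pos _) hl

theorem space_tau (f β : ℝ) (hβ : 0 < β) (Z A : ℕ → ℝ)
    (hZ : Z = fun N => zz 1 1 β N * Real.exp (-(2 * N * β * f)))
    (hA : A = fun N => zz 1 rz β N * Real.exp (-(2 * N * β * f))) :
    (∀ N : ℕ, 1 ≤ N → 0 ≤ (Z N - A N) / 4) ∧
    (∀ N N' : ℕ, 1 ≤ N → N ≤ N' → (Z N' - A N') / 4 ≤ ((Z N - A N) / 4) ^ ((N' : ℝ) / N)) := by
  refine scaled _ (pow_tau β hβ) β f (fun N => (Z N - A N) / 4) fun N => ?_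
  subst hZ hA
  ring

theorem space_e (f β : ℝ) (hβ : 0 < β) (Z A t : ℕ → ℝ)
    (hZ : Z = fun N => zz 1 1 β N * Real.exp (-(2 * N * β * f)))
    (hA : A = fun N => zz 1 rz β N * Real.exp (-(2 * N * β * f)))
    (ht : t = fun N => zz 1 c3 β N * Real.exp (-(2 * N * β * f))) :
    (∀ N : ℕ, 1 ≤ N → 0 ≤ (Z N + 3 * A N - 4 * t N) / 12) ∧
    (∀ N N' : ℕ, 1 ≤ N → N ≤ N' → (Z N' + 3 * A N' - 4 * t N') / 12 ≤
      ((Z N + 3 * A N - 4 * t N) / 12) ^ ((N' : ℝ) / N)) := by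
  refine scaled _ (pow_e β hβ) β f (fun N => (Z N + 3 * A N - 4 * t N) / 12) fun N => ?_
  subst hZ hA ht
  ring

theorem space_B (f β : ℝ) (hβ : 0 < β) (B : ℕ → ℝ)
    (hB : B = fun N => zz rz 1 β N * Real.exp (-(2 * N * β * f))) :
    (∀ N : ℕ, 1 ≤ N → 0 ≤ B N) ∧
    (∀ N N' : ℕ, 1 ≤ N → N ≤ N' → B N' ≤ B N ^ ((N' : ℝ) / N)) := by
  refine scaled _ (pow_B β hβ) β f B fun N => ?_
  subst hB
  rfl

theorem space_good (f β l : ℝ) (hβ : 0 < β) (hl : IsTop (zz 1 1 β) l)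
    (y : ℝ) (hy : y = l * Real.exp (-(2 * β * f))) (hy1 : 1 ≤ y)
    (Z A t : ℕ → ℝ)
    (hZ : Z = fun N => zz 1 1 β N * Real.exp (-(2 * N * β * f)))
    (hA : A = fun N => zz 1 rz β N * Real.exp (-(2 * N * β * f)))
    (ht : t = fun N => zz 1 c3 β N * Real.exp (-(2 * N * β * f)))
    (M : ℕ) (hM : 1 ≤ M) (h2 : Z M < 2) :
    (∀ N : ℕ, 1 ≤ N → y ^ N ≤ (Z N + 3 * A N + 8 * t N) / 12) ∧
    (∀ N N' : ℕ, 1 ≤ N → N ≤ N' →
      (Z N' + 3 * A N' + 8 * t N') / 12 - y ^ N' ≤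
        ((Z N + 3 * A N + 8 * t N) / 12 - y ^ N) ^ ((N' : ℝ) / N)) := by
  have p1 := pow_n1 β hβ
  have pe := pow_e β hβ
  have pt := pow_tau β hβ
  obtain ⟨a, ha⟩ := PowSum.exists_top _ p1
  obtain ⟨b, hb⟩ := PowSum.exists_top _ pe
  obtain ⟨d, hd⟩ := PowSum.exists_top _ pt
  have pee := PowSum.add _ _ pe pe
  have ptt := PowSum.add _ _ pt pt
  have pttt := PowSum.add _ _ ptt pt
  have hee := IsTop.add _ _ _ _ hb hb pe pe
  have htt := IsTop.add _ _ _ _ hd hd pt pt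
  have httt := IsTop.add _ _ _ _ htt hd ptt pt
  have p1e := PowSum.add _ _ p1 pee
  have h1e := IsTop.add _ _ _ _ ha hee p1 pee
  have hall := IsTop.add _ _ _ _ h1e httt p1e pttt
  have hfun : (fun N => (fun N => (fun N => (zz 1 1 β N + 3 * zz 1 rz β N + 8 * zz 1 c3 β N) / 12) N
      + (fun N => (fun N => (zz 1 1 β N + 3 * zz 1 rz β N - 4 * zz 1 c3 β N) / 12) N
        + (fun N => (zz 1 1 β N + 3 * zz 1 rz β N - 4 * zz 1 c3 β N) / 12) N) N) N
      + (fun N => (fun N => (fun N => (zz 1 1 β N - zz 1 rz β N) / 4) N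
        + (fun N => (zz 1 1 β N - zz 1 rz β N) / 4) N) N
        + (fun N => (zz 1 1 β N - zz 1 rz β N) / 4) N) N) = zz 1 1 β := by
    funext N
    ring
  have hall' : IsTop (zz 1 1 β) (max (max a (max b b)) (max (max d d) d)) := by
    have := hall
    rw [← hfun]
    exact this
  have hmax := IsTop.unique _ _ _ hl hall'
  rw [max_self, max_self, max_self] at hmax
  have hc : 0 < Real.exp (-(2 * β * f)) := Real.exp_pos _
  have hyM : 1 ≤ y ^ M := one_le_pow₀ hy1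
  have hZM : Z M = zz 1 1 β M * Real.exp (-(2 * β * f)) ^ M := by
    rw [hZ]
    simp only [exp_pow]
  have hcM : 0 < Real.exp (-(2 * β * f)) ^ M := pow_pos hc M
  have n1 := PowSum.nonneg _ p1 M hM
  have ne := PowSum.nonneg _ pe M hM
  have nt := PowSum.nonneg _ pt M hM
  have hyl : y ^ M = l ^ M * Real.exp (-(2 * β * f)) ^ M := by
    rw [hy, mul_pow]
  have key : ∀ z : ℝ, 2 * z ≤ zz 1 1 β M → z = l ^ M → False := by
    intro z hz1 hz2
    have h3 : 2 * l ^ M * Real.exp (-(2 * β * f)) ^ M ≤ Z M := by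
      rw [hZM, ← hz2]
      exact mul_le_mul_of_nonneg_right hz1 hcM.le
    nlinarith
  have hla : l = a := by
    rcases max_choice (max a b) d with h | h
    · rw [h] at hmax
      rcases max_choice a b with h' | h'
      · rw [h'] at hmax
        exact hmax
      · exfalso
        rw [h'] at hmax
        have hbM := hb.le M hM
        refine key (l ^ M) ?_ rfl
        rw [hmax]
        nlinarith
    · exfalso
      rw [h] at hmax
      have hdM := hd.le M hM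
      refine key (l ^ M) ?_ rfl
      rw [hmax]
      have hd0 : 0 ≤ d ^ M := pow_nonneg hd.nonneg M
      nlinarith
  rw [← hla] at ha
  have hs := scale_top _ _ _ hc ha
  have e : ∀ N, (Z N + 3 * A N + 8 * t N) / 12 =
      (zz 1 1 β N + 3 * zz 1 rz β N + 8 * zz 1 c3 β N) / 12 * Real.exp (-(2 * β * f)) ^ N := by
    intro N
    subst hZ hA ht
    simp only [exp_pow]
    ring
  simp only [e, hy]
  exact hs

end P348
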