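import Vale.Agent.Lib.P348.Defs

/-!
# P348 (K): exact moments of the twisted Hamiltonians in the S^z basis (definitions)

Labels `0, 1, 2 : Fin 3` stand for `S^z = -1, 0, 1`.  In the S^z basis the shifted bond term
`S.S + 1` has the diagonal entries `1 + m m'` and the entry `1` for every move of one unit of `S^z`
between the two sites.  A twist by a rotation of angle `θ` about the z axis on the bond arriving at
`(0,false)` multiplies the entry `⟨t| . |s⟩` by `ζ ^ (t (0,false) - s (0,false))`, `ζ = exp (-iθ)`.
-/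

namespace P348

/-- the next site on the ring: `(i,false) → (i,true) → (i+1,false)` -/
def nxt {N : ℕ} [NeZero N] (x : Site N) : Site N :=
  if x.2 = true then (x.1 + 1, false) else (x.1, true)

/-- the bond which starts at `x` is the twisted one -/
def isWrap {N : ℕ} [NeZero N] (x : Site N) : Prop := x.2 = true ∧ x.1 + 1 = 0

instance {N : ℕ} [NeZero N] (x : Site N) : Decidable (isWrap x) := by
  unfold isWrap; infer_instance

/-- diagonal entry `1 + m m'` of the shifted bond term, `m, m' = label - 1` -/
def dg (a b : Fin 3) : ℕ := if a = 1 ∨ b = 1 then 1 else if a = b then 2 else 0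

/-- one unit of `S^z` is moved: label of `x` up by one, label of `y` down by one -/
def upd {N : ℕ} (t : Cfg N) (x y : Site N) : Cfg N :=
  Function.update (Function.update t x (t x + 1)) y (t y - 1)

/-- the action of the shifted Hamiltonian `HR N R + 2N` on vectors in the S^z basis -/
noncomputable def act (N : ℕ) [NeZero N] (ζ : ℂ) (v : Cfg N → ℂ) : Cfg N → ℂ := fun t =>
  ∑ x : Site N, ((dg (t x) (t (nxt x)) : ℂ) * v t
    + (if t x ≠ 2 ∧ t (nxt x) ≠ 0 then
        (if isWrap x then ζ else 1) * v (upd t x (nxt x)) else 0)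
    + (if t x ≠ 0 ∧ t (nxt x) ≠ 2 then
        (if isWrap x then ζ⁻¹ else 1) * v (upd t (nxt x) x) else 0))

/-- rotation about the z axis -/
def rotz (c s : ℝ) : Matrix (Fin 3) (Fin 3) ℝ := !![c, -s, 0; s, c, 0; 0, 0, 1]

/-- the shifted Hamiltonian -/
def HS (N : ℕ) [NeZero N] (R : Matrix (Fin 3) (Fin 3) ℝ) : Matrix (Cfg N) (Cfg N) ℝ :=
  HR N R + (2 * N : ℝ) • (1 : Matrix (Cfg N) (Cfg N) ℝ)

/-- the reflection `S^z → - S^z` of a configuration -/
def flipc {N : ℕ} (s : Cfg N) : Cfg N := fun x => 2 - s x

end P348
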