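import Mathlib.Analysis.CStarAlgebra.Classes
import Vale.Agent.Lib.P348.KDefs

/-!
# P348 (K), module KB: invariance of the diagonal entries under the symmetries of the ring

`((act N ζ)^[k] (Pi.single a 1)) b` is the entry `(b, a)` of the k-th power of the matrix of the linear
map `act N ζ`.

* rotation: `act N ζ` commutes with the invertible monomial map
  `(G v) t = ζ^(± t(site)) * v (rotc⁻¹ t)` (a gauge factor at one site moves the twisted bond by one site);
  the gauge factor cancels in diagonal entries.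
* reflection and flip: the reflection `x ↦ 2N-1-x` of the ring maps the twisted bond to itself and
  replaces ζ by ζ⁻¹, as does the flip of all labels; and the matrix of `act N ζ⁻¹` is the transpose
  of the matrix of `act N ζ` (the matrix is symmetric up to ζ ↔ ζ⁻¹), so diagonal entries of the
  powers agree.
* entries `(flipc a, a)` for `ζ = -1`: now `ζ = ζ⁻¹`, the matrix is symmetric, it commutes with flip
  and reflection, and the gauge factors of `a` and `flipc a` are equal: `(-1)^(a x) = (-1)^(2 - a x)`.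
-/

namespace P348

variable {N : ℕ} [NeZero N]

/-- rotation of a configuration by one site -/
def rotc (a : Cfg N) : Cfg N := fun x => a (nxt x)

/-- reflection of a configuration (position p goes to 2N - 1 - p) -/
def reflc (a : Cfg N) : Cfg N := fun x => a (-1 - x.1, !x.2)

namespace KBaux

/-- bond matrix with the two weights of the moves -/
noncomputable def bd (α β : ℂ) (p q : Site N) (t s : Cfg N) : ℂ :=
  (dg (t p) (t q) : ℂ) * (if t = s then 1 else 0)
    + (if t p ≠ 2 ∧ t q ≠ 0 then α * (if upd t p q = s then 1 else 0) else 0)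
    + (if t p ≠ 0 ∧ t q ≠ 2 then β * (if upd t q p = s then 1 else 0) else 0)

/-- the action as a linear map -/
noncomputable def actL (N : ℕ) [NeZero N] (ζ : ℂ) : (Cfg N → ℂ) →ₗ[ℂ] (Cfg N → ℂ) where
  toFun := act N ζ
  map_add' u v := by
    funext t
    simp only [act, Pi.add_apply]
    rw [← Finset.sum_add_distrib]
    refine Finset.sum_congr rfl fun x _ => ?_
    split_ifs <;> ring
  map_smul' c v := by
    funext t
    simp only [act, Pi.smul_apply, smul_eq_mul, RingHom.id_apply]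
    rw [Finset.mul_sum]
    refine Finset.sum_congr rfl fun x _ => ?_
    split_ifs <;> ring

/-- the matrix of the action -/
noncomputable def Mx (N : ℕ) [NeZero N] (ζ : ℂ) : Matrix (Cfg N) (Cfg N) ℂ :=
  LinearMap.toMatrix' (actL N ζ)

theorem Mx_pow (ζ : ℂ) (k : ℕ) (a b : Cfg N) :
    ((act N ζ)^[k] (Pi.single a 1)) b = (Mx N ζ ^ k) b a := by
  have h1 : Mx N ζ ^ k = LinearMap.toMatrix' (actL N ζ ^ k) := by
    unfold Mx
    induction k with
    | zero => simp
    | succ n ih => rw [pow_succ, ih, pow_succ, LinearMap.toMatrix'_mul]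
  rw [h1, LinearMap.toMatrix'_apply, Module.End.pow_apply]
  rfl

/-- weights of the bonds -/
noncomputable def w (ζ : ℂ) (x : Site N) : ℂ := if isWrap x then ζ else 1

theorem Mx_apply (ζ : ℂ) (t s : Cfg N) :
    Mx N ζ t s = ∑ x : Site N, bd (w ζ x) (w ζ⁻¹ x) x (nxt x) t s := by
  have h := Mx_pow ζ 1 s t
  rw [pow_one, Function.iterate_one] at h
  rw [← h]
  simp only [act, bd, w, Pi.single_apply]

theorem dg_comm (a b : Fin 3) : dg a b = dg b a := by
  revert a b; decide

theorem dg_flip (a b : Fin 3) : dg (2 - a) (2 - b) = dg a b := by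
  revert a b; decide

omit [NeZero N] in
theorem upd_comp (σ : Site N ≃ Site N) (t : Cfg N) (p q : Site N) :
    upd (fun x => t (σ x)) p q = fun x => (upd t (σ p) (σ q)) (σ x) := by
  funext x
  simp only [upd, Function.update_apply, EmbeddingLike.apply_eq_iff_eq]

omit [NeZero N] in
theorem comp_inj (σ : Site N ≃ Site N) (t s : Cfg N) :
    (fun x => t (σ x)) = (fun x => s (σ x)) ↔ t = s := by
  constructor
  · intro h
    funext x
    have := congrFun h (σ.symm x)
    simpa using this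
  · rintro rfl; rfl

omit [NeZero N] in
theorem bd_comp (σ : Site N ≃ Site N) (α β : ℂ) (p q : Site N) (t s : Cfg N) :
    bd α β p q (fun x => t (σ x)) (fun x => s (σ x)) = bd α β (σ p) (σ q) t s := by
  unfold bd
  rw [upd_comp, upd_comp]
  simp only [comp_inj]

omit [NeZero N] in
theorem bd_swap (α β : ℂ) (p q : Site N) (t s : Cfg N) :
    bd α β p q t s = bd β α q p t s := by
  unfold bd
  rw [dg_comm (t p) (t q)]
  simp only [and_comm (a := t p ≠ 2), and_comm (a := t p ≠ 0)]
  ring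

omit [NeZero N] in
theorem upd_flip (t : Cfg N) (p q : Site N) (h : p ≠ q) :
    upd (flipc t) p q = flipc (upd t q p) := by
  funext x
  simp only [upd, flipc, Function.update_apply]
  by_cases hq : x = q
  · have hp : x ≠ p := fun e => h (e.symm.trans hq)
    subst hq
    simp only [if_true, hp, if_false]
    have : ∀ a : Fin 3, 2 - a - 1 = 2 - (a + 1) := by decide
    exact this _
  · by_cases hp : x = p
    · subst hp
      simp only [if_true, hq, if_false]
      have : ∀ a : Fin 3, 2 - a + 1 = 2 - (a - 1) := by decide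
      exact this _
    · simp only [hq, hp, if_false]

omit [NeZero N] in
theorem flip_flipc (t : Cfg N) : flipc (flipc t) = t := by
  funext x
  have : ∀ a : Fin 3, 2 - (2 - a) = a := by decide
  exact this _

omit [NeZero N] in
theorem flip_inj (t s : Cfg N) : flipc t = flipc s ↔ t = s := by
  constructor
  · intro h
    rw [← flip_flipc t, h, flip_flipc]
  · rintro rfl; rfl

omit [NeZero N] in
theorem bd_flip (α β : ℂ) (p q : Site N) (h : p ≠ q) (t s : Cfg N) :
    bd α β p q (flipc t) (flipc s) = bd β α p q t s := by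
  unfold bd
  rw [upd_flip t p q h, upd_flip t q p h.symm]
  simp only [flip_inj]
  have e1 : dg (flipc t p) (flipc t q) = dg (t p) (t q) := dg_flip _ _
  have e2 : ∀ a : Fin 3, 2 - a ≠ 2 ↔ a ≠ 0 := by decide
  have e3 : ∀ a : Fin 3, 2 - a ≠ 0 ↔ a ≠ 2 := by decide
  have e4 : (flipc t p ≠ 2 ∧ flipc t q ≠ 0) ↔ (t p ≠ 0 ∧ t q ≠ 2) :=
    and_congr (e2 _) (e3 _)
  have e5 : (flipc t p ≠ 0 ∧ flipc t q ≠ 2) ↔ (t p ≠ 2 ∧ t q ≠ 0) :=
    and_congr (e3 _) (e2 _)
  rw [e1]
  simp only [e4, e5]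
  ring

omit [NeZero N] in
theorem upd_upd (t : Cfg N) (p q : Site N) (h : p ≠ q) : upd (upd t p q) q p = t := by
  funext x
  simp only [upd, Function.update_apply]
  by_cases hq : x = q
  · have hp : x ≠ p := fun e => h (e.symm.trans hq)
    subst hq
    simp only [if_true, hp, if_false]
    exact sub_add_cancel _ _
  · by_cases hp : x = p
    · subst hp
      simp only [if_true, h, if_false]
      exact add_sub_cancel_right _ _
    · simp only [hq, hp, if_false]

omit [NeZero N] in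
theorem upd_p (t : Cfg N) (p q : Site N) (h : p ≠ q) : upd t p q p = t p + 1 := by
  simp only [upd, Function.update_apply, h, if_false, if_true]

omit [NeZero N] in
theorem upd_q (t : Cfg N) (p q : Site N) : upd t p q q = t q - 1 := by
  simp only [upd, Function.update_apply]
  by_cases h : q = p
  · subst h
    simp
  · simp

omit [NeZero N] in
theorem move_symm (p q : Site N) (h : p ≠ q) (t s : Cfg N) :
    ((t p ≠ 2 ∧ t q ≠ 0) ∧ upd t p q = s) ↔ ((s p ≠ 0 ∧ s q ≠ 2) ∧ upd s q p = t) := by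
  have f1 : ∀ a : Fin 3, a ≠ 2 → a + 1 ≠ 0 := by decide
  have f2 : ∀ a : Fin 3, a ≠ 0 → a - 1 ≠ 2 := by decide
  constructor
  · rintro ⟨⟨h1, h2⟩, rfl⟩
    rw [upd_p t p q h, upd_q t p q]
    exact ⟨⟨f1 _ h1, f2 _ h2⟩, upd_upd t p q h⟩
  · rintro ⟨⟨h1, h2⟩, rfl⟩
    rw [upd_p s q p h.symm, upd_q s q p]
    exact ⟨⟨f2 _ h1, f1 _ h2⟩, upd_upd s q p h.symm⟩

omit [NeZero N] in
theorem bd_trans (α β : ℂ) (p q : Site N) (h : p ≠ q) (t s : Cfg N) :
    bd α β p q t s = bd β α p q s t := by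
  have a1 : ∀ (P Q : Prop) [Decidable P] [Decidable Q] (c : ℂ),
      (if P then c * (if Q then 1 else 0) else 0) = if P ∧ Q then c else 0 := by
    intro P Q _ _ c
    by_cases hP : P <;> by_cases hQ : Q <;> simp [hP, hQ]
  unfold bd
  rw [a1, a1, a1, a1]
  rw [if_congr (move_symm p q h t s) rfl rfl, if_congr (move_symm p q h s t) rfl rfl]
  have a2 : (dg (t p) (t q) : ℂ) * (if t = s then 1 else 0)
      = (dg (s p) (s q) : ℂ) * (if s = t then 1 else 0) := by
    by_cases e : t = s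
    · subst e; rfl
    · rw [if_neg e, if_neg (fun e' => e e'.symm), mul_zero, mul_zero]
  rw [a2]
  ring

theorem g1 (ζ : ℂ) (a : Fin 3) (ha : a ≠ 0) :
    ζ ^ (a : ℕ) = ζ * ζ ^ ((a - 1 : Fin 3) : ℕ) := by
  have h : ∀ a : Fin 3, a ≠ 0 → (a : ℕ) = ((a - 1 : Fin 3) : ℕ) + 1 := by decide
  rw [h a ha, pow_succ, mul_comm]

theorem g2 (ζ : ℂ) (a : Fin 3) (ha : a ≠ 2) :
    ζ ^ ((a + 1 : Fin 3) : ℕ) = ζ * ζ ^ (a : ℕ) := by
  have h : ∀ a : Fin 3, a ≠ 2 → ((a + 1 : Fin 3) : ℕ) = (a : ℕ) + 1 := by decide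
  rw [h a ha, pow_succ, mul_comm]

omit [NeZero N] in
theorem gauge_q (ζ : ℂ) (hζ : ζ ≠ 0) (α β : ℂ) (p q : Site N) (t s : Cfg N) (h : p ≠ q) :
    ζ ^ (t q : ℕ) * bd α β p q t s = bd (α * ζ) (β * ζ⁻¹) p q t s * ζ ^ (s q : ℕ) := by
  unfold bd
  rw [mul_add, mul_add, add_mul, add_mul]
  congr 1
  · congr 1
    · by_cases e : t = s
      · subst e; ring
      · rw [if_neg e]; ring
    · by_cases g : t p ≠ 2 ∧ t q ≠ 0
      · rw [if_pos g, if_pos g]
        by_cases e : upd t p q = s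
        · subst e
          rw [upd_q, g1 ζ (t q) g.2]
          simp only [if_true]
          ring
        · rw [if_neg e]; ring
      · rw [if_neg g, if_neg g]; ring
  · by_cases g : t p ≠ 0 ∧ t q ≠ 2
    · rw [if_pos g, if_pos g]
      by_cases e : upd t q p = s
      · subst e
        rw [upd_p t q p h.symm, g2 ζ (t q) g.2]
        simp only [if_true]
        field_simp
      · rw [if_neg e]; ring
    · rw [if_neg g, if_neg g]; ring

omit [NeZero N] in
theorem gauge_p (ζ : ℂ) (hζ : ζ ≠ 0) (α β : ℂ) (p q : Site N) (t s : Cfg N) (h : p ≠ q) :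
    ζ ^ (t p : ℕ) * bd α β p q t s = bd (α * ζ⁻¹) (β * ζ) p q t s * ζ ^ (s p : ℕ) := by
  rw [bd_swap α β p q t s, gauge_q ζ hζ β α q p t s h.symm, bd_swap _ _ q p t s]

omit [NeZero N] in
theorem gauge_o (ζ : ℂ) (α β : ℂ) (p q y : Site N) (t s : Cfg N) (h1 : y ≠ p) (h2 : y ≠ q) :
    ζ ^ (t y : ℕ) * bd α β p q t s = bd α β p q t s * ζ ^ (s y : ℕ) := by
  have k1 : upd t p q y = t y := by
    simp only [upd, Function.update_apply, h1, h2, if_false]
  have k2 : upd t q p y = t y := by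
    simp only [upd, Function.update_apply, h1, h2, if_false]
  unfold bd
  rw [mul_add, mul_add, add_mul, add_mul]
  congr 1
  · congr 1
    · by_cases e : t = s
      · subst e; ring
      · rw [if_neg e]; ring
    · by_cases e : upd t p q = s
      · subst e
        rw [k1]; ring
      · rw [if_neg e]
        split_ifs <;> ring
  · by_cases e : upd t q p = s
    · subst e
      rw [k2]; ring
    · rw [if_neg e]
      split_ifs <;> ring

/-- the previous site -/
def prv (x : Site N) : Site N := if x.2 = true then (x.1, false) else (x.1 - 1, true)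

theorem nxt_prv (x : Site N) : nxt (prv x) = x := by
  obtain ⟨i, b⟩ := x
  cases b <;> simp [nxt, prv]

theorem prv_nxt (x : Site N) : prv (nxt x) = x := by
  obtain ⟨i, b⟩ := x
  cases b <;> simp [nxt, prv]

/-- rotation of the ring -/
def σ : Site N ≃ Site N := ⟨nxt, prv, prv_nxt, nxt_prv⟩

theorem ne_nxt (x : Site N) : x ≠ nxt x := by
  obtain ⟨i, b⟩ := x
  cases b <;> simp [nxt]

theorem wrap_prv (y : Site N) : isWrap (prv y) ↔ y = (0, false) := by
  obtain ⟨i, b⟩ := y
  cases b <;> simp [isWrap, prv]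

theorem nxt_eq (y : Site N) : nxt y = (0, false) ↔ isWrap y := by
  obtain ⟨i, b⟩ := y
  cases b <;> simp [isWrap, nxt]

theorem rot_entry (ζ : ℂ) (hζ : ζ ≠ 0) (t s : Cfg N) :
    ζ ^ (t (0, false) : ℕ) * Mx N ζ (rotc t) (rotc s)
      = Mx N ζ t s * ζ ^ (s (0, false) : ℕ) := by
  have h1 : Mx N ζ (rotc t) (rotc s)
      = ∑ y : Site N, bd (w ζ (prv y)) (w ζ⁻¹ (prv y)) y (nxt y) t s := by
    rw [Mx_apply, ← Equiv.sum_comp (σ (N := N)).symm]
    refine Finset.sum_congr rfl fun y _ => ?_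
    have e : (σ (N := N)).symm y = prv y := rfl
    rw [e]
    have := bd_comp (σ (N := N)) (w ζ (prv y)) (w ζ⁻¹ (prv y)) (prv y) (nxt (prv y)) t s
    have e2 : σ (prv y) = y := nxt_prv y
    rw [nxt_prv, e2] at this
    rw [nxt_prv]
    exact this
  rw [h1, Mx_apply, Finset.mul_sum, Finset.sum_mul]
  refine Finset.sum_congr rfl fun y _ => ?_
  by_cases c1 : y = (0, false)
  · have c2 : isWrap (prv y) := (wrap_prv y).2 c1
    have c3 : ¬ isWrap y := by rw [c1]; simp [isWrap]
    simp only [w, if_pos c2, if_neg c3]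
    rw [← c1, gauge_p ζ hζ _ _ y (nxt y) t s (ne_nxt y), mul_inv_cancel₀ hζ,
      inv_mul_cancel₀ hζ]
  · have c2 : ¬ isWrap (prv y) := fun h => c1 ((wrap_prv y).1 h)
    by_cases c3 : isWrap y
    · simp only [w, if_neg c2, if_pos c3]
      have c4 := (nxt_eq y).2 c3
      have := gauge_q ζ hζ 1 1 y (nxt y) t s (ne_nxt y)
      rw [c4, one_mul, one_mul] at this
      rw [c4]
      exact this
    · simp only [w, if_neg c2, if_neg c3]
      exact gauge_o ζ 1 1 y (nxt y) (0, false) t s (fun h => c1 h.symm)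
        (fun h => c3 ((nxt_eq y).1 h.symm))

/-- rotation of configurations -/
def rotE : Cfg N ≃ Cfg N where
  toFun := rotc
  invFun := fun a x => a (prv x)
  left_inv a := by funext x; simp only [rotc, nxt_prv]
  right_inv a := by funext x; simp only [rotc, prv_nxt]

/-- flip of configurations -/
def flipE : Cfg N ≃ Cfg N := ⟨flipc, flipc, flip_flipc, flip_flipc⟩

/-- reflection of the ring -/
def rho : Site N ≃ Site N where
  toFun x := (-1 - x.1, !x.2)
  invFun x := (-1 - x.1, !x.2)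
  left_inv x := by simp
  right_inv x := by simp

/-- reflection of configurations -/
def reflE : Cfg N ≃ Cfg N where
  toFun := reflc
  invFun := reflc
  left_inv a := by funext x; simp [reflc]
  right_inv a := by funext x; simp [reflc]

omit [NeZero N] in
theorem pow_sub' (A : Matrix (Cfg N) (Cfg N) ℂ) (e : Cfg N ≃ Cfg N) (k : ℕ) :
    (A.submatrix e e) ^ k = (A ^ k).submatrix e e := by
  induction k with
  | zero => simp
  | succ k ih => rw [pow_succ, ih, Matrix.submatrix_mul_equiv, ← pow_succ]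

theorem rot_pow (ζ : ℂ) (hζ : ζ ≠ 0) (k : ℕ) (t s : Cfg N) :
    ζ ^ (t (0, false) : ℕ) * (Mx N ζ ^ k) (rotc t) (rotc s)
      = (Mx N ζ ^ k) t s * ζ ^ (s (0, false) : ℕ) := by
  have h : SemiconjBy (Matrix.diagonal fun t : Cfg N => ζ ^ (t (0, false) : ℕ))
      ((Mx N ζ).submatrix rotE rotE) (Mx N ζ) := by
    unfold SemiconjBy
    ext t s
    rw [Matrix.diagonal_mul, Matrix.mul_diagonal]
    exact rot_entry ζ hζ t s
  have h2 := h.pow_right k
  rw [pow_sub'] at h2
  have h3 := congrFun (congrFun h2.eq t) s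
  rw [Matrix.diagonal_mul, Matrix.mul_diagonal] at h3
  exact h3

theorem trans_entry (ζ : ℂ) (t s : Cfg N) : Mx N ζ⁻¹ t s = Mx N ζ s t := by
  rw [Mx_apply, Mx_apply]
  refine Finset.sum_congr rfl fun x _ => ?_
  rw [bd_trans _ _ x (nxt x) (ne_nxt x) t s, inv_inv]

theorem flip_entry (ζ : ℂ) (t s : Cfg N) : Mx N ζ (flipc t) (flipc s) = Mx N ζ s t := by
  rw [← trans_entry ζ t s, Mx_apply, Mx_apply]
  refine Finset.sum_congr rfl fun x _ => ?_
  rw [bd_flip _ _ x (nxt x) (ne_nxt x) t s, inv_inv]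

/-- the bond map of the reflection -/
def tau : Site N ≃ Site N := σ.trans rho

theorem nxt_tau (x : Site N) : nxt (tau x) = rho x := by
  obtain ⟨i, b⟩ := x
  cases b
  · simp [tau, σ, rho, nxt]
  · simp [tau, σ, rho, nxt]
    abel

theorem wrap_tau (x : Site N) : isWrap (tau x) ↔ isWrap x := by
  obtain ⟨i, b⟩ := x
  cases b
  · simp [tau, σ, rho, nxt, isWrap]
  · have h : -1 - (i + 1) + 1 = -(i + 1) := by abel
    have e : isWrap (tau (i, true)) ↔ -1 - (i + 1) + 1 = 0 := by
      simp [tau, σ, rho, nxt, isWrap]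
    have e' : isWrap ((i, true) : Site N) ↔ i + 1 = 0 := by simp [isWrap]
    rw [e, e', h, neg_eq_zero]

theorem refl_entry (ζ : ℂ) (t s : Cfg N) : Mx N ζ (reflc t) (reflc s) = Mx N ζ s t := by
  rw [← trans_entry ζ t s, Mx_apply, Mx_apply ζ⁻¹, ← Equiv.sum_comp (tau (N := N))
    (fun x => bd (w ζ⁻¹ x) (w ζ⁻¹⁻¹ x) x (nxt x) t s)]
  refine Finset.sum_congr rfl fun x _ => ?_
  have h := bd_comp (rho (N := N)) (w ζ x) (w ζ⁻¹ x) x (nxt x) t s
  have h2 : rho (nxt x) = tau x := rfl
  have h3 : w ζ (tau x) = w ζ x := by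
    simp only [w]; exact if_congr (wrap_tau x) rfl rfl
  have h4 : w ζ⁻¹ (tau x) = w ζ⁻¹ x := by
    simp only [w]; exact if_congr (wrap_tau x) rfl rfl
  rw [nxt_tau, inv_inv, h3, h4, bd_swap _ _ (tau x) (rho x), ← h2]
  exact h

theorem flip_pow (ζ : ℂ) (k : ℕ) (t s : Cfg N) :
    (Mx N ζ ^ k) (flipc t) (flipc s) = (Mx N ζ ^ k) s t := by
  have h : (Mx N ζ).submatrix flipE flipE = (Mx N ζ).transpose := by
    ext t s
    exact flip_entry ζ t s
  have h2 := congrArg (fun A => (A ^ k) t s) h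
  simp only [pow_sub', ← Matrix.transpose_pow] at h2
  exact h2

theorem refl_pow (ζ : ℂ) (k : ℕ) (t s : Cfg N) :
    (Mx N ζ ^ k) (reflc t) (reflc s) = (Mx N ζ ^ k) s t := by
  have h : (Mx N ζ).submatrix reflE reflE = (Mx N ζ).transpose := by
    ext t s
    exact refl_entry ζ t s
  have h2 := congrArg (fun A => (A ^ k) t s) h
  simp only [pow_sub', ← Matrix.transpose_pow] at h2
  exact h2

theorem symm_pow (k : ℕ) (t s : Cfg N) :
    (Mx N (-1) ^ k) t s = (Mx N (-1) ^ k) s t := by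
  have h : (Mx N (-1)) = (Mx N (-1)).transpose := by
    ext t s
    rw [Matrix.transpose_apply, ← trans_entry]
    norm_num
  have h2 := congrArg (fun A => (A ^ k) t s) h
  simp only [← Matrix.transpose_pow] at h2
  exact h2

end KBaux

theorem diag_rot (hN : 2 ≤ N) (ζ : ℂ) (hζ : ζ ≠ 0) (k : ℕ) (a : Cfg N) :
    ((act N ζ)^[k] (Pi.single (rotc a) 1)) (rotc a) = ((act N ζ)^[k] (Pi.single a 1)) a := by
  rw [KBaux.Mx_pow, KBaux.Mx_pow]
  have h := KBaux.rot_pow ζ hζ k a a
  rw [mul_comm] at h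
  exact mul_right_cancel₀ (pow_ne_zero _ hζ) h

theorem diag_refl (hN : 2 ≤ N) (ζ : ℂ) (hζ : ζ ≠ 0) (k : ℕ) (a : Cfg N) :
    ((act N ζ)^[k] (Pi.single (reflc a) 1)) (reflc a) = ((act N ζ)^[k] (Pi.single a 1)) a := by
  rw [KBaux.Mx_pow, KBaux.Mx_pow]
  exact KBaux.refl_pow ζ k a a

theorem diag_flip (hN : 2 ≤ N) (ζ : ℂ) (hζ : ζ ≠ 0) (k : ℕ) (a : Cfg N) :
    ((act N ζ)^[k] (Pi.single (flipc a) 1)) (flipc a) = ((act N ζ)^[k] (Pi.single a 1)) a := by
  rw [KBaux.Mx_pow, KBaux.Mx_pow]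
  exact KBaux.flip_pow ζ k a a

theorem flip_rot (hN : 2 ≤ N) (k : ℕ) (a : Cfg N) :
    ((act N (-1))^[k] (Pi.single (rotc a) 1)) (flipc (rotc a))
      = ((act N (-1))^[k] (Pi.single a 1)) (flipc a) := by
  rw [KBaux.Mx_pow, KBaux.Mx_pow]
  have h := KBaux.rot_pow (-1) (by norm_num) k (flipc a) a
  have e : ((-1 : ℂ)) ^ (flipc a (0, false) : ℕ) = (-1) ^ (a (0, false) : ℕ) := by
    have : ∀ b : Fin 3, ((2 - b : Fin 3) : ℕ) = 2 - (b : ℕ) := by decide
    have h1 : (flipc a (0, false) : ℕ) = 2 - (a (0, false) : ℕ) := this _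
    rw [h1]
    have h2 : ∀ b : Fin 3, ((-1 : ℤ)) ^ (2 - (b : ℕ)) = (-1) ^ (b : ℕ) := by decide
    exact_mod_cast congrArg (Int.cast : ℤ → ℂ) (h2 (a (0, false)))
  rw [e, mul_comm] at h
  exact mul_right_cancel₀ (pow_ne_zero _ (by norm_num)) h

theorem flip_refl (hN : 2 ≤ N) (k : ℕ) (a : Cfg N) :
    ((act N (-1))^[k] (Pi.single (reflc a) 1)) (flipc (reflc a))
      = ((act N (-1))^[k] (Pi.single a 1)) (flipc a) := by
  rw [KBaux.Mx_pow, KBaux.Mx_pow]
  have h := KBaux.refl_pow (-1) k (flipc a) a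
  rw [KBaux.symm_pow k a (flipc a)] at h
  exact h

theorem flip_flip (hN : 2 ≤ N) (k : ℕ) (a : Cfg N) :
    ((act N (-1))^[k] (Pi.single (flipc a) 1)) (flipc (flipc a))
      = ((act N (-1))^[k] (Pi.single a 1)) (flipc a) := by
  rw [KBaux.Mx_pow, KBaux.Mx_pow]
  rw [KBaux.flip_pow, KBaux.symm_pow]

end P348
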