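import Vale.Agent.Lib.P348.KDefs
import Vale.Agent.Lib.P348.KB
import Vale.Agent.Lib.P348.Conj

/-!
# P348 (K), module KA: from the Cartesian basis to the S^z basis

Proof.  Let `U` be the unitary 3 x 3 matrix with columns `|-⟩ = (1,-i,0)/√2`, `|0⟩ = (0,0,1)`,
`|+⟩ = -(1,i,0)/√2` (labels 0,1,2).  `-i Lg α` are the spin matrices; `U* (-i Lg z) U = diag(-1,0,1)`,
`U* (-i Lg x) U`, `U* (-i Lg y) U` are the usual real symmetric / imaginary matrices with entries `1/√2`,
and `U* (rotz c s) U = diag(ζ⁻¹, 1, ζ)`, `ζ = c - i s`.  Conjugating the complexification of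
`HS N (rotz c s)` by the tensor product of `U` gives the matrix of the linear map `act N ζ`.
`glob N rz` becomes diagonal with entries `∏ (-1)^(s x - 1)`, `glob N rx` becomes the permutation
matrix of `flipc` (each factor is `- |−m⟩⟨m|`, and the number of sites is even).
Then take traces; `M *ᵥ single s 1` iterated k times is column s of `M^k`.
(Please check the orientation of ζ on a small example, e.g. numerically for N = 2, R = qz, W = 1: the
trace itself does not distinguish ζ and ζ⁻¹, but rz, qz, c3 only need the stated forms.)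
-/

namespace P348

open Matrix

namespace KAaux

/-- complexification of a real matrix -/
noncomputable abbrev cx {n : Type} [Fintype n] [DecidableEq n] :
    Matrix n n ℝ →+* Matrix n n ℂ := Complex.ofRealHom.mapMatrix

theorem cx_apply {n : Type} [Fintype n] [DecidableEq n] (A : Matrix n n ℝ) (i j : n) :
    cx A i j = (A i j : ℂ) := rfl

/-- complex tensor product -/
noncomputable def ct {ι : Type} [Fintype ι] (M : ι → Matrix (Fin 3) (Fin 3) ℂ) :
    Matrix (ι → Fin 3) (ι → Fin 3) ℂ :=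
  fun s t => ∏ i, M i (s i) (t i)

theorem ct_mul {ι : Type} [Fintype ι] [DecidableEq ι]
    (M M' : ι → Matrix (Fin 3) (Fin 3) ℂ) :
    ct M * ct M' = ct (fun i => M i * M' i) := by
  ext s t
  rw [Matrix.mul_apply]
  unfold ct
  simp only [Matrix.mul_apply]
  rw [Fintype.prod_sum]
  refine Finset.sum_congr rfl fun u _ => ?_
  rw [Finset.prod_mul_distrib]

theorem ct_one {ι : Type} [Fintype ι] [DecidableEq ι] :
    ct (fun _ : ι => (1 : Matrix (Fin 3) (Fin 3) ℂ)) = 1 := by
  ext s t
  unfold ct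
  by_cases h : s = t
  · subst h
    simp
  · rw [Matrix.one_apply_ne h]
    obtain ⟨i, hi⟩ := Function.ne_iff.1 h
    exact Finset.prod_eq_zero (Finset.mem_univ i) (Matrix.one_apply_ne hi)

theorem cx_tens {ι : Type} [Fintype ι] [DecidableEq ι] (M : ι → Matrix (Fin 3) (Fin 3) ℝ) :
    cx (tens M) = ct (fun i => cx (M i)) := by
  ext s t
  rw [cx_apply]
  unfold tens ct
  rw [Complex.ofReal_prod]
  rfl

theorem ct_two {ι : Type} [Fintype ι] [DecidableEq ι] (p q : ι) (hpq : p ≠ q)
    (X Y : Matrix (Fin 3) (Fin 3) ℂ) (s t : ι → Fin 3) :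
    ct (fun i => if i = p then X else if i = q then Y else 1) s t =
      X (s p) (t p) * (Y (s q) (t q) *
        ∏ i ∈ (Finset.univ.erase p).erase q, (1 : Matrix (Fin 3) (Fin 3) ℂ) (s i) (t i)) := by
  have h1 : ct (fun i => if i = p then X else if i = q then Y else 1) s t =
      ∏ i, (if i = p then X else if i = q then Y else 1 : Matrix (Fin 3) (Fin 3) ℂ) (s i) (t i) :=
    rfl
  rw [h1, ← Finset.mul_prod_erase Finset.univ _ (Finset.mem_univ p),
    ← Finset.mul_prod_erase (Finset.univ.erase p) _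
      (Finset.mem_erase.2 ⟨hpq.symm, Finset.mem_univ q⟩)]
  simp only [if_true, if_neg hpq.symm]
  refine congrArg (fun z => X (s p) (t p) * (Y (s q) (t q) * z)) ?_
  refine Finset.prod_congr rfl fun i hi => ?_
  rw [Finset.mem_erase, Finset.mem_erase] at hi
  simp only [if_neg hi.2.1, if_neg hi.1]

/-- `1 / √2` -/
noncomputable def ρ : ℂ := ((Real.sqrt 2)⁻¹ : ℝ)

theorem rho_sq : ρ * ρ = 1 / 2 := by
  unfold ρ
  rw [← Complex.ofReal_mul, ← mul_inv, Real.mul_self_sqrt (by norm_num)]
  push_cast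
  norm_num

/-- the change of basis -/
noncomputable def U : Matrix (Fin 3) (Fin 3) ℂ :=
  !![ρ, 0, -ρ; -(Complex.I * ρ), 0, -(Complex.I * ρ); 0, 1, 0]

/-- its adjoint -/
noncomputable def U' : Matrix (Fin 3) (Fin 3) ℂ :=
  !![ρ, Complex.I * ρ, 0; 0, 0, 1; -ρ, Complex.I * ρ, 0]

theorem U'_mul_U : U' * U = 1 := by
  have h := rho_sq
  have hI := Complex.I_mul_I
  ext i j
  fin_cases i <;> fin_cases j <;>
    simp [U, U', Matrix.mul_apply, Fin.sum_univ_three] <;>
    first
      | linear_combination 2 * h - ρ * ρ * hI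
      | linear_combination -(ρ * ρ) * hI

theorem U_mul_U' : U * U' = 1 := mul_eq_one_comm.1 U'_mul_U

/-- raising matrix -/
def P : Matrix (Fin 3) (Fin 3) ℂ := fun a a' => if a ≠ 0 ∧ a - 1 = a' then 1 else 0

/-- lowering matrix -/
def M : Matrix (Fin 3) (Fin 3) ℂ := fun a a' => if a ≠ 2 ∧ a + 1 = a' then 1 else 0

/-- the matrix of `S^z` -/
def Z : Matrix (Fin 3) (Fin 3) ℂ := fun a a' => if a = a' then ((a : ℕ) : ℂ) - 1 else 0

theorem cLg0 : cx (Lg 0) = !![0, 0, 0; 0, 0, 1; 0, -1, 0] := by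
  ext i j
  rw [cx_apply]
  fin_cases i <;> fin_cases j <;> simp [Lg, eps]

theorem cLg1 : cx (Lg 1) = !![0, 0, -1; 0, 0, 0; 1, 0, 0] := by
  ext i j
  rw [cx_apply]
  fin_cases i <;> fin_cases j <;> simp [Lg, eps]

theorem cLg2 : cx (Lg 2) = !![0, 1, 0; -1, 0, 0; 0, 0, 0] := by
  ext i j
  rw [cx_apply]
  fin_cases i <;> fin_cases j <;> simp [Lg, eps]

theorem cLx : U' * cx (Lg 0) * U = (Complex.I * ρ) • (P + M) := by
  rw [cLg0]
  ext i j
  fin_cases i <;> fin_cases j <;>
    simp [U, U', P, M, Matrix.mul_apply, Fin.sum_univ_three]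

theorem cLy : U' * cx (Lg 1) * U = ρ • (P - M) := by
  rw [cLg1]
  ext i j
  fin_cases i <;> fin_cases j <;>
    simp [U, U', P, M, Matrix.mul_apply, Fin.sum_univ_three]

theorem cLz : U' * cx (Lg 2) * U = Complex.I • Z := by
  have h := rho_sq
  rw [cLg2]
  ext i j
  fin_cases i <;> fin_cases j <;>
    simp [U, U', Z, Matrix.mul_apply, Fin.sum_univ_three] <;>
    first
      | ring1
      | linear_combination (-2 * Complex.I) * h
      | linear_combination (2 * Complex.I) * h

/-- the matrix of a rotation about the z axis, `u = ζ`, `u' = ζ⁻¹` -/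
def D (u u' : ℂ) : Matrix (Fin 3) (Fin 3) ℂ := !![u', 0, 0; 0, 1, 0; 0, 0, u]

theorem crotz (c s : ℝ) :
    U' * cx (rotz c s) * U = D (c - s * Complex.I) (c + s * Complex.I) := by
  have h := rho_sq
  have hI := Complex.I_mul_I
  have h0 : cx (rotz c s) = !![(c : ℂ), -(s : ℂ), 0; (s : ℂ), (c : ℂ), 0; 0, 0, 1] := by
    ext i j
    rw [cx_apply]
    fin_cases i <;> fin_cases j <;> simp [rotz]
  rw [h0]
  ext i j
  fin_cases i <;> fin_cases j <;>
    simp [U, U', D, Matrix.mul_apply, Fin.sum_univ_three] <;>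
    first
      | linear_combination 2 * ((c : ℂ) + Complex.I * s) * h - ρ * ρ * c * hI
      | linear_combination 2 * ((c : ℂ) - Complex.I * s) * h - ρ * ρ * c * hI
      | linear_combination -(ρ * ρ * c) * hI

theorem crz : U' * cx rz * U = D (-1) (-1) := by
  have h := rho_sq
  have hI := Complex.I_mul_I
  have h0 : cx rz = !![-1, 0, 0; 0, -1, 0; 0, 0, 1] := by
    ext i j
    rw [cx_apply]
    fin_cases i <;> fin_cases j <;> simp [rz]
  rw [h0]
  ext i j
  fin_cases i <;> fin_cases j <;>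
    simp [U, U', D, Matrix.mul_apply, Fin.sum_univ_three] <;>
    first
      | linear_combination -2 * h + ρ * ρ * hI
      | linear_combination ρ * ρ * hI

/-- the flip of one label -/
def J : Matrix (Fin 3) (Fin 3) ℂ := fun a b => if a = 2 - b then -1 else 0

theorem crx : U' * cx rx * U = J := by
  have h := rho_sq
  have hI := Complex.I_mul_I
  have h0 : cx rx = !![1, 0, 0; 0, -1, 0; 0, 0, -1] := by
    ext i j
    rw [cx_apply]
    fin_cases i <;> fin_cases j <;> simp [rx]
  rw [h0]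
  ext i j
  fin_cases i <;> fin_cases j <;>
    simp [U, U', J, Matrix.mul_apply, Fin.sum_univ_three] <;>
    first
      | linear_combination -2 * h + ρ * ρ * hI
      | linear_combination ρ * ρ * hI

/-- two site identity, off-diagonal part -/
theorem MP (a b a' b' : Fin 3) : M a a' * P b b' =
    if a ≠ 2 ∧ b ≠ 0 then (if a + 1 = a' ∧ b - 1 = b' then 1 else 0) else 0 := by
  unfold M P
  by_cases h1 : a ≠ 2 <;> by_cases h2 : b ≠ 0 <;> by_cases h3 : a + 1 = a' <;>
    by_cases h4 : b - 1 = b' <;> simp [h1, h2, h3, h4]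

theorem PM (a b a' b' : Fin 3) : P a a' * M b b' =
    if a ≠ 0 ∧ b ≠ 2 then (if b + 1 = b' ∧ a - 1 = a' then 1 else 0) else 0 := by
  unfold M P
  by_cases h1 : a ≠ 0 <;> by_cases h2 : b ≠ 2 <;> by_cases h3 : a - 1 = a' <;>
    by_cases h4 : b + 1 = b' <;> simp [h1, h2, h3, h4]

theorem dg_eq (a b : Fin 3) : ((dg a b : ℕ) : ℂ) = 1 + (((a : ℕ) : ℂ) - 1) * (((b : ℕ) : ℂ) - 1) := by
  fin_cases a <;> fin_cases b <;> simp [dg] <;> norm_num

theorem ZZ' (a b a' b' : Fin 3) : (if a = a' ∧ b = b' then (1 : ℂ) else 0) + Z a a' * Z b b' =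
    (dg a b : ℂ) * (if a = a' ∧ b = b' then 1 else 0) := by
  rw [dg_eq]
  unfold Z
  by_cases h1 : a = a' <;> by_cases h2 : b = b' <;> simp [h1, h2]

theorem D_eq (u u' : ℂ) : D u u' = Matrix.diagonal ![u', 1, u] := by
  ext i j
  fin_cases i <;> fin_cases j <;> simp [D]

theorem D_conj (u u' : ℂ) (h : u * u' = 1) :
    D u u' * ((Complex.I * ρ) • (P + M)) * D u' u = (Complex.I * ρ) • (u • P + u' • M) ∧
    D u u' * (ρ • (P - M)) * D u' u = ρ • (u • P - u' • M) ∧
    D u u' * (Complex.I • Z) * D u' u = Complex.I • Z := by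
  rw [D_eq, D_eq]
  refine ⟨?_, ?_, ?_⟩
  · ext i j
    rw [Matrix.mul_diagonal, Matrix.diagonal_mul]
    fin_cases i <;> fin_cases j <;>
      simp [P, M] <;> ring1
  · ext i j
    rw [Matrix.mul_diagonal, Matrix.diagonal_mul]
    fin_cases i <;> fin_cases j <;>
      simp [P, M] <;> ring1
  · ext i j
    rw [Matrix.mul_diagonal, Matrix.diagonal_mul]
    fin_cases i <;> fin_cases j <;>
      simp [Z] <;> linear_combination Complex.I * h

theorem prod_off {N : ℕ} (x y : Site N) (t s : Cfg N) :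
    (∏ i ∈ (Finset.univ.erase x).erase y, (1 : Matrix (Fin 3) (Fin 3) ℂ) (t i) (s i)) =
      if ∀ z, z ≠ x → z ≠ y → t z = s z then 1 else 0 := by
  split_ifs with h
  · refine Finset.prod_eq_one fun i hi => ?_
    rw [Finset.mem_erase, Finset.mem_erase] at hi
    rw [h i hi.2.1 hi.1, Matrix.one_apply_eq]
  · push Not at h
    obtain ⟨z, h1, h2, h3⟩ := h
    refine Finset.prod_eq_zero (i := z) ?_ (Matrix.one_apply_ne h3)
    rw [Finset.mem_erase, Finset.mem_erase]
    exact ⟨h2, h1, Finset.mem_univ _⟩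

theorem bond_entry {N : ℕ} (u u' : ℂ) (x y : Site N) (hxy : x ≠ y) (t s : Cfg N) :
    (1 : Matrix (Cfg N) (Cfg N) ℂ) t s -
      (ct (fun z => if z = x then (Complex.I * ρ) • (P + M) else if z = y then
          (Complex.I * ρ) • (u • P + u' • M) else 1) t s +
        ct (fun z => if z = x then ρ • (P - M) else if z = y then
          ρ • (u • P - u' • M) else 1) t s +
        ct (fun z => if z = x then Complex.I • Z else if z = y then
          Complex.I • Z else 1) t s) = KBaux.bd u u' x y t s := by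
  have h := rho_sq
  have hI := Complex.I_mul_I
  rw [ct_two x y hxy, ct_two x y hxy, ct_two x y hxy, prod_off]
  simp only [Matrix.smul_apply, Matrix.add_apply, Matrix.sub_apply, smul_eq_mul]
  by_cases hoff : ∀ z, z ≠ x → z ≠ y → t z = s z
  · rw [if_pos hoff]
    have e1 : (1 : Matrix (Cfg N) (Cfg N) ℂ) t s = if t x = s x ∧ t y = s y then 1 else 0 := by
      rw [Matrix.one_apply]
      refine if_congr ⟨fun e => by rw [e]; exact ⟨rfl, rfl⟩, fun e => ?_⟩ rfl rfl
      funext z
      by_cases h1 : z = x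
      · rw [h1]; exact e.1
      · by_cases h2 : z = y
        · rw [h2]; exact e.2
        · exact hoff z h1 h2
    have e1' : (if t = s then (1 : ℂ) else 0) = if t x = s x ∧ t y = s y then 1 else 0 := by
      rw [← e1, Matrix.one_apply]
    have e2 : (if upd t x y = s then (1 : ℂ) else 0) =
        if t x + 1 = s x ∧ t y - 1 = s y then 1 else 0 := by
      refine if_congr ⟨fun e => ?_, fun e => ?_⟩ rfl rfl
      · rw [← e]
        unfold upd
        rw [Function.update_self, Function.update_of_ne hxy, Function.update_self]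
        exact ⟨rfl, rfl⟩
      · funext z
        unfold upd
        by_cases h2 : z = y
        · rw [h2, Function.update_self]; exact e.2
        · rw [Function.update_of_ne h2]
          by_cases h1 : z = x
          · rw [h1, Function.update_self]; exact e.1
          · rw [Function.update_of_ne h1]
            exact hoff z h1 h2
    have e3 : (if upd t y x = s then (1 : ℂ) else 0) =
        if t y + 1 = s y ∧ t x - 1 = s x then 1 else 0 := by
      refine if_congr ⟨fun e => ?_, fun e => ?_⟩ rfl rfl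
      · rw [← e]
        unfold upd
        rw [Function.update_self, Function.update_of_ne hxy.symm, Function.update_self]
        exact ⟨rfl, rfl⟩
      · funext z
        unfold upd
        by_cases h1 : z = x
        · rw [h1, Function.update_self]; exact e.2
        · rw [Function.update_of_ne h1]
          by_cases h2 : z = y
          · rw [h2, Function.update_self]; exact e.1
          · rw [Function.update_of_ne h2]
            exact hoff z h1 h2
    unfold KBaux.bd
    rw [e1, e1', e2, e3]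
    have k1 := MP (t x) (t y) (s x) (s y)
    have k2 := PM (t x) (t y) (s x) (s y)
    have k3 := ZZ' (t x) (t y) (s x) (s y)
    have k4 : (if t x ≠ 2 ∧ t y ≠ 0 then
        u * (if t x + 1 = s x ∧ t y - 1 = s y then (1 : ℂ) else 0) else 0) =
        u * (M (t x) (s x) * P (t y) (s y)) := by
      rw [k1]
      split_ifs <;> simp
    have k5 : (if t x ≠ 0 ∧ t y ≠ 2 then
        u' * (if t y + 1 = s y ∧ t x - 1 = s x then (1 : ℂ) else 0) else 0) =
        u' * (P (t x) (s x) * M (t y) (s y)) := by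
      rw [k2]
      split_ifs <;> simp
    rw [k4, k5, ← k3]
    linear_combination (-(P (t x) (s x) + M (t x) (s x)) *
      (u * P (t y) (s y) + u' * M (t y) (s y)) * ρ * ρ - Z (t x) (s x) * Z (t y) (s y)) * hI +
      (2 * (u' * (P (t x) (s x) * M (t y) (s y)) + u * (M (t x) (s x) * P (t y) (s y)))) * h
  · rw [if_neg hoff]
    have hz : ∃ z, z ≠ x ∧ z ≠ y ∧ t z ≠ s z := by
      push Not at hoff
      obtain ⟨z, h1, h2, h3⟩ := hoff
      exact ⟨z, h1, h2, h3⟩
    obtain ⟨z, h1, h2, h3⟩ := hz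
    have e1 : t ≠ s := fun e => h3 (by rw [e])
    have e2 : upd t x y ≠ s := fun e => h3 (by
      rw [← e]
      unfold upd
      rw [Function.update_of_ne h2, Function.update_of_ne h1])
    have e3 : upd t y x ≠ s := fun e => h3 (by
      rw [← e]
      unfold upd
      rw [Function.update_of_ne h1, Function.update_of_ne h2])
    rw [Matrix.one_apply_ne e1]
    unfold KBaux.bd
    rw [if_neg e1, if_neg e2, if_neg e3]
    simp

/-- the labelled bond -/
noncomputable def bl {N : ℕ} [NeZero N] (R : Matrix (Fin 3) (Fin 3) ℝ) (x : Site N) (α : Fin 3) :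
    Site N → Matrix (Fin 3) (Fin 3) ℝ :=
  fun z => if z = x then Lg α else if z = nxt x then
    (if isWrap x then R * Lg α * Rᵀ else Lg α) else 1

theorem HS_sum (N : ℕ) [NeZero N] (R : Matrix (Fin 3) (Fin 3) ℝ) :
    HS N R = ∑ x : Site N, (1 - ∑ α : Fin 3, tens (bl R x α)) := by
  rw [Finset.sum_sub_distrib, Finset.sum_const, Finset.card_univ, Fintype.card_prod,
    Fintype.card_fin, Fintype.card_bool, Fintype.sum_prod_type]
  simp only [Fintype.sum_bool]
  rw [Finset.sum_add_distrib]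
  unfold HS HR Heven Hodd
  have e1 : ∀ i : Fin N, (∑ α : Fin 3, tens (fun s : Site N => if s.1 = i then Lg α else 1)) =
      ∑ α : Fin 3, tens (bl R (i, false) α) := by
    intro i
    refine Finset.sum_congr rfl fun α _ => ?_
    congr 1
    funext z
    obtain ⟨j, b⟩ := z
    unfold bl nxt isWrap
    by_cases h : j = i
    · subst h
      cases b <;> simp
    · rw [if_neg h, if_neg fun h' => h (Prod.ext_iff.1 h').1,
        if_neg (by simp [h])]
  have e2 : ∀ i : Fin N, (∑ α : Fin 3, tens (fun s : Site N =>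
      if s = (i, true) then Lg α
      else if s = (i + 1, false) then (if i + 1 = 0 then R * Lg α * Rᵀ else Lg α)
      else 1)) = ∑ α : Fin 3, tens (bl R (i, true) α) := by
    intro i
    refine Finset.sum_congr rfl fun α _ => ?_
    congr 1
    funext z
    unfold bl nxt isWrap
    simp
  simp only [e1, e2]
  have e3 : ((2 * N : ℝ)) • (1 : Matrix (Cfg N) (Cfg N) ℝ) = (N * 2) • 1 := by
    rw [← Nat.cast_smul_eq_nsmul ℝ]
    push_cast
    rw [mul_comm]
  rw [e3]
  abel

/-- the global change of basis -/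
noncomputable def V (N : ℕ) : Matrix (Cfg N) (Cfg N) ℂ := ct (fun _ : Site N => U)

/-- its inverse -/
noncomputable def V' (N : ℕ) : Matrix (Cfg N) (Cfg N) ℂ := ct (fun _ : Site N => U')

theorem V'_mul_V (N : ℕ) : V' N * V N = 1 := by
  unfold V V'
  rw [ct_mul, U'_mul_U, ct_one]

theorem V_mul_V' (N : ℕ) : V N * V' N = 1 := by
  unfold V V'
  rw [ct_mul, U_mul_U', ct_one]

theorem V_conj_tens (N : ℕ) (M : Site N → Matrix (Fin 3) (Fin 3) ℝ) :
    V' N * cx (tens M) * V N = ct (fun z => U' * cx (M z) * U) := by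
  rw [cx_tens]
  unfold V V'
  rw [ct_mul, ct_mul]

theorem conj_three (A B C : Matrix (Fin 3) (Fin 3) ℝ) :
    U' * cx (A * B * C) * U = (U' * cx A * U) * (U' * cx B * U) * (U' * cx C * U) := by
  rw [map_mul, map_mul]
  have h := U_mul_U'
  calc U' * (cx A * cx B * cx C) * U = U' * cx A * 1 * cx B * 1 * cx C * U := by
        simp only [Matrix.mul_one, Matrix.mul_assoc]
    _ = U' * cx A * (U * U') * cx B * (U * U') * cx C * U := by rw [h]
    _ = _ := by simp only [Matrix.mul_assoc]

theorem rotz_transpose (c s : ℝ) : (rotz c s)ᵀ = rotz c (-s) := by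
  ext i j
  fin_cases i <;> fin_cases j <;> simp [rotz]

theorem conj_HS (N : ℕ) [NeZero N] (c s : ℝ) (h : c ^ 2 + s ^ 2 = 1) :
    V' N * cx (HS N (rotz c s)) * V N = KBaux.Mx N (c - s * Complex.I) := by
  have hI := Complex.I_mul_I
  have hc : (c : ℂ) ^ 2 + (s : ℂ) ^ 2 = 1 := by exact_mod_cast h
  have hzz : ((c : ℂ) - s * Complex.I) * (c + s * Complex.I) = 1 := by
    linear_combination hc - (s : ℂ) ^ 2 * hI
  have hinv : ((c : ℂ) - s * Complex.I)⁻¹ = c + s * Complex.I := inv_eq_of_mul_eq_one_right hzz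
  obtain ⟨d1, d2, d3⟩ := D_conj _ _ hzz
  have hR : ∀ B : Matrix (Fin 3) (Fin 3) ℝ, U' * cx (rotz c s * B * (rotz c s)ᵀ) * U =
      D (c - s * Complex.I) (c + s * Complex.I) * (U' * cx B * U) *
        D (c + s * Complex.I) (c - s * Complex.I) := by
    intro B
    rw [conj_three, crotz, rotz_transpose, crotz]
    congr 2
    · push_cast; ring
    · push_cast; ring
  ext t r
  rw [HS_sum, map_sum, Matrix.mul_sum, Matrix.sum_mul, Matrix.sum_apply, KBaux.Mx_apply]
  refine Finset.sum_congr rfl fun x _ => ?_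
  have hne : x ≠ nxt x := by
    intro e
    have e2 := congrArg Prod.snd e
    unfold nxt at e2
    by_cases hb : x.2 = true
    · rw [if_pos hb] at e2
      rw [hb] at e2
      exact absurd e2 (by simp)
    · rw [if_neg hb] at e2
      exact hb e2
  rw [← bond_entry _ _ x (nxt x) hne, map_sub, map_one, Matrix.mul_sub, Matrix.sub_mul,
    Matrix.mul_one, V'_mul_V, Matrix.sub_apply, Fin.sum_univ_three, map_add, map_add,
    Matrix.mul_add, Matrix.mul_add, Matrix.add_mul, Matrix.add_mul, Matrix.add_apply,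
    Matrix.add_apply, V_conj_tens, V_conj_tens, V_conj_tens]
  have key : ∀ (α : Fin 3) (X Y : Matrix (Fin 3) (Fin 3) ℂ), U' * cx (Lg α) * U = X →
      (if isWrap x then D (c - s * Complex.I) (c + s * Complex.I) * X *
        D (c + s * Complex.I) (c - s * Complex.I) else X) = Y →
      ct (fun z => U' * cx (bl (rotz c s) x α z) * U) =
        ct (fun z => if z = x then X else if z = nxt x then Y else 1) := by
    intro α X Y hX hY
    congr 1
    funext z
    unfold bl
    by_cases h1 : z = x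
    · rw [if_pos h1, if_pos h1, hX]
    · rw [if_neg h1, if_neg h1]
      by_cases h2 : z = nxt x
      · rw [if_pos h2, if_pos h2, ← hY]
        by_cases h3 : isWrap x
        · rw [if_pos h3, if_pos h3, hR, hX]
        · rw [if_neg h3, if_neg h3, hX]
      · rw [if_neg h2, if_neg h2, map_one, Matrix.mul_one, U'_mul_U]
  rw [key 0 _ _ cLx rfl, key 1 _ _ cLy rfl, key 2 _ _ cLz rfl, hinv]
  unfold KBaux.w
  by_cases h3 : isWrap x
  · simp only [if_pos h3]
    rw [d1, d2, d3]
  · simp only [if_neg h3, one_smul]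

theorem pow_conj (N : ℕ) (A : Matrix (Cfg N) (Cfg N) ℂ) (k : ℕ) :
    (V' N * A * V N) ^ k = V' N * A ^ k * V N := by
  induction k with
  | zero => rw [pow_zero, pow_zero, Matrix.mul_one, V'_mul_V]
  | succ n ih =>
    rw [pow_succ, ih, pow_succ]
    calc V' N * A ^ n * V N * (V' N * A * V N) = V' N * A ^ n * (V N * V' N) * A * V N := by
          simp only [Matrix.mul_assoc]
      _ = _ := by rw [V_mul_V', Matrix.mul_one]; simp only [Matrix.mul_assoc]

theorem trace_conj (N : ℕ) (G H : Matrix (Cfg N) (Cfg N) ℝ) (k : ℕ) :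
    (((G * H ^ k).trace : ℝ) : ℂ) =
      ((V' N * cx G * V N) * (V' N * cx H * V N) ^ k).trace := by
  have h1 : (((G * H ^ k).trace : ℝ) : ℂ) = (cx (G * H ^ k)).trace := by
    unfold Matrix.trace
    rw [Complex.ofReal_sum]
    rfl
  rw [h1, pow_conj, map_mul, map_pow]
  have h2 : V' N * cx G * V N * (V' N * cx H ^ k * V N) =
      V' N * (cx G * cx H ^ k) * V N := by
    calc V' N * cx G * V N * (V' N * cx H ^ k * V N) =
        V' N * cx G * (V N * V' N) * cx H ^ k * V N := by simp only [Matrix.mul_assoc]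
      _ = _ := by rw [V_mul_V', Matrix.mul_one]; simp only [Matrix.mul_assoc]
  rw [h2, Matrix.trace_mul_comm (V' N * _) (V N), ← Matrix.mul_assoc, V_mul_V', Matrix.one_mul]

theorem card_site (N : ℕ) : Finset.card (Finset.univ : Finset (Site N)) = 2 * N := by
  rw [Finset.card_univ, Fintype.card_prod, Fintype.card_fin, Fintype.card_bool, mul_comm]

theorem conj_rz (N : ℕ) : V' N * cx (glob N rz) * V N =
    Matrix.diagonal (fun a : Cfg N => (-1 : ℂ) ^ (∑ x, (a x : ℕ))) := by
  unfold glob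
  rw [V_conj_tens, crz, D_eq]
  ext t s
  unfold ct
  by_cases h : t = s
  · subst h
    rw [Matrix.diagonal_apply_eq]
    have h1 : ∀ a : Fin 3, (Matrix.diagonal (![-1, 1, -1] : Fin 3 → ℂ)) a a =
        (-1 : ℂ) ^ ((a : ℕ) + 1) := by
      intro a
      fin_cases a <;> simp <;> norm_num
    rw [Finset.prod_congr rfl fun x _ => h1 (t x), Finset.prod_pow_eq_pow_sum,
      Finset.sum_add_distrib, Finset.sum_const, card_site, smul_eq_mul, mul_one, pow_add,
      pow_mul]
    norm_num
  · rw [Matrix.diagonal_apply_ne _ h]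
    obtain ⟨i, hi⟩ := Function.ne_iff.1 h
    exact Finset.prod_eq_zero (Finset.mem_univ i) (Matrix.diagonal_apply_ne _ hi)

theorem conj_rx (N : ℕ) (t s : Cfg N) : (V' N * cx (glob N rx) * V N) t s =
    if t = flipc s then 1 else 0 := by
  unfold glob
  rw [V_conj_tens, crx]
  unfold ct
  split_ifs with h
  · subst h
    have h1 : ∀ x ∈ (Finset.univ : Finset (Site N)), J (flipc s x) (s x) = -1 := by
      intro x _
      unfold J flipc
      rw [if_pos rfl]
    rw [Finset.prod_congr rfl h1, Finset.prod_const, card_site, pow_mul]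
    norm_num
  · obtain ⟨i, hi⟩ := Function.ne_iff.1 h
    refine Finset.prod_eq_zero (Finset.mem_univ i) ?_
    show (if t i = 2 - s i then (-1 : ℂ) else 0) = 0
    exact if_neg hi

/-- the rotation which takes the z axis to the axis of `c3` -/
noncomputable def Q3 : Matrix (Fin 3) (Fin 3) ℝ :=
  !![√2 / 2, √2 * √3 / 6, √3 / 3; -(√2 / 2), √2 * √3 / 6, √3 / 3; 0, -(√2 * √3 / 3), √3 / 3]

theorem Q3_rot : IsRot Q3 := by
  have h2 : √2 * √2 = 2 := Real.mul_self_sqrt (by norm_num)
  have h3 : √3 * √3 = 3 := Real.mul_self_sqrt (by norm_num)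
  have h6 : (√2 * √2) * (√3 * √3) = 6 := by rw [h2, h3]; norm_num
  constructor
  · ext i j
    fin_cases i <;> fin_cases j <;>
      simp [Q3, Matrix.mul_apply, Fin.sum_univ_three] <;> nlinarith [h2, h3, h6]
  · rw [Matrix.det_fin_three]
    simp [Q3]
    nlinarith [h2, h3, h6]

theorem Q3_conj : Q3 * rotz (-1 / 2) (√3 / 2) * Q3ᵀ = c3 := by
  have h2 : √2 * √2 = 2 := Real.mul_self_sqrt (by norm_num)
  have h3 : √3 * √3 = 3 := Real.mul_self_sqrt (by norm_num)
  have h6 : (√2 * √2) * (√3 * √3) = 6 := by rw [h2, h3]; norm_num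
  ext i j
  fin_cases i <;> fin_cases j <;>
    simp [Q3, rotz, c3, Matrix.mul_apply, Fin.sum_univ_three] <;> nlinarith [h2, h3, h6]

theorem glob_orth (N : ℕ) (Q : Matrix (Fin 3) (Fin 3) ℝ) (hQ : IsRot Q) :
    glob N Q * (glob N Q)ᵀ = 1 := by
  rw [glob_transpose, ← glob_mul, hQ.1, glob_one]

end KAaux

open KAaux

/-- W = 1 -/
theorem trace_one (N : ℕ) [NeZero N] (hN : 2 ≤ N) (c s : ℝ) (h : c ^ 2 + s ^ 2 = 1) (k : ℕ) :
    (((glob N 1 * HS N (rotz c s) ^ k).trace : ℝ) : ℂ) =
      ∑ a : Cfg N, ((act N (c - s * Complex.I))^[k] (Pi.single a 1)) a := by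
  have _ := hN
  rw [trace_conj, conj_HS N c s h, glob_one, map_one, Matrix.mul_one, V'_mul_V, Matrix.one_mul]
  unfold Matrix.trace
  refine Finset.sum_congr rfl fun a _ => ?_
  rw [KBaux.Mx_pow, Matrix.diag_apply]

/-- W = rz -/
theorem trace_rz (N : ℕ) [NeZero N] (hN : 2 ≤ N) (c s : ℝ) (h : c ^ 2 + s ^ 2 = 1) (k : ℕ) :
    (((glob N rz * HS N (rotz c s) ^ k).trace : ℝ) : ℂ) =
      ∑ a : Cfg N, (-1 : ℂ) ^ (∑ x, (a x : ℕ)) *
        ((act N (c - s * Complex.I))^[k] (Pi.single a 1)) a := by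
  have _ := hN
  rw [trace_conj, conj_HS N c s h, conj_rz]
  unfold Matrix.trace
  refine Finset.sum_congr rfl fun a _ => ?_
  rw [KBaux.Mx_pow, Matrix.diag_apply, Matrix.diagonal_mul]

/-- W = rx -/
theorem trace_rx (N : ℕ) [NeZero N] (hN : 2 ≤ N) (c s : ℝ) (h : c ^ 2 + s ^ 2 = 1) (k : ℕ) :
    (((glob N rx * HS N (rotz c s) ^ k).trace : ℝ) : ℂ) =
      ∑ a : Cfg N, ((act N (c - s * Complex.I))^[k] (Pi.single a 1)) (flipc a) := by
  have _ := hN
  rw [trace_conj, conj_HS N c s h]
  have h0 : ∀ t : Cfg N, (V' N * cx (glob N rx) * V N *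
      KBaux.Mx N (c - s * Complex.I) ^ k) t t = ∑ r : Cfg N, (if t = flipc r then (1 : ℂ) else 0) *
      (KBaux.Mx N (c - s * Complex.I) ^ k) r t := by
    intro t
    rw [Matrix.mul_apply]
    exact Finset.sum_congr rfl fun r _ => by rw [conj_rx]
  have h00 : (V' N * cx (glob N rx) * V N * KBaux.Mx N (c - s * Complex.I) ^ k).trace =
      ∑ t : Cfg N, ∑ r : Cfg N, (if t = flipc r then (1 : ℂ) else 0) *
      (KBaux.Mx N (c - s * Complex.I) ^ k) r t := Finset.sum_congr rfl fun t _ => h0 t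
  rw [h00, Finset.sum_comm]
  have h1 : ∀ r : Cfg N, (∑ t : Cfg N, (if t = flipc r then (1 : ℂ) else 0) *
      (KBaux.Mx N (c - s * Complex.I) ^ k) r t) =
      (KBaux.Mx N (c - s * Complex.I) ^ k) r (flipc r) := by
    intro r
    simp
  rw [Finset.sum_congr rfl fun r _ => h1 r]
  refine Finset.sum_nbij' (fun a => flipc a) (fun a => flipc a) (fun a _ => Finset.mem_univ _)
    (fun a _ => Finset.mem_univ _) (fun a _ => KBaux.flip_flipc a)
    (fun a _ => KBaux.flip_flipc a) (fun a _ => ?_)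
  rw [KBaux.Mx_pow, KBaux.flip_flipc]

/-- the twist by c3 is conjugate to the twist by the rotation of angle 2π/3 about the z axis -/
theorem trace_c3 (N : ℕ) [NeZero N] (hN : 2 ≤ N) (k : ℕ) :
    (glob N 1 * HS N c3 ^ k).trace
      = (glob N 1 * HS N (rotz (-1 / 2) (Real.sqrt 3 / 2)) ^ k).trace := by
  have _ := hN
  have h1 := glob_conj_HR N (rotz (-1 / 2) (√3 / 2)) Q3 Q3_rot
  have ho := glob_orth N Q3 Q3_rot
  have ho' : (glob N Q3)ᵀ * glob N Q3 = 1 := mul_eq_one_comm.1 ho
  rw [Q3_conj] at h1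
  have h2 : HS N c3 = glob N Q3 * HS N (rotz (-1 / 2) (√3 / 2)) * (glob N Q3)ᵀ := by
    unfold HS
    rw [← h1, Matrix.mul_add, Matrix.add_mul, Matrix.mul_smul, Matrix.mul_one, Matrix.smul_mul,
      ho]
  have h3 : HS N c3 ^ k = glob N Q3 * HS N (rotz (-1 / 2) (√3 / 2)) ^ k * (glob N Q3)ᵀ := by
    rw [h2]
    induction k with
    | zero => rw [pow_zero, pow_zero, Matrix.mul_one, ho]
    | succ n ih =>
      rw [pow_succ, ih, pow_succ]
      calc glob N Q3 * HS N (rotz (-1 / 2) (√3 / 2)) ^ n * (glob N Q3)ᵀ *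
          (glob N Q3 * HS N (rotz (-1 / 2) (√3 / 2)) * (glob N Q3)ᵀ) =
          glob N Q3 * HS N (rotz (-1 / 2) (√3 / 2)) ^ n * ((glob N Q3)ᵀ * glob N Q3) *
            HS N (rotz (-1 / 2) (√3 / 2)) * (glob N Q3)ᵀ := by simp only [Matrix.mul_assoc]
        _ = _ := by rw [ho', Matrix.mul_one]; simp only [Matrix.mul_assoc]
  rw [glob_one, Matrix.one_mul, Matrix.one_mul, h3, Matrix.trace_mul_comm, ← Matrix.mul_assoc,
    ho', Matrix.one_mul]

end P348
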