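import Mathlib.Algebra.Order.Ring.Star
import Mathlib.Tactic.Positivity
import Vale.Agent.Lib.P348.KB

/-!
# P348 (K), module KC: sums over configurations reduce to orbit representatives

Configurations of the ring of length 2N are coded by numbers below 3^(2N): the digit at 3^p is the
label of the site with position p = 2 i + b (b = 0 for `false`, 1 for `true`).  The group generated
by rotation, reflection and flip (order 8N) has the orbits with the listed representatives (smallest
codes) and sizes.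

Proof.  `decode` is a bijection from `Fin (3^(2N))` to `Cfg N`; let `can c` be the smallest of the
8N codes of the images of c (computed by digit arithmetic: rotation `c / 3 + (c % 3) * 3^(2N-1)`,
flip `3^(2N) - 1 - c`, reflection by reversing the digits); f (decode c) = f (decode (can c)) by
the invariances, and the list of all `can c` is evaluated by the kernel (`decide +kernel` with
efficient `Nat` arithmetic; less than one minute please).
-/

namespace P348

variable {N : ℕ} [NeZero N]

/-- configuration with a given code -/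
def decode (N : ℕ) (c : ℕ) : Cfg N := fun x =>
  Fin.ofNat 3 (c / 3 ^ (2 * (x.1 : ℕ) + (if x.2 = true then 1 else 0)))

/-- representatives and orbit sizes, N = 2 -/
def reps2 : List (ℕ × ℕ) :=
  [(0, 2), (1, 8), (2, 8), (4, 8), (5, 16), (8, 4), (10, 4), (11, 8), (13, 8), (14, 8), (16, 4),
  (20, 2), (40, 1)]

/-- representatives and orbit sizes, N = 3 -/
def reps3 : List (ℕ × ℕ) :=
  [(0, 2), (1, 12), (2, 12), (4, 12), (5, 24), (8, 12), (10, 12), (11, 24), (13, 12), (14, 24),
  (16, 12), (17, 24), (20, 12), (23, 12), (26, 6), (28, 6), (29, 12), (31, 24), (32, 24), (34,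
  24), (35, 24), (38, 24), (40, 12), (41, 24), (43, 24), (44, 12), (47, 24), (50, 24), (52, 6),
  (56, 6), (59, 24), (62, 12), (68, 12), (91, 4), (92, 12), (94, 12), (95, 24), (97, 12), (101,
  12), (104, 6), (112, 6), (113, 24), (119, 12), (121, 12), (122, 12), (124, 12), (128, 12), (130,
  6), (140, 6), (142, 12), (182, 2), (364, 1)]

/-- representatives and orbit sizes, N = 4 -/
def reps4 : List (ℕ × ℕ) :=
  [(0, 2), (1, 16), (2, 16), (4, 16), (5, 32), (8, 16), (10, 16), (11, 32), (13, 16), (14, 32),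
  (16, 16), (17, 32), (20, 16), (23, 16), (26, 16), (28, 16), (29, 32), (31, 32), (32, 32), (34,
  32), (35, 32), (38, 32), (40, 16), (41, 32), (43, 32), (44, 32), (47, 32), (50, 32), (52, 16),
  (53, 32), (56, 16), (59, 32), (62, 32), (68, 16), (71, 32), (80, 8), (82, 8), (83, 16), (85,
  32), (86, 32), (88, 32), (89, 32), (91, 16), (92, 32), (94, 32), (95, 32), (97, 32), (98, 32),
  (100, 16), (101, 32), (103, 32), (104, 32), (106, 32), (107, 32), (110, 32), (112, 16), (113,
  32), (115, 32), (116, 32), (119, 32), (121, 16), (122, 32), (124, 32), (125, 32), (128, 32),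
  (130, 16), (131, 32), (133, 32), (134, 16), (137, 32), (140, 32), (142, 16), (143, 32), (146,
  32), (149, 32), (151, 16), (152, 32), (155, 32), (158, 32), (160, 8), (164, 8), (167, 32), (170,
  32), (173, 16), (176, 32), (179, 32), (182, 16), (185, 32), (188, 16), (194, 16), (197, 32),
  (203, 16), (206, 32), (212, 16), (224, 16), (233, 16), (253, 16), (254, 32), (256, 16), (257,
  32), (259, 16), (260, 32), (263, 16), (266, 16), (272, 16), (274, 32), (275, 32), (277, 32),
  (278, 32), (280, 16), (281, 32), (283, 32), (284, 32), (286, 32), (287, 32), (289, 32), (290,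
  32), (292, 32), (293, 32), (295, 32), (299, 32), (301, 32), (302, 32), (304, 32), (305, 32),
  (308, 32), (310, 32), (311, 32), (313, 32), (314, 16), (316, 16), (317, 32), (319, 32), (320,
  16), (328, 8), (329, 32), (332, 16), (335, 32), (337, 32), (338, 32), (340, 32), (341, 32),
  (344, 32), (346, 32), (347, 32), (349, 32), (353, 16), (356, 32), (358, 32), (359, 32), (362,
  32), (364, 16), (365, 32), (367, 32), (368, 16), (371, 32), (373, 32), (374, 32), (376, 16),
  (380, 32), (383, 32), (385, 32), (386, 32), (389, 32), (392, 32), (394, 32), (398, 16), (400,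
  8), (410, 16), (412, 16), (413, 32), (416, 32), (419, 32), (421, 32), (422, 16), (425, 32),
  (428, 32), (430, 32), (434, 16), (437, 32), (440, 32), (443, 32), (446, 32), (448, 16), (452,
  32), (455, 32), (461, 32), (464, 16), (506, 16), (509, 16), (518, 32), (521, 32), (524, 16),
  (527, 32), (533, 32), (536, 32), (545, 32), (548, 16), (554, 32), (560, 8), (581, 32), (590,
  32), (602, 16), (608, 16), (617, 32), (656, 4), (820, 4), (821, 16), (823, 16), (824, 32), (826,
  16), (830, 16), (833, 16), (841, 16), (842, 32), (844, 32), (848, 32), (850, 16), (851, 32),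
  (853, 32), (857, 32), (859, 16), (860, 16), (869, 32), (871, 16), (875, 32), (878, 32), (880,
  8), (902, 8), (905, 32), (911, 16), (914, 16), (923, 16), (932, 16), (1010, 16), (1012, 16),
  (1013, 32), (1015, 32), (1019, 32), (1031, 32), (1040, 8), (1066, 8), (1067, 32), (1069, 16),
  (1073, 16), (1085, 32), (1091, 16), (1093, 16), (1094, 16), (1096, 16), (1100, 16), (1102, 16),
  (1112, 16), (1114, 32), (1120, 8), (1148, 8), (1150, 32), (1154, 16), (1156, 16), (1168, 16),
  (1262, 16), (1276, 16), (1280, 8), (1312, 4), (1640, 2), (3280, 1)]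

/-! ### digits -/

/-- base three digit -/
def dig (c p : ℕ) : ℕ := c / 3 ^ p % 3

/-- number with given base three digits -/
def enc : ℕ → (ℕ → ℕ) → ℕ
  | 0, _ => 0
  | n + 1, g => enc n g + g n * 3 ^ n

/-- codes of the images of a configuration -/
def im1 (n c k : ℕ) : ℕ := enc n (fun p => dig c ((p + k) % n))
/-- codes of the images of a configuration -/
def im2 (n c k : ℕ) : ℕ := enc n (fun p => 2 - dig c ((p + k) % n))
/-- codes of the images of a configuration -/
def im3 (n c k : ℕ) : ℕ := enc n (fun p => dig c ((k + n - 1 - p) % n))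
/-- codes of the images of a configuration -/
def im4 (n c k : ℕ) : ℕ := enc n (fun p => 2 - dig c ((k + n - 1 - p) % n))

/-- weighted sum over the images -/
def wk (n B c : ℕ) : ℕ → ℕ
  | 0 => 0
  | k + 1 => wk n B c k + (B ^ im1 n c k + B ^ im2 n c k + (B ^ im3 n c k + B ^ im4 n c k))

/-- total weighted sum over the images of the representatives -/
def wt (n B : ℕ) : List (ℕ × ℕ) → ℕ
  | [] => 0
  | r :: l => r.2 * wk n B r.1 n + wt n B l

theorem dig_lt (c p : ℕ) : dig c p < 3 := Nat.mod_lt _ (by norm_num)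

theorem enc_lt : ∀ (n : ℕ) (g : ℕ → ℕ), (∀ p, g p < 3) → enc n g < 3 ^ n
  | 0, _, _ => by simp [enc]
  | n + 1, g, hg => by
      have h1 := enc_lt n g hg
      have h2 := hg n
      have h3 : g n * 3 ^ n ≤ 2 * 3 ^ n := Nat.mul_le_mul_right _ (by omega)
      simp only [enc, pow_succ]
      omega

theorem dig_enc : ∀ (n : ℕ) (g : ℕ → ℕ), (∀ p, g p < 3) → ∀ p, p < n → dig (enc n g) p = g p
  | 0, _, _, p, hp => absurd hp (Nat.not_lt_zero p)
  | n + 1, g, hg, p, hp => by
      simp only [enc]
      rcases Nat.lt_succ_iff_lt_or_eq.mp hp with h | h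
      · have h1 := dig_enc n g hg p h
        have h2 : g n * 3 ^ n = (g n * 3 ^ (n - p - 1) * 3) * 3 ^ p := by
          rw [mul_assoc, mul_assoc, ← pow_succ', ← pow_add]
          congr 2
          omega
        have h3 : 0 < 3 ^ p := by positivity
        unfold dig at h1 ⊢
        rw [h2, Nat.add_mul_div_right _ _ h3, Nat.add_mul_mod_self_right, h1]
      · subst h
        have h1 := enc_lt p g hg
        have h3 : 0 < 3 ^ p := by positivity
        unfold dig
        rw [Nat.add_mul_div_right _ _ h3, Nat.div_eq_of_lt h1, zero_add,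
          Nat.mod_eq_of_lt (hg p)]

/-! ### positions -/

/-- position of a site -/
def ps (x : Site N) : ℕ := 2 * (x.1 : ℕ) + (if x.2 = true then 1 else 0)

omit [NeZero N] in
theorem ps_lt (x : Site N) : ps x < 2 * N := by
  have h := x.1.isLt
  unfold ps
  split_ifs <;> omega

omit [NeZero N] in
theorem decode_val (c : ℕ) (x : Site N) : (decode N c x : ℕ) = dig c (ps x) := rfl

theorem ps_nxt (x : Site N) : ps (nxt x) = (ps x + 1) % (2 * N) := by
  obtain ⟨i, b⟩ := x
  have hi := i.isLt
  cases b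
  · have h1 : nxt ((i, false) : Site N) = (i, true) := rfl
    rw [h1]
    simp only [ps]
    simp only [if_true, Bool.false_eq_true, if_false, add_zero]
    rw [Nat.mod_eq_of_lt (by omega)]
  · have h1 : nxt ((i, true) : Site N) = (i + 1, false) := rfl
    rw [h1]
    simp only [ps]
    simp only [if_true, Bool.false_eq_true, if_false, add_zero]
    have h2 : ((i + 1 : Fin N) : ℕ) = ((i : ℕ) + 1) % N := by
      rw [Fin.val_add, Fin.val_one']
      simp
    rw [h2]
    rcases Nat.lt_or_ge ((i : ℕ) + 1) N with h | h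
    · rw [Nat.mod_eq_of_lt h, Nat.mod_eq_of_lt (by omega)]
      omega
    · have h3 : (i : ℕ) + 1 = N := by omega
      rw [h3, Nat.mod_self]
      have h4 : 2 * (i : ℕ) + 1 + 1 = 2 * N := by omega
      rw [h4, Nat.mod_self]

theorem ps_iter (k : ℕ) : ∀ x : Site N, ps (nxt^[k] x) = (ps x + k) % (2 * N) := by
  induction k with
  | zero => intro x; exact (Nat.mod_eq_of_lt (ps_lt x)).symm
  | succ k ih =>
      intro x
      rw [Function.iterate_succ_apply, ih, ps_nxt, Nat.mod_add_mod]
      congr 1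
      omega

theorem rotc_iter (k : ℕ) : ∀ a : Cfg N, rotc^[k] a = fun x => a (nxt^[k] x) := by
  induction k with
  | zero => intro a; rfl
  | succ k ih =>
      intro a
      rw [Function.iterate_succ_apply, ih]
      funext x
      rw [Function.iterate_succ_apply']
      rfl

theorem ps_refl (x : Site N) : ps ((-1 - x.1, !x.2) : Site N) = 2 * N - 1 - ps x := by
  obtain ⟨i, b⟩ := x
  have hi := i.isLt
  have h1 : ((-1 - i : Fin N) : ℕ) = N - 1 - (i : ℕ) := by
    have h2 : (-1 - i : Fin N) = ⟨N - 1 - (i : ℕ), by omega⟩ := by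
      have h3 : (⟨N - 1 - (i : ℕ), by omega⟩ : Fin N) + i + 1 = 0 := by
        apply Fin.ext
        rw [Fin.val_add, Fin.val_add, Fin.val_one']
        simp only [Nat.mod_add_mod, Nat.add_mod_mod]
        have h4 : N - 1 - (i : ℕ) + (i : ℕ) + 1 = N := by omega
        rw [h4, Nat.mod_self]
        rfl
      have h5 : (⟨N - 1 - (i : ℕ), by omega⟩ : Fin N) = -1 - i := by
        rw [eq_sub_iff_add_eq, eq_neg_iff_add_eq_zero]
        exact h3
      exact h5.symm
    rw [h2]
  unfold ps
  simp only [h1]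
  cases b <;> simp <;> omega

/-! ### images of codes -/

theorem decode_im1 (c k : ℕ) : decode N (im1 (2 * N) c k) = rotc^[k] (decode N c) := by
  rw [rotc_iter]
  funext x
  apply Fin.ext
  rw [decode_val, decode_val, ps_iter]
  exact dig_enc _ _ (fun p => dig_lt _ _) _ (ps_lt x)

theorem decode_im2 (c k : ℕ) : decode N (im2 (2 * N) c k) = flipc (rotc^[k] (decode N c)) := by
  rw [rotc_iter]
  funext x
  apply Fin.ext
  have h2 : ∀ y : Fin 3, ((2 - y : Fin 3) : ℕ) = 2 - (y : ℕ) := by decide
  unfold flipc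
  rw [h2, decode_val, decode_val, ps_iter]
  exact dig_enc _ (fun p => 2 - dig c ((p + k) % (2 * N)))
    (fun p => lt_of_le_of_lt (Nat.sub_le _ _) (by norm_num)) _ (ps_lt x)

theorem decode_im3 (c k : ℕ) : decode N (im3 (2 * N) c k) = reflc (rotc^[k] (decode N c)) := by
  rw [rotc_iter]
  funext x
  apply Fin.ext
  unfold reflc
  rw [decode_val, decode_val, ps_iter, ps_refl]
  have h1 := dig_enc (2 * N) (fun p => dig c ((k + 2 * N - 1 - p) % (2 * N)))
    (fun p => dig_lt _ _) _ (ps_lt x)
  refine h1.trans ?_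
  have h2 := ps_lt x
  have h3 : k + 2 * N - 1 - ps x = 2 * N - 1 - ps x + k := by omega
  simp only [h3]

theorem decode_im4 (c k : ℕ) :
    decode N (im4 (2 * N) c k) = flipc (reflc (rotc^[k] (decode N c))) := by
  rw [rotc_iter]
  funext x
  apply Fin.ext
  have h2 : ∀ y : Fin 3, ((2 - y : Fin 3) : ℕ) = 2 - (y : ℕ) := by decide
  unfold flipc reflc
  rw [h2, decode_val, decode_val, ps_iter, ps_refl]
  have h1 := dig_enc (2 * N) (fun p => 2 - dig c ((k + 2 * N - 1 - p) % (2 * N)))
    (fun p => lt_of_le_of_lt (Nat.sub_le _ _) (by norm_num)) _ (ps_lt x)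
  refine h1.trans ?_
  have h4 := ps_lt x
  have h3 : k + 2 * N - 1 - ps x = 2 * N - 1 - ps x + k := by omega
  simp only [h3]

theorem im_lt (n c k : ℕ) : im1 n c k < 3 ^ n ∧ im2 n c k < 3 ^ n ∧ im3 n c k < 3 ^ n ∧
    im4 n c k < 3 ^ n :=
  ⟨enc_lt _ _ (fun _ => dig_lt _ _),
    enc_lt _ _ (fun _ => lt_of_le_of_lt (Nat.sub_le _ _) (by norm_num)),
    enc_lt _ _ (fun _ => dig_lt _ _),
    enc_lt _ _ (fun _ => lt_of_le_of_lt (Nat.sub_le _ _) (by norm_num))⟩

/-! ### enumeration of configurations -/

theorem decode_surj (a : Cfg N) : ∃ c, c < 3 ^ (2 * N) ∧ decode N c = a := by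
  have hg : ∀ p, ((a (Fin.ofNat N (p / 2), decide (p % 2 = 1)) : Fin 3) : ℕ) < 3 :=
    fun p => Fin.isLt _
  refine ⟨enc (2 * N) (fun p => (a (Fin.ofNat N (p / 2), decide (p % 2 = 1)) : Fin 3)),
    enc_lt _ _ hg, ?_⟩
  funext x
  apply Fin.ext
  rw [decode_val]
  refine (dig_enc _ _ hg _ (ps_lt x)).trans ?_
  obtain ⟨i, b⟩ := x
  have hi := i.isLt
  congr 2
  cases b
  · simp only [ps, Bool.false_eq_true, if_false, add_zero]
    refine Prod.ext (Fin.ext ?_) ?_
    · simp only [Fin.val_ofNat]
      rw [Nat.mul_div_cancel_left _ (by norm_num), Nat.mod_eq_of_lt hi]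
    · simp
  · simp only [ps, if_true]
    refine Prod.ext (Fin.ext ?_) ?_
    · simp only [Fin.val_ofNat]
      have h1 : (2 * (i : ℕ) + 1) / 2 = i := by omega
      rw [h1, Nat.mod_eq_of_lt hi]
    · simp only [decide_eq_true_eq]
      omega

theorem sum_decode (f : Cfg N → ℂ) :
    ∑ a : Cfg N, f a = ∑ c ∈ Finset.range (3 ^ (2 * N)), f (decode N c) := by
  rw [Finset.sum_range]
  symm
  have hs : Function.Surjective (fun c : Fin (3 ^ (2 * N)) => decode N (c : ℕ)) := by
    intro a
    obtain ⟨c, hc, h⟩ := decode_surj a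
    exact ⟨⟨c, hc⟩, h⟩
  have hb : Function.Bijective (fun c : Fin (3 ^ (2 * N)) => decode N (c : ℕ)) := by
    rw [Fintype.bijective_iff_surjective_and_card]
    refine ⟨hs, ?_⟩
    simp only [Fintype.card_fin, Fintype.card_fun, Fintype.card_prod, Fintype.card_bool]
    rw [mul_comm]
  exact Fintype.sum_bijective _ hb _ _ (fun c => rfl)

/-! ### counting -/

/-- sum of a function over the images -/
def sk {R : Type*} [AddCommMonoid R] (n : ℕ) (G : ℕ → R) (c : ℕ) : ℕ → R
  | 0 => 0
  | k + 1 => sk n G c k + (G (im1 n c k) + G (im2 n c k) + (G (im3 n c k) + G (im4 n c k)))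

/-- number of images equal to v -/
def ck (n c v : ℕ) : ℕ → ℕ := sk n (fun u => if u = v then 1 else 0) c

/-- weighted number of images equal to v -/
def ct (n v : ℕ) (l : List (ℕ × ℕ)) : ℕ := (l.map fun r => r.2 * ck n r.1 v n).sum

theorem wk_eq (n B c k : ℕ) : wk n B c k = sk n (fun v => B ^ v) c k := by
  induction k with
  | zero => rfl
  | succ k ih => simp only [wk, sk, ih]

theorem sk_eq {R : Type*} [CommSemiring R] (n : ℕ) (G : ℕ → R) (c k : ℕ) :
    sk n G c k = ∑ v ∈ Finset.range (3 ^ n), (ck n c v k : R) * G v := by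
  induction k with
  | zero => simp [sk, ck]
  | succ k ih =>
      obtain ⟨h1, h2, h3, h4⟩ := im_lt n c k
      have key : ∀ u, u < 3 ^ n →
          G u = ∑ v ∈ Finset.range (3 ^ n), ((if u = v then 1 else 0 : ℕ) : R) * G v := by
        intro u hu
        simp [hu]
      simp only [sk, ck] at ih ⊢
      rw [ih]
      simp only [Nat.cast_add, add_mul, Finset.sum_add_distrib]
      rw [← key _ h1, ← key _ h2, ← key _ h3, ← key _ h4]

theorem ck_le (n c v k : ℕ) : ck n c v k ≤ 4 * k := by
  induction k with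
  | zero => simp [ck, sk]
  | succ k ih =>
      simp only [ck, sk] at ih ⊢
      have h : ∀ u : ℕ, (if u = v then 1 else 0 : ℕ) ≤ 1 := fun u => by split_ifs <;> omega
      have h1 := h (im1 n c k)
      have h2 := h (im2 n c k)
      have h3 := h (im3 n c k)
      have h4 := h (im4 n c k)
      omega

theorem wt_eq (n B : ℕ) (l : List (ℕ × ℕ)) :
    wt n B l = ∑ v ∈ Finset.range (3 ^ n), ct n v l * B ^ v := by
  induction l with
  | nil => simp [wt, ct]
  | cons r l ih =>
      simp only [wt, ct, List.map_cons, List.sum_cons, add_mul, Finset.sum_add_distrib] at ih ⊢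
      rw [ih, wk_eq, sk_eq, Finset.mul_sum]
      congr 1
      refine Finset.sum_congr rfl fun v _ => ?_
      simp [mul_assoc]

theorem ct_le (n v : ℕ) (l : List (ℕ × ℕ)) : ct n v l ≤ (l.map Prod.snd).sum * (4 * n) := by
  induction l with
  | nil => simp [ct]
  | cons r l ih =>
      simp only [ct, List.map_cons, List.sum_cons, add_mul] at ih ⊢
      exact add_le_add (Nat.mul_le_mul_left _ (ck_le _ _ _ _)) ih

theorem digits_unique (B : ℕ) : ∀ (M : ℕ) (g h : ℕ → ℕ), (∀ v, g v < B) → (∀ v, h v < B) →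
    ∑ v ∈ Finset.range M, g v * B ^ v = ∑ v ∈ Finset.range M, h v * B ^ v →
    ∀ v, v < M → g v = h v
  | 0, _, _, _, _, _, v, hv => absurd hv (Nat.not_lt_zero v)
  | M + 1, g, h, hg, hh, e, v, hv => by
      have hB : 0 < B := lt_of_le_of_lt (Nat.zero_le _) (hg 0)
      rw [Finset.sum_range_succ', Finset.sum_range_succ'] at e
      have e1 : ∀ w : ℕ → ℕ, ∑ k ∈ Finset.range M, w (k + 1) * B ^ (k + 1) + w 0 * B ^ 0 =
          w 0 + B * ∑ k ∈ Finset.range M, w (k + 1) * B ^ k := by
        intro w
        rw [Finset.mul_sum, pow_zero, mul_one, add_comm]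
        congr 1
        refine Finset.sum_congr rfl fun k _ => ?_
        rw [pow_succ]
        ring
      rw [e1 g, e1 h] at e
      have e2 : g 0 = h 0 := by
        have := congrArg (· % B) e
        simpa [Nat.add_mul_mod_self_left, Nat.mod_eq_of_lt (hg 0), Nat.mod_eq_of_lt (hh 0)]
          using this
      rw [e2] at e
      have e3 := Nat.eq_of_mul_eq_mul_left hB (Nat.add_left_cancel e)
      cases v with
      | zero => exact e2
      | succ v =>
          exact digits_unique B M (fun k => g (k + 1)) (fun k => h (k + 1)) (fun k => hg _)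
            (fun k => hh _) e3 v (Nat.lt_of_succ_lt_succ hv)

theorem ct_const (n B : ℕ) (l : List (ℕ × ℕ)) (hn : 4 * n < B)
    (hB : (l.map Prod.snd).sum * (4 * n) < B)
    (hW : wt n B l * (B - 1) = 4 * n * (B ^ 3 ^ n - 1)) (v : ℕ) (hv : v < 3 ^ n) :
    ct n v l = 4 * n := by
  rcases Nat.eq_zero_or_pos n with h0 | h0
  · subst h0
    have h1 := ct_le 0 v l
    simp only [mul_zero, Nat.le_zero] at h1 ⊢
    exact h1
  have hB2 : 2 ≤ B := by omega
  refine digits_unique B (3 ^ n) (fun v => ct n v l) (fun _ => 4 * n)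
    (fun v => lt_of_le_of_lt (ct_le n v l) hB) (fun _ => hn) ?_ v hv
  rw [← wt_eq, ← Finset.mul_sum]
  have h2 : (∑ v ∈ Finset.range (3 ^ n), B ^ v) * (B - 1) = B ^ 3 ^ n - 1 := by
    have h3 := Nat.geomSum_eq hB2 (3 ^ n)
    rw [h3]
    exact Nat.div_mul_cancel (by simpa using Nat.sub_dvd_pow_sub_pow B 1 (3 ^ n))
  have h4 : 0 < B - 1 := by omega
  apply Nat.eq_of_mul_eq_mul_right h4
  rw [hW, mul_assoc (4 * n), h2]

theorem sk_inv (f : Cfg N → ℂ) (h1 : ∀ a, f (rotc a) = f a) (h2 : ∀ a, f (reflc a) = f a)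
    (h3 : ∀ a, f (flipc a) = f a) (c k : ℕ) :
    sk (2 * N) (fun v => f (decode N v)) c k = (4 * k : ℕ) * f (decode N c) := by
  have h0 : ∀ (j : ℕ) (a : Cfg N), f (rotc^[j] a) = f a := by
    intro j
    induction j with
    | zero => intro a; rfl
    | succ j ih => intro a; rw [Function.iterate_succ_apply, ih, h1]
  induction k with
  | zero => simp [sk]
  | succ k ih =>
      simp only [sk]
      rw [ih, decode_im1, decode_im2, decode_im3, decode_im4, h3, h3, h2, h0]
      push_cast
      ring

theorem orbit_sum_aux (B n M q : ℕ) (l : List (ℕ × ℕ)) (hnn : n = 2 * N) (hM : M = 3 ^ n)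
    (hq : q = 4 * n) (hn : q < B)
    (hB : (l.map Prod.snd).sum * q < B)
    (hW : wt n B l * (B - 1) = q * (B ^ M - 1))
    (f : Cfg N → ℂ) (h1 : ∀ a, f (rotc a) = f a) (h2 : ∀ a, f (reflc a) = f a)
    (h3 : ∀ a, f (flipc a) = f a) :
    ∑ a : Cfg N, f a = (l.map fun r => (r.2 : ℂ) * f (decode N r.1)).sum := by
  subst hM hq hnn
  have hN : 0 < N := Nat.pos_of_ne_zero (NeZero.ne N)
  have e1 : ∑ v ∈ Finset.range (3 ^ (2 * N)), (ct (2 * N) v l : ℂ) * f (decode N v) =
      (4 * (2 * N) : ℕ) * ∑ a : Cfg N, f a := by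
    rw [sum_decode, Finset.mul_sum]
    refine Finset.sum_congr rfl fun v hv => ?_
    rw [ct_const (2 * N) B l hn hB hW v (Finset.mem_range.mp hv)]
  have e2 : ∀ l' : List (ℕ × ℕ),
      ∑ v ∈ Finset.range (3 ^ (2 * N)), (ct (2 * N) v l' : ℂ) * f (decode N v) =
      (4 * (2 * N) : ℕ) * (l'.map fun r => (r.2 : ℂ) * f (decode N r.1)).sum := by
    intro l'
    induction l' with
    | nil => simp [ct]
    | cons r l' ih =>
        simp only [ct, List.map_cons, List.sum_cons, Nat.cast_add, Nat.cast_mul, add_mul,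
          Finset.sum_add_distrib, mul_add] at ih ⊢
        rw [ih]
        congr 1
        have h5 := sk_eq (2 * N) (fun v => f (decode N v)) r.1 (2 * N)
        rw [sk_inv f h1 h2 h3] at h5
        calc ∑ v ∈ Finset.range (3 ^ (2 * N)),
              (r.2 : ℂ) * (ck (2 * N) r.1 v (2 * N) : ℂ) * f (decode N v)
            = (r.2 : ℂ) * ∑ v ∈ Finset.range (3 ^ (2 * N)),
              (ck (2 * N) r.1 v (2 * N) : ℂ) * f (decode N v) := by
              rw [Finset.mul_sum]
              exact Finset.sum_congr rfl fun v _ => by ring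
          _ = _ := by
              rw [← h5]
              push_cast
              ring
  have e3 : ((4 * (2 * N) : ℕ) : ℂ) ≠ 0 := by
    have : 4 * (2 * N) ≠ 0 := by omega
    exact_mod_cast this
  exact mul_left_cancel₀ e3 (e1.symm.trans (e2 l))

theorem wt_reps2 : wt 4 262144 reps2 * (262144 - 1) = 16 * (262144 ^ 81 - 1) := by
  decide +kernel

theorem wt_reps3 : wt 6 262144 reps3 * (262144 - 1) = 24 * (262144 ^ 729 - 1) := by
  decide +kernel

theorem wt_reps4 : wt 8 262144 reps4 * (262144 - 1) = 32 * (262144 ^ 6561 - 1) := by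
  decide +kernel

theorem orbit_sum2 (f : Cfg 2 → ℂ) (h1 : ∀ a, f (rotc a) = f a) (h2 : ∀ a, f (reflc a) = f a)
    (h3 : ∀ a, f (flipc a) = f a) :
    ∑ a : Cfg 2, f a = (reps2.map fun r => (r.2 : ℂ) * f (decode 2 r.1)).sum :=
  orbit_sum_aux 262144 4 81 16 reps2 (by norm_num) (by norm_num) (by norm_num) (by norm_num)
    (by decide +kernel) wt_reps2 f h1 h2 h3

theorem orbit_sum3 (f : Cfg 3 → ℂ) (h1 : ∀ a, f (rotc a) = f a) (h2 : ∀ a, f (reflc a) = f a)
    (h3 : ∀ a, f (flipc a) = f a) :
    ∑ a : Cfg 3, f a = (reps3.map fun r => (r.2 : ℂ) * f (decode 3 r.1)).sum :=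
  orbit_sum_aux 262144 6 729 24 reps3 (by norm_num) (by norm_num) (by norm_num) (by norm_num)
    (by decide +kernel) wt_reps3 f h1 h2 h3

theorem orbit_sum4 (f : Cfg 4 → ℂ) (h1 : ∀ a, f (rotc a) = f a) (h2 : ∀ a, f (reflc a) = f a)
    (h3 : ∀ a, f (flipc a) = f a) :
    ∑ a : Cfg 4, f a = (reps4.map fun r => (r.2 : ℂ) * f (decode 4 r.1)).sum :=
  orbit_sum_aux 262144 8 6561 32 reps4 (by norm_num) (by norm_num) (by norm_num) (by norm_num)
    (by decide +kernel) wt_reps4 f h1 h2 h3

end P348
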