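import Vale.Agent.Lib.P348.KT3

/-!
# P348 (K), module KT4: correctness of the evaluator
-/

namespace P348

open Finset

theorem comp_spec (r : Row) (v p q : ℕ → ℕ) :
    (comp r).f v p q = (rdat r).d * v (rdat r).i + ((rdat r).r.map v).sum
      + ((rdat r).u.map fun a => p (v a)).sum + ((rdat r).n.map fun a => q (v a)).sum := by
  cases r <;>
    simp only [comp, rdat, List.map_cons, List.map_nil, List.sum_cons, List.sum_nil, Nat.add_eq,
      Nat.mul_eq] <;> ring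

theorem lbeq_eq : ∀ l m : List ℕ, lbeq l m = true → l = m
  | [], [], _ => rfl
  | a :: l, b :: m, h => by
    simp only [lbeq, Bool.and_eq_true] at h
    rw [Nat.eq_of_beq_eq_true h.1, lbeq_eq l m h.2]
  | [], _ :: _, h => by simp [lbeq] at h
  | _ :: _, [], h => by simp [lbeq] at h

/-- the row `x` is the row `i` of the Hamiltonian -/
structure RowOK (L i : ℕ) (x : RD) : Prop where
  hi : x.i = i
  hd : x.d = spD L i
  hr : x.r = spR L i
  hu : x.u = spU L i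
  hn : x.n = spN L i

theorem rowChk_ok {L i : ℕ} {x : RD} (h : rowChk L i x = true) : RowOK L i x := by
  simp only [rowChk, Bool.and_eq_true] at h
  exact ⟨Nat.eq_of_beq_eq_true h.1.1.1.1, Nat.eq_of_beq_eq_true h.1.1.1.2, lbeq_eq _ _ h.1.1.2,
    lbeq_eq _ _ h.1.2, lbeq_eq _ _ h.2⟩

/-- the table is correct on a sector -/
def TabOK (L sig : ℕ) (t : Trie) : Prop :=
  ∀ i, i < 3 ^ L → digsum L i = sig → RowOK L i (rdat (t.get i))

theorem tabChk_ok (L sig : ℕ) (t : Trie) : ∀ (d lo : ℕ), tabChk L sig t d lo = true →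
    ∀ i, lo ≤ i → i < lo + 2 ^ d → i < 3 ^ L → digsum L i = sig → RowOK L i (rdat (t.get i))
  | 0, lo, h, i, h1, h2, h3, h4 => by
    have : i = lo := by
      rw [pow_zero] at h2
      omega
    subst this
    have e1 : Nat.ble (3 ^ L) i = false := by
      rw [← Bool.not_eq_true, Nat.ble_eq]
      omega
    simp only [tabChk, e1] at h
    have e2 : Nat.beq (digsum L i) sig = true := by rw [h4]; exact Nat.beq_refl sig
    simp only [e2] at h
    exact rowChk_ok (by simpa using h)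
  | d + 1, lo, h, i, h1, h2, h3, h4 => by
    simp only [tabChk, Bool.and_eq_true] at h
    by_cases hi : i < lo + 2 ^ d
    · exact tabChk_ok L sig t d lo h.1 i h1 hi h3 h4
    · exact tabChk_ok L sig t d (lo + 2 ^ d) h.2 i (by omega)
        (by rw [pow_succ] at h2; omega) h3 h4

theorem tabOK_of_chk (L sig : ℕ) (t : Trie) (d : ℕ) (hd : 3 ^ L ≤ 2 ^ d)
    (h : tabChk L sig t d 0 = true) : TabOK L sig t := by
  intro i hi hs
  exact tabChk_ok L sig t d 0 h i (Nat.zero_le _) (by omega) hi hs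

/-! ### rotations of packed values -/

theorem sum_lt_pow (a m : ℕ) (y : ℕ → ℕ) (hy : ∀ c, y c < 2 ^ a) :
    ∑ c ∈ range m, 2 ^ (a * c) * y c < 2 ^ (a * m) := by
  induction m with
  | zero => simp
  | succ m ih =>
    rw [sum_range_succ, mul_add, mul_one, pow_add]
    calc _ < 2 ^ (a * m) + 2 ^ (a * m) * y m := by omega
      _ = 2 ^ (a * m) * (y m + 1) := by ring
      _ ≤ 2 ^ (a * m) * 2 ^ a := Nat.mul_le_mul_left _ (hy m)

theorem zup_spec (a m : ℕ) (y : ℕ → ℕ) (hy : ∀ c, y c < 2 ^ a) :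
    zup (Nat.pred (Nat.pow 2 (a * m))) a (a * m) (∑ c ∈ range (m + 1), 2 ^ (a * c) * y c)
      = y m + ∑ c ∈ range m, 2 ^ (a * (c + 1)) * y c := by
  have h1 := sum_lt_pow a m y hy
  have h2 : (∑ c ∈ range (m + 1), 2 ^ (a * c) * y c) % 2 ^ (a * m)
      = ∑ c ∈ range m, 2 ^ (a * c) * y c := by
    rw [sum_range_succ, Nat.add_mul_mod_self_left, Nat.mod_eq_of_lt h1]
  have h3 : (∑ c ∈ range (m + 1), 2 ^ (a * c) * y c) / 2 ^ (a * m) = y m := by
    rw [sum_range_succ, Nat.add_mul_div_left _ _ (by positivity), Nat.div_eq_of_lt h1, zero_add]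
  unfold zup
  have e1 : Nat.land (∑ c ∈ range (m + 1), 2 ^ (a * c) * y c) (Nat.pred (Nat.pow 2 (a * m)))
      = (∑ c ∈ range (m + 1), 2 ^ (a * c) * y c) % 2 ^ (a * m) :=
    Nat.and_two_pow_sub_one_eq_mod _ _
  rw [e1, h2]
  have e2 : Nat.shiftLeft (∑ c ∈ range m, 2 ^ (a * c) * y c) a
      = (∑ c ∈ range m, 2 ^ (a * c) * y c) * 2 ^ a := Nat.shiftLeft_eq _ _
  have e3 : Nat.shiftRight (∑ c ∈ range (m + 1), 2 ^ (a * c) * y c) (a * m)
      = (∑ c ∈ range (m + 1), 2 ^ (a * c) * y c) / 2 ^ (a * m) := Nat.shiftRight_eq_div_pow _ _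
  rw [e2, e3, h3, Nat.add_eq, add_comm, sum_mul]
  congr 1
  refine sum_congr rfl fun c _ => ?_
  rw [mul_add, mul_one, pow_add]
  ring

theorem zdn_spec (a m : ℕ) (y : ℕ → ℕ) (hy : ∀ c, y c < 2 ^ a) :
    zdn (Nat.pred (Nat.pow 2 a)) a (a * m) (∑ c ∈ range (m + 1), 2 ^ (a * c) * y c)
      = (∑ c ∈ range m, 2 ^ (a * c) * y (c + 1)) + 2 ^ (a * m) * y 0 := by
  have h0 : ∑ c ∈ range (m + 1), 2 ^ (a * c) * y c
      = y 0 + 2 ^ a * ∑ c ∈ range m, 2 ^ (a * c) * y (c + 1) := by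
    rw [sum_range_succ', mul_zero, pow_zero, one_mul, add_comm, mul_sum]
    congr 1
    refine sum_congr rfl fun c _ => ?_
    rw [mul_add, mul_one, pow_add]
    ring
  have h2 : (∑ c ∈ range (m + 1), 2 ^ (a * c) * y c) % 2 ^ a = y 0 := by
    rw [h0, Nat.add_mul_mod_self_left, Nat.mod_eq_of_lt (hy 0)]
  have h3 : (∑ c ∈ range (m + 1), 2 ^ (a * c) * y c) / 2 ^ a
      = ∑ c ∈ range m, 2 ^ (a * c) * y (c + 1) := by
    rw [h0, Nat.add_mul_div_left _ _ (by positivity), Nat.div_eq_of_lt (hy 0), zero_add]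
  unfold zdn
  have e1 : Nat.land (∑ c ∈ range (m + 1), 2 ^ (a * c) * y c) (Nat.pred (Nat.pow 2 a))
      = (∑ c ∈ range (m + 1), 2 ^ (a * c) * y c) % 2 ^ a :=
    Nat.and_two_pow_sub_one_eq_mod _ _
  have e3 : Nat.shiftRight (∑ c ∈ range (m + 1), 2 ^ (a * c) * y c) a
      = (∑ c ∈ range (m + 1), 2 ^ (a * c) * y c) / 2 ^ a := Nat.shiftRight_eq_div_pow _ _
  have e2 : Nat.shiftLeft (y 0) (a * m) = y 0 * 2 ^ (a * m) := Nat.shiftLeft_eq _ _
  rw [e1, e3, h2, h3, e2, Nat.add_eq, mul_comm (y 0)]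

end P348
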