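import Vale.Agent.Lib.P348.KEv

/-!
# P348 (K): the rows of the Hamiltonian, ring of length 4, one table for each digit sum (data)
-/

set_option maxRecDepth 10000

namespace P348

def tab2_4 : Trie :=
 (.n (nat_lit 38)
 (.n (nat_lit 20)
 (.n (nat_lit 14)
 (.n (nat_lit 8)
 (.l (.k1_1 (nat_lit 4) (nat_lit 8) (nat_lit 14) (nat_lit 34)))
 (.l (.k1_4 (nat_lit 3) (nat_lit 14) (nat_lit 16) (nat_lit 8) (nat_lit 20) (nat_lit 32) (nat_lit 40))))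
 (.n (nat_lit 16)
 (.l (.k1_3 (nat_lit 4) (nat_lit 16) (nat_lit 14) (nat_lit 22) (nat_lit 34) (nat_lit 42)))
 (.l (.k1_3 (nat_lit 0) (nat_lit 20) (nat_lit 22) (nat_lit 14) (nat_lit 38) (nat_lit 46)))))
 (.n (nat_lit 24)
 (.n (nat_lit 22)
 (.l (.k1_4 (nat_lit 3) (nat_lit 22) (nat_lit 20) (nat_lit 24) (nat_lit 16) (nat_lit 40) (nat_lit 48)))
 (.l (.k0_2 (nat_lit 4) (nat_lit 24) (nat_lit 22) (nat_lit 42))))
 (.n (nat_lit 32)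
 (.l (.k1_3 (nat_lit 4) (nat_lit 32) (nat_lit 34) (nat_lit 38) (nat_lit 14) (nat_lit 58)))
 (.n (nat_lit 34)
 (.l (.k3_3 (nat_lit 3) (nat_lit 34) (nat_lit 32) (nat_lit 40) (nat_lit 16) (nat_lit 60) (nat_lit 8)))
 (.l (.k1_4 (nat_lit 3) (nat_lit 38) (nat_lit 40) (nat_lit 32) (nat_lit 20) (nat_lit 56) (nat_lit 64)))))))
 (.n (nat_lit 56)
 (.n (nat_lit 42)
 (.n (nat_lit 40)
 (.l (.k3_6 (nat_lit 4) (nat_lit 40) (nat_lit 38) (nat_lit 42) (nat_lit 34) (nat_lit 46) (nat_lit 22) (nat_lit 58) (nat_lit 66) (nat_lit 14)))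
 (.l (.k2_4 (nat_lit 3) (nat_lit 42) (nat_lit 40) (nat_lit 48) (nat_lit 24) (nat_lit 60) (nat_lit 16))))
 (.n (nat_lit 46)
 (.l (.k3_3 (nat_lit 3) (nat_lit 46) (nat_lit 48) (nat_lit 40) (nat_lit 64) (nat_lit 72) (nat_lit 20)))
 (.n (nat_lit 48)
 (.l (.k2_3 (nat_lit 4) (nat_lit 48) (nat_lit 46) (nat_lit 42) (nat_lit 66) (nat_lit 22)))
 (.l (.k0_2 (nat_lit 4) (nat_lit 56) (nat_lit 58) (nat_lit 38))))))
 (.n (nat_lit 60)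
 (.n (nat_lit 58)
 (.l (.k2_4 (nat_lit 3) (nat_lit 58) (nat_lit 56) (nat_lit 60) (nat_lit 64) (nat_lit 40) (nat_lit 32)))
 (.l (.k2_3 (nat_lit 0) (nat_lit 60) (nat_lit 58) (nat_lit 66) (nat_lit 42) (nat_lit 34))))
 (.n (nat_lit 64)
 (.l (.k2_3 (nat_lit 4) (nat_lit 64) (nat_lit 66) (nat_lit 58) (nat_lit 46) (nat_lit 38)))
 (.n (nat_lit 66)
 (.l (.k2_4 (nat_lit 3) (nat_lit 66) (nat_lit 64) (nat_lit 60) (nat_lit 72) (nat_lit 48) (nat_lit 40)))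
 (.l (.k2_1 (nat_lit 4) (nat_lit 72) (nat_lit 66) (nat_lit 46))))))))

def tab2_3 : Trie :=
 (.n (nat_lit 29)
 (.n (nat_lit 13)
 (.n (nat_lit 7)
 (.n (nat_lit 5)
 (.l (.k1_2 (nat_lit 4) (nat_lit 5) (nat_lit 7) (nat_lit 11) (nat_lit 31)))
 (.l (.k1_2 (nat_lit 4) (nat_lit 7) (nat_lit 5) (nat_lit 13) (nat_lit 33))))
 (.n (nat_lit 11)
 (.l (.k1_3 (nat_lit 2) (nat_lit 11) (nat_lit 13) (nat_lit 5) (nat_lit 29) (nat_lit 37)))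
 (.l (.k1_5 (nat_lit 4) (nat_lit 13) (nat_lit 11) (nat_lit 15) (nat_lit 7) (nat_lit 19) (nat_lit 31) (nat_lit 39)))))
 (.n (nat_lit 19)
 (.n (nat_lit 15)
 (.l (.k0_3 (nat_lit 4) (nat_lit 15) (nat_lit 13) (nat_lit 21) (nat_lit 33)))
 (.l (.k1_3 (nat_lit 2) (nat_lit 19) (nat_lit 21) (nat_lit 13) (nat_lit 37) (nat_lit 45))))
 (.n (nat_lit 21)
 (.l (.k0_3 (nat_lit 4) (nat_lit 21) (nat_lit 19) (nat_lit 15) (nat_lit 39)))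
 (.l (.k1_2 (nat_lit 4) (nat_lit 29) (nat_lit 31) (nat_lit 11) (nat_lit 55))))))
 (.n (nat_lit 39)
 (.n (nat_lit 33)
 (.n (nat_lit 31)
 (.l (.k3_4 (nat_lit 4) (nat_lit 31) (nat_lit 29) (nat_lit 33) (nat_lit 37) (nat_lit 13) (nat_lit 57) (nat_lit 5)))
 (.l (.k2_3 (nat_lit 2) (nat_lit 33) (nat_lit 31) (nat_lit 39) (nat_lit 15) (nat_lit 7))))
 (.n (nat_lit 37)
 (.l (.k3_4 (nat_lit 4) (nat_lit 37) (nat_lit 39) (nat_lit 31) (nat_lit 19) (nat_lit 55) (nat_lit 63) (nat_lit 11)))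
 (.l (.k2_5 (nat_lit 4) (nat_lit 39) (nat_lit 37) (nat_lit 33) (nat_lit 45) (nat_lit 21) (nat_lit 57) (nat_lit 13)))))
 (.n (nat_lit 55)
 (.n (nat_lit 45)
 (.l (.k2_2 (nat_lit 4) (nat_lit 45) (nat_lit 39) (nat_lit 63) (nat_lit 19)))
 (.l (.k2_2 (nat_lit 4) (nat_lit 55) (nat_lit 57) (nat_lit 37) (nat_lit 29))))
 (.n (nat_lit 57)
 (.l (.k2_3 (nat_lit 2) (nat_lit 57) (nat_lit 55) (nat_lit 63) (nat_lit 39) (nat_lit 31)))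
 (.l (.k2_2 (nat_lit 4) (nat_lit 63) (nat_lit 57) (nat_lit 45) (nat_lit 37)))))))

def tab2_2 : Trie :=
 (.n (nat_lit 12)
 (.n (nat_lit 4)
 (.n (nat_lit 2)
 (.l (.k1_1 (nat_lit 4) (nat_lit 2) (nat_lit 4) (nat_lit 28)))
 (.l (.k1_3 (nat_lit 5) (nat_lit 4) (nat_lit 2) (nat_lit 6) (nat_lit 10) (nat_lit 30))))
 (.n (nat_lit 6)
 (.l (.k0_2 (nat_lit 4) (nat_lit 6) (nat_lit 4) (nat_lit 12)))
 (.n (nat_lit 10)
 (.l (.k1_3 (nat_lit 4) (nat_lit 10) (nat_lit 12) (nat_lit 4) (nat_lit 28) (nat_lit 36)))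
 (.l (.k0_4 (nat_lit 5) (nat_lit 12) (nat_lit 10) (nat_lit 6) (nat_lit 18) (nat_lit 30))))))
 (.n (nat_lit 28)
 (.n (nat_lit 18)
 (.l (.k0_2 (nat_lit 4) (nat_lit 18) (nat_lit 12) (nat_lit 36)))
 (.l (.k3_2 (nat_lit 5) (nat_lit 28) (nat_lit 30) (nat_lit 10) (nat_lit 54) (nat_lit 2))))
 (.n (nat_lit 30)
 (.l (.k2_3 (nat_lit 4) (nat_lit 30) (nat_lit 28) (nat_lit 36) (nat_lit 12) (nat_lit 4)))
 (.n (nat_lit 36)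
 (.l (.k2_3 (nat_lit 5) (nat_lit 36) (nat_lit 30) (nat_lit 18) (nat_lit 54) (nat_lit 10)))
 (.l (.k2_1 (nat_lit 4) (nat_lit 54) (nat_lit 36) (nat_lit 28)))))))

def tab2_1 : Trie :=
 (.n (nat_lit 3)
 (.n (nat_lit 1)
 (.l (.k1_1 (nat_lit 6) (nat_lit 1) (nat_lit 3) (nat_lit 27)))
 (.l (.k0_2 (nat_lit 6) (nat_lit 3) (nat_lit 1) (nat_lit 9))))
 (.n (nat_lit 9)
 (.l (.k0_2 (nat_lit 6) (nat_lit 9) (nat_lit 3) (nat_lit 27)))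
 (.l (.k2_1 (nat_lit 6) (nat_lit 27) (nat_lit 9) (nat_lit 1)))))

def tab2_0 : Trie :=
 (.l (.k0_0 (nat_lit 8) (nat_lit 0)))

end P348
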