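import Vale.Agent.Lib.P348.KTab3
import Vale.Agent.Lib.P348.KTab2
import Vale.Agent.Lib.P348.KT4

/-!
# P348 (K): the tables of the rings of length 4 and 6 are correct (kernel evaluation)
-/


namespace P348

theorem tabOK3_6 : TabOK 6 6 tab3_6 :=
  tabOK_of_chk 6 6 tab3_6 10 (by norm_num) (by decide +kernel)

theorem tabOK3_5 : TabOK 6 5 tab3_5 :=
  tabOK_of_chk 6 5 tab3_5 10 (by norm_num) (by decide +kernel)

theorem tabOK3_4 : TabOK 6 4 tab3_4 :=
  tabOK_of_chk 6 4 tab3_4 10 (by norm_num) (by decide +kernel)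

theorem tabOK3_3 : TabOK 6 3 tab3_3 :=
  tabOK_of_chk 6 3 tab3_3 10 (by norm_num) (by decide +kernel)

theorem tabOK3_2 : TabOK 6 2 tab3_2 :=
  tabOK_of_chk 6 2 tab3_2 10 (by norm_num) (by decide +kernel)

theorem tabOK3_1 : TabOK 6 1 tab3_1 :=
  tabOK_of_chk 6 1 tab3_1 10 (by norm_num) (by decide +kernel)

theorem tabOK3_0 : TabOK 6 0 tab3_0 :=
  tabOK_of_chk 6 0 tab3_0 10 (by norm_num) (by decide +kernel)

theorem tabOK2_4 : TabOK 4 4 tab2_4 :=
  tabOK_of_chk 4 4 tab2_4 7 (by norm_num) (by decide +kernel)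

theorem tabOK2_3 : TabOK 4 3 tab2_3 :=
  tabOK_of_chk 4 3 tab2_3 7 (by norm_num) (by decide +kernel)

theorem tabOK2_2 : TabOK 4 2 tab2_2 :=
  tabOK_of_chk 4 2 tab2_2 7 (by norm_num) (by decide +kernel)

theorem tabOK2_1 : TabOK 4 1 tab2_1 :=
  tabOK_of_chk 4 1 tab2_1 7 (by norm_num) (by decide +kernel)

theorem tabOK2_0 : TabOK 4 0 tab2_0 :=
  tabOK_of_chk 4 0 tab2_0 7 (by norm_num) (by decide +kernel)

end P348
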