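import Vale.Agent.Lib.P348.KEv

/-!
# P348 (K): the rows of the Hamiltonian, ring of length 6, one table for each digit sum (data)
-/

set_option maxRecDepth 10000

namespace P348

def tab3_6 : Trie :=
 (.n (nat_lit 362)
 (.n (nat_lit 200)
 (.n (nat_lit 128)
 (.n (nat_lit 74)
 (.n (nat_lit 52)
 (.n (nat_lit 44)
 (.n (nat_lit 26)
 (.l (.k1_1 (nat_lit 8) (nat_lit 26) (nat_lit 44) (nat_lit 268)))
 (.l (.k1_4 (nat_lit 7) (nat_lit 44) (nat_lit 50) (nat_lit 26) (nat_lit 62) (nat_lit 98) (nat_lit 286))))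
 (.n (nat_lit 50)
 (.l (.k1_4 (nat_lit 6) (nat_lit 50) (nat_lit 52) (nat_lit 44) (nat_lit 68) (nat_lit 104) (nat_lit 292)))
 (.l (.k1_3 (nat_lit 8) (nat_lit 52) (nat_lit 50) (nat_lit 70) (nat_lit 106) (nat_lit 294)))))
 (.n (nat_lit 68)
 (.n (nat_lit 62)
 (.l (.k1_3 (nat_lit 4) (nat_lit 62) (nat_lit 68) (nat_lit 44) (nat_lit 116) (nat_lit 304)))
 (.l (.k1_5 (nat_lit 5) (nat_lit 68) (nat_lit 70) (nat_lit 62) (nat_lit 74) (nat_lit 50) (nat_lit 122) (nat_lit 310))))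
 (.n (nat_lit 70)
 (.l (.k1_4 (nat_lit 6) (nat_lit 70) (nat_lit 68) (nat_lit 76) (nat_lit 52) (nat_lit 124) (nat_lit 312)))
 (.l (.k1_3 (nat_lit 4) (nat_lit 74) (nat_lit 76) (nat_lit 68) (nat_lit 128) (nat_lit 316))))))
 (.n (nat_lit 104)
 (.n (nat_lit 78)
 (.n (nat_lit 76)
 (.l (.k1_4 (nat_lit 7) (nat_lit 76) (nat_lit 74) (nat_lit 78) (nat_lit 70) (nat_lit 130) (nat_lit 318)))
 (.l (.k0_2 (nat_lit 8) (nat_lit 78) (nat_lit 76) (nat_lit 132))))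
 (.n (nat_lit 98)
 (.l (.k1_4 (nat_lit 6) (nat_lit 98) (nat_lit 104) (nat_lit 116) (nat_lit 44) (nat_lit 260) (nat_lit 340)))
 (.l (.k1_5 (nat_lit 4) (nat_lit 104) (nat_lit 106) (nat_lit 98) (nat_lit 122) (nat_lit 50) (nat_lit 266) (nat_lit 346)))))
 (.n (nat_lit 116)
 (.n (nat_lit 106)
 (.l (.k1_4 (nat_lit 6) (nat_lit 106) (nat_lit 104) (nat_lit 124) (nat_lit 52) (nat_lit 268) (nat_lit 348)))
 (.l (.k1_5 (nat_lit 5) (nat_lit 116) (nat_lit 122) (nat_lit 98) (nat_lit 62) (nat_lit 170) (nat_lit 278) (nat_lit 358))))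
 (.n (nat_lit 122)
 (.l (.k1_8 (nat_lit 5) (nat_lit 122) (nat_lit 124) (nat_lit 116) (nat_lit 128) (nat_lit 104) (nat_lit 140) (nat_lit 68) (nat_lit 176) (nat_lit 284) (nat_lit 364)))
 (.n (nat_lit 124)
 (.l (.k1_7 (nat_lit 6) (nat_lit 124) (nat_lit 122) (nat_lit 130) (nat_lit 106) (nat_lit 142) (nat_lit 70) (nat_lit 178) (nat_lit 286) (nat_lit 366)))
 (.l (.k1_6 (nat_lit 3) (nat_lit 128) (nat_lit 130) (nat_lit 122) (nat_lit 146) (nat_lit 74) (nat_lit 182) (nat_lit 290) (nat_lit 370))))))))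
 (.n (nat_lit 156)
 (.n (nat_lit 142)
 (.n (nat_lit 132)
 (.n (nat_lit 130)
 (.l (.k1_7 (nat_lit 6) (nat_lit 130) (nat_lit 128) (nat_lit 132) (nat_lit 124) (nat_lit 148) (nat_lit 76) (nat_lit 184) (nat_lit 292) (nat_lit 372)))
 (.l (.k0_5 (nat_lit 7) (nat_lit 132) (nat_lit 130) (nat_lit 150) (nat_lit 78) (nat_lit 186) (nat_lit 294))))
 (.n (nat_lit 140)
 (.l (.k1_5 (nat_lit 4) (nat_lit 140) (nat_lit 142) (nat_lit 146) (nat_lit 122) (nat_lit 194) (nat_lit 302) (nat_lit 382)))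
 (.l (.k1_5 (nat_lit 4) (nat_lit 142) (nat_lit 140) (nat_lit 148) (nat_lit 124) (nat_lit 196) (nat_lit 304) (nat_lit 384)))))
 (.n (nat_lit 148)
 (.n (nat_lit 146)
 (.l (.k1_5 (nat_lit 4) (nat_lit 146) (nat_lit 148) (nat_lit 140) (nat_lit 128) (nat_lit 200) (nat_lit 308) (nat_lit 388)))
 (.l (.k1_7 (nat_lit 6) (nat_lit 148) (nat_lit 146) (nat_lit 150) (nat_lit 142) (nat_lit 154) (nat_lit 130) (nat_lit 202) (nat_lit 310) (nat_lit 390))))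
 (.n (nat_lit 150)
 (.l (.k0_5 (nat_lit 6) (nat_lit 150) (nat_lit 148) (nat_lit 156) (nat_lit 132) (nat_lit 204) (nat_lit 312)))
 (.n (nat_lit 154)
 (.l (.k1_4 (nat_lit 6) (nat_lit 154) (nat_lit 156) (nat_lit 148) (nat_lit 208) (nat_lit 316) (nat_lit 396)))
 (.l (.k0_4 (nat_lit 8) (nat_lit 156) (nat_lit 154) (nat_lit 150) (nat_lit 210) (nat_lit 318)))))))
 (.n (nat_lit 182)
 (.n (nat_lit 176)
 (.n (nat_lit 170)
 (.l (.k1_3 (nat_lit 4) (nat_lit 170) (nat_lit 176) (nat_lit 116) (nat_lit 332) (nat_lit 412)))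
 (.l (.k1_6 (nat_lit 3) (nat_lit 176) (nat_lit 178) (nat_lit 170) (nat_lit 182) (nat_lit 194) (nat_lit 122) (nat_lit 338) (nat_lit 418))))
 (.n (nat_lit 178)
 (.l (.k1_5 (nat_lit 4) (nat_lit 178) (nat_lit 176) (nat_lit 184) (nat_lit 196) (nat_lit 124) (nat_lit 340) (nat_lit 420)))
 (.l (.k1_5 (nat_lit 0) (nat_lit 182) (nat_lit 184) (nat_lit 176) (nat_lit 200) (nat_lit 128) (nat_lit 344) (nat_lit 424)))))
 (.n (nat_lit 186)
 (.n (nat_lit 184)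
 (.l (.k1_6 (nat_lit 3) (nat_lit 184) (nat_lit 182) (nat_lit 186) (nat_lit 178) (nat_lit 202) (nat_lit 130) (nat_lit 346) (nat_lit 426)))
 (.l (.k0_4 (nat_lit 4) (nat_lit 186) (nat_lit 184) (nat_lit 204) (nat_lit 132) (nat_lit 348))))
 (.n (nat_lit 194)
 (.l (.k1_5 (nat_lit 4) (nat_lit 194) (nat_lit 196) (nat_lit 200) (nat_lit 176) (nat_lit 140) (nat_lit 356) (nat_lit 436)))
 (.n (nat_lit 196)
 (.l (.k1_5 (nat_lit 4) (nat_lit 196) (nat_lit 194) (nat_lit 202) (nat_lit 178) (nat_lit 142) (nat_lit 358) (nat_lit 438)))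
 (.l (.k1_6 (nat_lit 3) (nat_lit 200) (nat_lit 202) (nat_lit 194) (nat_lit 182) (nat_lit 218) (nat_lit 146) (nat_lit 362) (nat_lit 442)))))))))
 (.n (nat_lit 290)
 (.n (nat_lit 226)
 (.n (nat_lit 210)
 (.n (nat_lit 204)
 (.n (nat_lit 202)
 (.l (.k1_8 (nat_lit 5) (nat_lit 202) (nat_lit 200) (nat_lit 204) (nat_lit 196) (nat_lit 208) (nat_lit 184) (nat_lit 220) (nat_lit 148) (nat_lit 364) (nat_lit 444)))
 (.l (.k0_6 (nat_lit 5) (nat_lit 204) (nat_lit 202) (nat_lit 210) (nat_lit 186) (nat_lit 222) (nat_lit 150) (nat_lit 366))))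
 (.n (nat_lit 208)
 (.l (.k1_5 (nat_lit 4) (nat_lit 208) (nat_lit 210) (nat_lit 202) (nat_lit 226) (nat_lit 154) (nat_lit 370) (nat_lit 450)))
 (.l (.k0_5 (nat_lit 6) (nat_lit 210) (nat_lit 208) (nat_lit 204) (nat_lit 228) (nat_lit 156) (nat_lit 372)))))
 (.n (nat_lit 220)
 (.n (nat_lit 218)
 (.l (.k1_3 (nat_lit 4) (nat_lit 218) (nat_lit 220) (nat_lit 200) (nat_lit 380) (nat_lit 460)))
 (.l (.k1_5 (nat_lit 5) (nat_lit 220) (nat_lit 218) (nat_lit 222) (nat_lit 226) (nat_lit 202) (nat_lit 382) (nat_lit 462))))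
 (.n (nat_lit 222)
 (.l (.k0_4 (nat_lit 4) (nat_lit 222) (nat_lit 220) (nat_lit 228) (nat_lit 204) (nat_lit 384)))
 (.l (.k1_4 (nat_lit 6) (nat_lit 226) (nat_lit 228) (nat_lit 220) (nat_lit 208) (nat_lit 388) (nat_lit 468))))))
 (.n (nat_lit 266)
 (.n (nat_lit 234)
 (.n (nat_lit 228)
 (.l (.k0_5 (nat_lit 7) (nat_lit 228) (nat_lit 226) (nat_lit 222) (nat_lit 234) (nat_lit 210) (nat_lit 390)))
 (.l (.k0_2 (nat_lit 8) (nat_lit 234) (nat_lit 228) (nat_lit 396))))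
 (.n (nat_lit 260)
 (.l (.k1_3 (nat_lit 8) (nat_lit 260) (nat_lit 266) (nat_lit 278) (nat_lit 98) (nat_lit 502)))
 (.l (.k1_4 (nat_lit 6) (nat_lit 266) (nat_lit 268) (nat_lit 260) (nat_lit 284) (nat_lit 104) (nat_lit 508)))))
 (.n (nat_lit 278)
 (.n (nat_lit 268)
 (.l (.k3_3 (nat_lit 7) (nat_lit 268) (nat_lit 266) (nat_lit 286) (nat_lit 106) (nat_lit 510) (nat_lit 26)))
 (.l (.k1_4 (nat_lit 6) (nat_lit 278) (nat_lit 284) (nat_lit 260) (nat_lit 332) (nat_lit 116) (nat_lit 520))))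
 (.n (nat_lit 284)
 (.l (.k1_7 (nat_lit 6) (nat_lit 284) (nat_lit 286) (nat_lit 278) (nat_lit 290) (nat_lit 266) (nat_lit 302) (nat_lit 338) (nat_lit 122) (nat_lit 526)))
 (.n (nat_lit 286)
 (.l (.k3_6 (nat_lit 6) (nat_lit 286) (nat_lit 284) (nat_lit 292) (nat_lit 268) (nat_lit 304) (nat_lit 340) (nat_lit 124) (nat_lit 528) (nat_lit 44)))
 (.l (.k1_5 (nat_lit 4) (nat_lit 290) (nat_lit 292) (nat_lit 284) (nat_lit 308) (nat_lit 344) (nat_lit 128) (nat_lit 532))))))))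
 (.n (nat_lit 318)
 (.n (nat_lit 304)
 (.n (nat_lit 294)
 (.n (nat_lit 292)
 (.l (.k3_6 (nat_lit 6) (nat_lit 292) (nat_lit 290) (nat_lit 294) (nat_lit 286) (nat_lit 310) (nat_lit 346) (nat_lit 130) (nat_lit 534) (nat_lit 50)))
 (.l (.k2_4 (nat_lit 6) (nat_lit 294) (nat_lit 292) (nat_lit 312) (nat_lit 348) (nat_lit 132) (nat_lit 52))))
 (.n (nat_lit 302)
 (.l (.k1_5 (nat_lit 4) (nat_lit 302) (nat_lit 304) (nat_lit 308) (nat_lit 284) (nat_lit 356) (nat_lit 140) (nat_lit 544)))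
 (.l (.k3_5 (nat_lit 3) (nat_lit 304) (nat_lit 302) (nat_lit 310) (nat_lit 286) (nat_lit 358) (nat_lit 142) (nat_lit 546) (nat_lit 62)))))
 (.n (nat_lit 310)
 (.n (nat_lit 308)
 (.l (.k1_5 (nat_lit 4) (nat_lit 308) (nat_lit 310) (nat_lit 302) (nat_lit 290) (nat_lit 362) (nat_lit 146) (nat_lit 550)))
 (.l (.k3_7 (nat_lit 5) (nat_lit 310) (nat_lit 308) (nat_lit 312) (nat_lit 304) (nat_lit 316) (nat_lit 292) (nat_lit 364) (nat_lit 148) (nat_lit 552) (nat_lit 68))))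
 (.n (nat_lit 312)
 (.l (.k2_5 (nat_lit 4) (nat_lit 312) (nat_lit 310) (nat_lit 318) (nat_lit 294) (nat_lit 366) (nat_lit 150) (nat_lit 70)))
 (.n (nat_lit 316)
 (.l (.k3_4 (nat_lit 5) (nat_lit 316) (nat_lit 318) (nat_lit 310) (nat_lit 370) (nat_lit 154) (nat_lit 558) (nat_lit 74)))
 (.l (.k2_4 (nat_lit 6) (nat_lit 318) (nat_lit 316) (nat_lit 312) (nat_lit 372) (nat_lit 156) (nat_lit 76)))))))
 (.n (nat_lit 344)
 (.n (nat_lit 338)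
 (.n (nat_lit 332)
 (.l (.k1_4 (nat_lit 7) (nat_lit 332) (nat_lit 338) (nat_lit 278) (nat_lit 170) (nat_lit 494) (nat_lit 574)))
 (.l (.k1_7 (nat_lit 6) (nat_lit 338) (nat_lit 340) (nat_lit 332) (nat_lit 344) (nat_lit 356) (nat_lit 284) (nat_lit 176) (nat_lit 500) (nat_lit 580))))
 (.n (nat_lit 340)
 (.l (.k3_6 (nat_lit 6) (nat_lit 340) (nat_lit 338) (nat_lit 346) (nat_lit 358) (nat_lit 286) (nat_lit 178) (nat_lit 502) (nat_lit 582) (nat_lit 98)))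
 (.l (.k1_6 (nat_lit 3) (nat_lit 344) (nat_lit 346) (nat_lit 338) (nat_lit 362) (nat_lit 290) (nat_lit 182) (nat_lit 506) (nat_lit 586)))))
 (.n (nat_lit 348)
 (.n (nat_lit 346)
 (.l (.k3_7 (nat_lit 5) (nat_lit 346) (nat_lit 344) (nat_lit 348) (nat_lit 340) (nat_lit 364) (nat_lit 292) (nat_lit 184) (nat_lit 508) (nat_lit 588) (nat_lit 104)))
 (.l (.k2_5 (nat_lit 5) (nat_lit 348) (nat_lit 346) (nat_lit 366) (nat_lit 294) (nat_lit 186) (nat_lit 510) (nat_lit 106))))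
 (.n (nat_lit 356)
 (.l (.k1_7 (nat_lit 6) (nat_lit 356) (nat_lit 358) (nat_lit 362) (nat_lit 338) (nat_lit 302) (nat_lit 410) (nat_lit 194) (nat_lit 518) (nat_lit 598)))
 (.n (nat_lit 358)
 (.l (.k3_7 (nat_lit 5) (nat_lit 358) (nat_lit 356) (nat_lit 364) (nat_lit 340) (nat_lit 304) (nat_lit 412) (nat_lit 196) (nat_lit 520) (nat_lit 600) (nat_lit 116)))
 (.l (.k1_8 (nat_lit 5) (nat_lit 362) (nat_lit 364) (nat_lit 356) (nat_lit 344) (nat_lit 380) (nat_lit 308) (nat_lit 416) (nat_lit 200) (nat_lit 524) (nat_lit 604))))))))))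
 (.n (nat_lit 524)
 (.n (nat_lit 426)
 (.n (nat_lit 388)
 (.n (nat_lit 372)
 (.n (nat_lit 366)
 (.n (nat_lit 364)
 (.l (.k3_10 (nat_lit 6) (nat_lit 364) (nat_lit 362) (nat_lit 366) (nat_lit 358) (nat_lit 370) (nat_lit 346) (nat_lit 382) (nat_lit 310) (nat_lit 418) (nat_lit 202) (nat_lit 526) (nat_lit 606) (nat_lit 122)))
 (.l (.k2_8 (nat_lit 5) (nat_lit 366) (nat_lit 364) (nat_lit 372) (nat_lit 348) (nat_lit 384) (nat_lit 312) (nat_lit 420) (nat_lit 204) (nat_lit 528) (nat_lit 124))))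
 (.n (nat_lit 370)
 (.l (.k3_7 (nat_lit 5) (nat_lit 370) (nat_lit 372) (nat_lit 364) (nat_lit 388) (nat_lit 316) (nat_lit 424) (nat_lit 208) (nat_lit 532) (nat_lit 612) (nat_lit 128)))
 (.l (.k2_7 (nat_lit 6) (nat_lit 372) (nat_lit 370) (nat_lit 366) (nat_lit 390) (nat_lit 318) (nat_lit 426) (nat_lit 210) (nat_lit 534) (nat_lit 130)))))
 (.n (nat_lit 382)
 (.n (nat_lit 380)
 (.l (.k1_5 (nat_lit 5) (nat_lit 380) (nat_lit 382) (nat_lit 362) (nat_lit 434) (nat_lit 218) (nat_lit 542) (nat_lit 622)))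
 (.l (.k3_7 (nat_lit 5) (nat_lit 382) (nat_lit 380) (nat_lit 384) (nat_lit 388) (nat_lit 364) (nat_lit 436) (nat_lit 220) (nat_lit 544) (nat_lit 624) (nat_lit 140))))
 (.n (nat_lit 384)
 (.l (.k2_6 (nat_lit 3) (nat_lit 384) (nat_lit 382) (nat_lit 390) (nat_lit 366) (nat_lit 438) (nat_lit 222) (nat_lit 546) (nat_lit 142)))
 (.l (.k3_6 (nat_lit 6) (nat_lit 388) (nat_lit 390) (nat_lit 382) (nat_lit 370) (nat_lit 442) (nat_lit 226) (nat_lit 550) (nat_lit 630) (nat_lit 146))))))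
 (.n (nat_lit 412)
 (.n (nat_lit 396)
 (.n (nat_lit 390)
 (.l (.k2_7 (nat_lit 6) (nat_lit 390) (nat_lit 388) (nat_lit 384) (nat_lit 396) (nat_lit 372) (nat_lit 444) (nat_lit 228) (nat_lit 552) (nat_lit 148)))
 (.l (.k2_4 (nat_lit 7) (nat_lit 396) (nat_lit 390) (nat_lit 450) (nat_lit 234) (nat_lit 558) (nat_lit 154))))
 (.n (nat_lit 410)
 (.l (.k1_4 (nat_lit 6) (nat_lit 410) (nat_lit 412) (nat_lit 416) (nat_lit 356) (nat_lit 572) (nat_lit 652)))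
 (.l (.k3_4 (nat_lit 5) (nat_lit 412) (nat_lit 410) (nat_lit 418) (nat_lit 358) (nat_lit 574) (nat_lit 654) (nat_lit 170)))))
 (.n (nat_lit 418)
 (.n (nat_lit 416)
 (.l (.k1_5 (nat_lit 4) (nat_lit 416) (nat_lit 418) (nat_lit 410) (nat_lit 434) (nat_lit 362) (nat_lit 578) (nat_lit 658)))
 (.l (.k3_7 (nat_lit 5) (nat_lit 418) (nat_lit 416) (nat_lit 420) (nat_lit 412) (nat_lit 424) (nat_lit 436) (nat_lit 364) (nat_lit 580) (nat_lit 660) (nat_lit 176))))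
 (.n (nat_lit 420)
 (.l (.k2_5 (nat_lit 4) (nat_lit 420) (nat_lit 418) (nat_lit 426) (nat_lit 438) (nat_lit 366) (nat_lit 582) (nat_lit 178)))
 (.n (nat_lit 424)
 (.l (.k3_5 (nat_lit 3) (nat_lit 424) (nat_lit 426) (nat_lit 418) (nat_lit 442) (nat_lit 370) (nat_lit 586) (nat_lit 666) (nat_lit 182)))
 (.l (.k2_5 (nat_lit 4) (nat_lit 426) (nat_lit 424) (nat_lit 420) (nat_lit 444) (nat_lit 372) (nat_lit 588) (nat_lit 184))))))))
 (.n (nat_lit 468)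
 (.n (nat_lit 442)
 (.n (nat_lit 436)
 (.n (nat_lit 434)
 (.l (.k1_4 (nat_lit 6) (nat_lit 434) (nat_lit 436) (nat_lit 416) (nat_lit 380) (nat_lit 596) (nat_lit 676)))
 (.l (.k3_6 (nat_lit 6) (nat_lit 436) (nat_lit 434) (nat_lit 438) (nat_lit 442) (nat_lit 418) (nat_lit 382) (nat_lit 598) (nat_lit 678) (nat_lit 194))))
 (.n (nat_lit 438)
 (.l (.k2_5 (nat_lit 4) (nat_lit 438) (nat_lit 436) (nat_lit 444) (nat_lit 420) (nat_lit 384) (nat_lit 600) (nat_lit 196)))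
 (.l (.k3_6 (nat_lit 6) (nat_lit 442) (nat_lit 444) (nat_lit 436) (nat_lit 424) (nat_lit 460) (nat_lit 388) (nat_lit 604) (nat_lit 684) (nat_lit 200)))))
 (.n (nat_lit 450)
 (.n (nat_lit 444)
 (.l (.k2_7 (nat_lit 6) (nat_lit 444) (nat_lit 442) (nat_lit 438) (nat_lit 450) (nat_lit 426) (nat_lit 462) (nat_lit 390) (nat_lit 606) (nat_lit 202)))
 (.l (.k2_4 (nat_lit 6) (nat_lit 450) (nat_lit 444) (nat_lit 468) (nat_lit 396) (nat_lit 612) (nat_lit 208))))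
 (.n (nat_lit 460)
 (.l (.k3_3 (nat_lit 7) (nat_lit 460) (nat_lit 462) (nat_lit 442) (nat_lit 622) (nat_lit 702) (nat_lit 218)))
 (.n (nat_lit 462)
 (.l (.k2_4 (nat_lit 6) (nat_lit 462) (nat_lit 460) (nat_lit 468) (nat_lit 444) (nat_lit 624) (nat_lit 220)))
 (.l (.k2_3 (nat_lit 8) (nat_lit 468) (nat_lit 462) (nat_lit 450) (nat_lit 630) (nat_lit 226)))))))
 (.n (nat_lit 506)
 (.n (nat_lit 500)
 (.n (nat_lit 494)
 (.l (.k0_2 (nat_lit 8) (nat_lit 494) (nat_lit 500) (nat_lit 332)))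
 (.l (.k0_5 (nat_lit 7) (nat_lit 500) (nat_lit 502) (nat_lit 494) (nat_lit 506) (nat_lit 518) (nat_lit 338))))
 (.n (nat_lit 502)
 (.l (.k2_4 (nat_lit 6) (nat_lit 502) (nat_lit 500) (nat_lit 508) (nat_lit 520) (nat_lit 340) (nat_lit 260)))
 (.l (.k0_4 (nat_lit 4) (nat_lit 506) (nat_lit 508) (nat_lit 500) (nat_lit 524) (nat_lit 344)))))
 (.n (nat_lit 510)
 (.n (nat_lit 508)
 (.l (.k2_5 (nat_lit 5) (nat_lit 508) (nat_lit 506) (nat_lit 510) (nat_lit 502) (nat_lit 526) (nat_lit 346) (nat_lit 266)))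
 (.l (.k2_3 (nat_lit 4) (nat_lit 510) (nat_lit 508) (nat_lit 528) (nat_lit 348) (nat_lit 268))))
 (.n (nat_lit 518)
 (.l (.k0_5 (nat_lit 6) (nat_lit 518) (nat_lit 520) (nat_lit 524) (nat_lit 500) (nat_lit 572) (nat_lit 356)))
 (.n (nat_lit 520)
 (.l (.k2_5 (nat_lit 4) (nat_lit 520) (nat_lit 518) (nat_lit 526) (nat_lit 502) (nat_lit 574) (nat_lit 358) (nat_lit 278)))
 (.l (.k0_6 (nat_lit 5) (nat_lit 524) (nat_lit 526) (nat_lit 518) (nat_lit 506) (nat_lit 542) (nat_lit 578) (nat_lit 362)))))))))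
 (.n (nat_lit 596)
 (.n (nat_lit 552)
 (.n (nat_lit 534)
 (.n (nat_lit 528)
 (.n (nat_lit 526)
 (.l (.k2_8 (nat_lit 5) (nat_lit 526) (nat_lit 524) (nat_lit 528) (nat_lit 520) (nat_lit 532) (nat_lit 508) (nat_lit 544) (nat_lit 580) (nat_lit 364) (nat_lit 284)))
 (.l (.k2_6 (nat_lit 3) (nat_lit 528) (nat_lit 526) (nat_lit 534) (nat_lit 510) (nat_lit 546) (nat_lit 582) (nat_lit 366) (nat_lit 286))))
 (.n (nat_lit 532)
 (.l (.k2_5 (nat_lit 4) (nat_lit 532) (nat_lit 534) (nat_lit 526) (nat_lit 550) (nat_lit 586) (nat_lit 370) (nat_lit 290)))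
 (.l (.k2_5 (nat_lit 4) (nat_lit 534) (nat_lit 532) (nat_lit 528) (nat_lit 552) (nat_lit 588) (nat_lit 372) (nat_lit 292)))))
 (.n (nat_lit 544)
 (.n (nat_lit 542)
 (.l (.k0_4 (nat_lit 4) (nat_lit 542) (nat_lit 544) (nat_lit 524) (nat_lit 596) (nat_lit 380)))
 (.l (.k2_6 (nat_lit 3) (nat_lit 544) (nat_lit 542) (nat_lit 546) (nat_lit 550) (nat_lit 526) (nat_lit 598) (nat_lit 382) (nat_lit 302))))
 (.n (nat_lit 546)
 (.l (.k2_5 (nat_lit 0) (nat_lit 546) (nat_lit 544) (nat_lit 552) (nat_lit 528) (nat_lit 600) (nat_lit 384) (nat_lit 304)))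
 (.n (nat_lit 550)
 (.l (.k2_5 (nat_lit 4) (nat_lit 550) (nat_lit 552) (nat_lit 544) (nat_lit 532) (nat_lit 604) (nat_lit 388) (nat_lit 308)))
 (.l (.k2_6 (nat_lit 3) (nat_lit 552) (nat_lit 550) (nat_lit 546) (nat_lit 558) (nat_lit 534) (nat_lit 606) (nat_lit 390) (nat_lit 310)))))))
 (.n (nat_lit 578)
 (.n (nat_lit 572)
 (.n (nat_lit 558)
 (.l (.k2_3 (nat_lit 4) (nat_lit 558) (nat_lit 552) (nat_lit 612) (nat_lit 396) (nat_lit 316)))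
 (.l (.k0_4 (nat_lit 8) (nat_lit 572) (nat_lit 574) (nat_lit 578) (nat_lit 518) (nat_lit 410))))
 (.n (nat_lit 574)
 (.l (.k2_4 (nat_lit 6) (nat_lit 574) (nat_lit 572) (nat_lit 580) (nat_lit 520) (nat_lit 412) (nat_lit 332)))
 (.l (.k0_5 (nat_lit 6) (nat_lit 578) (nat_lit 580) (nat_lit 572) (nat_lit 596) (nat_lit 524) (nat_lit 416)))))
 (.n (nat_lit 582)
 (.n (nat_lit 580)
 (.l (.k2_7 (nat_lit 6) (nat_lit 580) (nat_lit 578) (nat_lit 582) (nat_lit 574) (nat_lit 586) (nat_lit 598) (nat_lit 526) (nat_lit 418) (nat_lit 338)))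
 (.l (.k2_5 (nat_lit 4) (nat_lit 582) (nat_lit 580) (nat_lit 588) (nat_lit 600) (nat_lit 528) (nat_lit 420) (nat_lit 340))))
 (.n (nat_lit 586)
 (.l (.k2_5 (nat_lit 4) (nat_lit 586) (nat_lit 588) (nat_lit 580) (nat_lit 604) (nat_lit 532) (nat_lit 424) (nat_lit 344)))
 (.n (nat_lit 588)
 (.l (.k2_5 (nat_lit 4) (nat_lit 588) (nat_lit 586) (nat_lit 582) (nat_lit 606) (nat_lit 534) (nat_lit 426) (nat_lit 346)))
 (.l (.k0_5 (nat_lit 7) (nat_lit 596) (nat_lit 598) (nat_lit 578) (nat_lit 542) (nat_lit 650) (nat_lit 434))))))))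
 (.n (nat_lit 650)
 (.n (nat_lit 606)
 (.n (nat_lit 600)
 (.n (nat_lit 598)
 (.l (.k2_7 (nat_lit 6) (nat_lit 598) (nat_lit 596) (nat_lit 600) (nat_lit 604) (nat_lit 580) (nat_lit 544) (nat_lit 652) (nat_lit 436) (nat_lit 356)))
 (.l (.k2_6 (nat_lit 3) (nat_lit 600) (nat_lit 598) (nat_lit 606) (nat_lit 582) (nat_lit 546) (nat_lit 654) (nat_lit 438) (nat_lit 358))))
 (.n (nat_lit 604)
 (.l (.k2_7 (nat_lit 6) (nat_lit 604) (nat_lit 606) (nat_lit 598) (nat_lit 586) (nat_lit 622) (nat_lit 550) (nat_lit 658) (nat_lit 442) (nat_lit 362)))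
 (.l (.k2_8 (nat_lit 5) (nat_lit 606) (nat_lit 604) (nat_lit 600) (nat_lit 612) (nat_lit 588) (nat_lit 624) (nat_lit 552) (nat_lit 660) (nat_lit 444) (nat_lit 364)))))
 (.n (nat_lit 622)
 (.n (nat_lit 612)
 (.l (.k2_5 (nat_lit 5) (nat_lit 612) (nat_lit 606) (nat_lit 630) (nat_lit 558) (nat_lit 666) (nat_lit 450) (nat_lit 370)))
 (.l (.k2_4 (nat_lit 6) (nat_lit 622) (nat_lit 624) (nat_lit 604) (nat_lit 676) (nat_lit 460) (nat_lit 380))))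
 (.n (nat_lit 624)
 (.l (.k2_5 (nat_lit 4) (nat_lit 624) (nat_lit 622) (nat_lit 630) (nat_lit 606) (nat_lit 678) (nat_lit 462) (nat_lit 382)))
 (.n (nat_lit 630)
 (.l (.k2_4 (nat_lit 6) (nat_lit 630) (nat_lit 624) (nat_lit 612) (nat_lit 684) (nat_lit 468) (nat_lit 388)))
 (.l (.k0_2 (nat_lit 8) (nat_lit 650) (nat_lit 652) (nat_lit 596)))))))
 (.n (nat_lit 660)
 (.n (nat_lit 654)
 (.n (nat_lit 652)
 (.l (.k2_4 (nat_lit 7) (nat_lit 652) (nat_lit 650) (nat_lit 654) (nat_lit 658) (nat_lit 598) (nat_lit 410)))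
 (.l (.k2_3 (nat_lit 4) (nat_lit 654) (nat_lit 652) (nat_lit 660) (nat_lit 600) (nat_lit 412))))
 (.n (nat_lit 658)
 (.l (.k2_4 (nat_lit 6) (nat_lit 658) (nat_lit 660) (nat_lit 652) (nat_lit 676) (nat_lit 604) (nat_lit 416)))
 (.l (.k2_5 (nat_lit 5) (nat_lit 660) (nat_lit 658) (nat_lit 654) (nat_lit 666) (nat_lit 678) (nat_lit 606) (nat_lit 418)))))
 (.n (nat_lit 676)
 (.n (nat_lit 666)
 (.l (.k2_3 (nat_lit 4) (nat_lit 666) (nat_lit 660) (nat_lit 684) (nat_lit 612) (nat_lit 424)))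
 (.l (.k2_3 (nat_lit 8) (nat_lit 676) (nat_lit 678) (nat_lit 658) (nat_lit 622) (nat_lit 434))))
 (.n (nat_lit 678)
 (.l (.k2_4 (nat_lit 6) (nat_lit 678) (nat_lit 676) (nat_lit 684) (nat_lit 660) (nat_lit 624) (nat_lit 436)))
 (.n (nat_lit 684)
 (.l (.k2_4 (nat_lit 7) (nat_lit 684) (nat_lit 678) (nat_lit 666) (nat_lit 702) (nat_lit 630) (nat_lit 442)))
 (.l (.k2_1 (nat_lit 8) (nat_lit 702) (nat_lit 684) (nat_lit 460)))))))))))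

def tab3_5 : Trie :=
 (.n (nat_lit 289)
 (.n (nat_lit 139)
 (.n (nat_lit 73)
 (.n (nat_lit 47)
 (.n (nat_lit 25)
 (.n (nat_lit 17)
 (.l (.k1_2 (nat_lit 8) (nat_lit 17) (nat_lit 23) (nat_lit 35) (nat_lit 259)))
 (.n (nat_lit 23)
 (.l (.k1_3 (nat_lit 6) (nat_lit 23) (nat_lit 25) (nat_lit 17) (nat_lit 41) (nat_lit 265)))
 (.l (.k1_2 (nat_lit 8) (nat_lit 25) (nat_lit 23) (nat_lit 43) (nat_lit 267)))))
 (.n (nat_lit 41)
 (.n (nat_lit 35)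
 (.l (.k1_3 (nat_lit 6) (nat_lit 35) (nat_lit 41) (nat_lit 17) (nat_lit 89) (nat_lit 277)))
 (.l (.k1_6 (nat_lit 6) (nat_lit 41) (nat_lit 43) (nat_lit 35) (nat_lit 47) (nat_lit 23) (nat_lit 59) (nat_lit 95) (nat_lit 283))))
 (.n (nat_lit 43)
 (.l (.k1_5 (nat_lit 7) (nat_lit 43) (nat_lit 41) (nat_lit 49) (nat_lit 25) (nat_lit 61) (nat_lit 97) (nat_lit 285)))
 (.l (.k1_4 (nat_lit 4) (nat_lit 47) (nat_lit 49) (nat_lit 41) (nat_lit 65) (nat_lit 101) (nat_lit 289))))))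
 (.n (nat_lit 61)
 (.n (nat_lit 51)
 (.n (nat_lit 49)
 (.l (.k1_5 (nat_lit 7) (nat_lit 49) (nat_lit 47) (nat_lit 51) (nat_lit 43) (nat_lit 67) (nat_lit 103) (nat_lit 291)))
 (.l (.k0_3 (nat_lit 8) (nat_lit 51) (nat_lit 49) (nat_lit 69) (nat_lit 105))))
 (.n (nat_lit 59)
 (.l (.k1_4 (nat_lit 4) (nat_lit 59) (nat_lit 61) (nat_lit 65) (nat_lit 41) (nat_lit 113) (nat_lit 301)))
 (.l (.k1_4 (nat_lit 4) (nat_lit 61) (nat_lit 59) (nat_lit 67) (nat_lit 43) (nat_lit 115) (nat_lit 303)))))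
 (.n (nat_lit 67)
 (.n (nat_lit 65)
 (.l (.k1_4 (nat_lit 4) (nat_lit 65) (nat_lit 67) (nat_lit 59) (nat_lit 47) (nat_lit 119) (nat_lit 307)))
 (.l (.k1_6 (nat_lit 6) (nat_lit 67) (nat_lit 65) (nat_lit 69) (nat_lit 61) (nat_lit 73) (nat_lit 49) (nat_lit 121) (nat_lit 309))))
 (.n (nat_lit 69)
 (.l (.k0_4 (nat_lit 6) (nat_lit 69) (nat_lit 67) (nat_lit 75) (nat_lit 51) (nat_lit 123)))
 (.l (.k1_3 (nat_lit 6) (nat_lit 73) (nat_lit 75) (nat_lit 67) (nat_lit 127) (nat_lit 315)))))))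
 (.n (nat_lit 113)
 (.n (nat_lit 97)
 (.n (nat_lit 89)
 (.n (nat_lit 75)
 (.l (.k0_3 (nat_lit 8) (nat_lit 75) (nat_lit 73) (nat_lit 69) (nat_lit 129)))
 (.l (.k1_3 (nat_lit 6) (nat_lit 89) (nat_lit 95) (nat_lit 35) (nat_lit 251) (nat_lit 331))))
 (.n (nat_lit 95)
 (.l (.k1_6 (nat_lit 5) (nat_lit 95) (nat_lit 97) (nat_lit 89) (nat_lit 101) (nat_lit 113) (nat_lit 41) (nat_lit 257) (nat_lit 337)))
 (.l (.k1_5 (nat_lit 6) (nat_lit 97) (nat_lit 95) (nat_lit 103) (nat_lit 115) (nat_lit 43) (nat_lit 259) (nat_lit 339)))))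
 (.n (nat_lit 103)
 (.n (nat_lit 101)
 (.l (.k1_5 (nat_lit 2) (nat_lit 101) (nat_lit 103) (nat_lit 95) (nat_lit 119) (nat_lit 47) (nat_lit 263) (nat_lit 343)))
 (.l (.k1_6 (nat_lit 5) (nat_lit 103) (nat_lit 101) (nat_lit 105) (nat_lit 97) (nat_lit 121) (nat_lit 49) (nat_lit 265) (nat_lit 345))))
 (.n (nat_lit 105)
 (.l (.k0_4 (nat_lit 6) (nat_lit 105) (nat_lit 103) (nat_lit 123) (nat_lit 51) (nat_lit 267)))
 (.l (.k1_6 (nat_lit 5) (nat_lit 113) (nat_lit 115) (nat_lit 119) (nat_lit 95) (nat_lit 59) (nat_lit 167) (nat_lit 275) (nat_lit 355))))))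
 (.n (nat_lit 123)
 (.n (nat_lit 119)
 (.n (nat_lit 115)
 (.l (.k1_6 (nat_lit 5) (nat_lit 115) (nat_lit 113) (nat_lit 121) (nat_lit 97) (nat_lit 61) (nat_lit 169) (nat_lit 277) (nat_lit 357)))
 (.l (.k1_7 (nat_lit 4) (nat_lit 119) (nat_lit 121) (nat_lit 113) (nat_lit 101) (nat_lit 137) (nat_lit 65) (nat_lit 173) (nat_lit 281) (nat_lit 361))))
 (.n (nat_lit 121)
 (.l (.k1_9 (nat_lit 6) (nat_lit 121) (nat_lit 119) (nat_lit 123) (nat_lit 115) (nat_lit 127) (nat_lit 103) (nat_lit 139) (nat_lit 67) (nat_lit 175) (nat_lit 283) (nat_lit 363)))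
 (.l (.k0_7 (nat_lit 6) (nat_lit 123) (nat_lit 121) (nat_lit 129) (nat_lit 105) (nat_lit 141) (nat_lit 69) (nat_lit 177) (nat_lit 285)))))
 (.n (nat_lit 129)
 (.n (nat_lit 127)
 (.l (.k1_6 (nat_lit 5) (nat_lit 127) (nat_lit 129) (nat_lit 121) (nat_lit 145) (nat_lit 73) (nat_lit 181) (nat_lit 289) (nat_lit 369)))
 (.l (.k0_6 (nat_lit 7) (nat_lit 129) (nat_lit 127) (nat_lit 123) (nat_lit 147) (nat_lit 75) (nat_lit 183) (nat_lit 291))))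
 (.n (nat_lit 137)
 (.l (.k1_4 (nat_lit 4) (nat_lit 137) (nat_lit 139) (nat_lit 119) (nat_lit 191) (nat_lit 299) (nat_lit 379)))
 (.l (.k1_6 (nat_lit 5) (nat_lit 139) (nat_lit 137) (nat_lit 141) (nat_lit 145) (nat_lit 121) (nat_lit 193) (nat_lit 301) (nat_lit 381))))))))
 (.n (nat_lit 201)
 (.n (nat_lit 175)
 (.n (nat_lit 153)
 (.n (nat_lit 145)
 (.n (nat_lit 141)
 (.l (.k0_5 (nat_lit 4) (nat_lit 141) (nat_lit 139) (nat_lit 147) (nat_lit 123) (nat_lit 195) (nat_lit 303)))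
 (.l (.k1_5 (nat_lit 6) (nat_lit 145) (nat_lit 147) (nat_lit 139) (nat_lit 127) (nat_lit 199) (nat_lit 307) (nat_lit 387))))
 (.n (nat_lit 147)
 (.l (.k0_6 (nat_lit 7) (nat_lit 147) (nat_lit 145) (nat_lit 141) (nat_lit 153) (nat_lit 129) (nat_lit 201) (nat_lit 309)))
 (.l (.k0_3 (nat_lit 8) (nat_lit 153) (nat_lit 147) (nat_lit 207) (nat_lit 315)))))
 (.n (nat_lit 169)
 (.n (nat_lit 167)
 (.l (.k1_4 (nat_lit 4) (nat_lit 167) (nat_lit 169) (nat_lit 173) (nat_lit 113) (nat_lit 329) (nat_lit 409)))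
 (.l (.k1_4 (nat_lit 4) (nat_lit 169) (nat_lit 167) (nat_lit 175) (nat_lit 115) (nat_lit 331) (nat_lit 411))))
 (.n (nat_lit 173)
 (.l (.k1_5 (nat_lit 2) (nat_lit 173) (nat_lit 175) (nat_lit 167) (nat_lit 191) (nat_lit 119) (nat_lit 335) (nat_lit 415)))
 (.l (.k1_7 (nat_lit 4) (nat_lit 175) (nat_lit 173) (nat_lit 177) (nat_lit 169) (nat_lit 181) (nat_lit 193) (nat_lit 121) (nat_lit 337) (nat_lit 417))))))
 (.n (nat_lit 191)
 (.n (nat_lit 181)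
 (.n (nat_lit 177)
 (.l (.k0_5 (nat_lit 4) (nat_lit 177) (nat_lit 175) (nat_lit 183) (nat_lit 195) (nat_lit 123) (nat_lit 339)))
 (.l (.k1_5 (nat_lit 2) (nat_lit 181) (nat_lit 183) (nat_lit 175) (nat_lit 199) (nat_lit 127) (nat_lit 343) (nat_lit 423))))
 (.n (nat_lit 183)
 (.l (.k0_5 (nat_lit 4) (nat_lit 183) (nat_lit 181) (nat_lit 177) (nat_lit 201) (nat_lit 129) (nat_lit 345)))
 (.l (.k1_4 (nat_lit 4) (nat_lit 191) (nat_lit 193) (nat_lit 173) (nat_lit 137) (nat_lit 353) (nat_lit 433)))))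
 (.n (nat_lit 195)
 (.n (nat_lit 193)
 (.l (.k1_6 (nat_lit 5) (nat_lit 193) (nat_lit 191) (nat_lit 195) (nat_lit 199) (nat_lit 175) (nat_lit 139) (nat_lit 355) (nat_lit 435)))
 (.l (.k0_5 (nat_lit 4) (nat_lit 195) (nat_lit 193) (nat_lit 201) (nat_lit 177) (nat_lit 141) (nat_lit 357))))
 (.n (nat_lit 199)
 (.l (.k1_6 (nat_lit 5) (nat_lit 199) (nat_lit 201) (nat_lit 193) (nat_lit 181) (nat_lit 217) (nat_lit 145) (nat_lit 361) (nat_lit 441)))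
 (.l (.k0_7 (nat_lit 6) (nat_lit 201) (nat_lit 199) (nat_lit 195) (nat_lit 207) (nat_lit 183) (nat_lit 219) (nat_lit 147) (nat_lit 363)))))))
 (.n (nat_lit 263)
 (.n (nat_lit 225)
 (.n (nat_lit 217)
 (.n (nat_lit 207)
 (.l (.k0_4 (nat_lit 6) (nat_lit 207) (nat_lit 201) (nat_lit 225) (nat_lit 153) (nat_lit 369)))
 (.l (.k1_3 (nat_lit 6) (nat_lit 217) (nat_lit 219) (nat_lit 199) (nat_lit 379) (nat_lit 459))))
 (.n (nat_lit 219)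
 (.l (.k0_4 (nat_lit 6) (nat_lit 219) (nat_lit 217) (nat_lit 225) (nat_lit 201) (nat_lit 381)))
 (.l (.k0_3 (nat_lit 8) (nat_lit 225) (nat_lit 219) (nat_lit 207) (nat_lit 387)))))
 (.n (nat_lit 257)
 (.n (nat_lit 251)
 (.l (.k1_2 (nat_lit 8) (nat_lit 251) (nat_lit 257) (nat_lit 89) (nat_lit 493)))
 (.l (.k1_5 (nat_lit 7) (nat_lit 257) (nat_lit 259) (nat_lit 251) (nat_lit 263) (nat_lit 275) (nat_lit 95) (nat_lit 499))))
 (.n (nat_lit 259)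
 (.l (.k3_4 (nat_lit 7) (nat_lit 259) (nat_lit 257) (nat_lit 265) (nat_lit 277) (nat_lit 97) (nat_lit 501) (nat_lit 17)))
 (.l (.k1_4 (nat_lit 4) (nat_lit 263) (nat_lit 265) (nat_lit 257) (nat_lit 281) (nat_lit 101) (nat_lit 505))))))
 (.n (nat_lit 277)
 (.n (nat_lit 267)
 (.n (nat_lit 265)
 (.l (.k3_5 (nat_lit 6) (nat_lit 265) (nat_lit 263) (nat_lit 267) (nat_lit 259) (nat_lit 283) (nat_lit 103) (nat_lit 507) (nat_lit 23)))
 (.l (.k2_3 (nat_lit 6) (nat_lit 267) (nat_lit 265) (nat_lit 285) (nat_lit 105) (nat_lit 25))))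
 (.n (nat_lit 275)
 (.l (.k1_5 (nat_lit 6) (nat_lit 275) (nat_lit 277) (nat_lit 281) (nat_lit 257) (nat_lit 329) (nat_lit 113) (nat_lit 517)))
 (.l (.k3_5 (nat_lit 5) (nat_lit 277) (nat_lit 275) (nat_lit 283) (nat_lit 259) (nat_lit 331) (nat_lit 115) (nat_lit 519) (nat_lit 35)))))
 (.n (nat_lit 283)
 (.n (nat_lit 281)
 (.l (.k1_6 (nat_lit 5) (nat_lit 281) (nat_lit 283) (nat_lit 275) (nat_lit 263) (nat_lit 299) (nat_lit 335) (nat_lit 119) (nat_lit 523)))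
 (.l (.k3_8 (nat_lit 6) (nat_lit 283) (nat_lit 281) (nat_lit 285) (nat_lit 277) (nat_lit 289) (nat_lit 265) (nat_lit 301) (nat_lit 337) (nat_lit 121) (nat_lit 525) (nat_lit 41))))
 (.n (nat_lit 285)
 (.l (.k2_6 (nat_lit 5) (nat_lit 285) (nat_lit 283) (nat_lit 291) (nat_lit 267) (nat_lit 303) (nat_lit 339) (nat_lit 123) (nat_lit 43)))
 (.l (.k3_5 (nat_lit 5) (nat_lit 289) (nat_lit 291) (nat_lit 283) (nat_lit 307) (nat_lit 343) (nat_lit 127) (nat_lit 531) (nat_lit 47)))))))))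
 (.n (nat_lit 435)
 (.n (nat_lit 353)
 (.n (nat_lit 315)
 (.n (nat_lit 301)
 (.n (nat_lit 291)
 (.l (.k2_5 (nat_lit 6) (nat_lit 291) (nat_lit 289) (nat_lit 285) (nat_lit 309) (nat_lit 345) (nat_lit 129) (nat_lit 49)))
 (.n (nat_lit 299)
 (.l (.k1_4 (nat_lit 4) (nat_lit 299) (nat_lit 301) (nat_lit 281) (nat_lit 353) (nat_lit 137) (nat_lit 541)))
 (.l (.k3_6 (nat_lit 4) (nat_lit 301) (nat_lit 299) (nat_lit 303) (nat_lit 307) (nat_lit 283) (nat_lit 355) (nat_lit 139) (nat_lit 543) (nat_lit 59)))))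
 (.n (nat_lit 307)
 (.n (nat_lit 303)
 (.l (.k2_5 (nat_lit 2) (nat_lit 303) (nat_lit 301) (nat_lit 309) (nat_lit 285) (nat_lit 357) (nat_lit 141) (nat_lit 61)))
 (.l (.k3_5 (nat_lit 5) (nat_lit 307) (nat_lit 309) (nat_lit 301) (nat_lit 289) (nat_lit 361) (nat_lit 145) (nat_lit 549) (nat_lit 65))))
 (.n (nat_lit 309)
 (.l (.k2_6 (nat_lit 5) (nat_lit 309) (nat_lit 307) (nat_lit 303) (nat_lit 315) (nat_lit 291) (nat_lit 363) (nat_lit 147) (nat_lit 67)))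
 (.l (.k2_3 (nat_lit 6) (nat_lit 315) (nat_lit 309) (nat_lit 369) (nat_lit 153) (nat_lit 73))))))
 (.n (nat_lit 337)
 (.n (nat_lit 331)
 (.n (nat_lit 329)
 (.l (.k1_5 (nat_lit 7) (nat_lit 329) (nat_lit 331) (nat_lit 335) (nat_lit 275) (nat_lit 167) (nat_lit 491) (nat_lit 571)))
 (.l (.k3_5 (nat_lit 6) (nat_lit 331) (nat_lit 329) (nat_lit 337) (nat_lit 277) (nat_lit 169) (nat_lit 493) (nat_lit 573) (nat_lit 89))))
 (.n (nat_lit 335)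
 (.l (.k1_6 (nat_lit 5) (nat_lit 335) (nat_lit 337) (nat_lit 329) (nat_lit 353) (nat_lit 281) (nat_lit 173) (nat_lit 497) (nat_lit 577)))
 (.l (.k3_8 (nat_lit 6) (nat_lit 337) (nat_lit 335) (nat_lit 339) (nat_lit 331) (nat_lit 343) (nat_lit 355) (nat_lit 283) (nat_lit 175) (nat_lit 499) (nat_lit 579) (nat_lit 95)))))
 (.n (nat_lit 343)
 (.n (nat_lit 339)
 (.l (.k2_6 (nat_lit 5) (nat_lit 339) (nat_lit 337) (nat_lit 345) (nat_lit 357) (nat_lit 285) (nat_lit 177) (nat_lit 501) (nat_lit 97)))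
 (.l (.k3_6 (nat_lit 4) (nat_lit 343) (nat_lit 345) (nat_lit 337) (nat_lit 361) (nat_lit 289) (nat_lit 181) (nat_lit 505) (nat_lit 585) (nat_lit 101))))
 (.n (nat_lit 345)
 (.l (.k2_6 (nat_lit 5) (nat_lit 345) (nat_lit 343) (nat_lit 339) (nat_lit 363) (nat_lit 291) (nat_lit 183) (nat_lit 507) (nat_lit 103)))
 (.l (.k1_6 (nat_lit 6) (nat_lit 353) (nat_lit 355) (nat_lit 335) (nat_lit 299) (nat_lit 407) (nat_lit 191) (nat_lit 515) (nat_lit 595)))))))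
 (.n (nat_lit 387)
 (.n (nat_lit 363)
 (.n (nat_lit 357)
 (.n (nat_lit 355)
 (.l (.k3_8 (nat_lit 6) (nat_lit 355) (nat_lit 353) (nat_lit 357) (nat_lit 361) (nat_lit 337) (nat_lit 301) (nat_lit 409) (nat_lit 193) (nat_lit 517) (nat_lit 597) (nat_lit 113)))
 (.l (.k2_7 (nat_lit 4) (nat_lit 357) (nat_lit 355) (nat_lit 363) (nat_lit 339) (nat_lit 303) (nat_lit 411) (nat_lit 195) (nat_lit 519) (nat_lit 115))))
 (.n (nat_lit 361)
 (.l (.k3_8 (nat_lit 6) (nat_lit 361) (nat_lit 363) (nat_lit 355) (nat_lit 343) (nat_lit 379) (nat_lit 307) (nat_lit 415) (nat_lit 199) (nat_lit 523) (nat_lit 603) (nat_lit 119)))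
 (.l (.k2_9 (nat_lit 6) (nat_lit 363) (nat_lit 361) (nat_lit 357) (nat_lit 369) (nat_lit 345) (nat_lit 381) (nat_lit 309) (nat_lit 417) (nat_lit 201) (nat_lit 525) (nat_lit 121)))))
 (.n (nat_lit 379)
 (.n (nat_lit 369)
 (.l (.k2_6 (nat_lit 6) (nat_lit 369) (nat_lit 363) (nat_lit 387) (nat_lit 315) (nat_lit 423) (nat_lit 207) (nat_lit 531) (nat_lit 127)))
 (.l (.k3_5 (nat_lit 6) (nat_lit 379) (nat_lit 381) (nat_lit 361) (nat_lit 433) (nat_lit 217) (nat_lit 541) (nat_lit 621) (nat_lit 137))))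
 (.n (nat_lit 381)
 (.l (.k2_6 (nat_lit 5) (nat_lit 381) (nat_lit 379) (nat_lit 387) (nat_lit 363) (nat_lit 435) (nat_lit 219) (nat_lit 543) (nat_lit 139)))
 (.l (.k2_5 (nat_lit 7) (nat_lit 387) (nat_lit 381) (nat_lit 369) (nat_lit 441) (nat_lit 225) (nat_lit 549) (nat_lit 145))))))
 (.n (nat_lit 415)
 (.n (nat_lit 409)
 (.n (nat_lit 407)
 (.l (.k1_3 (nat_lit 6) (nat_lit 407) (nat_lit 409) (nat_lit 353) (nat_lit 569) (nat_lit 649)))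
 (.l (.k3_5 (nat_lit 6) (nat_lit 409) (nat_lit 407) (nat_lit 411) (nat_lit 415) (nat_lit 355) (nat_lit 571) (nat_lit 651) (nat_lit 167))))
 (.n (nat_lit 411)
 (.l (.k2_4 (nat_lit 4) (nat_lit 411) (nat_lit 409) (nat_lit 417) (nat_lit 357) (nat_lit 573) (nat_lit 169)))
 (.l (.k3_5 (nat_lit 5) (nat_lit 415) (nat_lit 417) (nat_lit 409) (nat_lit 433) (nat_lit 361) (nat_lit 577) (nat_lit 657) (nat_lit 173)))))
 (.n (nat_lit 423)
 (.n (nat_lit 417)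
 (.l (.k2_6 (nat_lit 5) (nat_lit 417) (nat_lit 415) (nat_lit 411) (nat_lit 423) (nat_lit 435) (nat_lit 363) (nat_lit 579) (nat_lit 175)))
 (.l (.k2_4 (nat_lit 4) (nat_lit 423) (nat_lit 417) (nat_lit 441) (nat_lit 369) (nat_lit 585) (nat_lit 181))))
 (.n (nat_lit 433)
 (.l (.k3_4 (nat_lit 7) (nat_lit 433) (nat_lit 435) (nat_lit 415) (nat_lit 379) (nat_lit 595) (nat_lit 675) (nat_lit 191)))
 (.l (.k2_5 (nat_lit 6) (nat_lit 435) (nat_lit 433) (nat_lit 441) (nat_lit 417) (nat_lit 381) (nat_lit 597) (nat_lit 193))))))))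
 (.n (nat_lit 541)
 (.n (nat_lit 505)
 (.n (nat_lit 493)
 (.n (nat_lit 459)
 (.n (nat_lit 441)
 (.l (.k2_5 (nat_lit 7) (nat_lit 441) (nat_lit 435) (nat_lit 423) (nat_lit 459) (nat_lit 387) (nat_lit 603) (nat_lit 199)))
 (.l (.k2_2 (nat_lit 8) (nat_lit 459) (nat_lit 441) (nat_lit 621) (nat_lit 217))))
 (.n (nat_lit 491)
 (.l (.k0_3 (nat_lit 8) (nat_lit 491) (nat_lit 493) (nat_lit 497) (nat_lit 329)))
 (.l (.k2_3 (nat_lit 6) (nat_lit 493) (nat_lit 491) (nat_lit 499) (nat_lit 331) (nat_lit 251)))))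
 (.n (nat_lit 499)
 (.n (nat_lit 497)
 (.l (.k0_4 (nat_lit 6) (nat_lit 497) (nat_lit 499) (nat_lit 491) (nat_lit 515) (nat_lit 335)))
 (.l (.k2_6 (nat_lit 6) (nat_lit 499) (nat_lit 497) (nat_lit 501) (nat_lit 493) (nat_lit 505) (nat_lit 517) (nat_lit 337) (nat_lit 257))))
 (.n (nat_lit 501)
 (.l (.k2_4 (nat_lit 4) (nat_lit 501) (nat_lit 499) (nat_lit 507) (nat_lit 519) (nat_lit 339) (nat_lit 259)))
 (.l (.k2_4 (nat_lit 4) (nat_lit 505) (nat_lit 507) (nat_lit 499) (nat_lit 523) (nat_lit 343) (nat_lit 263))))))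
 (.n (nat_lit 519)
 (.n (nat_lit 515)
 (.n (nat_lit 507)
 (.l (.k2_4 (nat_lit 4) (nat_lit 507) (nat_lit 505) (nat_lit 501) (nat_lit 525) (nat_lit 345) (nat_lit 265)))
 (.l (.k0_4 (nat_lit 6) (nat_lit 515) (nat_lit 517) (nat_lit 497) (nat_lit 569) (nat_lit 353))))
 (.n (nat_lit 517)
 (.l (.k2_6 (nat_lit 5) (nat_lit 517) (nat_lit 515) (nat_lit 519) (nat_lit 523) (nat_lit 499) (nat_lit 571) (nat_lit 355) (nat_lit 275)))
 (.l (.k2_5 (nat_lit 2) (nat_lit 519) (nat_lit 517) (nat_lit 525) (nat_lit 501) (nat_lit 573) (nat_lit 357) (nat_lit 277)))))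
 (.n (nat_lit 525)
 (.n (nat_lit 523)
 (.l (.k2_6 (nat_lit 5) (nat_lit 523) (nat_lit 525) (nat_lit 517) (nat_lit 505) (nat_lit 541) (nat_lit 577) (nat_lit 361) (nat_lit 281)))
 (.l (.k2_7 (nat_lit 4) (nat_lit 525) (nat_lit 523) (nat_lit 519) (nat_lit 531) (nat_lit 507) (nat_lit 543) (nat_lit 579) (nat_lit 363) (nat_lit 283))))
 (.n (nat_lit 531)
 (.l (.k2_4 (nat_lit 4) (nat_lit 531) (nat_lit 525) (nat_lit 549) (nat_lit 585) (nat_lit 369) (nat_lit 289)))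
 (.l (.k2_4 (nat_lit 4) (nat_lit 541) (nat_lit 543) (nat_lit 523) (nat_lit 595) (nat_lit 379) (nat_lit 299)))))))
 (.n (nat_lit 585)
 (.n (nat_lit 571)
 (.n (nat_lit 549)
 (.n (nat_lit 543)
 (.l (.k2_5 (nat_lit 2) (nat_lit 543) (nat_lit 541) (nat_lit 549) (nat_lit 525) (nat_lit 597) (nat_lit 381) (nat_lit 301)))
 (.l (.k2_4 (nat_lit 4) (nat_lit 549) (nat_lit 543) (nat_lit 531) (nat_lit 603) (nat_lit 387) (nat_lit 307))))
 (.n (nat_lit 569)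
 (.l (.k0_3 (nat_lit 8) (nat_lit 569) (nat_lit 571) (nat_lit 515) (nat_lit 407)))
 (.l (.k2_5 (nat_lit 7) (nat_lit 571) (nat_lit 569) (nat_lit 573) (nat_lit 577) (nat_lit 517) (nat_lit 409) (nat_lit 329)))))
 (.n (nat_lit 577)
 (.n (nat_lit 573)
 (.l (.k2_4 (nat_lit 4) (nat_lit 573) (nat_lit 571) (nat_lit 579) (nat_lit 519) (nat_lit 411) (nat_lit 331)))
 (.l (.k2_5 (nat_lit 6) (nat_lit 577) (nat_lit 579) (nat_lit 571) (nat_lit 595) (nat_lit 523) (nat_lit 415) (nat_lit 335))))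
 (.n (nat_lit 579)
 (.l (.k2_6 (nat_lit 5) (nat_lit 579) (nat_lit 577) (nat_lit 573) (nat_lit 585) (nat_lit 597) (nat_lit 525) (nat_lit 417) (nat_lit 337)))
 (.l (.k2_4 (nat_lit 4) (nat_lit 585) (nat_lit 579) (nat_lit 603) (nat_lit 531) (nat_lit 423) (nat_lit 343))))))
 (.n (nat_lit 621)
 (.n (nat_lit 597)
 (.n (nat_lit 595)
 (.l (.k2_5 (nat_lit 7) (nat_lit 595) (nat_lit 597) (nat_lit 577) (nat_lit 541) (nat_lit 649) (nat_lit 433) (nat_lit 353)))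
 (.l (.k2_6 (nat_lit 5) (nat_lit 597) (nat_lit 595) (nat_lit 603) (nat_lit 579) (nat_lit 543) (nat_lit 651) (nat_lit 435) (nat_lit 355))))
 (.n (nat_lit 603)
 (.l (.k2_6 (nat_lit 6) (nat_lit 603) (nat_lit 597) (nat_lit 585) (nat_lit 621) (nat_lit 549) (nat_lit 657) (nat_lit 441) (nat_lit 361)))
 (.l (.k2_3 (nat_lit 6) (nat_lit 621) (nat_lit 603) (nat_lit 675) (nat_lit 459) (nat_lit 379)))))
 (.n (nat_lit 651)
 (.n (nat_lit 649)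
 (.l (.k2_2 (nat_lit 8) (nat_lit 649) (nat_lit 651) (nat_lit 595) (nat_lit 407)))
 (.l (.k2_3 (nat_lit 6) (nat_lit 651) (nat_lit 649) (nat_lit 657) (nat_lit 597) (nat_lit 409))))
 (.n (nat_lit 657)
 (.l (.k2_3 (nat_lit 6) (nat_lit 657) (nat_lit 651) (nat_lit 675) (nat_lit 603) (nat_lit 415)))
 (.l (.k2_2 (nat_lit 8) (nat_lit 675) (nat_lit 657) (nat_lit 621) (nat_lit 433))))))))))

def tab3_4 : Trie :=
 (.n (nat_lit 216)
 (.n (nat_lit 92)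
 (.n (nat_lit 42)
 (.n (nat_lit 22)
 (.n (nat_lit 14)
 (.n (nat_lit 8)
 (.l (.k1_1 (nat_lit 8) (nat_lit 8) (nat_lit 14) (nat_lit 250)))
 (.l (.k1_4 (nat_lit 7) (nat_lit 14) (nat_lit 16) (nat_lit 8) (nat_lit 20) (nat_lit 32) (nat_lit 256))))
 (.n (nat_lit 16)
 (.l (.k1_3 (nat_lit 8) (nat_lit 16) (nat_lit 14) (nat_lit 22) (nat_lit 34) (nat_lit 258)))
 (.n (nat_lit 20)
 (.l (.k1_3 (nat_lit 4) (nat_lit 20) (nat_lit 22) (nat_lit 14) (nat_lit 38) (nat_lit 262)))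
 (.l (.k1_4 (nat_lit 7) (nat_lit 22) (nat_lit 20) (nat_lit 24) (nat_lit 16) (nat_lit 40) (nat_lit 264))))))
 (.n (nat_lit 34)
 (.n (nat_lit 24)
 (.l (.k0_2 (nat_lit 8) (nat_lit 24) (nat_lit 22) (nat_lit 42)))
 (.n (nat_lit 32)
 (.l (.k1_4 (nat_lit 6) (nat_lit 32) (nat_lit 34) (nat_lit 38) (nat_lit 14) (nat_lit 86) (nat_lit 274)))
 (.l (.k1_4 (nat_lit 6) (nat_lit 34) (nat_lit 32) (nat_lit 40) (nat_lit 16) (nat_lit 88) (nat_lit 276)))))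
 (.n (nat_lit 38)
 (.l (.k1_5 (nat_lit 5) (nat_lit 38) (nat_lit 40) (nat_lit 32) (nat_lit 20) (nat_lit 56) (nat_lit 92) (nat_lit 280)))
 (.n (nat_lit 40)
 (.l (.k1_7 (nat_lit 7) (nat_lit 40) (nat_lit 38) (nat_lit 42) (nat_lit 34) (nat_lit 46) (nat_lit 22) (nat_lit 58) (nat_lit 94) (nat_lit 282)))
 (.l (.k0_5 (nat_lit 7) (nat_lit 42) (nat_lit 40) (nat_lit 48) (nat_lit 24) (nat_lit 60) (nat_lit 96)))))))
 (.n (nat_lit 60)
 (.n (nat_lit 48)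
 (.n (nat_lit 46)
 (.l (.k1_4 (nat_lit 6) (nat_lit 46) (nat_lit 48) (nat_lit 40) (nat_lit 64) (nat_lit 100) (nat_lit 288)))
 (.l (.k0_4 (nat_lit 8) (nat_lit 48) (nat_lit 46) (nat_lit 42) (nat_lit 66) (nat_lit 102))))
 (.n (nat_lit 56)
 (.l (.k1_3 (nat_lit 4) (nat_lit 56) (nat_lit 58) (nat_lit 38) (nat_lit 110) (nat_lit 298)))
 (.n (nat_lit 58)
 (.l (.k1_5 (nat_lit 5) (nat_lit 58) (nat_lit 56) (nat_lit 60) (nat_lit 64) (nat_lit 40) (nat_lit 112) (nat_lit 300)))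
 (.l (.k0_4 (nat_lit 4) (nat_lit 60) (nat_lit 58) (nat_lit 66) (nat_lit 42) (nat_lit 114))))))
 (.n (nat_lit 72)
 (.n (nat_lit 64)
 (.l (.k1_4 (nat_lit 6) (nat_lit 64) (nat_lit 66) (nat_lit 58) (nat_lit 46) (nat_lit 118) (nat_lit 306)))
 (.n (nat_lit 66)
 (.l (.k0_5 (nat_lit 7) (nat_lit 66) (nat_lit 64) (nat_lit 60) (nat_lit 72) (nat_lit 48) (nat_lit 120)))
 (.l (.k0_2 (nat_lit 8) (nat_lit 72) (nat_lit 66) (nat_lit 126)))))
 (.n (nat_lit 86)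
 (.l (.k1_4 (nat_lit 6) (nat_lit 86) (nat_lit 88) (nat_lit 92) (nat_lit 32) (nat_lit 248) (nat_lit 328)))
 (.n (nat_lit 88)
 (.l (.k1_4 (nat_lit 6) (nat_lit 88) (nat_lit 86) (nat_lit 94) (nat_lit 34) (nat_lit 250) (nat_lit 330)))
 (.l (.k1_5 (nat_lit 4) (nat_lit 92) (nat_lit 94) (nat_lit 86) (nat_lit 110) (nat_lit 38) (nat_lit 254) (nat_lit 334))))))))
 (.n (nat_lit 136)
 (.n (nat_lit 110)
 (.n (nat_lit 96)
 (.n (nat_lit 94)
 (.l (.k1_7 (nat_lit 6) (nat_lit 94) (nat_lit 92) (nat_lit 96) (nat_lit 88) (nat_lit 100) (nat_lit 112) (nat_lit 40) (nat_lit 256) (nat_lit 336)))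
 (.l (.k0_5 (nat_lit 6) (nat_lit 96) (nat_lit 94) (nat_lit 102) (nat_lit 114) (nat_lit 42) (nat_lit 258))))
 (.n (nat_lit 100)
 (.l (.k1_5 (nat_lit 4) (nat_lit 100) (nat_lit 102) (nat_lit 94) (nat_lit 118) (nat_lit 46) (nat_lit 262) (nat_lit 342)))
 (.n (nat_lit 102)
 (.l (.k0_5 (nat_lit 6) (nat_lit 102) (nat_lit 100) (nat_lit 96) (nat_lit 120) (nat_lit 48) (nat_lit 264)))
 (.l (.k1_5 (nat_lit 5) (nat_lit 110) (nat_lit 112) (nat_lit 92) (nat_lit 56) (nat_lit 164) (nat_lit 272) (nat_lit 352))))))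
 (.n (nat_lit 118)
 (.n (nat_lit 112)
 (.l (.k1_7 (nat_lit 6) (nat_lit 112) (nat_lit 110) (nat_lit 114) (nat_lit 118) (nat_lit 94) (nat_lit 58) (nat_lit 166) (nat_lit 274) (nat_lit 354)))
 (.n (nat_lit 114)
 (.l (.k0_6 (nat_lit 5) (nat_lit 114) (nat_lit 112) (nat_lit 120) (nat_lit 96) (nat_lit 60) (nat_lit 168) (nat_lit 276)))
 (.l (.k1_7 (nat_lit 6) (nat_lit 118) (nat_lit 120) (nat_lit 112) (nat_lit 100) (nat_lit 136) (nat_lit 64) (nat_lit 172) (nat_lit 280) (nat_lit 360)))))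
 (.n (nat_lit 120)
 (.l (.k0_8 (nat_lit 7) (nat_lit 120) (nat_lit 118) (nat_lit 114) (nat_lit 126) (nat_lit 102) (nat_lit 138) (nat_lit 66) (nat_lit 174) (nat_lit 282)))
 (.n (nat_lit 126)
 (.l (.k0_5 (nat_lit 7) (nat_lit 126) (nat_lit 120) (nat_lit 144) (nat_lit 72) (nat_lit 180) (nat_lit 288)))
 (.l (.k1_4 (nat_lit 6) (nat_lit 136) (nat_lit 138) (nat_lit 118) (nat_lit 190) (nat_lit 298) (nat_lit 378)))))))
 (.n (nat_lit 172)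
 (.n (nat_lit 164)
 (.n (nat_lit 138)
 (.l (.k0_5 (nat_lit 6) (nat_lit 138) (nat_lit 136) (nat_lit 144) (nat_lit 120) (nat_lit 192) (nat_lit 300)))
 (.n (nat_lit 144)
 (.l (.k0_4 (nat_lit 8) (nat_lit 144) (nat_lit 138) (nat_lit 126) (nat_lit 198) (nat_lit 306)))
 (.l (.k1_3 (nat_lit 4) (nat_lit 164) (nat_lit 166) (nat_lit 110) (nat_lit 326) (nat_lit 406)))))
 (.n (nat_lit 166)
 (.l (.k1_5 (nat_lit 5) (nat_lit 166) (nat_lit 164) (nat_lit 168) (nat_lit 172) (nat_lit 112) (nat_lit 328) (nat_lit 408)))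
 (.n (nat_lit 168)
 (.l (.k0_4 (nat_lit 4) (nat_lit 168) (nat_lit 166) (nat_lit 174) (nat_lit 114) (nat_lit 330)))
 (.l (.k1_5 (nat_lit 4) (nat_lit 172) (nat_lit 174) (nat_lit 166) (nat_lit 190) (nat_lit 118) (nat_lit 334) (nat_lit 414))))))
 (.n (nat_lit 190)
 (.n (nat_lit 174)
 (.l (.k0_6 (nat_lit 5) (nat_lit 174) (nat_lit 172) (nat_lit 168) (nat_lit 180) (nat_lit 192) (nat_lit 120) (nat_lit 336)))
 (.n (nat_lit 180)
 (.l (.k0_4 (nat_lit 4) (nat_lit 180) (nat_lit 174) (nat_lit 198) (nat_lit 126) (nat_lit 342)))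
 (.l (.k1_4 (nat_lit 6) (nat_lit 190) (nat_lit 192) (nat_lit 172) (nat_lit 136) (nat_lit 352) (nat_lit 432)))))
 (.n (nat_lit 192)
 (.l (.k0_5 (nat_lit 6) (nat_lit 192) (nat_lit 190) (nat_lit 198) (nat_lit 174) (nat_lit 138) (nat_lit 354)))
 (.n (nat_lit 198)
 (.l (.k0_5 (nat_lit 7) (nat_lit 198) (nat_lit 192) (nat_lit 180) (nat_lit 216) (nat_lit 144) (nat_lit 360)))
 (.l (.k0_2 (nat_lit 8) (nat_lit 216) (nat_lit 198) (nat_lit 378)))))))))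
 (.n (nat_lit 342)
 (.n (nat_lit 280)
 (.n (nat_lit 258)
 (.n (nat_lit 250)
 (.n (nat_lit 248)
 (.l (.k1_3 (nat_lit 8) (nat_lit 248) (nat_lit 250) (nat_lit 254) (nat_lit 86) (nat_lit 490)))
 (.l (.k3_3 (nat_lit 7) (nat_lit 250) (nat_lit 248) (nat_lit 256) (nat_lit 88) (nat_lit 492) (nat_lit 8))))
 (.n (nat_lit 254)
 (.l (.k1_4 (nat_lit 6) (nat_lit 254) (nat_lit 256) (nat_lit 248) (nat_lit 272) (nat_lit 92) (nat_lit 496)))
 (.n (nat_lit 256)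
 (.l (.k3_6 (nat_lit 7) (nat_lit 256) (nat_lit 254) (nat_lit 258) (nat_lit 250) (nat_lit 262) (nat_lit 274) (nat_lit 94) (nat_lit 498) (nat_lit 14)))
 (.l (.k2_4 (nat_lit 6) (nat_lit 258) (nat_lit 256) (nat_lit 264) (nat_lit 276) (nat_lit 96) (nat_lit 16))))))
 (.n (nat_lit 272)
 (.n (nat_lit 262)
 (.l (.k3_4 (nat_lit 5) (nat_lit 262) (nat_lit 264) (nat_lit 256) (nat_lit 280) (nat_lit 100) (nat_lit 504) (nat_lit 20)))
 (.n (nat_lit 264)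
 (.l (.k2_4 (nat_lit 6) (nat_lit 264) (nat_lit 262) (nat_lit 258) (nat_lit 282) (nat_lit 102) (nat_lit 22)))
 (.l (.k1_4 (nat_lit 6) (nat_lit 272) (nat_lit 274) (nat_lit 254) (nat_lit 326) (nat_lit 110) (nat_lit 514)))))
 (.n (nat_lit 274)
 (.l (.k3_6 (nat_lit 6) (nat_lit 274) (nat_lit 272) (nat_lit 276) (nat_lit 280) (nat_lit 256) (nat_lit 328) (nat_lit 112) (nat_lit 516) (nat_lit 32)))
 (.n (nat_lit 276)
 (.l (.k2_5 (nat_lit 4) (nat_lit 276) (nat_lit 274) (nat_lit 282) (nat_lit 258) (nat_lit 330) (nat_lit 114) (nat_lit 34)))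
 (.l (.k3_6 (nat_lit 6) (nat_lit 280) (nat_lit 282) (nat_lit 274) (nat_lit 262) (nat_lit 298) (nat_lit 334) (nat_lit 118) (nat_lit 522) (nat_lit 38)))))))
 (.n (nat_lit 306)
 (.n (nat_lit 288)
 (.n (nat_lit 282)
 (.l (.k2_7 (nat_lit 6) (nat_lit 282) (nat_lit 280) (nat_lit 276) (nat_lit 288) (nat_lit 264) (nat_lit 300) (nat_lit 336) (nat_lit 120) (nat_lit 40)))
 (.l (.k2_4 (nat_lit 6) (nat_lit 288) (nat_lit 282) (nat_lit 306) (nat_lit 342) (nat_lit 126) (nat_lit 46))))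
 (.n (nat_lit 298)
 (.l (.k3_4 (nat_lit 5) (nat_lit 298) (nat_lit 300) (nat_lit 280) (nat_lit 352) (nat_lit 136) (nat_lit 540) (nat_lit 56)))
 (.n (nat_lit 300)
 (.l (.k2_5 (nat_lit 4) (nat_lit 300) (nat_lit 298) (nat_lit 306) (nat_lit 282) (nat_lit 354) (nat_lit 138) (nat_lit 58)))
 (.l (.k2_4 (nat_lit 6) (nat_lit 306) (nat_lit 300) (nat_lit 288) (nat_lit 360) (nat_lit 144) (nat_lit 64))))))
 (.n (nat_lit 330)
 (.n (nat_lit 326)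
 (.l (.k1_4 (nat_lit 7) (nat_lit 326) (nat_lit 328) (nat_lit 272) (nat_lit 164) (nat_lit 488) (nat_lit 568)))
 (.n (nat_lit 328)
 (.l (.k3_6 (nat_lit 7) (nat_lit 328) (nat_lit 326) (nat_lit 330) (nat_lit 334) (nat_lit 274) (nat_lit 166) (nat_lit 490) (nat_lit 570) (nat_lit 86)))
 (.l (.k2_5 (nat_lit 5) (nat_lit 330) (nat_lit 328) (nat_lit 336) (nat_lit 276) (nat_lit 168) (nat_lit 492) (nat_lit 88)))))
 (.n (nat_lit 334)
 (.l (.k3_6 (nat_lit 6) (nat_lit 334) (nat_lit 336) (nat_lit 328) (nat_lit 352) (nat_lit 280) (nat_lit 172) (nat_lit 496) (nat_lit 576) (nat_lit 92)))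
 (.n (nat_lit 336)
 (.l (.k2_7 (nat_lit 6) (nat_lit 336) (nat_lit 334) (nat_lit 330) (nat_lit 342) (nat_lit 354) (nat_lit 282) (nat_lit 174) (nat_lit 498) (nat_lit 94)))
 (.l (.k2_5 (nat_lit 5) (nat_lit 342) (nat_lit 336) (nat_lit 360) (nat_lit 288) (nat_lit 180) (nat_lit 504) (nat_lit 100))))))))
 (.n (nat_lit 492)
 (.n (nat_lit 406)
 (.n (nat_lit 354)
 (.n (nat_lit 352)
 (.l (.k3_6 (nat_lit 7) (nat_lit 352) (nat_lit 354) (nat_lit 334) (nat_lit 298) (nat_lit 406) (nat_lit 190) (nat_lit 514) (nat_lit 594) (nat_lit 110)))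
 (.l (.k2_7 (nat_lit 6) (nat_lit 354) (nat_lit 352) (nat_lit 360) (nat_lit 336) (nat_lit 300) (nat_lit 408) (nat_lit 192) (nat_lit 516) (nat_lit 112))))
 (.n (nat_lit 360)
 (.l (.k2_7 (nat_lit 7) (nat_lit 360) (nat_lit 354) (nat_lit 342) (nat_lit 378) (nat_lit 306) (nat_lit 414) (nat_lit 198) (nat_lit 522) (nat_lit 118)))
 (.n (nat_lit 378)
 (.l (.k2_4 (nat_lit 7) (nat_lit 378) (nat_lit 360) (nat_lit 432) (nat_lit 216) (nat_lit 540) (nat_lit 136)))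
 (.l (.k3_3 (nat_lit 7) (nat_lit 406) (nat_lit 408) (nat_lit 352) (nat_lit 568) (nat_lit 648) (nat_lit 164))))))
 (.n (nat_lit 432)
 (.n (nat_lit 408)
 (.l (.k2_4 (nat_lit 6) (nat_lit 408) (nat_lit 406) (nat_lit 414) (nat_lit 354) (nat_lit 570) (nat_lit 166)))
 (.n (nat_lit 414)
 (.l (.k2_4 (nat_lit 6) (nat_lit 414) (nat_lit 408) (nat_lit 432) (nat_lit 360) (nat_lit 576) (nat_lit 172)))
 (.l (.k2_3 (nat_lit 8) (nat_lit 432) (nat_lit 414) (nat_lit 378) (nat_lit 594) (nat_lit 190)))))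
 (.n (nat_lit 488)
 (.l (.k0_2 (nat_lit 8) (nat_lit 488) (nat_lit 490) (nat_lit 326)))
 (.n (nat_lit 490)
 (.l (.k2_4 (nat_lit 7) (nat_lit 490) (nat_lit 488) (nat_lit 492) (nat_lit 496) (nat_lit 328) (nat_lit 248)))
 (.l (.k2_3 (nat_lit 4) (nat_lit 492) (nat_lit 490) (nat_lit 498) (nat_lit 330) (nat_lit 250)))))))
 (.n (nat_lit 522)
 (.n (nat_lit 504)
 (.n (nat_lit 496)
 (.l (.k2_4 (nat_lit 6) (nat_lit 496) (nat_lit 498) (nat_lit 490) (nat_lit 514) (nat_lit 334) (nat_lit 254)))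
 (.n (nat_lit 498)
 (.l (.k2_5 (nat_lit 5) (nat_lit 498) (nat_lit 496) (nat_lit 492) (nat_lit 504) (nat_lit 516) (nat_lit 336) (nat_lit 256)))
 (.l (.k2_3 (nat_lit 4) (nat_lit 504) (nat_lit 498) (nat_lit 522) (nat_lit 342) (nat_lit 262)))))
 (.n (nat_lit 514)
 (.l (.k2_4 (nat_lit 6) (nat_lit 514) (nat_lit 516) (nat_lit 496) (nat_lit 568) (nat_lit 352) (nat_lit 272)))
 (.n (nat_lit 516)
 (.l (.k2_5 (nat_lit 4) (nat_lit 516) (nat_lit 514) (nat_lit 522) (nat_lit 498) (nat_lit 570) (nat_lit 354) (nat_lit 274)))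
 (.l (.k2_5 (nat_lit 5) (nat_lit 522) (nat_lit 516) (nat_lit 504) (nat_lit 540) (nat_lit 576) (nat_lit 360) (nat_lit 280))))))
 (.n (nat_lit 570)
 (.n (nat_lit 540)
 (.l (.k2_3 (nat_lit 4) (nat_lit 540) (nat_lit 522) (nat_lit 594) (nat_lit 378) (nat_lit 298)))
 (.n (nat_lit 568)
 (.l (.k2_3 (nat_lit 8) (nat_lit 568) (nat_lit 570) (nat_lit 514) (nat_lit 406) (nat_lit 326)))
 (.l (.k2_4 (nat_lit 6) (nat_lit 570) (nat_lit 568) (nat_lit 576) (nat_lit 516) (nat_lit 408) (nat_lit 328)))))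
 (.n (nat_lit 576)
 (.l (.k2_4 (nat_lit 6) (nat_lit 576) (nat_lit 570) (nat_lit 594) (nat_lit 522) (nat_lit 414) (nat_lit 334)))
 (.n (nat_lit 594)
 (.l (.k2_4 (nat_lit 7) (nat_lit 594) (nat_lit 576) (nat_lit 540) (nat_lit 648) (nat_lit 432) (nat_lit 352)))
 (.l (.k2_1 (nat_lit 8) (nat_lit 648) (nat_lit 594) (nat_lit 406))))))))))

def tab3_3 : Trie :=
 (.n (nat_lit 117)
 (.n (nat_lit 39)
 (.n (nat_lit 19)
 (.n (nat_lit 11)
 (.n (nat_lit 5)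
 (.l (.k1_2 (nat_lit 8) (nat_lit 5) (nat_lit 7) (nat_lit 11) (nat_lit 247)))
 (.n (nat_lit 7)
 (.l (.k1_2 (nat_lit 8) (nat_lit 7) (nat_lit 5) (nat_lit 13) (nat_lit 249)))
 (.l (.k1_3 (nat_lit 6) (nat_lit 11) (nat_lit 13) (nat_lit 5) (nat_lit 29) (nat_lit 253)))))
 (.n (nat_lit 13)
 (.l (.k1_5 (nat_lit 8) (nat_lit 13) (nat_lit 11) (nat_lit 15) (nat_lit 7) (nat_lit 19) (nat_lit 31) (nat_lit 255)))
 (.n (nat_lit 15)
 (.l (.k0_3 (nat_lit 8) (nat_lit 15) (nat_lit 13) (nat_lit 21) (nat_lit 33)))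
 (.l (.k1_3 (nat_lit 6) (nat_lit 19) (nat_lit 21) (nat_lit 13) (nat_lit 37) (nat_lit 261))))))
 (.n (nat_lit 31)
 (.n (nat_lit 21)
 (.l (.k0_3 (nat_lit 8) (nat_lit 21) (nat_lit 19) (nat_lit 15) (nat_lit 39)))
 (.n (nat_lit 29)
 (.l (.k1_3 (nat_lit 6) (nat_lit 29) (nat_lit 31) (nat_lit 11) (nat_lit 83) (nat_lit 271)))
 (.l (.k1_5 (nat_lit 7) (nat_lit 31) (nat_lit 29) (nat_lit 33) (nat_lit 37) (nat_lit 13) (nat_lit 85) (nat_lit 273)))))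
 (.n (nat_lit 33)
 (.l (.k0_4 (nat_lit 6) (nat_lit 33) (nat_lit 31) (nat_lit 39) (nat_lit 15) (nat_lit 87)))
 (.n (nat_lit 37)
 (.l (.k1_5 (nat_lit 7) (nat_lit 37) (nat_lit 39) (nat_lit 31) (nat_lit 19) (nat_lit 55) (nat_lit 91) (nat_lit 279)))
 (.l (.k0_6 (nat_lit 8) (nat_lit 39) (nat_lit 37) (nat_lit 33) (nat_lit 45) (nat_lit 21) (nat_lit 57) (nat_lit 93)))))))
 (.n (nat_lit 85)
 (.n (nat_lit 57)
 (.n (nat_lit 45)
 (.l (.k0_3 (nat_lit 8) (nat_lit 45) (nat_lit 39) (nat_lit 63) (nat_lit 99)))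
 (.n (nat_lit 55)
 (.l (.k1_3 (nat_lit 6) (nat_lit 55) (nat_lit 57) (nat_lit 37) (nat_lit 109) (nat_lit 297)))
 (.l (.k0_4 (nat_lit 6) (nat_lit 57) (nat_lit 55) (nat_lit 63) (nat_lit 39) (nat_lit 111)))))
 (.n (nat_lit 63)
 (.l (.k0_3 (nat_lit 8) (nat_lit 63) (nat_lit 57) (nat_lit 45) (nat_lit 117)))
 (.n (nat_lit 83)
 (.l (.k1_3 (nat_lit 6) (nat_lit 83) (nat_lit 85) (nat_lit 29) (nat_lit 245) (nat_lit 325)))
 (.l (.k1_5 (nat_lit 7) (nat_lit 85) (nat_lit 83) (nat_lit 87) (nat_lit 91) (nat_lit 31) (nat_lit 247) (nat_lit 327))))))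
 (.n (nat_lit 93)
 (.n (nat_lit 87)
 (.l (.k0_4 (nat_lit 6) (nat_lit 87) (nat_lit 85) (nat_lit 93) (nat_lit 33) (nat_lit 249)))
 (.n (nat_lit 91)
 (.l (.k1_5 (nat_lit 6) (nat_lit 91) (nat_lit 93) (nat_lit 85) (nat_lit 109) (nat_lit 37) (nat_lit 253) (nat_lit 333)))
 (.l (.k0_6 (nat_lit 7) (nat_lit 93) (nat_lit 91) (nat_lit 87) (nat_lit 99) (nat_lit 111) (nat_lit 39) (nat_lit 255)))))
 (.n (nat_lit 109)
 (.n (nat_lit 99)
 (.l (.k0_4 (nat_lit 6) (nat_lit 99) (nat_lit 93) (nat_lit 117) (nat_lit 45) (nat_lit 261)))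
 (.l (.k1_5 (nat_lit 7) (nat_lit 109) (nat_lit 111) (nat_lit 91) (nat_lit 55) (nat_lit 163) (nat_lit 271) (nat_lit 351))))
 (.n (nat_lit 111)
 (.l (.k0_6 (nat_lit 7) (nat_lit 111) (nat_lit 109) (nat_lit 117) (nat_lit 93) (nat_lit 57) (nat_lit 165) (nat_lit 273)))
 (.l (.k0_6 (nat_lit 8) (nat_lit 117) (nat_lit 111) (nat_lit 99) (nat_lit 135) (nat_lit 63) (nat_lit 171) (nat_lit 279))))))))
 (.n (nat_lit 271)
 (.n (nat_lit 245)
 (.n (nat_lit 165)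
 (.n (nat_lit 135)
 (.l (.k0_3 (nat_lit 8) (nat_lit 135) (nat_lit 117) (nat_lit 189) (nat_lit 297)))
 (.n (nat_lit 163)
 (.l (.k1_3 (nat_lit 6) (nat_lit 163) (nat_lit 165) (nat_lit 109) (nat_lit 325) (nat_lit 405)))
 (.l (.k0_4 (nat_lit 6) (nat_lit 165) (nat_lit 163) (nat_lit 171) (nat_lit 111) (nat_lit 327)))))
 (.n (nat_lit 171)
 (.l (.k0_4 (nat_lit 6) (nat_lit 171) (nat_lit 165) (nat_lit 189) (nat_lit 117) (nat_lit 333)))
 (.n (nat_lit 189)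
 (.l (.k0_3 (nat_lit 8) (nat_lit 189) (nat_lit 171) (nat_lit 135) (nat_lit 351)))
 (.l (.k1_2 (nat_lit 8) (nat_lit 245) (nat_lit 247) (nat_lit 83) (nat_lit 487))))))
 (.n (nat_lit 253)
 (.n (nat_lit 247)
 (.l (.k3_4 (nat_lit 8) (nat_lit 247) (nat_lit 245) (nat_lit 249) (nat_lit 253) (nat_lit 85) (nat_lit 489) (nat_lit 5)))
 (.n (nat_lit 249)
 (.l (.k2_3 (nat_lit 6) (nat_lit 249) (nat_lit 247) (nat_lit 255) (nat_lit 87) (nat_lit 7)))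
 (.l (.k3_4 (nat_lit 7) (nat_lit 253) (nat_lit 255) (nat_lit 247) (nat_lit 271) (nat_lit 91) (nat_lit 495) (nat_lit 11)))))
 (.n (nat_lit 255)
 (.l (.k2_5 (nat_lit 7) (nat_lit 255) (nat_lit 253) (nat_lit 249) (nat_lit 261) (nat_lit 273) (nat_lit 93) (nat_lit 13)))
 (.n (nat_lit 261)
 (.l (.k2_3 (nat_lit 6) (nat_lit 261) (nat_lit 255) (nat_lit 279) (nat_lit 99) (nat_lit 19)))
 (.l (.k3_4 (nat_lit 7) (nat_lit 271) (nat_lit 273) (nat_lit 253) (nat_lit 325) (nat_lit 109) (nat_lit 513) (nat_lit 29)))))))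
 (.n (nat_lit 333)
 (.n (nat_lit 297)
 (.n (nat_lit 273)
 (.l (.k2_5 (nat_lit 6) (nat_lit 273) (nat_lit 271) (nat_lit 279) (nat_lit 255) (nat_lit 327) (nat_lit 111) (nat_lit 31)))
 (.n (nat_lit 279)
 (.l (.k2_5 (nat_lit 7) (nat_lit 279) (nat_lit 273) (nat_lit 261) (nat_lit 297) (nat_lit 333) (nat_lit 117) (nat_lit 37)))
 (.l (.k2_3 (nat_lit 6) (nat_lit 297) (nat_lit 279) (nat_lit 351) (nat_lit 135) (nat_lit 55)))))
 (.n (nat_lit 325)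
 (.l (.k3_4 (nat_lit 8) (nat_lit 325) (nat_lit 327) (nat_lit 271) (nat_lit 163) (nat_lit 487) (nat_lit 567) (nat_lit 83)))
 (.n (nat_lit 327)
 (.l (.k2_5 (nat_lit 7) (nat_lit 327) (nat_lit 325) (nat_lit 333) (nat_lit 273) (nat_lit 165) (nat_lit 489) (nat_lit 85)))
 (.l (.k2_5 (nat_lit 7) (nat_lit 333) (nat_lit 327) (nat_lit 351) (nat_lit 279) (nat_lit 171) (nat_lit 495) (nat_lit 91))))))
 (.n (nat_lit 487)
 (.n (nat_lit 351)
 (.l (.k2_5 (nat_lit 8) (nat_lit 351) (nat_lit 333) (nat_lit 297) (nat_lit 405) (nat_lit 189) (nat_lit 513) (nat_lit 109)))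
 (.n (nat_lit 405)
 (.l (.k2_2 (nat_lit 8) (nat_lit 405) (nat_lit 351) (nat_lit 567) (nat_lit 163)))
 (.l (.k2_2 (nat_lit 8) (nat_lit 487) (nat_lit 489) (nat_lit 325) (nat_lit 245)))))
 (.n (nat_lit 495)
 (.n (nat_lit 489)
 (.l (.k2_3 (nat_lit 6) (nat_lit 489) (nat_lit 487) (nat_lit 495) (nat_lit 327) (nat_lit 247)))
 (.l (.k2_3 (nat_lit 6) (nat_lit 495) (nat_lit 489) (nat_lit 513) (nat_lit 333) (nat_lit 253))))
 (.n (nat_lit 513)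
 (.l (.k2_3 (nat_lit 6) (nat_lit 513) (nat_lit 495) (nat_lit 567) (nat_lit 351) (nat_lit 271)))
 (.l (.k2_2 (nat_lit 8) (nat_lit 567) (nat_lit 513) (nat_lit 405) (nat_lit 325)))))))))

def tab3_2 : Trie :=
 (.n (nat_lit 54)
 (.n (nat_lit 12)
 (.n (nat_lit 4)
 (.n (nat_lit 2)
 (.l (.k1_1 (nat_lit 8) (nat_lit 2) (nat_lit 4) (nat_lit 244)))
 (.l (.k1_3 (nat_lit 9) (nat_lit 4) (nat_lit 2) (nat_lit 6) (nat_lit 10) (nat_lit 246))))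
 (.n (nat_lit 6)
 (.l (.k0_2 (nat_lit 8) (nat_lit 6) (nat_lit 4) (nat_lit 12)))
 (.n (nat_lit 10)
 (.l (.k1_3 (nat_lit 8) (nat_lit 10) (nat_lit 12) (nat_lit 4) (nat_lit 28) (nat_lit 252)))
 (.l (.k0_4 (nat_lit 9) (nat_lit 12) (nat_lit 10) (nat_lit 6) (nat_lit 18) (nat_lit 30))))))
 (.n (nat_lit 28)
 (.n (nat_lit 18)
 (.l (.k0_2 (nat_lit 8) (nat_lit 18) (nat_lit 12) (nat_lit 36)))
 (.l (.k1_3 (nat_lit 8) (nat_lit 28) (nat_lit 30) (nat_lit 10) (nat_lit 82) (nat_lit 270))))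
 (.n (nat_lit 30)
 (.l (.k0_4 (nat_lit 8) (nat_lit 30) (nat_lit 28) (nat_lit 36) (nat_lit 12) (nat_lit 84)))
 (.n (nat_lit 36)
 (.l (.k0_4 (nat_lit 9) (nat_lit 36) (nat_lit 30) (nat_lit 18) (nat_lit 54) (nat_lit 90)))
 (.l (.k0_2 (nat_lit 8) (nat_lit 54) (nat_lit 36) (nat_lit 108)))))))
 (.n (nat_lit 162)
 (.n (nat_lit 84)
 (.n (nat_lit 82)
 (.l (.k1_3 (nat_lit 8) (nat_lit 82) (nat_lit 84) (nat_lit 28) (nat_lit 244) (nat_lit 324)))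
 (.l (.k0_4 (nat_lit 8) (nat_lit 84) (nat_lit 82) (nat_lit 90) (nat_lit 30) (nat_lit 246))))
 (.n (nat_lit 90)
 (.l (.k0_4 (nat_lit 8) (nat_lit 90) (nat_lit 84) (nat_lit 108) (nat_lit 36) (nat_lit 252)))
 (.n (nat_lit 108)
 (.l (.k0_4 (nat_lit 9) (nat_lit 108) (nat_lit 90) (nat_lit 54) (nat_lit 162) (nat_lit 270)))
 (.l (.k0_2 (nat_lit 8) (nat_lit 162) (nat_lit 108) (nat_lit 324))))))
 (.n (nat_lit 252)
 (.n (nat_lit 244)
 (.l (.k3_2 (nat_lit 9) (nat_lit 244) (nat_lit 246) (nat_lit 82) (nat_lit 486) (nat_lit 2)))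
 (.n (nat_lit 246)
 (.l (.k2_3 (nat_lit 8) (nat_lit 246) (nat_lit 244) (nat_lit 252) (nat_lit 84) (nat_lit 4)))
 (.l (.k2_3 (nat_lit 8) (nat_lit 252) (nat_lit 246) (nat_lit 270) (nat_lit 90) (nat_lit 10)))))
 (.n (nat_lit 270)
 (.l (.k2_3 (nat_lit 8) (nat_lit 270) (nat_lit 252) (nat_lit 324) (nat_lit 108) (nat_lit 28)))
 (.n (nat_lit 324)
 (.l (.k2_3 (nat_lit 9) (nat_lit 324) (nat_lit 270) (nat_lit 162) (nat_lit 486) (nat_lit 82)))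
 (.l (.k2_1 (nat_lit 8) (nat_lit 486) (nat_lit 324) (nat_lit 244))))))))

def tab3_1 : Trie :=
 (.n (nat_lit 9)
 (.n (nat_lit 1)
 (.l (.k1_1 (nat_lit 10) (nat_lit 1) (nat_lit 3) (nat_lit 243)))
 (.n (nat_lit 3)
 (.l (.k0_2 (nat_lit 10) (nat_lit 3) (nat_lit 1) (nat_lit 9)))
 (.l (.k0_2 (nat_lit 10) (nat_lit 9) (nat_lit 3) (nat_lit 27)))))
 (.n (nat_lit 27)
 (.l (.k0_2 (nat_lit 10) (nat_lit 27) (nat_lit 9) (nat_lit 81)))
 (.n (nat_lit 81)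
 (.l (.k0_2 (nat_lit 10) (nat_lit 81) (nat_lit 27) (nat_lit 243)))
 (.l (.k2_1 (nat_lit 10) (nat_lit 243) (nat_lit 81) (nat_lit 1))))))

def tab3_0 : Trie :=
 (.l (.k0_0 (nat_lit 12) (nat_lit 0)))

end P348
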