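import Vale.Agent.Lib.P348.KEv
import Vale.Agent.Lib.P348.KL
import Vale.Agent.Lib.P348.KData3
import Vale.Agent.Lib.P348.KTab3
import Vale.Agent.Lib.P348.KData2
import Vale.Agent.Lib.P348.KTab2

/-!
# P348 (K), module KV3: path counts of the rings of length 4 and 6
(kernel evaluation; no Mathlib; the evaluations are written as definitions of proofs, so that they are
elaborated one after the other)
-/

set_option maxRecDepth 10000
set_option linter.defProp false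

namespace P348

def vboth2_0 : (chk (nat_lit 243) (nat_lit 1215) (fun k s => (G tab2_4 (zup (Nat.pred (Nat.pow 2 (nat_lit 3645))) (nat_lit 1215) (nat_lit 3645))
      (zdn (Nat.pred (Nat.pow 2 (nat_lit 1215))) (nat_lit 1215) (nat_lit 3645)) (pk (nat_lit 243) cols2_0) k).g s) cols2_0 kl2 out2_4_0
    && chk (nat_lit 243) (nat_lit 1215) (fun k s => (G tab2_4 (zup (Nat.pred (Nat.pow 2 (nat_lit 3645))) (nat_lit 1215) (nat_lit 3645))
      (zdn (Nat.pred (Nat.pow 2 (nat_lit 1215))) (nat_lit 1215) (nat_lit 3645)) (pk (nat_lit 243) cols2_0) k).g (Nat.sub (nat_lit 80) s)) cols2_0 kl2 fout2_0) = true := by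
  decide +kernel

def v2_3_0 : chk (nat_lit 243) (nat_lit 1215) (fun k s => (G tab2_4 (zup (Nat.pred (Nat.pow 2 (nat_lit 2430))) (nat_lit 1215) (nat_lit 2430))
      (zdn (Nat.pred (Nat.pow 2 (nat_lit 1215))) (nat_lit 1215) (nat_lit 2430)) (pk (nat_lit 243) cols2_0) k).g s) cols2_0 kl2 out2_3_0 = true := by
  decide +kernel

def v2_4_1 : chk (nat_lit 243) (nat_lit 729) (fun k s => (G tab2_3 (zup (Nat.pred (Nat.pow 2 (nat_lit 2187))) (nat_lit 729) (nat_lit 2187))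
      (zdn (Nat.pred (Nat.pow 2 (nat_lit 729))) (nat_lit 729) (nat_lit 2187)) (pk (nat_lit 243) cols2_1) k).g s) cols2_1 kl2 out2_4_1 = true := by
  decide +kernel

def v2_3_1 : chk (nat_lit 243) (nat_lit 729) (fun k s => (G tab2_3 (zup (Nat.pred (Nat.pow 2 (nat_lit 1458))) (nat_lit 729) (nat_lit 1458))
      (zdn (Nat.pred (Nat.pow 2 (nat_lit 729))) (nat_lit 729) (nat_lit 1458)) (pk (nat_lit 243) cols2_1) k).g s) cols2_1 kl2 out2_3_1 = true := by
  decide +kernel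

def v2_4_2 : chk (nat_lit 243) (nat_lit 729) (fun k s => (G tab2_2 (zup (Nat.pred (Nat.pow 2 (nat_lit 2187))) (nat_lit 729) (nat_lit 2187))
      (zdn (Nat.pred (Nat.pow 2 (nat_lit 729))) (nat_lit 729) (nat_lit 2187)) (pk (nat_lit 243) cols2_2) k).g s) cols2_2 kl2 out2_4_2 = true := by
  decide +kernel

def v2_3_2 : chk (nat_lit 243) (nat_lit 729) (fun k s => (G tab2_2 (zup (Nat.pred (Nat.pow 2 (nat_lit 1458))) (nat_lit 729) (nat_lit 1458))
      (zdn (Nat.pred (Nat.pow 2 (nat_lit 729))) (nat_lit 729) (nat_lit 1458)) (pk (nat_lit 243) cols2_2) k).g s) cols2_2 kl2 out2_3_2 = true := by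
  decide +kernel

def v2_4_3 : chk (nat_lit 243) (nat_lit 243) (fun k s => (G tab2_1 (zup (Nat.pred (Nat.pow 2 (nat_lit 729))) (nat_lit 243) (nat_lit 729))
      (zdn (Nat.pred (Nat.pow 2 (nat_lit 243))) (nat_lit 243) (nat_lit 729)) (pk (nat_lit 243) cols2_3) k).g s) cols2_3 kl2 out2_4_3 = true := by
  decide +kernel

def v2_3_3 : chk (nat_lit 243) (nat_lit 243) (fun k s => (G tab2_1 (zup (Nat.pred (Nat.pow 2 (nat_lit 486))) (nat_lit 243) (nat_lit 486))
      (zdn (Nat.pred (Nat.pow 2 (nat_lit 243))) (nat_lit 243) (nat_lit 486)) (pk (nat_lit 243) cols2_3) k).g s) cols2_3 kl2 out2_3_3 = true := by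
  decide +kernel

def v2_4_4 : chk (nat_lit 243) (nat_lit 243) (fun k s => (G tab2_0 (zup (Nat.pred (Nat.pow 2 (nat_lit 729))) (nat_lit 243) (nat_lit 729))
      (zdn (Nat.pred (Nat.pow 2 (nat_lit 243))) (nat_lit 243) (nat_lit 729)) (pk (nat_lit 243) cols2_4) k).g s) cols2_4 kl2 out2_4_4 = true := by
  decide +kernel

def v2_3_4 : chk (nat_lit 243) (nat_lit 243) (fun k s => (G tab2_0 (zup (Nat.pred (Nat.pow 2 (nat_lit 486))) (nat_lit 243) (nat_lit 486))
      (zdn (Nat.pred (Nat.pow 2 (nat_lit 243))) (nat_lit 243) (nat_lit 486)) (pk (nat_lit 243) cols2_4) k).g s) cols2_4 kl2 out2_3_4 = true := by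
  decide +kernel

def vboth3_0 : (chk (nat_lit 292) (nat_lit 4380) (fun k s => (G tab3_6 (zup (Nat.pred (Nat.pow 2 (nat_lit 13140))) (nat_lit 4380) (nat_lit 13140))
      (zdn (Nat.pred (Nat.pow 2 (nat_lit 4380))) (nat_lit 4380) (nat_lit 13140)) (pk (nat_lit 292) cols3_0) k).g s) cols3_0 kl3 out3_4_0
    && chk (nat_lit 292) (nat_lit 4380) (fun k s => (G tab3_6 (zup (Nat.pred (Nat.pow 2 (nat_lit 13140))) (nat_lit 4380) (nat_lit 13140))
      (zdn (Nat.pred (Nat.pow 2 (nat_lit 4380))) (nat_lit 4380) (nat_lit 13140)) (pk (nat_lit 292) cols3_0) k).g (Nat.sub (nat_lit 728) s)) cols3_0 kl3 fout3_0) = true := by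
  decide +kernel

def v3_3_0 : chk (nat_lit 292) (nat_lit 4380) (fun k s => (G tab3_6 (zup (Nat.pred (Nat.pow 2 (nat_lit 8760))) (nat_lit 4380) (nat_lit 8760))
      (zdn (Nat.pred (Nat.pow 2 (nat_lit 4380))) (nat_lit 4380) (nat_lit 8760)) (pk (nat_lit 292) cols3_0) k).g s) cols3_0 kl3 out3_3_0 = true := by
  decide +kernel

def v3_4_1 : chk (nat_lit 292) (nat_lit 3796) (fun k s => (G tab3_5 (zup (Nat.pred (Nat.pow 2 (nat_lit 11388))) (nat_lit 3796) (nat_lit 11388))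
      (zdn (Nat.pred (Nat.pow 2 (nat_lit 3796))) (nat_lit 3796) (nat_lit 11388)) (pk (nat_lit 292) cols3_1) k).g s) cols3_1 kl3 out3_4_1 = true := by
  decide +kernel

def v3_3_1 : chk (nat_lit 292) (nat_lit 3796) (fun k s => (G tab3_5 (zup (Nat.pred (Nat.pow 2 (nat_lit 7592))) (nat_lit 3796) (nat_lit 7592))
      (zdn (Nat.pred (Nat.pow 2 (nat_lit 3796))) (nat_lit 3796) (nat_lit 7592)) (pk (nat_lit 292) cols3_1) k).g s) cols3_1 kl3 out3_3_1 = true := by
  decide +kernel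

def v3_4_2 : chk (nat_lit 292) (nat_lit 3504) (fun k s => (G tab3_4 (zup (Nat.pred (Nat.pow 2 (nat_lit 10512))) (nat_lit 3504) (nat_lit 10512))
      (zdn (Nat.pred (Nat.pow 2 (nat_lit 3504))) (nat_lit 3504) (nat_lit 10512)) (pk (nat_lit 292) cols3_2) k).g s) cols3_2 kl3 out3_4_2 = true := by
  decide +kernel

def v3_3_2 : chk (nat_lit 292) (nat_lit 3504) (fun k s => (G tab3_4 (zup (Nat.pred (Nat.pow 2 (nat_lit 7008))) (nat_lit 3504) (nat_lit 7008))
      (zdn (Nat.pred (Nat.pow 2 (nat_lit 3504))) (nat_lit 3504) (nat_lit 7008)) (pk (nat_lit 292) cols3_2) k).g s) cols3_2 kl3 out3_3_2 = true := by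
  decide +kernel

def v3_4_3 : chk (nat_lit 292) (nat_lit 1752) (fun k s => (G tab3_3 (zup (Nat.pred (Nat.pow 2 (nat_lit 5256))) (nat_lit 1752) (nat_lit 5256))
      (zdn (Nat.pred (Nat.pow 2 (nat_lit 1752))) (nat_lit 1752) (nat_lit 5256)) (pk (nat_lit 292) cols3_3) k).g s) cols3_3 kl3 out3_4_3 = true := by
  decide +kernel

def v3_3_3 : chk (nat_lit 292) (nat_lit 1752) (fun k s => (G tab3_3 (zup (Nat.pred (Nat.pow 2 (nat_lit 3504))) (nat_lit 1752) (nat_lit 3504))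
      (zdn (Nat.pred (Nat.pow 2 (nat_lit 1752))) (nat_lit 1752) (nat_lit 3504)) (pk (nat_lit 292) cols3_3) k).g s) cols3_3 kl3 out3_3_3 = true := by
  decide +kernel

def v3_4_4 : chk (nat_lit 292) (nat_lit 1168) (fun k s => (G tab3_2 (zup (Nat.pred (Nat.pow 2 (nat_lit 3504))) (nat_lit 1168) (nat_lit 3504))
      (zdn (Nat.pred (Nat.pow 2 (nat_lit 1168))) (nat_lit 1168) (nat_lit 3504)) (pk (nat_lit 292) cols3_4) k).g s) cols3_4 kl3 out3_4_4 = true := by
  decide +kernel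

def v3_3_4 : chk (nat_lit 292) (nat_lit 1168) (fun k s => (G tab3_2 (zup (Nat.pred (Nat.pow 2 (nat_lit 2336))) (nat_lit 1168) (nat_lit 2336))
      (zdn (Nat.pred (Nat.pow 2 (nat_lit 1168))) (nat_lit 1168) (nat_lit 2336)) (pk (nat_lit 292) cols3_4) k).g s) cols3_4 kl3 out3_3_4 = true := by
  decide +kernel

def v3_4_5 : chk (nat_lit 292) (nat_lit 292) (fun k s => (G tab3_1 (zup (Nat.pred (Nat.pow 2 (nat_lit 876))) (nat_lit 292) (nat_lit 876))
      (zdn (Nat.pred (Nat.pow 2 (nat_lit 292))) (nat_lit 292) (nat_lit 876)) (pk (nat_lit 292) cols3_5) k).g s) cols3_5 kl3 out3_4_5 = true := by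
  decide +kernel

def v3_3_5 : chk (nat_lit 292) (nat_lit 292) (fun k s => (G tab3_1 (zup (Nat.pred (Nat.pow 2 (nat_lit 584))) (nat_lit 292) (nat_lit 584))
      (zdn (Nat.pred (Nat.pow 2 (nat_lit 292))) (nat_lit 292) (nat_lit 584)) (pk (nat_lit 292) cols3_5) k).g s) cols3_5 kl3 out3_3_5 = true := by
  decide +kernel

def v3_4_6 : chk (nat_lit 292) (nat_lit 292) (fun k s => (G tab3_0 (zup (Nat.pred (Nat.pow 2 (nat_lit 876))) (nat_lit 292) (nat_lit 876))
      (zdn (Nat.pred (Nat.pow 2 (nat_lit 292))) (nat_lit 292) (nat_lit 876)) (pk (nat_lit 292) cols3_6) k).g s) cols3_6 kl3 out3_4_6 = true := by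
  decide +kernel

def v3_3_6 : chk (nat_lit 292) (nat_lit 292) (fun k s => (G tab3_0 (zup (Nat.pred (Nat.pow 2 (nat_lit 584))) (nat_lit 292) (nat_lit 584))
      (zdn (Nat.pred (Nat.pow 2 (nat_lit 292))) (nat_lit 292) (nat_lit 584)) (pk (nat_lit 292) cols3_6) k).g s) cols3_6 kl3 out3_3_6 = true := by
  decide +kernel

end P348
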