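import Vale.Agent.Lib.P348.KT5
import Vale.Agent.Lib.P348.KTabOK3
import Vale.Agent.Lib.P348.KV3

/-!
# P348 (K), module KE3: the path counts of the rings of length 4 and 6
-/

set_option maxRecDepth 10000

namespace P348

theorem grp2_4_0 : GrpOK 2 4 cols2_0 out2_4_0 :=
  grp_of_chk (N := 2) (by norm_num) (by norm_num) 3 (nat_lit 243) (nat_lit 1215) (nat_lit 3645) 4 cols2_0 tab2_4 kl2
    out2_4_0 tabOK2_4 (by decide +kernel) ((Bool.and_eq_true _ _).mp vboth2_0).1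

theorem flip2_0 : GrpFlip 2 4 cols2_0 fout2_0 :=
  flip_of_chk (N := 2) (by norm_num) (by norm_num) 3 (nat_lit 243) (nat_lit 1215) (nat_lit 3645) 4 rfl cols2_0 tab2_4 kl2
    fout2_0 tabOK2_4 (by decide +kernel) ((Bool.and_eq_true _ _).mp vboth2_0).2

theorem grp2_3_0 : GrpOK 2 3 cols2_0 out2_3_0 :=
  grp_of_chk (N := 2) (by norm_num) (by norm_num) 2 (nat_lit 243) (nat_lit 1215) (nat_lit 2430) 4 cols2_0 tab2_4 kl2
    out2_3_0 tabOK2_4 (by decide +kernel) v2_3_0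

theorem grp2_4_1 : GrpOK 2 4 cols2_1 out2_4_1 :=
  grp_of_chk (N := 2) (by norm_num) (by norm_num) 3 (nat_lit 243) (nat_lit 729) (nat_lit 2187) 3 cols2_1 tab2_3 kl2
    out2_4_1 tabOK2_3 (by decide +kernel) v2_4_1

theorem grp2_3_1 : GrpOK 2 3 cols2_1 out2_3_1 :=
  grp_of_chk (N := 2) (by norm_num) (by norm_num) 2 (nat_lit 243) (nat_lit 729) (nat_lit 1458) 3 cols2_1 tab2_3 kl2
    out2_3_1 tabOK2_3 (by decide +kernel) v2_3_1

theorem grp2_4_2 : GrpOK 2 4 cols2_2 out2_4_2 :=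
  grp_of_chk (N := 2) (by norm_num) (by norm_num) 3 (nat_lit 243) (nat_lit 729) (nat_lit 2187) 2 cols2_2 tab2_2 kl2
    out2_4_2 tabOK2_2 (by decide +kernel) v2_4_2

theorem grp2_3_2 : GrpOK 2 3 cols2_2 out2_3_2 :=
  grp_of_chk (N := 2) (by norm_num) (by norm_num) 2 (nat_lit 243) (nat_lit 729) (nat_lit 1458) 2 cols2_2 tab2_2 kl2
    out2_3_2 tabOK2_2 (by decide +kernel) v2_3_2

theorem grp2_4_3 : GrpOK 2 4 cols2_3 out2_4_3 :=
  grp_of_chk (N := 2) (by norm_num) (by norm_num) 3 (nat_lit 243) (nat_lit 243) (nat_lit 729) 1 cols2_3 tab2_1 kl2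
    out2_4_3 tabOK2_1 (by decide +kernel) v2_4_3

theorem grp2_3_3 : GrpOK 2 3 cols2_3 out2_3_3 :=
  grp_of_chk (N := 2) (by norm_num) (by norm_num) 2 (nat_lit 243) (nat_lit 243) (nat_lit 486) 1 cols2_3 tab2_1 kl2
    out2_3_3 tabOK2_1 (by decide +kernel) v2_3_3

theorem grp2_4_4 : GrpOK 2 4 cols2_4 out2_4_4 :=
  grp_of_chk (N := 2) (by norm_num) (by norm_num) 3 (nat_lit 243) (nat_lit 243) (nat_lit 729) 0 cols2_4 tab2_0 kl2
    out2_4_4 tabOK2_0 (by decide +kernel) v2_4_4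

theorem grp2_3_4 : GrpOK 2 3 cols2_4 out2_3_4 :=
  grp_of_chk (N := 2) (by norm_num) (by norm_num) 2 (nat_lit 243) (nat_lit 243) (nat_lit 486) 0 cols2_4 tab2_0 kl2
    out2_3_4 tabOK2_0 (by decide +kernel) v2_3_4

theorem grp3_4_0 : GrpOK 3 4 cols3_0 out3_4_0 :=
  grp_of_chk (N := 3) (by norm_num) (by norm_num) 3 (nat_lit 292) (nat_lit 4380) (nat_lit 13140) 6 cols3_0 tab3_6 kl3
    out3_4_0 tabOK3_6 (by decide +kernel) ((Bool.and_eq_true _ _).mp vboth3_0).1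

theorem flip3_0 : GrpFlip 3 4 cols3_0 fout3_0 :=
  flip_of_chk (N := 3) (by norm_num) (by norm_num) 3 (nat_lit 292) (nat_lit 4380) (nat_lit 13140) 6 rfl cols3_0 tab3_6 kl3
    fout3_0 tabOK3_6 (by decide +kernel) ((Bool.and_eq_true _ _).mp vboth3_0).2

theorem grp3_3_0 : GrpOK 3 3 cols3_0 out3_3_0 :=
  grp_of_chk (N := 3) (by norm_num) (by norm_num) 2 (nat_lit 292) (nat_lit 4380) (nat_lit 8760) 6 cols3_0 tab3_6 kl3
    out3_3_0 tabOK3_6 (by decide +kernel) v3_3_0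

theorem grp3_4_1 : GrpOK 3 4 cols3_1 out3_4_1 :=
  grp_of_chk (N := 3) (by norm_num) (by norm_num) 3 (nat_lit 292) (nat_lit 3796) (nat_lit 11388) 5 cols3_1 tab3_5 kl3
    out3_4_1 tabOK3_5 (by decide +kernel) v3_4_1

theorem grp3_3_1 : GrpOK 3 3 cols3_1 out3_3_1 :=
  grp_of_chk (N := 3) (by norm_num) (by norm_num) 2 (nat_lit 292) (nat_lit 3796) (nat_lit 7592) 5 cols3_1 tab3_5 kl3
    out3_3_1 tabOK3_5 (by decide +kernel) v3_3_1

theorem grp3_4_2 : GrpOK 3 4 cols3_2 out3_4_2 :=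
  grp_of_chk (N := 3) (by norm_num) (by norm_num) 3 (nat_lit 292) (nat_lit 3504) (nat_lit 10512) 4 cols3_2 tab3_4 kl3
    out3_4_2 tabOK3_4 (by decide +kernel) v3_4_2

theorem grp3_3_2 : GrpOK 3 3 cols3_2 out3_3_2 :=
  grp_of_chk (N := 3) (by norm_num) (by norm_num) 2 (nat_lit 292) (nat_lit 3504) (nat_lit 7008) 4 cols3_2 tab3_4 kl3
    out3_3_2 tabOK3_4 (by decide +kernel) v3_3_2

theorem grp3_4_3 : GrpOK 3 4 cols3_3 out3_4_3 :=
  grp_of_chk (N := 3) (by norm_num) (by norm_num) 3 (nat_lit 292) (nat_lit 1752) (nat_lit 5256) 3 cols3_3 tab3_3 kl3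
    out3_4_3 tabOK3_3 (by decide +kernel) v3_4_3

theorem grp3_3_3 : GrpOK 3 3 cols3_3 out3_3_3 :=
  grp_of_chk (N := 3) (by norm_num) (by norm_num) 2 (nat_lit 292) (nat_lit 1752) (nat_lit 3504) 3 cols3_3 tab3_3 kl3
    out3_3_3 tabOK3_3 (by decide +kernel) v3_3_3

theorem grp3_4_4 : GrpOK 3 4 cols3_4 out3_4_4 :=
  grp_of_chk (N := 3) (by norm_num) (by norm_num) 3 (nat_lit 292) (nat_lit 1168) (nat_lit 3504) 2 cols3_4 tab3_2 kl3
    out3_4_4 tabOK3_2 (by decide +kernel) v3_4_4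

theorem grp3_3_4 : GrpOK 3 3 cols3_4 out3_3_4 :=
  grp_of_chk (N := 3) (by norm_num) (by norm_num) 2 (nat_lit 292) (nat_lit 1168) (nat_lit 2336) 2 cols3_4 tab3_2 kl3
    out3_3_4 tabOK3_2 (by decide +kernel) v3_3_4

theorem grp3_4_5 : GrpOK 3 4 cols3_5 out3_4_5 :=
  grp_of_chk (N := 3) (by norm_num) (by norm_num) 3 (nat_lit 292) (nat_lit 292) (nat_lit 876) 1 cols3_5 tab3_1 kl3
    out3_4_5 tabOK3_1 (by decide +kernel) v3_4_5

theorem grp3_3_5 : GrpOK 3 3 cols3_5 out3_3_5 :=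
  grp_of_chk (N := 3) (by norm_num) (by norm_num) 2 (nat_lit 292) (nat_lit 292) (nat_lit 584) 1 cols3_5 tab3_1 kl3
    out3_3_5 tabOK3_1 (by decide +kernel) v3_3_5

theorem grp3_4_6 : GrpOK 3 4 cols3_6 out3_4_6 :=
  grp_of_chk (N := 3) (by norm_num) (by norm_num) 3 (nat_lit 292) (nat_lit 292) (nat_lit 876) 0 cols3_6 tab3_0 kl3
    out3_4_6 tabOK3_0 (by decide +kernel) v3_4_6

theorem grp3_3_6 : GrpOK 3 3 cols3_6 out3_3_6 :=
  grp_of_chk (N := 3) (by norm_num) (by norm_num) 2 (nat_lit 292) (nat_lit 292) (nat_lit 584) 0 cols3_6 tab3_0 kl3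
    out3_3_6 tabOK3_0 (by decide +kernel) v3_3_6

end P348
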