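/-!
# P348 (K), module KHd: sums and differences of tables (no imports)
-/

namespace P348

/-- rowwise sum -/
def rowAdd : List Nat → List Nat → List Nat → Bool
  | [], [], [] => true
  | a :: l, b :: m, c :: r => Nat.beq (Nat.add a b) c && rowAdd l m r
  | _, _, _ => false

/-- entrywise sum -/
def outAdd : List (List Nat) → List (List Nat) → List (List Nat) → Bool
  | [], [], [] => true
  | a :: l, b :: m, c :: r => rowAdd a b c && outAdd l m r
  | _, _, _ => false

/-- rowwise difference -/
def rowSub : List Nat → List Nat → List Nat
  | a :: l, b :: m => Nat.sub a b :: rowSub l m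
  | _, _ => []

/-- entrywise difference -/
def outSub : List (List Nat) → List (List Nat) → List (List Nat)
  | a :: l, b :: m => rowSub a b :: outSub l m
  | _, _ => []

end P348
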