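import Vale.Agent.Lib.P348.KG
import Vale.Agent.Lib.P348.KHd

/-!
# P348 (K), module KGA: a group of start configurations split into two parts
-/

namespace P348

theorem rowAdd_spec : ∀ (l m r : List Nat), rowAdd l m r = true → ∀ c,
    l.getD c 0 + m.getD c 0 = r.getD c 0
  | [], [], [], _, c => by simp
  | a :: l, b :: m, x :: r, h, c => by
    simp only [rowAdd, Bool.and_eq_true] at h
    rcases c with _ | c
    · simpa using Nat.eq_of_beq_eq_true h.1
    · simpa using rowAdd_spec l m r h.2 c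
  | [], [], _ :: _, h, _ => by simp [rowAdd] at h
  | [], _ :: _, _, h, _ => by simp [rowAdd] at h
  | _ :: _, [], _, h, _ => by simp [rowAdd] at h
  | _ :: _, _ :: _, [], h, _ => by simp [rowAdd] at h

theorem outAdd_spec : ∀ (l m r : List (List Nat)), outAdd l m r = true →
    (l.length = r.length ∧ m.length = r.length) ∧ ∀ k c,
      (l.getD k []).getD c 0 + (m.getD k []).getD c 0 = (r.getD k []).getD c 0
  | [], [], [], _ => by simp
  | a :: l, b :: m, x :: r, h => by
    simp only [outAdd, Bool.and_eq_true] at h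
    obtain ⟨⟨h1, h2⟩, h3⟩ := outAdd_spec l m r h.2
    refine ⟨⟨by simp [h1], by simp [h2]⟩, fun k c => ?_⟩
    rcases k with _ | k
    · simpa using rowAdd_spec a b x h.1 c
    · simpa using h3 k c
  | [], [], _ :: _, h => by simp [outAdd] at h
  | [], _ :: _, _, h => by simp [outAdd] at h
  | _ :: _, [], _, h => by simp [outAdd] at h
  | _ :: _, _ :: _, [], h => by simp [outAdd] at h

theorem grp_append {N : ℕ} [NeZero N] {C : ℕ} {c1 c2 cols : List (ℕ × ℕ)}
    {o1 o2 out : List (List ℕ)} (h1 : GrpOK N C c1 o1) (h2 : GrpOK N C c2 o2)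
    (hc : cols = c1 ++ c2) (ho : outAdd o1 o2 out = true) : GrpOK N C cols out := by
  obtain ⟨⟨h3, h4⟩, h5⟩ := outAdd_spec _ _ _ ho
  intro k hk c hcC
  rw [hc, List.map_append, List.sum_append, h1 k (h3 ▸ hk) c hcC, h2 k (h4 ▸ hk) c hcC, h5 k c]

theorem flip_append {N : ℕ} [NeZero N] {C : ℕ} {c1 c2 cols : List (ℕ × ℕ)}
    {o1 o2 out : List (List ℕ)} (h1 : GrpFlip N C c1 o1) (h2 : GrpFlip N C c2 o2)
    (hc : cols = c1 ++ c2) (ho : outAdd o1 o2 out = true) : GrpFlip N C cols out := by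
  obtain ⟨⟨h3, h4⟩, h5⟩ := outAdd_spec _ _ _ ho
  intro k hk c hcC
  rw [hc, List.map_append, List.sum_append, h1 k (h3 ▸ hk) c hcC, h2 k (h4 ▸ hk) c hcC, h5 k c]

end P348
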