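import Mathlib.Data.List.GetD
import Vale.Agent.Lib.P348.KT4

/-!
# P348 (K), module KT5: soundness of the kernel evaluation
-/

namespace P348

open Finset

variable {N : ℕ} [NeZero N]

private theorem sum_list_comm (m : ℕ) (f : ℕ → ℕ) (g : ℕ → ℕ → ℕ) (l : List ℕ) :
    ∑ c ∈ range m, f c * (l.map fun a => g c a).sum
      = (l.map fun a => ∑ c ∈ range m, f c * g c a).sum := by
  induction l with
  | nil => simp
  | cons a l ih =>
    simp only [List.map_cons, List.sum_cons, mul_add, sum_add_distrib, ih]

private theorem pini_ne (C w : ℕ) (ss : List (Cfg N)) (c : ZMod C) (hc : c ≠ 0) (t : Cfg N) :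
    pini C w ss c t = 0 := by
  induction ss with
  | nil => rfl
  | cons s ss ih => simp [pini, ini, hc, ih]

private theorem pk_eq (C w : ℕ) (cols : List (ℕ × ℕ)) (hcols : ∀ r ∈ cols, r.1 < 3 ^ (2 * N))
    (i : ℕ) (hi : i < 3 ^ (2 * N)) :
    pk w cols i = pini C w (cols.map fun r => decode N r.1) 0 (decode N i) := by
  induction cols with
  | nil => rfl
  | cons r cols ih =>
    have h1 := ih fun r hr => hcols r (List.mem_cons_of_mem _ hr)
    have e : pk w (r :: cols) i
        = Nat.add (Bool.rec 0 1 (Nat.beq i r.1)) (Nat.shiftLeft (pk w cols i) w) := rfl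
    rw [e, h1, List.map_cons, pini, Nat.add_eq]
    congr 1
    · unfold ini
      by_cases h : i = r.1
      · have hb : Nat.beq i r.1 = true := by rw [h]; exact Nat.beq_refl _
        rw [hb, h, if_pos ⟨rfl, rfl⟩]
      · have hb : Nat.beq i r.1 = false := by
          rw [← Bool.not_eq_true]
          intro hc
          exact h (Nat.eq_of_beq_eq_true hc)
        rw [hb, if_neg]
        rintro ⟨_, h2⟩
        exact h (decode_inj hi (hcols r List.mem_cons_self) h2)
    · have e2 : ∀ x : ℕ, Nat.shiftLeft x w = x * 2 ^ w := fun x => Nat.shiftLeft_eq x w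
      rw [e2, mul_comm]

/-- the packed value of all winding numbers -/
private noncomputable def XX (N : ℕ) [NeZero N] (m w : ℕ) (cols : List (ℕ × ℕ)) (k i : ℕ) : ℕ :=
  ∑ c ∈ range (m + 1), 2 ^ (w * cols.length * c) *
    ((stepN N (m + 1))^[k] (pini (m + 1) w (cols.map fun r => decode N r.1)))
      (c : ZMod (m + 1)) (decode N i)

private theorem G_eq (hN : 2 ≤ N) (hN4 : N ≤ 4) (m w a b sig : ℕ) (cols : List (ℕ × ℕ)) (t : Trie)
    (htab : TabOK (2 * N) sig t) (hcols : ∀ r ∈ cols, r.1 < 3 ^ (2 * N))
    (ha : a = w * cols.length) (hb : b = a * m) (k : ℕ) (hk : 4 * k + N < w) :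
    ∀ i, i < 3 ^ (2 * N) → digsum (2 * N) i = sig →
    (G t (zup (Nat.pred (Nat.pow 2 b)) a b) (zdn (Nat.pred (Nat.pow 2 a)) a b) (pk w cols) k).g i
      = XX N m w cols k i := by
  subst ha
  subst hb
  induction k with
  | zero =>
    intro i hi _
    have e : (G t (zup (Nat.pred (Nat.pow 2 (w * cols.length * m))) (w * cols.length)
        (w * cols.length * m)) (zdn (Nat.pred (Nat.pow 2 (w * cols.length))) (w * cols.length)
        (w * cols.length * m)) (pk w cols) 0).g i = pk w cols i := rfl
    rw [e, pk_eq (m + 1) w cols hcols i hi]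
    unfold XX
    rw [sum_eq_single 0]
    · simp
    · intro c hc h0
      have hne : ((c : ℕ) : ZMod (m + 1)) ≠ 0 := by
        intro h
        rw [ZMod.natCast_eq_zero_iff] at h
        have := Nat.le_of_dvd (by omega) h
        have := mem_range.mp hc
        omega
      rw [Function.iterate_zero, id_eq, pini_ne _ _ _ _ hne, mul_zero]
    · intro h
      exact absurd (mem_range.mpr (by omega)) h
  | succ k ih =>
    intro i hi hs
    have ih' := ih (by omega)
    set p := zup (Nat.pred (Nat.pow 2 (w * cols.length * m))) (w * cols.length)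
      (w * cols.length * m) with hp
    set q := zdn (Nat.pred (Nat.pow 2 (w * cols.length))) (w * cols.length)
      (w * cols.length * m) with hq
    have e : (G t p q (pk w cols) (k + 1)).g i
        = (comp (t.get i)).f (G t p q (pk w cols) k).g p q := rfl
    have hrow := htab i hi hs
    rw [e, comp_spec, hrow.hi, hrow.hd, hrow.hr, hrow.hu, hrow.hn, ih' i hi hs]
    have hlt : ∀ j, ∀ c : ℕ, ((stepN N (m + 1))^[k] (pini (m + 1) w
        (cols.map fun r => decode N r.1))) (c : ZMod (m + 1)) (decode N j)
        < 2 ^ (w * cols.length) := by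
      intro j c
      have := pack_lt hN4 (m + 1) w (cols.map fun r => decode N r.1) k (by omega)
        (c : ZMod (m + 1)) (decode N j)
      rwa [List.length_map] at this
    have hR : ((spR (2 * N) i).map (G t p q (pk w cols) k).g)
        = (spR (2 * N) i).map fun a => XX N m w cols k a := by
      refine List.map_congr_left fun a ha => ?_
      obtain ⟨h1, h2⟩ := spR_mem hN hi ha
      exact ih' a h1 (by rw [h2, hs])
    have hU : ((spU (2 * N) i).map fun a => p ((G t p q (pk w cols) k).g a))
        = (spU (2 * N) i).map fun a => ∑ c ∈ range (m + 1), 2 ^ (w * cols.length * c) *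
          ((stepN N (m + 1))^[k] (pini (m + 1) w (cols.map fun r => decode N r.1)))
            ((c : ZMod (m + 1)) - 1) (decode N a) := by
      refine List.map_congr_left fun a ha => ?_
      obtain ⟨h1, h2⟩ := spU_mem hN hi ha
      rw [ih' a h1 (by rw [h2, hs]), hp]
      unfold XX
      rw [zup_spec (w * cols.length) m (fun c => ((stepN N (m + 1))^[k] (pini (m + 1) w
        (cols.map fun r => decode N r.1))) (c : ZMod (m + 1)) (decode N a)) (hlt a),
        sum_range_succ' _ m, mul_zero, pow_zero, one_mul, add_comm]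
      congr 1
      · refine sum_congr rfl fun c _ => ?_
        congr 2
        push_cast
        ring
      · congr 1
        have h3 : ((m + 1 : ℕ) : ZMod (m + 1)) = 0 := ZMod.natCast_self (m + 1)
        push_cast at h3 ⊢
        rw [zero_sub, eq_neg_of_add_eq_zero_left h3]
    have hD : ((spN (2 * N) i).map fun a => q ((G t p q (pk w cols) k).g a))
        = (spN (2 * N) i).map fun a => ∑ c ∈ range (m + 1), 2 ^ (w * cols.length * c) *
          ((stepN N (m + 1))^[k] (pini (m + 1) w (cols.map fun r => decode N r.1)))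
            ((c : ZMod (m + 1)) + 1) (decode N a) := by
      refine List.map_congr_left fun a ha => ?_
      obtain ⟨h1, h2⟩ := spN_mem hN hi ha
      rw [ih' a h1 (by rw [h2, hs]), hq]
      unfold XX
      rw [zdn_spec (w * cols.length) m (fun c => ((stepN N (m + 1))^[k] (pini (m + 1) w
        (cols.map fun r => decode N r.1))) (c : ZMod (m + 1)) (decode N a)) (hlt a),
        sum_range_succ _ m]
      congr 1
      · refine sum_congr rfl fun c _ => ?_
        congr 2
        push_cast
        ring
      · congr 2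
        have h3 : ((m + 1 : ℕ) : ZMod (m + 1)) = 0 := ZMod.natCast_self (m + 1)
        push_cast at h3 ⊢
        rw [h3]
    rw [hR, hU, hD]
    have hX : ∀ j, XX N m w cols k j = ∑ c ∈ range (m + 1), 2 ^ (w * cols.length * c) *
        ((stepN N (m + 1))^[k] (pini (m + 1) w (cols.map fun r => decode N r.1)))
          (c : ZMod (m + 1)) (decode N j) := fun j => rfl
    have hgoal : XX N m w cols (k + 1) i = ∑ c ∈ range (m + 1), 2 ^ (w * cols.length * c) *
        (spD (2 * N) i * ((stepN N (m + 1))^[k] (pini (m + 1) w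
          (cols.map fun r => decode N r.1))) (c : ZMod (m + 1)) (decode N i)
        + ((spR (2 * N) i).map fun a => ((stepN N (m + 1))^[k] (pini (m + 1) w
          (cols.map fun r => decode N r.1))) (c : ZMod (m + 1)) (decode N a)).sum
        + ((spU (2 * N) i).map fun a => ((stepN N (m + 1))^[k] (pini (m + 1) w
          (cols.map fun r => decode N r.1))) ((c : ZMod (m + 1)) - 1) (decode N a)).sum
        + ((spN (2 * N) i).map fun a => ((stepN N (m + 1))^[k] (pini (m + 1) w
          (cols.map fun r => decode N r.1))) ((c : ZMod (m + 1)) + 1) (decode N a)).sum) := by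
      unfold XX
      refine sum_congr rfl fun c _ => ?_
      rw [Function.iterate_succ_apply', step_decode hN (m + 1) _ _ hi]
    rw [hgoal]
    simp only [hX, mul_add, sum_add_distrib]
    rw [sum_list_comm (m + 1) (fun c => 2 ^ (w * cols.length * c)) (fun c a =>
        ((stepN N (m + 1))^[k] (pini (m + 1) w (cols.map fun r => decode N r.1)))
          (c : ZMod (m + 1)) (decode N a)),
      sum_list_comm (m + 1) (fun c => 2 ^ (w * cols.length * c)) (fun c a =>
        ((stepN N (m + 1))^[k] (pini (m + 1) w (cols.map fun r => decode N r.1)))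
          ((c : ZMod (m + 1)) - 1) (decode N a)),
      sum_list_comm (m + 1) (fun c => 2 ^ (w * cols.length * c)) (fun c a =>
        ((stepN N (m + 1))^[k] (pini (m + 1) w (cols.map fun r => decode N r.1)))
          ((c : ZMod (m + 1)) + 1) (decode N a))]
    congr 3
    rw [mul_sum]
    refine sum_congr rfl fun c _ => ?_
    ring

private theorem split_at (W m c : ℕ) (y : ℕ → ℕ) (hc : c ≤ m) :
    ∃ R, ∑ j ∈ range (m + 1), 2 ^ (W * j) * y j
      = ∑ j ∈ range c, 2 ^ (W * j) * y j + 2 ^ (W * c) * (y c + 2 ^ W * R) := by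
  induction m, hc using Nat.le_induction with
  | base => exact ⟨0, by rw [sum_range_succ, mul_zero, add_zero]⟩
  | succ n hn ih =>
    obtain ⟨R, hR⟩ := ih
    obtain ⟨d, rfl⟩ := Nat.exists_eq_add_of_le hn
    refine ⟨R + 2 ^ (W * d) * y (c + d + 1), ?_⟩
    rw [sum_range_succ, hR]
    have h1 : 2 ^ (W * (c + d + 1)) = 2 ^ (W * c) * (2 ^ W * 2 ^ (W * d)) := by
      rw [← pow_add, ← pow_add]
      congr 1
      ring
    rw [h1]
    ring

private theorem digit_sum (W w m c j : ℕ) (y : ℕ → ℕ) (hy : ∀ c, y c < 2 ^ W) (hc : c ≤ m)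
    (hj : w * (j + 1) ≤ W) :
    (∑ j ∈ range (m + 1), 2 ^ (W * j) * y j) / 2 ^ (W * c + w * j) % 2 ^ w
      = y c / 2 ^ (w * j) % 2 ^ w := by
  obtain ⟨R, hR⟩ := split_at W m c y hc
  have h1 := sum_lt_pow W c y hy
  rw [pow_add, ← Nat.div_div_eq_div_mul, hR, Nat.add_mul_div_left _ _ (by positivity),
    Nat.div_eq_of_lt h1, zero_add]
  obtain ⟨d, hd⟩ := Nat.exists_eq_add_of_le hj
  have h2 : 2 ^ W * R = 2 ^ (w * j) * (2 ^ w * (2 ^ d * R)) := by
    rw [hd, mul_add, pow_add, pow_add, mul_one]
    ring
  rw [h2, Nat.add_mul_div_left _ _ (by positivity), Nat.add_mul_mod_self_left]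

private theorem rd_cons (w : ℕ) (g : ℕ → ℕ) (r : ℕ × ℕ) (cols : List (ℕ × ℕ)) (sh : ℕ) :
    rd w g (r :: cols) sh = r.2 * (g r.1 / 2 ^ sh % 2 ^ w) + rd w g cols (sh + w) := by
  have e : rd w g (r :: cols) sh = Nat.add (Nat.mul r.2 (Nat.mod (Nat.shiftRight (g r.1) sh)
      (Nat.pow 2 w))) (rd w g cols (sh + w)) := rfl
  have e2 : Nat.shiftRight (g r.1) sh = g r.1 / 2 ^ sh := Nat.shiftRight_eq_div_pow _ _
  rw [e, e2]
  rfl

private theorem rd_eq (hN : 2 ≤ N) (hN4 : N ≤ 4) (m w k c : ℕ) (hk : 4 * k + N < w) (hc : c ≤ m)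
    (cols : List (ℕ × ℕ)) (φ g : ℕ → ℕ) (hg : ∀ r ∈ cols, g r.1 = XX N m w cols k (φ r.1)) :
    rd w g cols (w * cols.length * c)
      = (cols.map fun r => r.2 * cnt N (m + 1) k r.1 (φ r.1) c).sum := by
  have key : ∀ (l : List (ℕ × ℕ)) (j : ℕ), cols.drop j = l →
      rd w g l (w * cols.length * c + w * j)
        = (l.map fun r => r.2 * cnt N (m + 1) k r.1 (φ r.1) c).sum := by
    intro l
    induction l with
    | nil => intro j _; rfl
    | cons r l ih =>
      intro j hj
      have hjl : j < cols.length := by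
        by_contra h
        rw [List.drop_eq_nil_of_le (by omega)] at hj
        exact absurd hj (by simp)
      have hd := List.drop_eq_getElem_cons hjl
      rw [hj] at hd
      have h1 : r = cols[j] := (List.cons.inj hd).1
      have h2 : cols.drop (j + 1) = l := (List.cons.inj hd).2.symm
      have h3 := ih (j + 1) h2
      rw [rd_cons, List.map_cons, List.sum_cons]
      have e : w * cols.length * c + w * j + w = w * cols.length * c + w * (j + 1) := by ring
      rw [e, h3]
      congr 1
      congr 1
      have hr : r ∈ cols := by rw [h1]; exact List.getElem_mem hjl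
      rw [hg r hr]
      unfold XX
      rw [digit_sum (w * cols.length) w m c j (fun c => ((stepN N (m + 1))^[k] (pini (m + 1) w
        (cols.map fun r => decode N r.1))) (c : ZMod (m + 1)) (decode N (φ r.1))) ?_ hc
        (Nat.mul_le_mul_left w (by omega)),
        digit_eq hN hN4 (m + 1) w (cols.map fun r => decode N r.1) k hk j
          (by rw [List.length_map]; exact hjl)]
      · unfold cnt
        rw [List.getElem_map, ← h1]
      · intro c
        have := pack_lt hN4 (m + 1) w (cols.map fun r => decode N r.1) k hk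
          (c : ZMod (m + 1)) (decode N (φ r.1))
        rwa [List.length_map] at this
  have := key cols 0 rfl
  rwa [mul_zero, add_zero] at this

private theorem rdChk_spec (w W : ℕ) (g : ℕ → ℕ) (cols : List (ℕ × ℕ)) : ∀ (o : List ℕ) (sh : ℕ),
    rdChk w W g cols o sh = true → ∀ c, c < o.length → rd w g cols (sh + W * c) = o.getD c 0
  | [], _, _, c, hc => by simp at hc
  | x :: o, sh, h, c, hc => by
    have e : rdChk w W g cols (x :: o) sh
        = Bool.rec false (rdChk w W g cols o (sh + W)) (Nat.beq (rd w g cols sh) x) := rfl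
    rw [e] at h
    cases hb : Nat.beq (rd w g cols sh) x with
    | false => rw [hb] at h; exact absurd h (by simp)
    | true =>
      rw [hb] at h
      cases c with
      | zero =>
        rw [mul_zero, add_zero, List.getD_cons_zero]
        exact Nat.eq_of_beq_eq_true hb
      | succ c =>
        have h1 := rdChk_spec w W g cols o (sh + W) h c (by simpa using hc)
        rw [List.getD_cons_succ, ← h1]
        congr 1
        ring

private theorem chk_spec (w W : ℕ) (F : ℕ → ℕ → ℕ) (cols : List (ℕ × ℕ)) :
    ∀ (ks : List ℕ) (out : List (List ℕ)), chk w W F cols ks out = true →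
    ∀ k, k < ks.length → k < out.length →
      rdChk w W (F (ks.getD k 0)) cols (out.getD k []) 0 = true
  | [], _, _, k, hk, _ => by simp at hk
  | _ :: _, [], _, k, _, hk => by simp at hk
  | k0 :: ks, o :: os, h, k, h1, h2 => by
    have e : chk w W F cols (k0 :: ks) (o :: os)
        = Bool.rec false (chk w W F cols ks os) (rdChk w W (F k0) cols o 0) := rfl
    rw [e] at h
    cases hb : rdChk w W (F k0) cols o 0 with
    | false => rw [hb] at h; exact absurd h (by simp)
    | true =>
      rw [hb] at h
      cases k with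
      | zero => simpa using hb
      | succ k =>
        have := chk_spec w W F cols ks os h k (by simpa using h1) (by simpa using h2)
        simpa using this

/-- conditions on a group which are cheap to check -/
def colsChk (L sig w C : ℕ) (a b : ℕ) (cols : List (ℕ × ℕ)) (ks : List ℕ)
    (out : List (List ℕ)) : Bool :=
  (cols.all fun r => Nat.ble (r.1 + 1) (3 ^ L) && Nat.beq (digsum L r.1) sig)
    && (out.all fun o => Nat.beq o.length C) && lbeq ks (List.range out.length)
    && Nat.ble (4 * out.length + L / 2) (w + 3) && Nat.beq a (w * cols.length)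
    && Nat.beq (b + a) (a * C)

/-- soundness, with an arbitrary end configuration φ s -/
theorem phi_of_chk (hN : 2 ≤ N) (hN4 : N ≤ 4) (m w a b sig : ℕ) (cols : List (ℕ × ℕ)) (t : Trie)
    (ks : List ℕ) (out : List (List ℕ)) (φ : ℕ → ℕ)
    (hφ : ∀ s, s < 3 ^ (2 * N) → digsum (2 * N) s = sig →
      φ s < 3 ^ (2 * N) ∧ digsum (2 * N) (φ s) = sig)
    (htab : TabOK (2 * N) sig t) (hc : colsChk (2 * N) sig w (m + 1) a b cols ks out = true)
    (h : chk w a (fun k s => (G t (zup (Nat.pred (Nat.pow 2 b)) a b)
      (zdn (Nat.pred (Nat.pow 2 a)) a b) (pk w cols) k).g (φ s)) cols ks out = true) :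
    ∀ k, k < out.length → ∀ c, c < m + 1 →
      (cols.map fun r => r.2 * cnt N (m + 1) k r.1 (φ r.1) c).sum = (out.getD k []).getD c 0 := by
  intro k hk c hcm
  simp only [colsChk, Bool.and_eq_true, List.all_eq_true, Nat.ble_eq] at hc
  obtain ⟨⟨⟨⟨⟨h1, h2⟩, h3⟩, h4⟩, h5⟩, h6⟩ := hc
  have hks := lbeq_eq _ _ h3
  have ha := Nat.eq_of_beq_eq_true h5
  have hb' := Nat.eq_of_beq_eq_true h6
  have hb : b = a * m := by
    rw [mul_add, mul_one] at hb'
    omega
  have hk' : 4 * k + N < w := by omega
  have hksl : k < ks.length := by rw [hks, List.length_range]; exact hk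
  have hkd : ks.getD k 0 = k := by
    rw [hks, List.getD_eq_getElem _ _ (by rw [List.length_range]; exact hk), List.getElem_range]
  have e1 := chk_spec w a _ cols ks out h k hksl hk
  rw [hkd] at e1
  have hlen : (out.getD k []).length = m + 1 := by
    rw [List.getD_eq_getElem _ _ hk]
    exact Nat.eq_of_beq_eq_true (h2 _ (List.getElem_mem hk))
  have e2 := rdChk_spec w a _ cols _ 0 e1 c (by omega)
  rw [zero_add] at e2
  rw [← e2, ha]
  symm
  refine rd_eq hN hN4 m w k c hk' (by omega) cols φ _ ?_
  intro r hr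
  have hr1 := (h1 r hr).1
  have hr2 := Nat.eq_of_beq_eq_true (h1 r hr).2
  obtain ⟨hφ1, hφ2⟩ := hφ r.1 hr1 hr2
  rw [← ha]
  exact G_eq hN hN4 m w a b sig cols t htab (fun r hr => (h1 r hr).1) ha hb k hk' (φ r.1) hφ1 hφ2

/-- soundness for closed paths -/
theorem grp_of_chk (hN : 2 ≤ N) (hN4 : N ≤ 4) (m w a b sig : ℕ) (cols : List (ℕ × ℕ)) (t : Trie)
    (ks : List ℕ) (out : List (List ℕ))
    (htab : TabOK (2 * N) sig t) (hc : colsChk (2 * N) sig w (m + 1) a b cols ks out = true)
    (h : chk w a (fun k s => (G t (zup (Nat.pred (Nat.pow 2 b)) a b)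
      (zdn (Nat.pred (Nat.pow 2 a)) a b) (pk w cols) k).g s) cols ks out = true) :
    GrpOK N (m + 1) cols out :=
  phi_of_chk hN hN4 m w a b sig cols t ks out (fun s => s) (fun _ h1 h2 => ⟨h1, h2⟩) htab hc h

private theorem digsum_flip (s : ℕ) (hs : s < 3 ^ (2 * N)) :
    digsum (2 * N) (3 ^ (2 * N) - 1 - s) + digsum (2 * N) s = 4 * N := by
  have h1 := sum_labels (N := N) (3 ^ (2 * N) - 1 - s)
  have h2 := sum_labels (N := N) s
  rw [← flip_decode hs] at h1
  rw [← h1, ← h2, ← sum_add_distrib]
  have h3 : ∀ a : Fin 3, ((2 - a : Fin 3) : ℕ) + (a : ℕ) = 2 := by decide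
  have h4 : ∀ x : Site N, ((flipc (decode N s) x : Fin 3) : ℕ) + ((decode N s x : Fin 3) : ℕ) = 2 :=
    fun x => h3 _
  rw [sum_congr rfl fun x _ => h4 x, sum_const, card_univ, Fintype.card_prod, Fintype.card_fin,
    Fintype.card_bool, smul_eq_mul]
  ring

/-- soundness for paths to the flipped configuration -/
theorem flip_of_chk (hN : 2 ≤ N) (hN4 : N ≤ 4) (m w a b sig : ℕ) (hsig : sig = 2 * N)
    (cols : List (ℕ × ℕ)) (t : Trie) (ks : List ℕ) (out : List (List ℕ))
    (htab : TabOK (2 * N) sig t) (hc : colsChk (2 * N) sig w (m + 1) a b cols ks out = true)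
    (h : chk w a (fun k s => (G t (zup (Nat.pred (Nat.pow 2 b)) a b)
      (zdn (Nat.pred (Nat.pow 2 a)) a b) (pk w cols) k).g (3 ^ (2 * N) - 1 - s)) cols ks out
      = true) :
    GrpFlip N (m + 1) cols out :=
  phi_of_chk hN hN4 m w a b sig cols t ks out (fun s => 3 ^ (2 * N) - 1 - s)
    (fun s h1 h2 => by
      have := digsum_flip (N := N) s h1
      exact ⟨by omega, by omega⟩) htab hc h

end P348
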