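import Vale.Agent.Lib.P348.KTab4
import Vale.Agent.Lib.P348.KT4

/-!
# P348 (K): the tables of the ring of length 8 are correct (kernel evaluation)

The check `KTF.tab` enumerates the codes of a sector digit by digit (most significant digit first,
pruned by the digit sum) and compares every row with the digits; everything is written with raw
recursors, so that the kernel needs about one millisecond for a row.
-/


namespace P348

namespace KTF

noncomputable section

/-- raw conjunction -/
def an (a b : Bool) : Bool := Bool.rec (motive := fun _ => Bool) false b a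

/-- raw implication -/
def im (a b : Bool) : Bool := Bool.rec (motive := fun _ => Bool) true b a

/-- if `c` holds, the head of `l` must be `v`; continue with the rest -/
def eat (c : Bool) (v : ℕ) (k : List ℕ → Bool) (l : List ℕ) : Bool :=
  Bool.rec (motive := fun _ => Bool) (k l)
    (List.rec (motive := fun _ => Bool) false
      (fun h t _ => Bool.rec (motive := fun _ => Bool) false (k t) (Nat.beq h v)) l) c

/-- the unit may be moved from the second to the first site -/
def upc (a b : ℕ) : Bool := an (Nat.ble a 1) (Nat.ble 1 b)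

/-- diagonal entry -/
def dgr (a b : ℕ) : ℕ := Nat.sub (Nat.add (Nat.mul a b) 2) (Nat.add a b)

/-- `b` and the list is exhausted -/
def nl (b : Bool) (l : List ℕ) : Bool :=
  List.rec (motive := fun _ => Bool) b (fun _ _ _ => false) l

/-- the bonds -/
def P (fin : ℕ → ℕ → Bool) (i : ℕ) (rest : List ℕ) : ℕ → ℕ → ℕ → List ℕ → Bool :=
  List.rec (motive := fun _ => ℕ → ℕ → ℕ → List ℕ → Bool)
    (fun a _ dacc l => nl (fin a dacc) l)
    (fun b _ ih a w dacc l =>
      eat (upc a b) (Nat.sub i w)
        (fun l => eat (upc b a) (Nat.add i w)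
          (fun l => ih b (Nat.mul 3 w) (Nat.add dacc (dgr a b)) l) l) l)
    rest

/-- the last bond and the diagonal entry -/
def fin (top i d : ℕ) (u n : List ℕ) (c a dacc : ℕ) : Bool :=
  an (Nat.beq d (Nat.add dacc (dgr a c)))
    (an (eat (upc a c) (Nat.sub (Nat.add i top) 1) (nl true) u)
      (eat (upc c a) (Nat.sub (Nat.add i 1) top) (nl true) n))

/-- the check of a row, `ds` the list of the digits -/
def row (top i : ℕ) (ds : List ℕ) (x : RD) : Bool :=
  RD.rec (motive := fun _ => Bool) (fun d i' r u n =>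
    an (Nat.beq i' i)
      (List.rec (motive := fun _ => Bool) false
        (fun c rest _ => P (fin top i d u n c) i rest c 2 0 r) ds)) x

/-- enumeration of the codes with given digit sum -/
def E (chk : ℕ → List ℕ → Bool) (n : ℕ) : ℕ → ℕ → List ℕ → Bool :=
  Nat.rec (motive := fun _ => ℕ → ℕ → List ℕ → Bool)
    (fun p s ds => im (Nat.beq s 0) (chk p ds))
    (fun n ih p s ds => im (Nat.ble s (Nat.mul 2 (Nat.succ n)))
      (an (ih (Nat.mul 3 p) s (List.cons 0 ds))
        (an (im (Nat.ble 1 s) (ih (Nat.add (Nat.mul 3 p) 1) (Nat.sub s 1) (List.cons 1 ds)))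
          (im (Nat.ble 2 s) (ih (Nat.add (Nat.mul 3 p) 2) (Nat.sub s 2) (List.cons 2 ds))))))
    n

/-- the check of a table -/
def tab (L top sig : ℕ) (t : Trie) : Bool :=
  E (fun i ds => row top i ds (rdat (t.get i))) L 0 sig []

end

/-! ### soundness -/

theorem an_iff {a b : Bool} : an a b = true ↔ a = true ∧ b = true := by
  cases a <;> simp [an]

theorem im_iff {a b : Bool} : im a b = true ↔ (a = true → b = true) := by
  cases a <;> simp [im]

theorem nl_iff {b : Bool} {l : List ℕ} : nl b l = true ↔ b = true ∧ l = [] := by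
  cases l <;> simp [nl]

theorem eat_iff {c : Bool} {v : ℕ} {k : List ℕ → Bool} {l : List ℕ} (h : eat c v k l = true) :
    ∃ t, l = (if c = true then [v] else []) ++ t ∧ k t = true := by
  cases c with
  | false => exact ⟨l, by simp, h⟩
  | true =>
    cases l with
    | nil => exact absurd h (by simp [eat])
    | cons a t =>
      have h1 : Bool.rec (motive := fun _ => Bool) false (k t) (Nat.beq a v) = true := h
      cases h2 : Nat.beq a v with
      | false => rw [h2] at h1; exact absurd h1 (by simp)
      | true =>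
        rw [h2] at h1
        rw [Nat.eq_of_beq_eq_true h2]
        exact ⟨t, by simp, h1⟩

theorem upc_iff {a b : ℕ} (ha : a < 3) : upc a b = true ↔ a ≠ 2 ∧ b ≠ 0 := by
  unfold upc
  rw [an_iff, Nat.ble_eq, Nat.ble_eq]
  omega

theorem dgr_eq {a b : ℕ} (ha : a < 3) (hb : b < 3) : dgr a b = dgn a b := by
  have h : ∀ a : Fin 3, ∀ b : Fin 3, Nat.sub (Nat.add (Nat.mul a b) 2) (Nat.add a b) =
      dgn (a : ℕ) (b : ℕ) := by decide
  exact h ⟨a, ha⟩ ⟨b, hb⟩

/-- the neighbours through untwisted bonds, from the digits -/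
def gR : List ℕ → ℕ → ℕ → ℕ → List ℕ
  | [], _, _, _ => []
  | b :: rest, i, a, w => (if a ≠ 2 ∧ b ≠ 0 then [i - w] else []) ++
      ((if a ≠ 0 ∧ b ≠ 2 then [i + w] else []) ++ gR rest i b (3 * w))

/-- the diagonal entry without the last bond -/
def gD : List ℕ → ℕ → ℕ
  | [], _ => 0
  | b :: rest, a => dgn a b + gD rest b

/-- last digit -/
def gL : List ℕ → ℕ → ℕ
  | [], a => a
  | b :: rest, _ => gL rest b

theorem P_sound (f : ℕ → ℕ → Bool) (i : ℕ) : ∀ (rest : List ℕ) (a w dacc : ℕ) (l : List ℕ),
    a < 3 → (∀ b ∈ rest, b < 3) → P f i rest a w dacc l = true →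
      l = gR rest i a w ∧ f (gL rest a) (dacc + gD rest a) = true
  | [], a, w, dacc, l, _, _, h => by
    have h1 : nl (f a dacc) l = true := h
    rw [nl_iff] at h1
    exact ⟨h1.2, by simpa [gL, gD] using h1.1⟩
  | b :: rest, a, w, dacc, l, ha, hr, h => by
    have hb : b < 3 := hr b List.mem_cons_self
    have h1 : eat (upc a b) (Nat.sub i w)
        (fun l => eat (upc b a) (Nat.add i w)
          (fun l => P f i rest b (Nat.mul 3 w) (Nat.add dacc (dgr a b)) l) l) l = true := h
    obtain ⟨t, ht, h2⟩ := eat_iff h1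
    obtain ⟨t', ht', h3⟩ := eat_iff h2
    obtain ⟨h4, h5⟩ := P_sound f i rest b _ _ _ hb (fun c hc => hr c (List.mem_cons_of_mem _ hc)) h3
    refine ⟨?_, ?_⟩
    · rw [ht, ht', h4]
      simp only [gR, upc_iff ha, upc_iff hb, Nat.sub_eq, Nat.add_eq, Nat.mul_eq]
      congr 2
      simp only [and_comm]
    · rw [dgr_eq ha hb] at h5
      have e : dacc + gD (b :: rest) a = Nat.add dacc (dgn a b) + gD rest b := by
        simp only [gD, Nat.add_eq]
        omega
      rw [e]
      exact h5

theorem E_sound (chk : ℕ → List ℕ → Bool) : ∀ (n p s : ℕ) (ds : List ℕ),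
    E chk n p s ds = true → ∀ i, i / 3 ^ n = p → digsum n i = s →
      chk i ((List.range n).map (dig i) ++ ds) = true
  | 0, p, s, ds, h, i, hi, hs => by
    have h1 : im (Nat.beq s 0) (chk p ds) = true := h
    have h2 : s = 0 := by rw [← hs]; rfl
    rw [pow_zero, Nat.div_one] at hi
    rw [im_iff] at h1
    rw [hi]
    exact h1 (by rw [h2]; rfl)
  | n + 1, p, s, ds, h, i, hi, hs => by
    have h1 : im (Nat.ble s (Nat.mul 2 (Nat.succ n)))
      (an (E chk n (Nat.mul 3 p) s (List.cons 0 ds))
        (an (im (Nat.ble 1 s) (E chk n (Nat.add (Nat.mul 3 p) 1) (Nat.sub s 1) (List.cons 1 ds)))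
          (im (Nat.ble 2 s) (E chk n (Nat.add (Nat.mul 3 p) 2) (Nat.sub s 2)
            (List.cons 2 ds))))) = true := h
    have hle : ∀ m : ℕ, digsum m i ≤ 2 * m := by
      intro m
      induction m with
      | zero => exact le_rfl
      | succ m ih =>
        have e : digsum (m + 1) i = digsum m i + dig i m := by
          unfold digsum
          rw [List.range_succ, List.map_append, List.sum_append]
          simp
        have := Nat.mod_lt (i / 3 ^ m) (show 0 < 3 by norm_num)
        have e2 : dig i m = i / 3 ^ m % 3 := rfl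
        omega
    have e1 : digsum (n + 1) i = digsum n i + dig i n := by
      unfold digsum
      rw [List.range_succ, List.map_append, List.sum_append]
      simp
    have e2 : dig i n = i / 3 ^ n % 3 := rfl
    have e3 : i / 3 ^ (n + 1) = i / 3 ^ n / 3 := by rw [pow_succ, Nat.div_div_eq_div_mul]
    have e4 : (List.range (n + 1)).map (dig i) ++ ds =
        (List.range n).map (dig i) ++ (dig i n :: ds) := by
      rw [List.range_succ, List.map_append, List.append_assoc]
      rfl
    rw [im_iff, Nat.ble_eq] at h1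
    have h2 := h1 (by have := hle (n + 1); rw [hs] at this; exact this)
    rw [an_iff, an_iff, im_iff, im_iff, Nat.ble_eq, Nat.ble_eq] at h2
    rw [e4]
    have hd3 : i / 3 ^ n % 3 < 3 := Nat.mod_lt _ (by norm_num)
    obtain ⟨h20, h21, h22⟩ := h2
    rcases (by omega : dig i n = 0 ∨ dig i n = 1 ∨ dig i n = 2) with hd | hd | hd
    · rw [hd]
      refine E_sound chk n _ _ _ h20 i ?_ ?_
      · show i / 3 ^ n = 3 * p
        omega
      · omega
    · rw [hd]
      refine E_sound chk n _ _ _ (h21 (by omega)) i ?_ ?_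
      · show i / 3 ^ n = 3 * p + 1
        omega
      · show digsum n i = s - 1
        omega
    · rw [hd]
      refine E_sound chk n _ _ _ (h22 (by omega)) i ?_ ?_
      · show i / 3 ^ n = 3 * p + 2
        omega
      · show digsum n i = s - 2
        omega

theorem row_sound (i : ℕ) (x : RD) (h : row 2187 i ((List.range 8).map (dig i)) x = true) :
    RowOK 8 i x := by
  obtain ⟨d, i', r, u, n⟩ := x
  have hl : (List.range 8).map (dig i) =
      [dig i 0, dig i 1, dig i 2, dig i 3, dig i 4, dig i 5, dig i 6, dig i 7] := rfl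
  rw [hl] at h
  have h1 : an (Nat.beq i' i) (P (fin 2187 i d u n (dig i 0)) i
      [dig i 1, dig i 2, dig i 3, dig i 4, dig i 5, dig i 6, dig i 7] (dig i 0) 2 0 r) = true := h
  rw [an_iff] at h1
  have hlt : ∀ p, dig i p < 3 := fun p => Nat.mod_lt _ (by norm_num)
  obtain ⟨h2, h3⟩ := P_sound _ i _ _ _ _ _ (hlt 0) (by
    intro b hb
    simp only [List.mem_cons, List.not_mem_nil, or_false] at hb
    rcases hb with h | h | h | h | h | h | h <;> (rw [h]; exact hlt _)) h1.2
  simp only [gL] at h3
  unfold fin at h3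
  rw [an_iff, an_iff] at h3
  obtain ⟨h4, h5, h6⟩ := h3
  obtain ⟨t5, ht5, h5'⟩ := eat_iff h5
  obtain ⟨t6, ht6, h6'⟩ := eat_iff h6
  rw [nl_iff] at h5' h6'
  refine ⟨Nat.eq_of_beq_eq_true h1.1, ?_, ?_, ?_, ?_⟩
  · have h7 := Nat.eq_of_beq_eq_true h4
    rw [dgr_eq (hlt 7) (hlt 0)] at h7
    show d = spD 8 i
    rw [h7]
    simp only [gD, Nat.add_eq]
    unfold spD
    simp only [List.range_succ, List.range_zero, List.nil_append, List.cons_append, List.map_cons,
      List.map_nil, List.sum_cons, List.sum_nil]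
    norm_num
    ring
  · show r = spR 8 i
    rw [h2]
    unfold spR
    simp only [gR, List.range_succ, List.range_zero, List.nil_append, List.cons_append,
      List.flatMap_cons, List.flatMap_nil, List.append_nil, List.append_assoc]
    norm_num
    simp only [(by omega : i + 1 - 3 = i - 2), (by omega : i + 3 - 9 = i - 6),
      (by omega : i + 9 - 3 = i + 6), (by omega : i + 9 - 27 = i - 18),
      (by omega : i + 27 - 9 = i + 18), (by omega : i + 27 - 81 = i - 54),
      (by omega : i + 81 - 27 = i + 54), (by omega : i + 81 - 243 = i - 162),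
      (by omega : i + 243 - 81 = i + 162), (by omega : i + 243 - 729 = i - 486),
      (by omega : i + 729 - 243 = i + 486), (by omega : i + 729 - 2187 = i - 1458),
      (by omega : i + 2187 - 729 = i + 1458)]
  · show u = spU 8 i
    rw [ht5, h5'.2, List.append_nil]
    have e7 : (3 : ℕ) ^ (8 - 1) = 2187 := by norm_num
    unfold spU
    rw [e7]
    by_cases hc : upc (dig i 7) (dig i 0) = true
    · rw [if_pos hc]
      rw [upc_iff (hlt 7)] at hc
      exact (if_pos (show dig i (8 - 1) ≠ 2 ∧ dig i 0 ≠ 0 from hc)).symm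
    · rw [if_neg hc]
      rw [upc_iff (hlt 7)] at hc
      exact (if_neg (show ¬ (dig i (8 - 1) ≠ 2 ∧ dig i 0 ≠ 0) from hc)).symm
  · show n = spN 8 i
    rw [ht6, h6'.2, List.append_nil]
    have e7 : (3 : ℕ) ^ (8 - 1) = 2187 := by norm_num
    unfold spN
    rw [e7]
    by_cases hc : upc (dig i 0) (dig i 7) = true
    · rw [if_pos hc]
      rw [upc_iff (hlt 0)] at hc
      exact (if_pos (⟨hc.2, hc.1⟩ : dig i (8 - 1) ≠ 0 ∧ dig i 0 ≠ 2)).symm
    · rw [if_neg hc]
      rw [upc_iff (hlt 0)] at hc
      exact (if_neg (fun h : dig i (8 - 1) ≠ 0 ∧ dig i 0 ≠ 2 => hc ⟨h.2, h.1⟩)).symm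

theorem tab_sound (sig : ℕ) (t : Trie) (h : tab 8 2187 sig t = true) : TabOK 8 sig t := by
  intro i hi hs
  have h1 := E_sound _ 8 0 sig [] h i (Nat.div_eq_of_lt hi) hs
  rw [List.append_nil] at h1
  exact row_sound i _ h1

end KTF

theorem tabOK4_8 : TabOK 8 8 tab4_8 := KTF.tab_sound 8 tab4_8 (by decide +kernel)

theorem tabOK4_7 : TabOK 8 7 tab4_7 := KTF.tab_sound 7 tab4_7 (by decide +kernel)

theorem tabOK4_6 : TabOK 8 6 tab4_6 := KTF.tab_sound 6 tab4_6 (by decide +kernel)

theorem tabOK4_5 : TabOK 8 5 tab4_5 := KTF.tab_sound 5 tab4_5 (by decide +kernel)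

theorem tabOK4_4 : TabOK 8 4 tab4_4 := KTF.tab_sound 4 tab4_4 (by decide +kernel)

theorem tabOK4_3 : TabOK 8 3 tab4_3 := KTF.tab_sound 3 tab4_3 (by decide +kernel)

theorem tabOK4_2 : TabOK 8 2 tab4_2 := KTF.tab_sound 2 tab4_2 (by decide +kernel)

theorem tabOK4_1 : TabOK 8 1 tab4_1 := KTF.tab_sound 1 tab4_1 (by decide +kernel)

theorem tabOK4_0 : TabOK 8 0 tab4_0 := KTF.tab_sound 0 tab4_0 (by decide +kernel)

end P348
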