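/-!
# P348 (K), module KEv: the evaluator (rows, tries, memoised recursion); no imports

The kernel memoises `(G .. k).g i` (k, i literals), so that the recursion is evaluated once for each
pair.  The value packs all winding numbers `c < C` (digits of W bits) and all start
configurations j (digits of w bits, `W = w * number of start configurations`).
-/

namespace P348

/-- one row of the Hamiltonian: `kT_n d i a_1 .. a_n [u] [e]` with diagonal entry d, own index i, the n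
neighbours through untwisted bonds, and the neighbours u (T = 1, 3), e (T = 2, 3) through the twisted bond -/
inductive Row : Type
  | k0_0 : Nat → Nat → Row
  | k0_1 : Nat → Nat → Nat → Row
  | k0_2 : Nat → Nat → Nat → Nat → Row
  | k0_3 : Nat → Nat → Nat → Nat → Nat → Row
  | k0_4 : Nat → Nat → Nat → Nat → Nat → Nat → Row
  | k0_5 : Nat → Nat → Nat → Nat → Nat → Nat → Nat → Row
  | k0_6 : Nat → Nat → Nat → Nat → Nat → Nat → Nat → Nat → Row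
  | k0_7 : Nat → Nat → Nat → Nat → Nat → Nat → Nat → Nat → Nat → Row
  | k0_8 : Nat → Nat → Nat → Nat → Nat → Nat → Nat → Nat → Nat → Nat → Row
  | k0_9 : Nat → Nat → Nat → Nat → Nat → Nat → Nat → Nat → Nat → Nat → Nat → Row
  | k0_10 : Nat → Nat → Nat → Nat → Nat → Nat → Nat → Nat → Nat → Nat → Nat → Nat → Row
  | k0_11 : Nat → Nat → Nat → Nat → Nat → Nat → Nat → Nat → Nat → Nat → Nat → Nat → Nat → Row
  | k0_12 : Nat → Nat → Nat → Nat → Nat → Nat → Nat → Nat → Nat → Nat → Nat → Nat → Nat → Nat → Row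
  | k0_13 : Nat → Nat → Nat → Nat → Nat → Nat → Nat → Nat → Nat → Nat → Nat → Nat → Nat → Nat → Nat → Row
  | k0_14 : Nat → Nat → Nat → Nat → Nat → Nat → Nat → Nat → Nat → Nat → Nat → Nat → Nat → Nat → Nat → Nat → Row
  | k1_0 : Nat → Nat → Nat → Row
  | k1_1 : Nat → Nat → Nat → Nat → Row
  | k1_2 : Nat → Nat → Nat → Nat → Nat → Row
  | k1_3 : Nat → Nat → Nat → Nat → Nat → Nat → Row
  | k1_4 : Nat → Nat → Nat → Nat → Nat → Nat → Nat → Row
  | k1_5 : Nat → Nat → Nat → Nat → Nat → Nat → Nat → Nat → Row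
  | k1_6 : Nat → Nat → Nat → Nat → Nat → Nat → Nat → Nat → Nat → Row
  | k1_7 : Nat → Nat → Nat → Nat → Nat → Nat → Nat → Nat → Nat → Nat → Row
  | k1_8 : Nat → Nat → Nat → Nat → Nat → Nat → Nat → Nat → Nat → Nat → Nat → Row
  | k1_9 : Nat → Nat → Nat → Nat → Nat → Nat → Nat → Nat → Nat → Nat → Nat → Nat → Row
  | k1_10 : Nat → Nat → Nat → Nat → Nat → Nat → Nat → Nat → Nat → Nat → Nat → Nat → Nat → Row
  | k1_11 : Nat → Nat → Nat → Nat → Nat → Nat → Nat → Nat → Nat → Nat → Nat → Nat → Nat → Nat → Row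
  | k1_12 : Nat → Nat → Nat → Nat → Nat → Nat → Nat → Nat → Nat → Nat → Nat → Nat → Nat → Nat → Nat → Row
  | k1_13 : Nat → Nat → Nat → Nat → Nat → Nat → Nat → Nat → Nat → Nat → Nat → Nat → Nat → Nat → Nat → Nat → Row
  | k1_14 : Nat → Nat → Nat → Nat → Nat → Nat → Nat → Nat → Nat → Nat → Nat → Nat → Nat → Nat → Nat → Nat → Nat → Row
  | k2_0 : Nat → Nat → Nat → Row
  | k2_1 : Nat → Nat → Nat → Nat → Row
  | k2_2 : Nat → Nat → Nat → Nat → Nat → Row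
  | k2_3 : Nat → Nat → Nat → Nat → Nat → Nat → Row
  | k2_4 : Nat → Nat → Nat → Nat → Nat → Nat → Nat → Row
  | k2_5 : Nat → Nat → Nat → Nat → Nat → Nat → Nat → Nat → Row
  | k2_6 : Nat → Nat → Nat → Nat → Nat → Nat → Nat → Nat → Nat → Row
  | k2_7 : Nat → Nat → Nat → Nat → Nat → Nat → Nat → Nat → Nat → Nat → Row
  | k2_8 : Nat → Nat → Nat → Nat → Nat → Nat → Nat → Nat → Nat → Nat → Nat → Row
  | k2_9 : Nat → Nat → Nat → Nat → Nat → Nat → Nat → Nat → Nat → Nat → Nat → Nat → Row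
  | k2_10 : Nat → Nat → Nat → Nat → Nat → Nat → Nat → Nat → Nat → Nat → Nat → Nat → Nat → Row
  | k2_11 : Nat → Nat → Nat → Nat → Nat → Nat → Nat → Nat → Nat → Nat → Nat → Nat → Nat → Nat → Row
  | k2_12 : Nat → Nat → Nat → Nat → Nat → Nat → Nat → Nat → Nat → Nat → Nat → Nat → Nat → Nat → Nat → Row
  | k2_13 : Nat → Nat → Nat → Nat → Nat → Nat → Nat → Nat → Nat → Nat → Nat → Nat → Nat → Nat → Nat → Nat → Row
  | k2_14 : Nat → Nat → Nat → Nat → Nat → Nat → Nat → Nat → Nat → Nat → Nat → Nat → Nat → Nat → Nat → Nat → Nat → Row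
  | k3_0 : Nat → Nat → Nat → Nat → Row
  | k3_1 : Nat → Nat → Nat → Nat → Nat → Row
  | k3_2 : Nat → Nat → Nat → Nat → Nat → Nat → Row
  | k3_3 : Nat → Nat → Nat → Nat → Nat → Nat → Nat → Row
  | k3_4 : Nat → Nat → Nat → Nat → Nat → Nat → Nat → Nat → Row
  | k3_5 : Nat → Nat → Nat → Nat → Nat → Nat → Nat → Nat → Nat → Row
  | k3_6 : Nat → Nat → Nat → Nat → Nat → Nat → Nat → Nat → Nat → Nat → Row
  | k3_7 : Nat → Nat → Nat → Nat → Nat → Nat → Nat → Nat → Nat → Nat → Nat → Row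
  | k3_8 : Nat → Nat → Nat → Nat → Nat → Nat → Nat → Nat → Nat → Nat → Nat → Nat → Row
  | k3_9 : Nat → Nat → Nat → Nat → Nat → Nat → Nat → Nat → Nat → Nat → Nat → Nat → Nat → Row
  | k3_10 : Nat → Nat → Nat → Nat → Nat → Nat → Nat → Nat → Nat → Nat → Nat → Nat → Nat → Nat → Row
  | k3_11 : Nat → Nat → Nat → Nat → Nat → Nat → Nat → Nat → Nat → Nat → Nat → Nat → Nat → Nat → Nat → Row
  | k3_12 : Nat → Nat → Nat → Nat → Nat → Nat → Nat → Nat → Nat → Nat → Nat → Nat → Nat → Nat → Nat → Nat → Row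
  | k3_13 : Nat → Nat → Nat → Nat → Nat → Nat → Nat → Nat → Nat → Nat → Nat → Nat → Nat → Nat → Nat → Nat → Nat → Row
  | k3_14 : Nat → Nat → Nat → Nat → Nat → Nat → Nat → Nat → Nat → Nat → Nat → Nat → Nat → Nat → Nat → Nat → Nat → Nat → Row

/-- search tree with keys -/
inductive Trie : Type
  | l : Row → Trie
  | n : Nat → Trie → Trie → Trie

structure Fn : Type where
  f : (Nat → Nat) → (Nat → Nat) → (Nat → Nat) → Nat

structure Sg : Type where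
  g : Nat → Nat

noncomputable section

def Trie.get (t : Trie) : Nat → Row :=
  Trie.rec (motive := fun _ => Nat → Row) (fun r _ => r)
    (fun key _ _ ihl ihr i => Bool.rec (ihr i) (ihl i) (Nat.ble i key)) t

def comp (r : Row) : Fn :=
  Row.rec (motive := fun _ => Fn)
    (fun d i  => Fn.mk fun v _ _ => (Nat.mul d (v i)))
    (fun d i a0 => Fn.mk fun v _ _ => (Nat.add (v a0) (Nat.mul d (v i))))
    (fun d i a0 a1 => Fn.mk fun v _ _ => (Nat.add (v a0) (Nat.add (v a1) (Nat.mul d (v i)))))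
    (fun d i a0 a1 a2 => Fn.mk fun v _ _ => (Nat.add (v a0) (Nat.add (v a1) (Nat.add (v a2) (Nat.mul d (v i))))))
    (fun d i a0 a1 a2 a3 => Fn.mk fun v _ _ => (Nat.add (v a0) (Nat.add (v a1) (Nat.add (v a2) (Nat.add (v a3) (Nat.mul d (v i)))))))
    (fun d i a0 a1 a2 a3 a4 => Fn.mk fun v _ _ => (Nat.add (v a0) (Nat.add (v a1) (Nat.add (v a2) (Nat.add (v a3) (Nat.add (v a4) (Nat.mul d (v i))))))))
    (fun d i a0 a1 a2 a3 a4 a5 => Fn.mk fun v _ _ => (Nat.add (v a0) (Nat.add (v a1) (Nat.add (v a2) (Nat.add (v a3) (Nat.add (v a4) (Nat.add (v a5) (Nat.mul d (v i)))))))))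
    (fun d i a0 a1 a2 a3 a4 a5 a6 => Fn.mk fun v _ _ => (Nat.add (v a0) (Nat.add (v a1) (Nat.add (v a2) (Nat.add (v a3) (Nat.add (v a4) (Nat.add (v a5) (Nat.add (v a6) (Nat.mul d (v i))))))))))
    (fun d i a0 a1 a2 a3 a4 a5 a6 a7 => Fn.mk fun v _ _ => (Nat.add (v a0) (Nat.add (v a1) (Nat.add (v a2) (Nat.add (v a3) (Nat.add (v a4) (Nat.add (v a5) (Nat.add (v a6) (Nat.add (v a7) (Nat.mul d (v i)))))))))))
    (fun d i a0 a1 a2 a3 a4 a5 a6 a7 a8 => Fn.mk fun v _ _ => (Nat.add (v a0) (Nat.add (v a1) (Nat.add (v a2) (Nat.add (v a3) (Nat.add (v a4) (Nat.add (v a5) (Nat.add (v a6) (Nat.add (v a7) (Nat.add (v a8) (Nat.mul d (v i))))))))))))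
    (fun d i a0 a1 a2 a3 a4 a5 a6 a7 a8 a9 => Fn.mk fun v _ _ => (Nat.add (v a0) (Nat.add (v a1) (Nat.add (v a2) (Nat.add (v a3) (Nat.add (v a4) (Nat.add (v a5) (Nat.add (v a6) (Nat.add (v a7) (Nat.add (v a8) (Nat.add (v a9) (Nat.mul d (v i)))))))))))))
    (fun d i a0 a1 a2 a3 a4 a5 a6 a7 a8 a9 a10 => Fn.mk fun v _ _ => (Nat.add (v a0) (Nat.add (v a1) (Nat.add (v a2) (Nat.add (v a3) (Nat.add (v a4) (Nat.add (v a5) (Nat.add (v a6) (Nat.add (v a7) (Nat.add (v a8) (Nat.add (v a9) (Nat.add (v a10) (Nat.mul d (v i))))))))))))))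
    (fun d i a0 a1 a2 a3 a4 a5 a6 a7 a8 a9 a10 a11 => Fn.mk fun v _ _ => (Nat.add (v a0) (Nat.add (v a1) (Nat.add (v a2) (Nat.add (v a3) (Nat.add (v a4) (Nat.add (v a5) (Nat.add (v a6) (Nat.add (v a7) (Nat.add (v a8) (Nat.add (v a9) (Nat.add (v a10) (Nat.add (v a11) (Nat.mul d (v i)))))))))))))))
    (fun d i a0 a1 a2 a3 a4 a5 a6 a7 a8 a9 a10 a11 a12 => Fn.mk fun v _ _ => (Nat.add (v a0) (Nat.add (v a1) (Nat.add (v a2) (Nat.add (v a3) (Nat.add (v a4) (Nat.add (v a5) (Nat.add (v a6) (Nat.add (v a7) (Nat.add (v a8) (Nat.add (v a9) (Nat.add (v a10) (Nat.add (v a11) (Nat.add (v a12) (Nat.mul d (v i))))))))))))))))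
    (fun d i a0 a1 a2 a3 a4 a5 a6 a7 a8 a9 a10 a11 a12 a13 => Fn.mk fun v _ _ => (Nat.add (v a0) (Nat.add (v a1) (Nat.add (v a2) (Nat.add (v a3) (Nat.add (v a4) (Nat.add (v a5) (Nat.add (v a6) (Nat.add (v a7) (Nat.add (v a8) (Nat.add (v a9) (Nat.add (v a10) (Nat.add (v a11) (Nat.add (v a12) (Nat.add (v a13) (Nat.mul d (v i)))))))))))))))))
    (fun d i u => Fn.mk fun v p _ => (Nat.add (p (v u)) (Nat.mul d (v i))))
    (fun d i a0 u => Fn.mk fun v p _ => (Nat.add (v a0) (Nat.add (p (v u)) (Nat.mul d (v i)))))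
    (fun d i a0 a1 u => Fn.mk fun v p _ => (Nat.add (v a0) (Nat.add (v a1) (Nat.add (p (v u)) (Nat.mul d (v i))))))
    (fun d i a0 a1 a2 u => Fn.mk fun v p _ => (Nat.add (v a0) (Nat.add (v a1) (Nat.add (v a2) (Nat.add (p (v u)) (Nat.mul d (v i)))))))
    (fun d i a0 a1 a2 a3 u => Fn.mk fun v p _ => (Nat.add (v a0) (Nat.add (v a1) (Nat.add (v a2) (Nat.add (v a3) (Nat.add (p (v u)) (Nat.mul d (v i))))))))
    (fun d i a0 a1 a2 a3 a4 u => Fn.mk fun v p _ => (Nat.add (v a0) (Nat.add (v a1) (Nat.add (v a2) (Nat.add (v a3) (Nat.add (v a4) (Nat.add (p (v u)) (Nat.mul d (v i)))))))))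
    (fun d i a0 a1 a2 a3 a4 a5 u => Fn.mk fun v p _ => (Nat.add (v a0) (Nat.add (v a1) (Nat.add (v a2) (Nat.add (v a3) (Nat.add (v a4) (Nat.add (v a5) (Nat.add (p (v u)) (Nat.mul d (v i))))))))))
    (fun d i a0 a1 a2 a3 a4 a5 a6 u => Fn.mk fun v p _ => (Nat.add (v a0) (Nat.add (v a1) (Nat.add (v a2) (Nat.add (v a3) (Nat.add (v a4) (Nat.add (v a5) (Nat.add (v a6) (Nat.add (p (v u)) (Nat.mul d (v i)))))))))))
    (fun d i a0 a1 a2 a3 a4 a5 a6 a7 u => Fn.mk fun v p _ => (Nat.add (v a0) (Nat.add (v a1) (Nat.add (v a2) (Nat.add (v a3) (Nat.add (v a4) (Nat.add (v a5) (Nat.add (v a6) (Nat.add (v a7) (Nat.add (p (v u)) (Nat.mul d (v i))))))))))))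
    (fun d i a0 a1 a2 a3 a4 a5 a6 a7 a8 u => Fn.mk fun v p _ => (Nat.add (v a0) (Nat.add (v a1) (Nat.add (v a2) (Nat.add (v a3) (Nat.add (v a4) (Nat.add (v a5) (Nat.add (v a6) (Nat.add (v a7) (Nat.add (v a8) (Nat.add (p (v u)) (Nat.mul d (v i)))))))))))))
    (fun d i a0 a1 a2 a3 a4 a5 a6 a7 a8 a9 u => Fn.mk fun v p _ => (Nat.add (v a0) (Nat.add (v a1) (Nat.add (v a2) (Nat.add (v a3) (Nat.add (v a4) (Nat.add (v a5) (Nat.add (v a6) (Nat.add (v a7) (Nat.add (v a8) (Nat.add (v a9) (Nat.add (p (v u)) (Nat.mul d (v i))))))))))))))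
    (fun d i a0 a1 a2 a3 a4 a5 a6 a7 a8 a9 a10 u => Fn.mk fun v p _ => (Nat.add (v a0) (Nat.add (v a1) (Nat.add (v a2) (Nat.add (v a3) (Nat.add (v a4) (Nat.add (v a5) (Nat.add (v a6) (Nat.add (v a7) (Nat.add (v a8) (Nat.add (v a9) (Nat.add (v a10) (Nat.add (p (v u)) (Nat.mul d (v i)))))))))))))))
    (fun d i a0 a1 a2 a3 a4 a5 a6 a7 a8 a9 a10 a11 u => Fn.mk fun v p _ => (Nat.add (v a0) (Nat.add (v a1) (Nat.add (v a2) (Nat.add (v a3) (Nat.add (v a4) (Nat.add (v a5) (Nat.add (v a6) (Nat.add (v a7) (Nat.add (v a8) (Nat.add (v a9) (Nat.add (v a10) (Nat.add (v a11) (Nat.add (p (v u)) (Nat.mul d (v i))))))))))))))))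
    (fun d i a0 a1 a2 a3 a4 a5 a6 a7 a8 a9 a10 a11 a12 u => Fn.mk fun v p _ => (Nat.add (v a0) (Nat.add (v a1) (Nat.add (v a2) (Nat.add (v a3) (Nat.add (v a4) (Nat.add (v a5) (Nat.add (v a6) (Nat.add (v a7) (Nat.add (v a8) (Nat.add (v a9) (Nat.add (v a10) (Nat.add (v a11) (Nat.add (v a12) (Nat.add (p (v u)) (Nat.mul d (v i)))))))))))))))))
    (fun d i a0 a1 a2 a3 a4 a5 a6 a7 a8 a9 a10 a11 a12 a13 u => Fn.mk fun v p _ => (Nat.add (v a0) (Nat.add (v a1) (Nat.add (v a2) (Nat.add (v a3) (Nat.add (v a4) (Nat.add (v a5) (Nat.add (v a6) (Nat.add (v a7) (Nat.add (v a8) (Nat.add (v a9) (Nat.add (v a10) (Nat.add (v a11) (Nat.add (v a12) (Nat.add (v a13) (Nat.add (p (v u)) (Nat.mul d (v i))))))))))))))))))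
    (fun d i e => Fn.mk fun v _ q => (Nat.add (q (v e)) (Nat.mul d (v i))))
    (fun d i a0 e => Fn.mk fun v _ q => (Nat.add (v a0) (Nat.add (q (v e)) (Nat.mul d (v i)))))
    (fun d i a0 a1 e => Fn.mk fun v _ q => (Nat.add (v a0) (Nat.add (v a1) (Nat.add (q (v e)) (Nat.mul d (v i))))))
    (fun d i a0 a1 a2 e => Fn.mk fun v _ q => (Nat.add (v a0) (Nat.add (v a1) (Nat.add (v a2) (Nat.add (q (v e)) (Nat.mul d (v i)))))))
    (fun d i a0 a1 a2 a3 e => Fn.mk fun v _ q => (Nat.add (v a0) (Nat.add (v a1) (Nat.add (v a2) (Nat.add (v a3) (Nat.add (q (v e)) (Nat.mul d (v i))))))))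
    (fun d i a0 a1 a2 a3 a4 e => Fn.mk fun v _ q => (Nat.add (v a0) (Nat.add (v a1) (Nat.add (v a2) (Nat.add (v a3) (Nat.add (v a4) (Nat.add (q (v e)) (Nat.mul d (v i)))))))))
    (fun d i a0 a1 a2 a3 a4 a5 e => Fn.mk fun v _ q => (Nat.add (v a0) (Nat.add (v a1) (Nat.add (v a2) (Nat.add (v a3) (Nat.add (v a4) (Nat.add (v a5) (Nat.add (q (v e)) (Nat.mul d (v i))))))))))
    (fun d i a0 a1 a2 a3 a4 a5 a6 e => Fn.mk fun v _ q => (Nat.add (v a0) (Nat.add (v a1) (Nat.add (v a2) (Nat.add (v a3) (Nat.add (v a4) (Nat.add (v a5) (Nat.add (v a6) (Nat.add (q (v e)) (Nat.mul d (v i)))))))))))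
    (fun d i a0 a1 a2 a3 a4 a5 a6 a7 e => Fn.mk fun v _ q => (Nat.add (v a0) (Nat.add (v a1) (Nat.add (v a2) (Nat.add (v a3) (Nat.add (v a4) (Nat.add (v a5) (Nat.add (v a6) (Nat.add (v a7) (Nat.add (q (v e)) (Nat.mul d (v i))))))))))))
    (fun d i a0 a1 a2 a3 a4 a5 a6 a7 a8 e => Fn.mk fun v _ q => (Nat.add (v a0) (Nat.add (v a1) (Nat.add (v a2) (Nat.add (v a3) (Nat.add (v a4) (Nat.add (v a5) (Nat.add (v a6) (Nat.add (v a7) (Nat.add (v a8) (Nat.add (q (v e)) (Nat.mul d (v i)))))))))))))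
    (fun d i a0 a1 a2 a3 a4 a5 a6 a7 a8 a9 e => Fn.mk fun v _ q => (Nat.add (v a0) (Nat.add (v a1) (Nat.add (v a2) (Nat.add (v a3) (Nat.add (v a4) (Nat.add (v a5) (Nat.add (v a6) (Nat.add (v a7) (Nat.add (v a8) (Nat.add (v a9) (Nat.add (q (v e)) (Nat.mul d (v i))))))))))))))
    (fun d i a0 a1 a2 a3 a4 a5 a6 a7 a8 a9 a10 e => Fn.mk fun v _ q => (Nat.add (v a0) (Nat.add (v a1) (Nat.add (v a2) (Nat.add (v a3) (Nat.add (v a4) (Nat.add (v a5) (Nat.add (v a6) (Nat.add (v a7) (Nat.add (v a8) (Nat.add (v a9) (Nat.add (v a10) (Nat.add (q (v e)) (Nat.mul d (v i)))))))))))))))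
    (fun d i a0 a1 a2 a3 a4 a5 a6 a7 a8 a9 a10 a11 e => Fn.mk fun v _ q => (Nat.add (v a0) (Nat.add (v a1) (Nat.add (v a2) (Nat.add (v a3) (Nat.add (v a4) (Nat.add (v a5) (Nat.add (v a6) (Nat.add (v a7) (Nat.add (v a8) (Nat.add (v a9) (Nat.add (v a10) (Nat.add (v a11) (Nat.add (q (v e)) (Nat.mul d (v i))))))))))))))))
    (fun d i a0 a1 a2 a3 a4 a5 a6 a7 a8 a9 a10 a11 a12 e => Fn.mk fun v _ q => (Nat.add (v a0) (Nat.add (v a1) (Nat.add (v a2) (Nat.add (v a3) (Nat.add (v a4) (Nat.add (v a5) (Nat.add (v a6) (Nat.add (v a7) (Nat.add (v a8) (Nat.add (v a9) (Nat.add (v a10) (Nat.add (v a11) (Nat.add (v a12) (Nat.add (q (v e)) (Nat.mul d (v i)))))))))))))))))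
    (fun d i a0 a1 a2 a3 a4 a5 a6 a7 a8 a9 a10 a11 a12 a13 e => Fn.mk fun v _ q => (Nat.add (v a0) (Nat.add (v a1) (Nat.add (v a2) (Nat.add (v a3) (Nat.add (v a4) (Nat.add (v a5) (Nat.add (v a6) (Nat.add (v a7) (Nat.add (v a8) (Nat.add (v a9) (Nat.add (v a10) (Nat.add (v a11) (Nat.add (v a12) (Nat.add (v a13) (Nat.add (q (v e)) (Nat.mul d (v i))))))))))))))))))
    (fun d i u e => Fn.mk fun v p q => (Nat.add (q (v e)) (Nat.add (p (v u)) (Nat.mul d (v i)))))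
    (fun d i a0 u e => Fn.mk fun v p q => (Nat.add (v a0) (Nat.add (q (v e)) (Nat.add (p (v u)) (Nat.mul d (v i))))))
    (fun d i a0 a1 u e => Fn.mk fun v p q => (Nat.add (v a0) (Nat.add (v a1) (Nat.add (q (v e)) (Nat.add (p (v u)) (Nat.mul d (v i)))))))
    (fun d i a0 a1 a2 u e => Fn.mk fun v p q => (Nat.add (v a0) (Nat.add (v a1) (Nat.add (v a2) (Nat.add (q (v e)) (Nat.add (p (v u)) (Nat.mul d (v i))))))))
    (fun d i a0 a1 a2 a3 u e => Fn.mk fun v p q => (Nat.add (v a0) (Nat.add (v a1) (Nat.add (v a2) (Nat.add (v a3) (Nat.add (q (v e)) (Nat.add (p (v u)) (Nat.mul d (v i)))))))))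
    (fun d i a0 a1 a2 a3 a4 u e => Fn.mk fun v p q => (Nat.add (v a0) (Nat.add (v a1) (Nat.add (v a2) (Nat.add (v a3) (Nat.add (v a4) (Nat.add (q (v e)) (Nat.add (p (v u)) (Nat.mul d (v i))))))))))
    (fun d i a0 a1 a2 a3 a4 a5 u e => Fn.mk fun v p q => (Nat.add (v a0) (Nat.add (v a1) (Nat.add (v a2) (Nat.add (v a3) (Nat.add (v a4) (Nat.add (v a5) (Nat.add (q (v e)) (Nat.add (p (v u)) (Nat.mul d (v i)))))))))))
    (fun d i a0 a1 a2 a3 a4 a5 a6 u e => Fn.mk fun v p q => (Nat.add (v a0) (Nat.add (v a1) (Nat.add (v a2) (Nat.add (v a3) (Nat.add (v a4) (Nat.add (v a5) (Nat.add (v a6) (Nat.add (q (v e)) (Nat.add (p (v u)) (Nat.mul d (v i))))))))))))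
    (fun d i a0 a1 a2 a3 a4 a5 a6 a7 u e => Fn.mk fun v p q => (Nat.add (v a0) (Nat.add (v a1) (Nat.add (v a2) (Nat.add (v a3) (Nat.add (v a4) (Nat.add (v a5) (Nat.add (v a6) (Nat.add (v a7) (Nat.add (q (v e)) (Nat.add (p (v u)) (Nat.mul d (v i)))))))))))))
    (fun d i a0 a1 a2 a3 a4 a5 a6 a7 a8 u e => Fn.mk fun v p q => (Nat.add (v a0) (Nat.add (v a1) (Nat.add (v a2) (Nat.add (v a3) (Nat.add (v a4) (Nat.add (v a5) (Nat.add (v a6) (Nat.add (v a7) (Nat.add (v a8) (Nat.add (q (v e)) (Nat.add (p (v u)) (Nat.mul d (v i))))))))))))))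
    (fun d i a0 a1 a2 a3 a4 a5 a6 a7 a8 a9 u e => Fn.mk fun v p q => (Nat.add (v a0) (Nat.add (v a1) (Nat.add (v a2) (Nat.add (v a3) (Nat.add (v a4) (Nat.add (v a5) (Nat.add (v a6) (Nat.add (v a7) (Nat.add (v a8) (Nat.add (v a9) (Nat.add (q (v e)) (Nat.add (p (v u)) (Nat.mul d (v i)))))))))))))))
    (fun d i a0 a1 a2 a3 a4 a5 a6 a7 a8 a9 a10 u e => Fn.mk fun v p q => (Nat.add (v a0) (Nat.add (v a1) (Nat.add (v a2) (Nat.add (v a3) (Nat.add (v a4) (Nat.add (v a5) (Nat.add (v a6) (Nat.add (v a7) (Nat.add (v a8) (Nat.add (v a9) (Nat.add (v a10) (Nat.add (q (v e)) (Nat.add (p (v u)) (Nat.mul d (v i))))))))))))))))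
    (fun d i a0 a1 a2 a3 a4 a5 a6 a7 a8 a9 a10 a11 u e => Fn.mk fun v p q => (Nat.add (v a0) (Nat.add (v a1) (Nat.add (v a2) (Nat.add (v a3) (Nat.add (v a4) (Nat.add (v a5) (Nat.add (v a6) (Nat.add (v a7) (Nat.add (v a8) (Nat.add (v a9) (Nat.add (v a10) (Nat.add (v a11) (Nat.add (q (v e)) (Nat.add (p (v u)) (Nat.mul d (v i)))))))))))))))))
    (fun d i a0 a1 a2 a3 a4 a5 a6 a7 a8 a9 a10 a11 a12 u e => Fn.mk fun v p q => (Nat.add (v a0) (Nat.add (v a1) (Nat.add (v a2) (Nat.add (v a3) (Nat.add (v a4) (Nat.add (v a5) (Nat.add (v a6) (Nat.add (v a7) (Nat.add (v a8) (Nat.add (v a9) (Nat.add (v a10) (Nat.add (v a11) (Nat.add (v a12) (Nat.add (q (v e)) (Nat.add (p (v u)) (Nat.mul d (v i))))))))))))))))))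
    (fun d i a0 a1 a2 a3 a4 a5 a6 a7 a8 a9 a10 a11 a12 a13 u e => Fn.mk fun v p q => (Nat.add (v a0) (Nat.add (v a1) (Nat.add (v a2) (Nat.add (v a3) (Nat.add (v a4) (Nat.add (v a5) (Nat.add (v a6) (Nat.add (v a7) (Nat.add (v a8) (Nat.add (v a9) (Nat.add (v a10) (Nat.add (v a11) (Nat.add (v a12) (Nat.add (v a13) (Nat.add (q (v e)) (Nat.add (p (v u)) (Nat.mul d (v i)))))))))))))))))))
    r

/-- the data of a row: diagonal entry, own index, neighbours through untwisted bonds, up, down -/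
structure RD : Type where
  d : Nat
  i : Nat
  r : List Nat
  u : List Nat
  n : List Nat

def rdat (r : Row) : RD :=
  Row.rec (motive := fun _ => RD)
    (fun d i  => RD.mk d i [] [] [])
    (fun d i a0 => RD.mk d i [a0] [] [])
    (fun d i a0 a1 => RD.mk d i [a0, a1] [] [])
    (fun d i a0 a1 a2 => RD.mk d i [a0, a1, a2] [] [])
    (fun d i a0 a1 a2 a3 => RD.mk d i [a0, a1, a2, a3] [] [])
    (fun d i a0 a1 a2 a3 a4 => RD.mk d i [a0, a1, a2, a3, a4] [] [])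
    (fun d i a0 a1 a2 a3 a4 a5 => RD.mk d i [a0, a1, a2, a3, a4, a5] [] [])
    (fun d i a0 a1 a2 a3 a4 a5 a6 => RD.mk d i [a0, a1, a2, a3, a4, a5, a6] [] [])
    (fun d i a0 a1 a2 a3 a4 a5 a6 a7 => RD.mk d i [a0, a1, a2, a3, a4, a5, a6, a7] [] [])
    (fun d i a0 a1 a2 a3 a4 a5 a6 a7 a8 => RD.mk d i [a0, a1, a2, a3, a4, a5, a6, a7, a8] [] [])
    (fun d i a0 a1 a2 a3 a4 a5 a6 a7 a8 a9 => RD.mk d i [a0, a1, a2, a3, a4, a5, a6, a7, a8, a9] [] [])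
    (fun d i a0 a1 a2 a3 a4 a5 a6 a7 a8 a9 a10 => RD.mk d i [a0, a1, a2, a3, a4, a5, a6, a7, a8, a9, a10] [] [])
    (fun d i a0 a1 a2 a3 a4 a5 a6 a7 a8 a9 a10 a11 => RD.mk d i [a0, a1, a2, a3, a4, a5, a6, a7, a8, a9, a10, a11] [] [])
    (fun d i a0 a1 a2 a3 a4 a5 a6 a7 a8 a9 a10 a11 a12 => RD.mk d i [a0, a1, a2, a3, a4, a5, a6, a7, a8, a9, a10, a11, a12] [] [])
    (fun d i a0 a1 a2 a3 a4 a5 a6 a7 a8 a9 a10 a11 a12 a13 => RD.mk d i [a0, a1, a2, a3, a4, a5, a6, a7, a8, a9, a10, a11, a12, a13] [] [])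
    (fun d i u => RD.mk d i [] [u] [])
    (fun d i a0 u => RD.mk d i [a0] [u] [])
    (fun d i a0 a1 u => RD.mk d i [a0, a1] [u] [])
    (fun d i a0 a1 a2 u => RD.mk d i [a0, a1, a2] [u] [])
    (fun d i a0 a1 a2 a3 u => RD.mk d i [a0, a1, a2, a3] [u] [])
    (fun d i a0 a1 a2 a3 a4 u => RD.mk d i [a0, a1, a2, a3, a4] [u] [])
    (fun d i a0 a1 a2 a3 a4 a5 u => RD.mk d i [a0, a1, a2, a3, a4, a5] [u] [])
    (fun d i a0 a1 a2 a3 a4 a5 a6 u => RD.mk d i [a0, a1, a2, a3, a4, a5, a6] [u] [])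
    (fun d i a0 a1 a2 a3 a4 a5 a6 a7 u => RD.mk d i [a0, a1, a2, a3, a4, a5, a6, a7] [u] [])
    (fun d i a0 a1 a2 a3 a4 a5 a6 a7 a8 u => RD.mk d i [a0, a1, a2, a3, a4, a5, a6, a7, a8] [u] [])
    (fun d i a0 a1 a2 a3 a4 a5 a6 a7 a8 a9 u => RD.mk d i [a0, a1, a2, a3, a4, a5, a6, a7, a8, a9] [u] [])
    (fun d i a0 a1 a2 a3 a4 a5 a6 a7 a8 a9 a10 u => RD.mk d i [a0, a1, a2, a3, a4, a5, a6, a7, a8, a9, a10] [u] [])
    (fun d i a0 a1 a2 a3 a4 a5 a6 a7 a8 a9 a10 a11 u => RD.mk d i [a0, a1, a2, a3, a4, a5, a6, a7, a8, a9, a10, a11] [u] [])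
    (fun d i a0 a1 a2 a3 a4 a5 a6 a7 a8 a9 a10 a11 a12 u => RD.mk d i [a0, a1, a2, a3, a4, a5, a6, a7, a8, a9, a10, a11, a12] [u] [])
    (fun d i a0 a1 a2 a3 a4 a5 a6 a7 a8 a9 a10 a11 a12 a13 u => RD.mk d i [a0, a1, a2, a3, a4, a5, a6, a7, a8, a9, a10, a11, a12, a13] [u] [])
    (fun d i e => RD.mk d i [] [] [e])
    (fun d i a0 e => RD.mk d i [a0] [] [e])
    (fun d i a0 a1 e => RD.mk d i [a0, a1] [] [e])
    (fun d i a0 a1 a2 e => RD.mk d i [a0, a1, a2] [] [e])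
    (fun d i a0 a1 a2 a3 e => RD.mk d i [a0, a1, a2, a3] [] [e])
    (fun d i a0 a1 a2 a3 a4 e => RD.mk d i [a0, a1, a2, a3, a4] [] [e])
    (fun d i a0 a1 a2 a3 a4 a5 e => RD.mk d i [a0, a1, a2, a3, a4, a5] [] [e])
    (fun d i a0 a1 a2 a3 a4 a5 a6 e => RD.mk d i [a0, a1, a2, a3, a4, a5, a6] [] [e])
    (fun d i a0 a1 a2 a3 a4 a5 a6 a7 e => RD.mk d i [a0, a1, a2, a3, a4, a5, a6, a7] [] [e])
    (fun d i a0 a1 a2 a3 a4 a5 a6 a7 a8 e => RD.mk d i [a0, a1, a2, a3, a4, a5, a6, a7, a8] [] [e])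
    (fun d i a0 a1 a2 a3 a4 a5 a6 a7 a8 a9 e => RD.mk d i [a0, a1, a2, a3, a4, a5, a6, a7, a8, a9] [] [e])
    (fun d i a0 a1 a2 a3 a4 a5 a6 a7 a8 a9 a10 e => RD.mk d i [a0, a1, a2, a3, a4, a5, a6, a7, a8, a9, a10] [] [e])
    (fun d i a0 a1 a2 a3 a4 a5 a6 a7 a8 a9 a10 a11 e => RD.mk d i [a0, a1, a2, a3, a4, a5, a6, a7, a8, a9, a10, a11] [] [e])
    (fun d i a0 a1 a2 a3 a4 a5 a6 a7 a8 a9 a10 a11 a12 e => RD.mk d i [a0, a1, a2, a3, a4, a5, a6, a7, a8, a9, a10, a11, a12] [] [e])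
    (fun d i a0 a1 a2 a3 a4 a5 a6 a7 a8 a9 a10 a11 a12 a13 e => RD.mk d i [a0, a1, a2, a3, a4, a5, a6, a7, a8, a9, a10, a11, a12, a13] [] [e])
    (fun d i u e => RD.mk d i [] [u] [e])
    (fun d i a0 u e => RD.mk d i [a0] [u] [e])
    (fun d i a0 a1 u e => RD.mk d i [a0, a1] [u] [e])
    (fun d i a0 a1 a2 u e => RD.mk d i [a0, a1, a2] [u] [e])
    (fun d i a0 a1 a2 a3 u e => RD.mk d i [a0, a1, a2, a3] [u] [e])
    (fun d i a0 a1 a2 a3 a4 u e => RD.mk d i [a0, a1, a2, a3, a4] [u] [e])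
    (fun d i a0 a1 a2 a3 a4 a5 u e => RD.mk d i [a0, a1, a2, a3, a4, a5] [u] [e])
    (fun d i a0 a1 a2 a3 a4 a5 a6 u e => RD.mk d i [a0, a1, a2, a3, a4, a5, a6] [u] [e])
    (fun d i a0 a1 a2 a3 a4 a5 a6 a7 u e => RD.mk d i [a0, a1, a2, a3, a4, a5, a6, a7] [u] [e])
    (fun d i a0 a1 a2 a3 a4 a5 a6 a7 a8 u e => RD.mk d i [a0, a1, a2, a3, a4, a5, a6, a7, a8] [u] [e])
    (fun d i a0 a1 a2 a3 a4 a5 a6 a7 a8 a9 u e => RD.mk d i [a0, a1, a2, a3, a4, a5, a6, a7, a8, a9] [u] [e])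
    (fun d i a0 a1 a2 a3 a4 a5 a6 a7 a8 a9 a10 u e => RD.mk d i [a0, a1, a2, a3, a4, a5, a6, a7, a8, a9, a10] [u] [e])
    (fun d i a0 a1 a2 a3 a4 a5 a6 a7 a8 a9 a10 a11 u e => RD.mk d i [a0, a1, a2, a3, a4, a5, a6, a7, a8, a9, a10, a11] [u] [e])
    (fun d i a0 a1 a2 a3 a4 a5 a6 a7 a8 a9 a10 a11 a12 u e => RD.mk d i [a0, a1, a2, a3, a4, a5, a6, a7, a8, a9, a10, a11, a12] [u] [e])
    (fun d i a0 a1 a2 a3 a4 a5 a6 a7 a8 a9 a10 a11 a12 a13 u e => RD.mk d i [a0, a1, a2, a3, a4, a5, a6, a7, a8, a9, a10, a11, a12, a13] [u] [e])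
    r

/-- multiplication by z: winding number up by one; m = 2^(W (C-1)) - 1, a = W, b = W (C-1) -/
def zup (m a b x : Nat) : Nat := Nat.add (Nat.shiftLeft (Nat.land x m) a) (Nat.shiftRight x b)

/-- multiplication by z⁻¹: m = 2^W - 1, a = W, b = W (C-1) -/
def zdn (m a b x : Nat) : Nat := Nat.add (Nat.shiftRight x a) (Nat.shiftLeft (Nat.land x m) b)

/-- memoised recursion -/
def G (t : Trie) (p q init : Nat → Nat) (k : Nat) : Sg :=
  Nat.rec (motive := fun _ => Sg) (Sg.mk init)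
    (fun _ ih => Sg.mk fun i => (comp (t.get i)).f ih.g p q) k

/-- packed start vector -/
def pk (w : Nat) (cols : List (Nat × Nat)) (i : Nat) : Nat :=
  List.rec (motive := fun _ => Nat) 0
    (fun r _ ih => Nat.add (Bool.rec 0 1 (Nat.beq i r.1)) (Nat.shiftLeft ih w)) cols

/-- weighted sum of the digits: digit j of `g s_j`, starting at bit sh -/
def rd (w : Nat) (g : Nat → Nat) (cols : List (Nat × Nat)) (sh : Nat) : Nat :=
  List.rec (motive := fun _ => Nat → Nat) (fun _ => 0)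
    (fun r _ ih sh => Nat.add (Nat.mul r.2 (Nat.mod (Nat.shiftRight (g r.1) sh) (Nat.pow 2 w)))
      (ih (Nat.add sh w))) cols sh

/-- compare the readings for all winding numbers with the expected values -/
def rdChk (w W : Nat) (g : Nat → Nat) (cols : List (Nat × Nat)) (o : List Nat) (sh : Nat) : Bool :=
  List.rec (motive := fun _ => Nat → Bool) (fun _ => true)
    (fun x _ ih sh => Bool.rec false (ih (Nat.add sh W)) (Nat.beq (rd w g cols sh) x)) o sh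

/-- compare the readings for all steps -/
def chk (w W : Nat) (G : Nat → Nat → Nat) (cols : List (Nat × Nat)) (ks : List Nat)
    (out : List (List Nat)) : Bool :=
  List.rec (motive := fun _ => List (List Nat) → Bool) (fun _ => true)
    (fun k _ ih out => List.rec (motive := fun _ => Bool) true
      (fun o os _ => Bool.rec false (ih os) (rdChk w W (G k) cols o 0)) out) ks out

/-- Boolean comparison of lists of numbers -/
def lbeq : List Nat → List Nat → Bool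
  | [], [] => true
  | a :: l, b :: m => Nat.beq a b && lbeq l m
  | _, _ => false

end

end P348
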