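import Vale.Agent.Lib.P348.KTab4
import Vale.Agent.Lib.P348.KDataH4
import Vale.Agent.Lib.P348.KEv
import Vale.Agent.Lib.P348.KL

/-!
# P348 (K), module KV4b: path counts of the ring of length 8, winding numbers modulo 4
(kernel evaluation; no Mathlib; the evaluations are written as definitions of proofs, so that they are
elaborated one after the other: peak memory 1.6 GB)
-/

set_option maxRecDepth 10000
set_option linter.defProp false

namespace P348

def v4_4_1bp : chk (nat_lit 301) (nat_lit 2408) (fun k s => (G tab4_7 (zup (Nat.pred (Nat.pow 2 (nat_lit 7224))) (nat_lit 2408) (nat_lit 7224))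
      (zdn (Nat.pred (Nat.pow 2 (nat_lit 2408))) (nat_lit 2408) (nat_lit 7224)) (pk (nat_lit 301) cols4_1bp) k).g s) cols4_1bp kl4 out4_4_1bp = true := by
  decide +kernel

def v4_4_1bq : chk (nat_lit 301) (nat_lit 2408) (fun k s => (G tab4_7 (zup (Nat.pred (Nat.pow 2 (nat_lit 7224))) (nat_lit 2408) (nat_lit 7224))
      (zdn (Nat.pred (Nat.pow 2 (nat_lit 2408))) (nat_lit 2408) (nat_lit 7224)) (pk (nat_lit 301) cols4_1bq) k).g s) cols4_1bq kl4 out4_4_1bq = true := by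
  decide +kernel

def v4_4_1br : chk (nat_lit 301) (nat_lit 2408) (fun k s => (G tab4_7 (zup (Nat.pred (Nat.pow 2 (nat_lit 7224))) (nat_lit 2408) (nat_lit 7224))
      (zdn (Nat.pred (Nat.pow 2 (nat_lit 2408))) (nat_lit 2408) (nat_lit 7224)) (pk (nat_lit 301) cols4_1br) k).g s) cols4_1br kl4 out4_4_1br = true := by
  decide +kernel

def v4_4_1cp : chk (nat_lit 301) (nat_lit 2408) (fun k s => (G tab4_7 (zup (Nat.pred (Nat.pow 2 (nat_lit 7224))) (nat_lit 2408) (nat_lit 7224))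
      (zdn (Nat.pred (Nat.pow 2 (nat_lit 2408))) (nat_lit 2408) (nat_lit 7224)) (pk (nat_lit 301) cols4_1cp) k).g s) cols4_1cp kl4 out4_4_1cp = true := by
  decide +kernel

def v4_4_1cq : chk (nat_lit 301) (nat_lit 2107) (fun k s => (G tab4_7 (zup (Nat.pred (Nat.pow 2 (nat_lit 6321))) (nat_lit 2107) (nat_lit 6321))
      (zdn (Nat.pred (Nat.pow 2 (nat_lit 2107))) (nat_lit 2107) (nat_lit 6321)) (pk (nat_lit 301) cols4_1cq) k).g s) cols4_1cq kl4 out4_4_1cq = true := by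
  decide +kernel

def v4_4_1cr : chk (nat_lit 301) (nat_lit 2107) (fun k s => (G tab4_7 (zup (Nat.pred (Nat.pow 2 (nat_lit 6321))) (nat_lit 2107) (nat_lit 6321))
      (zdn (Nat.pred (Nat.pow 2 (nat_lit 2107))) (nat_lit 2107) (nat_lit 6321)) (pk (nat_lit 301) cols4_1cr) k).g s) cols4_1cr kl4 out4_4_1cr = true := by
  decide +kernel

def v4_4_2ap : chk (nat_lit 301) (nat_lit 3311) (fun k s => (G tab4_6 (zup (Nat.pred (Nat.pow 2 (nat_lit 9933))) (nat_lit 3311) (nat_lit 9933))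
      (zdn (Nat.pred (Nat.pow 2 (nat_lit 3311))) (nat_lit 3311) (nat_lit 9933)) (pk (nat_lit 301) cols4_2ap) k).g s) cols4_2ap kl4 out4_4_2ap = true := by
  decide +kernel

def v4_4_2aq : chk (nat_lit 301) (nat_lit 3010) (fun k s => (G tab4_6 (zup (Nat.pred (Nat.pow 2 (nat_lit 9030))) (nat_lit 3010) (nat_lit 9030))
      (zdn (Nat.pred (Nat.pow 2 (nat_lit 3010))) (nat_lit 3010) (nat_lit 9030)) (pk (nat_lit 301) cols4_2aq) k).g s) cols4_2aq kl4 out4_4_2aq = true := by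
  decide +kernel

def v4_4_2ar : chk (nat_lit 301) (nat_lit 3010) (fun k s => (G tab4_6 (zup (Nat.pred (Nat.pow 2 (nat_lit 9030))) (nat_lit 3010) (nat_lit 9030))
      (zdn (Nat.pred (Nat.pow 2 (nat_lit 3010))) (nat_lit 3010) (nat_lit 9030)) (pk (nat_lit 301) cols4_2ar) k).g s) cols4_2ar kl4 out4_4_2ar = true := by
  decide +kernel

def v4_4_2bp : chk (nat_lit 301) (nat_lit 3010) (fun k s => (G tab4_6 (zup (Nat.pred (Nat.pow 2 (nat_lit 9030))) (nat_lit 3010) (nat_lit 9030))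
      (zdn (Nat.pred (Nat.pow 2 (nat_lit 3010))) (nat_lit 3010) (nat_lit 9030)) (pk (nat_lit 301) cols4_2bp) k).g s) cols4_2bp kl4 out4_4_2bp = true := by
  decide +kernel

def v4_4_2bq : chk (nat_lit 301) (nat_lit 3010) (fun k s => (G tab4_6 (zup (Nat.pred (Nat.pow 2 (nat_lit 9030))) (nat_lit 3010) (nat_lit 9030))
      (zdn (Nat.pred (Nat.pow 2 (nat_lit 3010))) (nat_lit 3010) (nat_lit 9030)) (pk (nat_lit 301) cols4_2bq) k).g s) cols4_2bq kl4 out4_4_2bq = true := by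
  decide +kernel

def v4_4_2br : chk (nat_lit 301) (nat_lit 3010) (fun k s => (G tab4_6 (zup (Nat.pred (Nat.pow 2 (nat_lit 9030))) (nat_lit 3010) (nat_lit 9030))
      (zdn (Nat.pred (Nat.pow 2 (nat_lit 3010))) (nat_lit 3010) (nat_lit 9030)) (pk (nat_lit 301) cols4_2br) k).g s) cols4_2br kl4 out4_4_2br = true := by
  decide +kernel

def v4_4_3p : chk (nat_lit 301) (nat_lit 5418) (fun k s => (G tab4_5 (zup (Nat.pred (Nat.pow 2 (nat_lit 16254))) (nat_lit 5418) (nat_lit 16254))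
      (zdn (Nat.pred (Nat.pow 2 (nat_lit 5418))) (nat_lit 5418) (nat_lit 16254)) (pk (nat_lit 301) cols4_3p) k).g s) cols4_3p kl4 out4_4_3p = true := by
  decide +kernel

def v4_4_3q : chk (nat_lit 301) (nat_lit 5418) (fun k s => (G tab4_5 (zup (Nat.pred (Nat.pow 2 (nat_lit 16254))) (nat_lit 5418) (nat_lit 16254))
      (zdn (Nat.pred (Nat.pow 2 (nat_lit 5418))) (nat_lit 5418) (nat_lit 16254)) (pk (nat_lit 301) cols4_3q) k).g s) cols4_3q kl4 out4_4_3q = true := by
  decide +kernel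

def v4_4_4 : chk (nat_lit 301) (nat_lit 7224) (fun k s => (G tab4_4 (zup (Nat.pred (Nat.pow 2 (nat_lit 21672))) (nat_lit 7224) (nat_lit 21672))
      (zdn (Nat.pred (Nat.pow 2 (nat_lit 7224))) (nat_lit 7224) (nat_lit 21672)) (pk (nat_lit 301) cols4_4) k).g s) cols4_4 kl4 out4_4_4 = true := by
  decide +kernel

def v4_4_5 : chk (nat_lit 301) (nat_lit 2709) (fun k s => (G tab4_3 (zup (Nat.pred (Nat.pow 2 (nat_lit 8127))) (nat_lit 2709) (nat_lit 8127))
      (zdn (Nat.pred (Nat.pow 2 (nat_lit 2709))) (nat_lit 2709) (nat_lit 8127)) (pk (nat_lit 301) cols4_5) k).g s) cols4_5 kl4 out4_4_5 = true := by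
  decide +kernel

def v4_4_6 : chk (nat_lit 301) (nat_lit 1505) (fun k s => (G tab4_2 (zup (Nat.pred (Nat.pow 2 (nat_lit 4515))) (nat_lit 1505) (nat_lit 4515))
      (zdn (Nat.pred (Nat.pow 2 (nat_lit 1505))) (nat_lit 1505) (nat_lit 4515)) (pk (nat_lit 301) cols4_6) k).g s) cols4_6 kl4 out4_4_6 = true := by
  decide +kernel

def v4_4_7 : chk (nat_lit 301) (nat_lit 301) (fun k s => (G tab4_1 (zup (Nat.pred (Nat.pow 2 (nat_lit 903))) (nat_lit 301) (nat_lit 903))
      (zdn (Nat.pred (Nat.pow 2 (nat_lit 301))) (nat_lit 301) (nat_lit 903)) (pk (nat_lit 301) cols4_7) k).g s) cols4_7 kl4 out4_4_7 = true := by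
  decide +kernel

def v4_4_8 : chk (nat_lit 301) (nat_lit 301) (fun k s => (G tab4_0 (zup (Nat.pred (Nat.pow 2 (nat_lit 903))) (nat_lit 301) (nat_lit 903))
      (zdn (Nat.pred (Nat.pow 2 (nat_lit 301))) (nat_lit 301) (nat_lit 903)) (pk (nat_lit 301) cols4_8) k).g s) cols4_8 kl4 out4_4_8 = true := by
  decide +kernel

end P348
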