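import Vale.Agent.Lib.P348.KTab4
import Vale.Agent.Lib.P348.KDataH4
import Vale.Agent.Lib.P348.KEv
import Vale.Agent.Lib.P348.KL

/-!
# P348 (K), module KV4c: path counts of the ring of length 8, winding numbers modulo 3
(kernel evaluation; no Mathlib; the evaluations are written as definitions of proofs, so that they are
elaborated one after the other: peak memory 1.6 GB)
-/

set_option maxRecDepth 10000
set_option linter.defProp false

namespace P348

def v4_3_0ap : chk (nat_lit 301) (nat_lit 2107) (fun k s => (G tab4_8 (zup (Nat.pred (Nat.pow 2 (nat_lit 4214))) (nat_lit 2107) (nat_lit 4214))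
      (zdn (Nat.pred (Nat.pow 2 (nat_lit 2107))) (nat_lit 2107) (nat_lit 4214)) (pk (nat_lit 301) cols4_0ap) k).g s) cols4_0ap kl4 out4_3_0ap = true := by
  decide +kernel

def v4_3_0aq : chk (nat_lit 301) (nat_lit 2107) (fun k s => (G tab4_8 (zup (Nat.pred (Nat.pow 2 (nat_lit 4214))) (nat_lit 2107) (nat_lit 4214))
      (zdn (Nat.pred (Nat.pow 2 (nat_lit 2107))) (nat_lit 2107) (nat_lit 4214)) (pk (nat_lit 301) cols4_0aq) k).g s) cols4_0aq kl4 out4_3_0aq = true := by
  decide +kernel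

def v4_3_0ar : chk (nat_lit 301) (nat_lit 1806) (fun k s => (G tab4_8 (zup (Nat.pred (Nat.pow 2 (nat_lit 3612))) (nat_lit 1806) (nat_lit 3612))
      (zdn (Nat.pred (Nat.pow 2 (nat_lit 1806))) (nat_lit 1806) (nat_lit 3612)) (pk (nat_lit 301) cols4_0ar) k).g s) cols4_0ar kl4 out4_3_0ar = true := by
  decide +kernel

def v4_3_0bp : chk (nat_lit 301) (nat_lit 2107) (fun k s => (G tab4_8 (zup (Nat.pred (Nat.pow 2 (nat_lit 4214))) (nat_lit 2107) (nat_lit 4214))
      (zdn (Nat.pred (Nat.pow 2 (nat_lit 2107))) (nat_lit 2107) (nat_lit 4214)) (pk (nat_lit 301) cols4_0bp) k).g s) cols4_0bp kl4 out4_3_0bp = true := by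
  decide +kernel

def v4_3_0bq : chk (nat_lit 301) (nat_lit 2107) (fun k s => (G tab4_8 (zup (Nat.pred (Nat.pow 2 (nat_lit 4214))) (nat_lit 2107) (nat_lit 4214))
      (zdn (Nat.pred (Nat.pow 2 (nat_lit 2107))) (nat_lit 2107) (nat_lit 4214)) (pk (nat_lit 301) cols4_0bq) k).g s) cols4_0bq kl4 out4_3_0bq = true := by
  decide +kernel

def v4_3_0br : chk (nat_lit 301) (nat_lit 1806) (fun k s => (G tab4_8 (zup (Nat.pred (Nat.pow 2 (nat_lit 3612))) (nat_lit 1806) (nat_lit 3612))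
      (zdn (Nat.pred (Nat.pow 2 (nat_lit 1806))) (nat_lit 1806) (nat_lit 3612)) (pk (nat_lit 301) cols4_0br) k).g s) cols4_0br kl4 out4_3_0br = true := by
  decide +kernel

def v4_3_0cp : chk (nat_lit 301) (nat_lit 2107) (fun k s => (G tab4_8 (zup (Nat.pred (Nat.pow 2 (nat_lit 4214))) (nat_lit 2107) (nat_lit 4214))
      (zdn (Nat.pred (Nat.pow 2 (nat_lit 2107))) (nat_lit 2107) (nat_lit 4214)) (pk (nat_lit 301) cols4_0cp) k).g s) cols4_0cp kl4 out4_3_0cp = true := by
  decide +kernel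

def v4_3_0cq : chk (nat_lit 301) (nat_lit 1806) (fun k s => (G tab4_8 (zup (Nat.pred (Nat.pow 2 (nat_lit 3612))) (nat_lit 1806) (nat_lit 3612))
      (zdn (Nat.pred (Nat.pow 2 (nat_lit 1806))) (nat_lit 1806) (nat_lit 3612)) (pk (nat_lit 301) cols4_0cq) k).g s) cols4_0cq kl4 out4_3_0cq = true := by
  decide +kernel

def v4_3_0cr : chk (nat_lit 301) (nat_lit 1806) (fun k s => (G tab4_8 (zup (Nat.pred (Nat.pow 2 (nat_lit 3612))) (nat_lit 1806) (nat_lit 3612))
      (zdn (Nat.pred (Nat.pow 2 (nat_lit 1806))) (nat_lit 1806) (nat_lit 3612)) (pk (nat_lit 301) cols4_0cr) k).g s) cols4_0cr kl4 out4_3_0cr = true := by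
  decide +kernel

def v4_3_1ap : chk (nat_lit 301) (nat_lit 2408) (fun k s => (G tab4_7 (zup (Nat.pred (Nat.pow 2 (nat_lit 4816))) (nat_lit 2408) (nat_lit 4816))
      (zdn (Nat.pred (Nat.pow 2 (nat_lit 2408))) (nat_lit 2408) (nat_lit 4816)) (pk (nat_lit 301) cols4_1ap) k).g s) cols4_1ap kl4 out4_3_1ap = true := by
  decide +kernel

def v4_3_1aq : chk (nat_lit 301) (nat_lit 2408) (fun k s => (G tab4_7 (zup (Nat.pred (Nat.pow 2 (nat_lit 4816))) (nat_lit 2408) (nat_lit 4816))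
      (zdn (Nat.pred (Nat.pow 2 (nat_lit 2408))) (nat_lit 2408) (nat_lit 4816)) (pk (nat_lit 301) cols4_1aq) k).g s) cols4_1aq kl4 out4_3_1aq = true := by
  decide +kernel

def v4_3_1ar : chk (nat_lit 301) (nat_lit 2408) (fun k s => (G tab4_7 (zup (Nat.pred (Nat.pow 2 (nat_lit 4816))) (nat_lit 2408) (nat_lit 4816))
      (zdn (Nat.pred (Nat.pow 2 (nat_lit 2408))) (nat_lit 2408) (nat_lit 4816)) (pk (nat_lit 301) cols4_1ar) k).g s) cols4_1ar kl4 out4_3_1ar = true := by
  decide +kernel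

end P348
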