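import Vale.Agent.Lib.P348.KV4
import Vale.Agent.Lib.P348.KV4b
import Vale.Agent.Lib.P348.KV4c
import Vale.Agent.Lib.P348.KV4d
import Vale.Agent.Lib.P348.KTabOK4
import Vale.Agent.Lib.P348.KT5
import Vale.Agent.Lib.P348.KGA

/-!
# P348 (K), module KE4: the path counts of the ring of length 8
-/

set_option maxRecDepth 10000

namespace P348

theorem grp4_4_0ap : GrpOK 4 4 cols4_0ap out4_4_0ap :=
  grp_of_chk (N := 4) (by norm_num) (by norm_num) 3 (nat_lit 301) (nat_lit 2107) (nat_lit 6321) 8 cols4_0ap tab4_8 kl4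
    out4_4_0ap tabOK4_8 (by decide +kernel) ((Bool.and_eq_true _ _).mp vboth4_0ap).1

theorem flip4_0ap : GrpFlip 4 4 cols4_0ap fout4_0ap :=
  flip_of_chk (N := 4) (by norm_num) (by norm_num) 3 (nat_lit 301) (nat_lit 2107) (nat_lit 6321) 8 rfl cols4_0ap tab4_8 kl4
    fout4_0ap tabOK4_8 (by decide +kernel) ((Bool.and_eq_true _ _).mp vboth4_0ap).2

theorem grp4_4_0aq : GrpOK 4 4 cols4_0aq out4_4_0aq :=
  grp_of_chk (N := 4) (by norm_num) (by norm_num) 3 (nat_lit 301) (nat_lit 2107) (nat_lit 6321) 8 cols4_0aq tab4_8 kl4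
    out4_4_0aq tabOK4_8 (by decide +kernel) ((Bool.and_eq_true _ _).mp vboth4_0aq).1

theorem flip4_0aq : GrpFlip 4 4 cols4_0aq fout4_0aq :=
  flip_of_chk (N := 4) (by norm_num) (by norm_num) 3 (nat_lit 301) (nat_lit 2107) (nat_lit 6321) 8 rfl cols4_0aq tab4_8 kl4
    fout4_0aq tabOK4_8 (by decide +kernel) ((Bool.and_eq_true _ _).mp vboth4_0aq).2

theorem grp4_4_0ar : GrpOK 4 4 cols4_0ar out4_4_0ar :=
  grp_of_chk (N := 4) (by norm_num) (by norm_num) 3 (nat_lit 301) (nat_lit 1806) (nat_lit 5418) 8 cols4_0ar tab4_8 kl4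
    out4_4_0ar tabOK4_8 (by decide +kernel) ((Bool.and_eq_true _ _).mp vboth4_0ar).1

theorem flip4_0ar : GrpFlip 4 4 cols4_0ar fout4_0ar :=
  flip_of_chk (N := 4) (by norm_num) (by norm_num) 3 (nat_lit 301) (nat_lit 1806) (nat_lit 5418) 8 rfl cols4_0ar tab4_8 kl4
    fout4_0ar tabOK4_8 (by decide +kernel) ((Bool.and_eq_true _ _).mp vboth4_0ar).2

theorem grp4_4_0as : GrpOK 4 4 cols4_0as out4_4_0as :=
  grp_append grp4_4_0aq grp4_4_0ar rfl (by decide +kernel)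

theorem grp4_4_0a : GrpOK 4 4 cols4_0a out4_4_0a :=
  grp_append grp4_4_0ap grp4_4_0as rfl (by decide +kernel)

theorem flip4_0as : GrpFlip 4 4 cols4_0as fout4_0as :=
  flip_append flip4_0aq flip4_0ar rfl (by decide +kernel)

theorem flip4_0a : GrpFlip 4 4 cols4_0a fout4_0a :=
  flip_append flip4_0ap flip4_0as rfl (by decide +kernel)

theorem grp4_4_0bp : GrpOK 4 4 cols4_0bp out4_4_0bp :=
  grp_of_chk (N := 4) (by norm_num) (by norm_num) 3 (nat_lit 301) (nat_lit 2107) (nat_lit 6321) 8 cols4_0bp tab4_8 kl4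
    out4_4_0bp tabOK4_8 (by decide +kernel) ((Bool.and_eq_true _ _).mp vboth4_0bp).1

theorem flip4_0bp : GrpFlip 4 4 cols4_0bp fout4_0bp :=
  flip_of_chk (N := 4) (by norm_num) (by norm_num) 3 (nat_lit 301) (nat_lit 2107) (nat_lit 6321) 8 rfl cols4_0bp tab4_8 kl4
    fout4_0bp tabOK4_8 (by decide +kernel) ((Bool.and_eq_true _ _).mp vboth4_0bp).2

theorem grp4_4_0bq : GrpOK 4 4 cols4_0bq out4_4_0bq :=
  grp_of_chk (N := 4) (by norm_num) (by norm_num) 3 (nat_lit 301) (nat_lit 2107) (nat_lit 6321) 8 cols4_0bq tab4_8 kl4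
    out4_4_0bq tabOK4_8 (by decide +kernel) ((Bool.and_eq_true _ _).mp vboth4_0bq).1

theorem flip4_0bq : GrpFlip 4 4 cols4_0bq fout4_0bq :=
  flip_of_chk (N := 4) (by norm_num) (by norm_num) 3 (nat_lit 301) (nat_lit 2107) (nat_lit 6321) 8 rfl cols4_0bq tab4_8 kl4
    fout4_0bq tabOK4_8 (by decide +kernel) ((Bool.and_eq_true _ _).mp vboth4_0bq).2

theorem grp4_4_0br : GrpOK 4 4 cols4_0br out4_4_0br :=
  grp_of_chk (N := 4) (by norm_num) (by norm_num) 3 (nat_lit 301) (nat_lit 1806) (nat_lit 5418) 8 cols4_0br tab4_8 kl4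
    out4_4_0br tabOK4_8 (by decide +kernel) ((Bool.and_eq_true _ _).mp vboth4_0br).1

theorem flip4_0br : GrpFlip 4 4 cols4_0br fout4_0br :=
  flip_of_chk (N := 4) (by norm_num) (by norm_num) 3 (nat_lit 301) (nat_lit 1806) (nat_lit 5418) 8 rfl cols4_0br tab4_8 kl4
    fout4_0br tabOK4_8 (by decide +kernel) ((Bool.and_eq_true _ _).mp vboth4_0br).2

theorem grp4_4_0bs : GrpOK 4 4 cols4_0bs out4_4_0bs :=
  grp_append grp4_4_0bq grp4_4_0br rfl (by decide +kernel)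

theorem grp4_4_0b : GrpOK 4 4 cols4_0b out4_4_0b :=
  grp_append grp4_4_0bp grp4_4_0bs rfl (by decide +kernel)

theorem flip4_0bs : GrpFlip 4 4 cols4_0bs fout4_0bs :=
  flip_append flip4_0bq flip4_0br rfl (by decide +kernel)

theorem flip4_0b : GrpFlip 4 4 cols4_0b fout4_0b :=
  flip_append flip4_0bp flip4_0bs rfl (by decide +kernel)

theorem grp4_4_0cp : GrpOK 4 4 cols4_0cp out4_4_0cp :=
  grp_of_chk (N := 4) (by norm_num) (by norm_num) 3 (nat_lit 301) (nat_lit 2107) (nat_lit 6321) 8 cols4_0cp tab4_8 kl4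
    out4_4_0cp tabOK4_8 (by decide +kernel) ((Bool.and_eq_true _ _).mp vboth4_0cp).1

theorem flip4_0cp : GrpFlip 4 4 cols4_0cp fout4_0cp :=
  flip_of_chk (N := 4) (by norm_num) (by norm_num) 3 (nat_lit 301) (nat_lit 2107) (nat_lit 6321) 8 rfl cols4_0cp tab4_8 kl4
    fout4_0cp tabOK4_8 (by decide +kernel) ((Bool.and_eq_true _ _).mp vboth4_0cp).2

theorem grp4_4_0cq : GrpOK 4 4 cols4_0cq out4_4_0cq :=
  grp_of_chk (N := 4) (by norm_num) (by norm_num) 3 (nat_lit 301) (nat_lit 1806) (nat_lit 5418) 8 cols4_0cq tab4_8 kl4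
    out4_4_0cq tabOK4_8 (by decide +kernel) ((Bool.and_eq_true _ _).mp vboth4_0cq).1

theorem flip4_0cq : GrpFlip 4 4 cols4_0cq fout4_0cq :=
  flip_of_chk (N := 4) (by norm_num) (by norm_num) 3 (nat_lit 301) (nat_lit 1806) (nat_lit 5418) 8 rfl cols4_0cq tab4_8 kl4
    fout4_0cq tabOK4_8 (by decide +kernel) ((Bool.and_eq_true _ _).mp vboth4_0cq).2

theorem grp4_4_0cr : GrpOK 4 4 cols4_0cr out4_4_0cr :=
  grp_of_chk (N := 4) (by norm_num) (by norm_num) 3 (nat_lit 301) (nat_lit 1806) (nat_lit 5418) 8 cols4_0cr tab4_8 kl4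
    out4_4_0cr tabOK4_8 (by decide +kernel) ((Bool.and_eq_true _ _).mp vboth4_0cr).1

theorem flip4_0cr : GrpFlip 4 4 cols4_0cr fout4_0cr :=
  flip_of_chk (N := 4) (by norm_num) (by norm_num) 3 (nat_lit 301) (nat_lit 1806) (nat_lit 5418) 8 rfl cols4_0cr tab4_8 kl4
    fout4_0cr tabOK4_8 (by decide +kernel) ((Bool.and_eq_true _ _).mp vboth4_0cr).2

theorem grp4_4_0cs : GrpOK 4 4 cols4_0cs out4_4_0cs :=
  grp_append grp4_4_0cq grp4_4_0cr rfl (by decide +kernel)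

theorem grp4_4_0c : GrpOK 4 4 cols4_0c out4_4_0c :=
  grp_append grp4_4_0cp grp4_4_0cs rfl (by decide +kernel)

theorem flip4_0cs : GrpFlip 4 4 cols4_0cs fout4_0cs :=
  flip_append flip4_0cq flip4_0cr rfl (by decide +kernel)

theorem flip4_0c : GrpFlip 4 4 cols4_0c fout4_0c :=
  flip_append flip4_0cp flip4_0cs rfl (by decide +kernel)

theorem grp4_4_1ap : GrpOK 4 4 cols4_1ap out4_4_1ap :=
  grp_of_chk (N := 4) (by norm_num) (by norm_num) 3 (nat_lit 301) (nat_lit 2408) (nat_lit 7224) 7 cols4_1ap tab4_7 kl4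
    out4_4_1ap tabOK4_7 (by decide +kernel) v4_4_1ap

theorem grp4_4_1aq : GrpOK 4 4 cols4_1aq out4_4_1aq :=
  grp_of_chk (N := 4) (by norm_num) (by norm_num) 3 (nat_lit 301) (nat_lit 2408) (nat_lit 7224) 7 cols4_1aq tab4_7 kl4
    out4_4_1aq tabOK4_7 (by decide +kernel) v4_4_1aq

theorem grp4_4_1ar : GrpOK 4 4 cols4_1ar out4_4_1ar :=
  grp_of_chk (N := 4) (by norm_num) (by norm_num) 3 (nat_lit 301) (nat_lit 2408) (nat_lit 7224) 7 cols4_1ar tab4_7 kl4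
    out4_4_1ar tabOK4_7 (by decide +kernel) v4_4_1ar

theorem grp4_4_1as : GrpOK 4 4 cols4_1as out4_4_1as :=
  grp_append grp4_4_1aq grp4_4_1ar rfl (by decide +kernel)

theorem grp4_4_1a : GrpOK 4 4 cols4_1a out4_4_1a :=
  grp_append grp4_4_1ap grp4_4_1as rfl (by decide +kernel)

theorem grp4_4_1bp : GrpOK 4 4 cols4_1bp out4_4_1bp :=
  grp_of_chk (N := 4) (by norm_num) (by norm_num) 3 (nat_lit 301) (nat_lit 2408) (nat_lit 7224) 7 cols4_1bp tab4_7 kl4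
    out4_4_1bp tabOK4_7 (by decide +kernel) v4_4_1bp

theorem grp4_4_1bq : GrpOK 4 4 cols4_1bq out4_4_1bq :=
  grp_of_chk (N := 4) (by norm_num) (by norm_num) 3 (nat_lit 301) (nat_lit 2408) (nat_lit 7224) 7 cols4_1bq tab4_7 kl4
    out4_4_1bq tabOK4_7 (by decide +kernel) v4_4_1bq

theorem grp4_4_1br : GrpOK 4 4 cols4_1br out4_4_1br :=
  grp_of_chk (N := 4) (by norm_num) (by norm_num) 3 (nat_lit 301) (nat_lit 2408) (nat_lit 7224) 7 cols4_1br tab4_7 kl4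
    out4_4_1br tabOK4_7 (by decide +kernel) v4_4_1br

theorem grp4_4_1bs : GrpOK 4 4 cols4_1bs out4_4_1bs :=
  grp_append grp4_4_1bq grp4_4_1br rfl (by decide +kernel)

theorem grp4_4_1b : GrpOK 4 4 cols4_1b out4_4_1b :=
  grp_append grp4_4_1bp grp4_4_1bs rfl (by decide +kernel)

theorem grp4_4_1cp : GrpOK 4 4 cols4_1cp out4_4_1cp :=
  grp_of_chk (N := 4) (by norm_num) (by norm_num) 3 (nat_lit 301) (nat_lit 2408) (nat_lit 7224) 7 cols4_1cp tab4_7 kl4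
    out4_4_1cp tabOK4_7 (by decide +kernel) v4_4_1cp

theorem grp4_4_1cq : GrpOK 4 4 cols4_1cq out4_4_1cq :=
  grp_of_chk (N := 4) (by norm_num) (by norm_num) 3 (nat_lit 301) (nat_lit 2107) (nat_lit 6321) 7 cols4_1cq tab4_7 kl4
    out4_4_1cq tabOK4_7 (by decide +kernel) v4_4_1cq

theorem grp4_4_1cr : GrpOK 4 4 cols4_1cr out4_4_1cr :=
  grp_of_chk (N := 4) (by norm_num) (by norm_num) 3 (nat_lit 301) (nat_lit 2107) (nat_lit 6321) 7 cols4_1cr tab4_7 kl4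
    out4_4_1cr tabOK4_7 (by decide +kernel) v4_4_1cr

theorem grp4_4_1cs : GrpOK 4 4 cols4_1cs out4_4_1cs :=
  grp_append grp4_4_1cq grp4_4_1cr rfl (by decide +kernel)

theorem grp4_4_1c : GrpOK 4 4 cols4_1c out4_4_1c :=
  grp_append grp4_4_1cp grp4_4_1cs rfl (by decide +kernel)

theorem grp4_4_2ap : GrpOK 4 4 cols4_2ap out4_4_2ap :=
  grp_of_chk (N := 4) (by norm_num) (by norm_num) 3 (nat_lit 301) (nat_lit 3311) (nat_lit 9933) 6 cols4_2ap tab4_6 kl4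
    out4_4_2ap tabOK4_6 (by decide +kernel) v4_4_2ap

theorem grp4_4_2aq : GrpOK 4 4 cols4_2aq out4_4_2aq :=
  grp_of_chk (N := 4) (by norm_num) (by norm_num) 3 (nat_lit 301) (nat_lit 3010) (nat_lit 9030) 6 cols4_2aq tab4_6 kl4
    out4_4_2aq tabOK4_6 (by decide +kernel) v4_4_2aq

theorem grp4_4_2ar : GrpOK 4 4 cols4_2ar out4_4_2ar :=
  grp_of_chk (N := 4) (by norm_num) (by norm_num) 3 (nat_lit 301) (nat_lit 3010) (nat_lit 9030) 6 cols4_2ar tab4_6 kl4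
    out4_4_2ar tabOK4_6 (by decide +kernel) v4_4_2ar

theorem grp4_4_2as : GrpOK 4 4 cols4_2as out4_4_2as :=
  grp_append grp4_4_2aq grp4_4_2ar rfl (by decide +kernel)

theorem grp4_4_2a : GrpOK 4 4 cols4_2a out4_4_2a :=
  grp_append grp4_4_2ap grp4_4_2as rfl (by decide +kernel)

theorem grp4_4_2bp : GrpOK 4 4 cols4_2bp out4_4_2bp :=
  grp_of_chk (N := 4) (by norm_num) (by norm_num) 3 (nat_lit 301) (nat_lit 3010) (nat_lit 9030) 6 cols4_2bp tab4_6 kl4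
    out4_4_2bp tabOK4_6 (by decide +kernel) v4_4_2bp

theorem grp4_4_2bq : GrpOK 4 4 cols4_2bq out4_4_2bq :=
  grp_of_chk (N := 4) (by norm_num) (by norm_num) 3 (nat_lit 301) (nat_lit 3010) (nat_lit 9030) 6 cols4_2bq tab4_6 kl4
    out4_4_2bq tabOK4_6 (by decide +kernel) v4_4_2bq

theorem grp4_4_2br : GrpOK 4 4 cols4_2br out4_4_2br :=
  grp_of_chk (N := 4) (by norm_num) (by norm_num) 3 (nat_lit 301) (nat_lit 3010) (nat_lit 9030) 6 cols4_2br tab4_6 kl4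
    out4_4_2br tabOK4_6 (by decide +kernel) v4_4_2br

theorem grp4_4_2bs : GrpOK 4 4 cols4_2bs out4_4_2bs :=
  grp_append grp4_4_2bq grp4_4_2br rfl (by decide +kernel)

theorem grp4_4_2b : GrpOK 4 4 cols4_2b out4_4_2b :=
  grp_append grp4_4_2bp grp4_4_2bs rfl (by decide +kernel)

theorem grp4_4_3p : GrpOK 4 4 cols4_3p out4_4_3p :=
  grp_of_chk (N := 4) (by norm_num) (by norm_num) 3 (nat_lit 301) (nat_lit 5418) (nat_lit 16254) 5 cols4_3p tab4_5 kl4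
    out4_4_3p tabOK4_5 (by decide +kernel) v4_4_3p

theorem grp4_4_3q : GrpOK 4 4 cols4_3q out4_4_3q :=
  grp_of_chk (N := 4) (by norm_num) (by norm_num) 3 (nat_lit 301) (nat_lit 5418) (nat_lit 16254) 5 cols4_3q tab4_5 kl4
    out4_4_3q tabOK4_5 (by decide +kernel) v4_4_3q

theorem grp4_4_3 : GrpOK 4 4 cols4_3 out4_4_3 :=
  grp_append grp4_4_3p grp4_4_3q rfl (by decide +kernel)

theorem grp4_4_4 : GrpOK 4 4 cols4_4 out4_4_4 :=
  grp_of_chk (N := 4) (by norm_num) (by norm_num) 3 (nat_lit 301) (nat_lit 7224) (nat_lit 21672) 4 cols4_4 tab4_4 kl4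
    out4_4_4 tabOK4_4 (by decide +kernel) v4_4_4

theorem grp4_4_5 : GrpOK 4 4 cols4_5 out4_4_5 :=
  grp_of_chk (N := 4) (by norm_num) (by norm_num) 3 (nat_lit 301) (nat_lit 2709) (nat_lit 8127) 3 cols4_5 tab4_3 kl4
    out4_4_5 tabOK4_3 (by decide +kernel) v4_4_5

theorem grp4_4_6 : GrpOK 4 4 cols4_6 out4_4_6 :=
  grp_of_chk (N := 4) (by norm_num) (by norm_num) 3 (nat_lit 301) (nat_lit 1505) (nat_lit 4515) 2 cols4_6 tab4_2 kl4
    out4_4_6 tabOK4_2 (by decide +kernel) v4_4_6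

theorem grp4_4_7 : GrpOK 4 4 cols4_7 out4_4_7 :=
  grp_of_chk (N := 4) (by norm_num) (by norm_num) 3 (nat_lit 301) (nat_lit 301) (nat_lit 903) 1 cols4_7 tab4_1 kl4
    out4_4_7 tabOK4_1 (by decide +kernel) v4_4_7

theorem grp4_4_8 : GrpOK 4 4 cols4_8 out4_4_8 :=
  grp_of_chk (N := 4) (by norm_num) (by norm_num) 3 (nat_lit 301) (nat_lit 301) (nat_lit 903) 0 cols4_8 tab4_0 kl4
    out4_4_8 tabOK4_0 (by decide +kernel) v4_4_8

theorem grp4_3_0ap : GrpOK 4 3 cols4_0ap out4_3_0ap :=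
  grp_of_chk (N := 4) (by norm_num) (by norm_num) 2 (nat_lit 301) (nat_lit 2107) (nat_lit 4214) 8 cols4_0ap tab4_8 kl4
    out4_3_0ap tabOK4_8 (by decide +kernel) v4_3_0ap

theorem grp4_3_0aq : GrpOK 4 3 cols4_0aq out4_3_0aq :=
  grp_of_chk (N := 4) (by norm_num) (by norm_num) 2 (nat_lit 301) (nat_lit 2107) (nat_lit 4214) 8 cols4_0aq tab4_8 kl4
    out4_3_0aq tabOK4_8 (by decide +kernel) v4_3_0aq

theorem grp4_3_0ar : GrpOK 4 3 cols4_0ar out4_3_0ar :=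
  grp_of_chk (N := 4) (by norm_num) (by norm_num) 2 (nat_lit 301) (nat_lit 1806) (nat_lit 3612) 8 cols4_0ar tab4_8 kl4
    out4_3_0ar tabOK4_8 (by decide +kernel) v4_3_0ar

theorem grp4_3_0as : GrpOK 4 3 cols4_0as out4_3_0as :=
  grp_append grp4_3_0aq grp4_3_0ar rfl (by decide +kernel)

theorem grp4_3_0a : GrpOK 4 3 cols4_0a out4_3_0a :=
  grp_append grp4_3_0ap grp4_3_0as rfl (by decide +kernel)

theorem grp4_3_0bp : GrpOK 4 3 cols4_0bp out4_3_0bp :=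
  grp_of_chk (N := 4) (by norm_num) (by norm_num) 2 (nat_lit 301) (nat_lit 2107) (nat_lit 4214) 8 cols4_0bp tab4_8 kl4
    out4_3_0bp tabOK4_8 (by decide +kernel) v4_3_0bp

theorem grp4_3_0bq : GrpOK 4 3 cols4_0bq out4_3_0bq :=
  grp_of_chk (N := 4) (by norm_num) (by norm_num) 2 (nat_lit 301) (nat_lit 2107) (nat_lit 4214) 8 cols4_0bq tab4_8 kl4
    out4_3_0bq tabOK4_8 (by decide +kernel) v4_3_0bq

theorem grp4_3_0br : GrpOK 4 3 cols4_0br out4_3_0br :=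
  grp_of_chk (N := 4) (by norm_num) (by norm_num) 2 (nat_lit 301) (nat_lit 1806) (nat_lit 3612) 8 cols4_0br tab4_8 kl4
    out4_3_0br tabOK4_8 (by decide +kernel) v4_3_0br

theorem grp4_3_0bs : GrpOK 4 3 cols4_0bs out4_3_0bs :=
  grp_append grp4_3_0bq grp4_3_0br rfl (by decide +kernel)

theorem grp4_3_0b : GrpOK 4 3 cols4_0b out4_3_0b :=
  grp_append grp4_3_0bp grp4_3_0bs rfl (by decide +kernel)

theorem grp4_3_0cp : GrpOK 4 3 cols4_0cp out4_3_0cp :=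
  grp_of_chk (N := 4) (by norm_num) (by norm_num) 2 (nat_lit 301) (nat_lit 2107) (nat_lit 4214) 8 cols4_0cp tab4_8 kl4
    out4_3_0cp tabOK4_8 (by decide +kernel) v4_3_0cp

theorem grp4_3_0cq : GrpOK 4 3 cols4_0cq out4_3_0cq :=
  grp_of_chk (N := 4) (by norm_num) (by norm_num) 2 (nat_lit 301) (nat_lit 1806) (nat_lit 3612) 8 cols4_0cq tab4_8 kl4
    out4_3_0cq tabOK4_8 (by decide +kernel) v4_3_0cq

theorem grp4_3_0cr : GrpOK 4 3 cols4_0cr out4_3_0cr :=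
  grp_of_chk (N := 4) (by norm_num) (by norm_num) 2 (nat_lit 301) (nat_lit 1806) (nat_lit 3612) 8 cols4_0cr tab4_8 kl4
    out4_3_0cr tabOK4_8 (by decide +kernel) v4_3_0cr

theorem grp4_3_0cs : GrpOK 4 3 cols4_0cs out4_3_0cs :=
  grp_append grp4_3_0cq grp4_3_0cr rfl (by decide +kernel)

theorem grp4_3_0c : GrpOK 4 3 cols4_0c out4_3_0c :=
  grp_append grp4_3_0cp grp4_3_0cs rfl (by decide +kernel)

theorem grp4_3_1ap : GrpOK 4 3 cols4_1ap out4_3_1ap :=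
  grp_of_chk (N := 4) (by norm_num) (by norm_num) 2 (nat_lit 301) (nat_lit 2408) (nat_lit 4816) 7 cols4_1ap tab4_7 kl4
    out4_3_1ap tabOK4_7 (by decide +kernel) v4_3_1ap

theorem grp4_3_1aq : GrpOK 4 3 cols4_1aq out4_3_1aq :=
  grp_of_chk (N := 4) (by norm_num) (by norm_num) 2 (nat_lit 301) (nat_lit 2408) (nat_lit 4816) 7 cols4_1aq tab4_7 kl4
    out4_3_1aq tabOK4_7 (by decide +kernel) v4_3_1aq

theorem grp4_3_1ar : GrpOK 4 3 cols4_1ar out4_3_1ar :=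
  grp_of_chk (N := 4) (by norm_num) (by norm_num) 2 (nat_lit 301) (nat_lit 2408) (nat_lit 4816) 7 cols4_1ar tab4_7 kl4
    out4_3_1ar tabOK4_7 (by decide +kernel) v4_3_1ar

theorem grp4_3_1as : GrpOK 4 3 cols4_1as out4_3_1as :=
  grp_append grp4_3_1aq grp4_3_1ar rfl (by decide +kernel)

theorem grp4_3_1a : GrpOK 4 3 cols4_1a out4_3_1a :=
  grp_append grp4_3_1ap grp4_3_1as rfl (by decide +kernel)

theorem grp4_3_1bp : GrpOK 4 3 cols4_1bp out4_3_1bp :=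
  grp_of_chk (N := 4) (by norm_num) (by norm_num) 2 (nat_lit 301) (nat_lit 2408) (nat_lit 4816) 7 cols4_1bp tab4_7 kl4
    out4_3_1bp tabOK4_7 (by decide +kernel) v4_3_1bp

theorem grp4_3_1bq : GrpOK 4 3 cols4_1bq out4_3_1bq :=
  grp_of_chk (N := 4) (by norm_num) (by norm_num) 2 (nat_lit 301) (nat_lit 2408) (nat_lit 4816) 7 cols4_1bq tab4_7 kl4
    out4_3_1bq tabOK4_7 (by decide +kernel) v4_3_1bq

theorem grp4_3_1br : GrpOK 4 3 cols4_1br out4_3_1br :=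
  grp_of_chk (N := 4) (by norm_num) (by norm_num) 2 (nat_lit 301) (nat_lit 2408) (nat_lit 4816) 7 cols4_1br tab4_7 kl4
    out4_3_1br tabOK4_7 (by decide +kernel) v4_3_1br

theorem grp4_3_1bs : GrpOK 4 3 cols4_1bs out4_3_1bs :=
  grp_append grp4_3_1bq grp4_3_1br rfl (by decide +kernel)

theorem grp4_3_1b : GrpOK 4 3 cols4_1b out4_3_1b :=
  grp_append grp4_3_1bp grp4_3_1bs rfl (by decide +kernel)

theorem grp4_3_1cp : GrpOK 4 3 cols4_1cp out4_3_1cp :=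
  grp_of_chk (N := 4) (by norm_num) (by norm_num) 2 (nat_lit 301) (nat_lit 2408) (nat_lit 4816) 7 cols4_1cp tab4_7 kl4
    out4_3_1cp tabOK4_7 (by decide +kernel) v4_3_1cp

theorem grp4_3_1cq : GrpOK 4 3 cols4_1cq out4_3_1cq :=
  grp_of_chk (N := 4) (by norm_num) (by norm_num) 2 (nat_lit 301) (nat_lit 2107) (nat_lit 4214) 7 cols4_1cq tab4_7 kl4
    out4_3_1cq tabOK4_7 (by decide +kernel) v4_3_1cq

theorem grp4_3_1cr : GrpOK 4 3 cols4_1cr out4_3_1cr :=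
  grp_of_chk (N := 4) (by norm_num) (by norm_num) 2 (nat_lit 301) (nat_lit 2107) (nat_lit 4214) 7 cols4_1cr tab4_7 kl4
    out4_3_1cr tabOK4_7 (by decide +kernel) v4_3_1cr

theorem grp4_3_1cs : GrpOK 4 3 cols4_1cs out4_3_1cs :=
  grp_append grp4_3_1cq grp4_3_1cr rfl (by decide +kernel)

theorem grp4_3_1c : GrpOK 4 3 cols4_1c out4_3_1c :=
  grp_append grp4_3_1cp grp4_3_1cs rfl (by decide +kernel)

theorem grp4_3_2ap : GrpOK 4 3 cols4_2ap out4_3_2ap :=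
  grp_of_chk (N := 4) (by norm_num) (by norm_num) 2 (nat_lit 301) (nat_lit 3311) (nat_lit 6622) 6 cols4_2ap tab4_6 kl4
    out4_3_2ap tabOK4_6 (by decide +kernel) v4_3_2ap

theorem grp4_3_2aq : GrpOK 4 3 cols4_2aq out4_3_2aq :=
  grp_of_chk (N := 4) (by norm_num) (by norm_num) 2 (nat_lit 301) (nat_lit 3010) (nat_lit 6020) 6 cols4_2aq tab4_6 kl4
    out4_3_2aq tabOK4_6 (by decide +kernel) v4_3_2aq

theorem grp4_3_2ar : GrpOK 4 3 cols4_2ar out4_3_2ar :=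
  grp_of_chk (N := 4) (by norm_num) (by norm_num) 2 (nat_lit 301) (nat_lit 3010) (nat_lit 6020) 6 cols4_2ar tab4_6 kl4
    out4_3_2ar tabOK4_6 (by decide +kernel) v4_3_2ar

theorem grp4_3_2as : GrpOK 4 3 cols4_2as out4_3_2as :=
  grp_append grp4_3_2aq grp4_3_2ar rfl (by decide +kernel)

theorem grp4_3_2a : GrpOK 4 3 cols4_2a out4_3_2a :=
  grp_append grp4_3_2ap grp4_3_2as rfl (by decide +kernel)

theorem grp4_3_2bp : GrpOK 4 3 cols4_2bp out4_3_2bp :=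
  grp_of_chk (N := 4) (by norm_num) (by norm_num) 2 (nat_lit 301) (nat_lit 3010) (nat_lit 6020) 6 cols4_2bp tab4_6 kl4
    out4_3_2bp tabOK4_6 (by decide +kernel) v4_3_2bp

theorem grp4_3_2bq : GrpOK 4 3 cols4_2bq out4_3_2bq :=
  grp_of_chk (N := 4) (by norm_num) (by norm_num) 2 (nat_lit 301) (nat_lit 3010) (nat_lit 6020) 6 cols4_2bq tab4_6 kl4
    out4_3_2bq tabOK4_6 (by decide +kernel) v4_3_2bq

theorem grp4_3_2br : GrpOK 4 3 cols4_2br out4_3_2br :=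
  grp_of_chk (N := 4) (by norm_num) (by norm_num) 2 (nat_lit 301) (nat_lit 3010) (nat_lit 6020) 6 cols4_2br tab4_6 kl4
    out4_3_2br tabOK4_6 (by decide +kernel) v4_3_2br

theorem grp4_3_2bs : GrpOK 4 3 cols4_2bs out4_3_2bs :=
  grp_append grp4_3_2bq grp4_3_2br rfl (by decide +kernel)

theorem grp4_3_2b : GrpOK 4 3 cols4_2b out4_3_2b :=
  grp_append grp4_3_2bp grp4_3_2bs rfl (by decide +kernel)

theorem grp4_3_3p : GrpOK 4 3 cols4_3p out4_3_3p :=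
  grp_of_chk (N := 4) (by norm_num) (by norm_num) 2 (nat_lit 301) (nat_lit 5418) (nat_lit 10836) 5 cols4_3p tab4_5 kl4
    out4_3_3p tabOK4_5 (by decide +kernel) v4_3_3p

theorem grp4_3_3q : GrpOK 4 3 cols4_3q out4_3_3q :=
  grp_of_chk (N := 4) (by norm_num) (by norm_num) 2 (nat_lit 301) (nat_lit 5418) (nat_lit 10836) 5 cols4_3q tab4_5 kl4
    out4_3_3q tabOK4_5 (by decide +kernel) v4_3_3q

theorem grp4_3_3 : GrpOK 4 3 cols4_3 out4_3_3 :=
  grp_append grp4_3_3p grp4_3_3q rfl (by decide +kernel)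

theorem grp4_3_4 : GrpOK 4 3 cols4_4 out4_3_4 :=
  grp_of_chk (N := 4) (by norm_num) (by norm_num) 2 (nat_lit 301) (nat_lit 7224) (nat_lit 14448) 4 cols4_4 tab4_4 kl4
    out4_3_4 tabOK4_4 (by decide +kernel) v4_3_4

theorem grp4_3_5 : GrpOK 4 3 cols4_5 out4_3_5 :=
  grp_of_chk (N := 4) (by norm_num) (by norm_num) 2 (nat_lit 301) (nat_lit 2709) (nat_lit 5418) 3 cols4_5 tab4_3 kl4
    out4_3_5 tabOK4_3 (by decide +kernel) v4_3_5

theorem grp4_3_6 : GrpOK 4 3 cols4_6 out4_3_6 :=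
  grp_of_chk (N := 4) (by norm_num) (by norm_num) 2 (nat_lit 301) (nat_lit 1505) (nat_lit 3010) 2 cols4_6 tab4_2 kl4
    out4_3_6 tabOK4_2 (by decide +kernel) v4_3_6

theorem grp4_3_7 : GrpOK 4 3 cols4_7 out4_3_7 :=
  grp_of_chk (N := 4) (by norm_num) (by norm_num) 2 (nat_lit 301) (nat_lit 301) (nat_lit 602) 1 cols4_7 tab4_1 kl4
    out4_3_7 tabOK4_1 (by decide +kernel) v4_3_7

theorem grp4_3_8 : GrpOK 4 3 cols4_8 out4_3_8 :=
  grp_of_chk (N := 4) (by norm_num) (by norm_num) 2 (nat_lit 301) (nat_lit 301) (nat_lit 602) 0 cols4_8 tab4_0 kl4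
    out4_3_8 tabOK4_0 (by decide +kernel) v4_3_8

end P348
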