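import Vale.Agent.Lib.P348.PSpec

/-!
# P348 module PMom: from integer moments to Chebyshev moments and to partition functions

`(H - p/q)`: with `x = (p - q λ) / r` the polynomials `r^m T_m(x)` have integer coefficients in `λ`.
`chL` computes from the list of the moments `∑ g λ^k` the list of `∑ g r^m T_m(x)`.
-/

namespace P348

open Finset

/-- `A_{m+1}[j] = 2 (p A_m[j] - q A_m[j+1]) - r² A_{m-1}[j]` -/
def nextL (p q r2 : ℤ) : List ℤ → List ℤ → List ℤ
  | a0 :: a1 :: as, b :: bs => (2 * (p * a0 - q * a1) - r2 * b) :: nextL p q r2 (a1 :: as) bs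
  | _, _ => []

/-- `B[j] = p A[j] - q A[j+1]` -/
def firstL (p q : ℤ) : List ℤ → List ℤ
  | a0 :: a1 :: as => (p * a0 - q * a1) :: firstL p q (a1 :: as)
  | _ => []

/-- heads of the successive lists, starting with `A` (the previous one is `B`) -/
def headsL (p q r2 : ℤ) : ℕ → List ℤ → List ℤ → List ℤ
  | 0, _, _ => []
  | (n + 1), A, B => A.headD 0 :: headsL p q r2 n (nextL p q r2 A B) A

/-- list of the `n + 1` first Chebyshev moments -/
def chL (p q r2 : ℤ) (n : ℕ) (M : List ℤ) : List ℤ :=
  M.headD 0 :: headsL p q r2 n (firstL p q M) M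

/-- `i` successive applications of `firstL` -/
def iterL (p q : ℤ) : ℕ → List ℤ → List ℤ
  | 0, M => M
  | (i + 1), M => iterL p q i (firstL p q M)

section

variable {ι : Type} [Fintype ι] (g lam : ι → ℝ)

/-- `A` is the list of `∑ g λ^j f(λ)` -/
def IsMom (A : List ℤ) (f : ℝ → ℝ) : Prop :=
  ∀ j, j < A.length → ((A.getD j 0 : ℤ) : ℝ) = ∑ i, g i * (lam i ^ j * f (lam i))

theorem IsMom.tail {a : ℤ} {A : List ℤ} {f : ℝ → ℝ} (h : IsMom g lam (a :: A) f) :
    IsMom g lam A (fun x => x * f x) := by
  intro j hj
  have := h (j + 1) (by simpa using hj)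
  simp only [List.getD_cons_succ] at this
  rw [this]
  refine sum_congr rfl fun i _ => ?_
  ring

theorem IsMom.head {a : ℤ} {A : List ℤ} {f : ℝ → ℝ} (h : IsMom g lam (a :: A) f) :
    ((a : ℤ) : ℝ) = ∑ i, g i * f (lam i) := by
  have := h 0 (by simp)
  simpa using this

theorem IsMom.cons {a : ℤ} {A : List ℤ} {f : ℝ → ℝ} (h0 : ((a : ℤ) : ℝ) = ∑ i, g i * f (lam i))
    (h : IsMom g lam A (fun x => x * f x)) : IsMom g lam (a :: A) f := by
  intro j hj
  cases j with
  | zero => simpa using h0
  | succ j =>
    rw [List.getD_cons_succ, h j (by simpa using hj)]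
    refine sum_congr rfl fun i _ => ?_
    ring

theorem isMom_nextL (p q r2 : ℤ) (A : List ℤ) : ∀ (B : List ℤ) (f f' : ℝ → ℝ),
    IsMom g lam A f → IsMom g lam B f' →
    IsMom g lam (nextL p q r2 A B) (fun x => 2 * (p - q * x) * f x - r2 * f' x) := by
  induction A with
  | nil =>
    intro B f f' _ _ j hj
    simp [nextL] at hj
  | cons a0 A ih =>
    intro B f f' hA hB
    cases A with
    | nil =>
      intro j hj
      simp [nextL] at hj
    | cons a1 as =>
      cases B with
      | nil =>
        intro j hj
        simp [nextL] at hj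
      | cons b bs =>
        simp only [nextL]
        refine IsMom.cons g lam ?_ ?_
        · have h0 := hA.head
          have h1 := hA.tail.head
          have h2 := hB.head
          push_cast
          rw [h0, h1, h2]
          simp only [mul_sum, ← sum_sub_distrib]
          refine sum_congr rfl fun i _ => ?_
          ring
        · have := ih bs _ _ hA.tail hB.tail
          intro j hj
          rw [this j hj]
          refine sum_congr rfl fun i _ => ?_
          ring

theorem length_nextL (p q r2 : ℤ) (A : List ℤ) : ∀ B : List ℤ,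
    (nextL p q r2 A B).length = min (A.length - 1) B.length := by
  induction A with
  | nil => intro B; simp [nextL]
  | cons a0 A ih =>
    intro B
    cases A with
    | nil => simp [nextL]
    | cons a1 as =>
      cases B with
      | nil => simp [nextL]
      | cons b bs =>
        simp only [nextL, List.length_cons]
        rw [ih bs]
        simp only [List.length_cons]
        omega

theorem isMom_firstL (p q : ℤ) (A : List ℤ) : ∀ f : ℝ → ℝ, IsMom g lam A f →
    IsMom g lam (firstL p q A) (fun x => (p - q * x) * f x) := by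
  induction A with
  | nil =>
    intro f _ j hj
    simp [firstL] at hj
  | cons a0 A ih =>
    intro f hA
    cases A with
    | nil =>
      intro j hj
      simp [firstL] at hj
    | cons a1 as =>
      simp only [firstL]
      refine IsMom.cons g lam ?_ ?_
      · have h0 := hA.head
        have h1 := hA.tail.head
        push_cast
        rw [h0, h1]
        simp only [mul_sum, ← sum_sub_distrib]
        refine sum_congr rfl fun i _ => ?_
        ring
      · have := ih _ hA.tail
        intro j hj
        rw [this j hj]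
        refine sum_congr rfl fun i _ => ?_
        ring

theorem length_firstL (p q : ℤ) (A : List ℤ) : (firstL p q A).length = A.length - 1 := by
  induction A with
  | nil => simp [firstL]
  | cons a0 A ih =>
    cases A with
    | nil => simp [firstL]
    | cons a1 as =>
      simp only [firstL, List.length_cons]
      rw [ih]
      simp

theorem isMom_iterL (p q : ℤ) (n : ℕ) : ∀ (A : List ℤ) (f : ℝ → ℝ), IsMom g lam A f →
    IsMom g lam (iterL p q n A) (fun x => (p - q * x) ^ n * f x) := by
  induction n with
  | zero => intro A f h; simpa [iterL] using h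
  | succ n ih =>
    intro A f h
    have := ih _ _ (isMom_firstL g lam p q A f h)
    simp only [iterL]
    intro j hj
    rw [this j hj]
    refine sum_congr rfl fun i _ => ?_
    ring

theorem length_iterL (p q : ℤ) (n : ℕ) : ∀ A : List ℤ, (iterL p q n A).length = A.length - n := by
  induction n with
  | zero => intro A; simp [iterL]
  | succ n ih =>
    intro A
    simp only [iterL]
    rw [ih, length_firstL]
    omega

/-- `r^m T_m((p - q x) / r)` -/
noncomputable def RT (p q r : ℤ) (m : ℕ) (x : ℝ) : ℝ := (r : ℝ) ^ m * tch (((p : ℝ) - q * x) / r) m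

theorem RT_succ (p q r : ℤ) (hr : r ≠ 0) (m : ℕ) (x : ℝ) :
    RT p q r (m + 2) x = 2 * (p - q * x) * RT p q r (m + 1) x - ((r * r : ℤ) : ℝ) * RT p q r m x := by
  unfold RT
  have hr' : (r : ℝ) ≠ 0 := by exact_mod_cast hr
  simp only [tch]
  push_cast
  field_simp
  ring

theorem headsL_spec (p q r : ℤ) (hr : r ≠ 0) (n : ℕ) : ∀ (A B : List ℤ) (m : ℕ),
    IsMom g lam A (RT p q r (m + 1)) → IsMom g lam B (RT p q r m) → n ≤ A.length →
    n ≤ B.length → (headsL p q (r * r) n A B).length = n ∧
    ∀ k, k < n → (((headsL p q (r * r) n A B).getD k 0 : ℤ) : ℝ) =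
      ∑ i, g i * RT p q r (m + 1 + k) (lam i) := by
  induction n with
  | zero => intro A B m _ _ _ _; simp [headsL]
  | succ n ih =>
    intro A B m hA hB hnA hnB
    have h1 : IsMom g lam (nextL p q (r * r) A B) (RT p q r (m + 1 + 1)) := by
      have := isMom_nextL g lam p q (r * r) A B _ _ hA hB
      intro j hj
      rw [this j hj]
      refine sum_congr rfl fun i _ => ?_
      rw [show m + 1 + 1 = m + 2 from rfl, RT_succ p q r hr]
    have h2 := ih (nextL p q (r * r) A B) A (m + 1) h1 hA
      (by rw [length_nextL]; omega) (by omega)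
    simp only [headsL]
    refine ⟨by simp [h2.1], ?_⟩
    intro k hk
    cases k with
    | zero =>
      cases A with
      | nil => simp at hnA
      | cons a as =>
        have := hA.head
        simpa using this
    | succ k =>
      rw [List.getD_cons_succ, h2.2 k (by omega)]
      refine sum_congr rfl fun i _ => ?_
      rw [show m + 1 + 1 + k = m + 1 + (k + 1) by omega]

theorem chL_spec (p q r : ℤ) (hr : r ≠ 0) (n : ℕ) (M : List ℤ) (hM : IsMom g lam M (fun _ => 1))
    (hn : n < M.length) (k : ℕ) (hk : k ≤ n) :
    (((chL p q (r * r) n M).getD k 0 : ℤ) : ℝ) = ∑ i, g i * RT p q r k (lam i) := by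
  unfold chL
  have h0 : IsMom g lam M (RT p q r 0) := by
    intro j hj
    rw [hM j hj]
    simp [RT, tch]
  have h1 : IsMom g lam (firstL p q M) (RT p q r (0 + 1)) := by
    intro j hj
    rw [isMom_firstL g lam p q M _ hM j hj]
    refine sum_congr rfl fun i _ => ?_
    have hr' : (r : ℝ) ≠ 0 := by exact_mod_cast hr
    simp only [RT, tch, zero_add, pow_one]
    field_simp
  cases k with
  | zero =>
    cases M with
    | nil => simp at hn
    | cons a as =>
      have := h0.head
      simpa using this
  | succ k =>
    have h2 := headsL_spec g lam p q r hr n (firstL p q M) M 0 h1 h0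
      (by rw [length_firstL]; omega) (by omega)
    rw [List.getD_cons_succ, h2.2 k (by omega)]
    refine sum_congr rfl fun i _ => ?_
    rw [show 0 + 1 + k = k + 1 by omega]

/-- spectral interval from a high even moment -/
theorem lam_interval (p q r : ℤ) (hr : 0 < r) (n : ℕ) (hn : 0 < n) (M : List ℤ)
    (hM : IsMom (fun _ => 1) lam M (fun _ => 1)) (hl : 2 * n < M.length)
    (h : (iterL p q (2 * n) M).headD 0 ≤ r ^ (2 * n)) (i : ι) :
    |((p : ℝ) - q * lam i) / r| ≤ 1 := by
  have h1 := isMom_iterL (fun _ => 1) lam p q (2 * n) M _ hM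
  have h2 := length_iterL p q (2 * n) M
  cases hI : iterL p q (2 * n) M with
  | nil =>
    rw [hI] at h2
    simp at h2
    omega
  | cons a as =>
    rw [hI] at h1 h
    have h3 := h1.head
    simp only [List.headD_cons] at h
    have h4 : (a : ℝ) ≤ (r : ℝ) ^ (2 * n) := by exact_mod_cast h
    rw [h3] at h4
    have h5 : ((p : ℝ) - q * lam i) ^ (2 * n) ≤ (r : ℝ) ^ (2 * n) := by
      refine le_trans ?_ h4
      have := single_le_sum (f := fun j => (1 : ℝ) * (((p : ℝ) - q * lam j) ^ (2 * n) * 1))
        (fun j _ => by
          rw [one_mul, mul_one, pow_mul]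
          positivity) (mem_univ i)
      simpa using this
    have hr' : (0 : ℝ) < r := by exact_mod_cast hr
    rw [abs_div, abs_of_pos hr', div_le_one hr']
    have h6 : |(p : ℝ) - q * lam i| ^ (2 * n) ≤ (r : ℝ) ^ (2 * n) := by
      rwa [pow_mul, sq_abs, ← pow_mul]
    exact (pow_le_pow_iff_left₀ (abs_nonneg _) hr'.le (by omega)).1 h6

end

/-- `∑ d_m t_m r^{n-m}` by Horner's rule -/
def dotL (r : ℤ) : ℤ → List ℤ → List ℤ → ℤ
  | acc, d :: ds, t :: ts => dotL r (acc * r + d * t) ds ts
  | acc, _, _ => acc

theorem dotL_spec (r : ℤ) (ds : List ℤ) : ∀ (acc : ℤ) (ts : List ℤ), ds.length ≤ ts.length →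
    dotL r acc ds ts = acc * r ^ ds.length +
      ∑ m ∈ range ds.length, ds.getD m 0 * ts.getD m 0 * r ^ (ds.length - 1 - m) := by
  induction ds with
  | nil => intro acc ts _; cases ts <;> simp [dotL]
  | cons d ds ih =>
    intro acc ts h
    cases ts with
    | nil => simp at h
    | cons t ts =>
      simp only [dotL, List.length_cons]
      rw [ih _ ts (by simpa using h), sum_range_succ']
      simp only [List.getD_cons_succ, List.getD_cons_zero]
      have h1 : ∀ m ∈ range ds.length,
          ds.getD m 0 * ts.getD m 0 * r ^ (ds.length + 1 - 1 - (m + 1)) =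
          ds.getD m 0 * ts.getD m 0 * r ^ (ds.length - 1 - m) := by
        intro m hm
        congr 2
        omega
      rw [sum_congr rfl h1]
      have h2 : ds.length + 1 - 1 - 0 = ds.length := by omega
      rw [h2, pow_succ]
      ring

end P348
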