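import Mathlib.Algebra.Ring.IsFormallyReal
import Mathlib.Data.Int.Star
import Mathlib.Data.List.GetD
import Vale.Agent.Lib.P348.PMom

/-!
# P348 module PAsm: assembly of the numerical bounds of the partition functions
-/

namespace P348

open Finset

/-- spectral data of a channel: eigenvalues, weights, Chebyshev moments -/
structure Chan (N : ℕ) [NeZero N] (W R : Matrix (Fin 3) (Fin 3) ℝ) (p q r : ℤ) (n : ℕ)
    (tl : List ℤ) : Prop where
  len : tl.length = n + 1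
  spec : ∃ lam g : Cfg N → ℝ, (∀ i, |g i| ≤ 1) ∧ (∀ i, |((p : ℝ) - q * lam i) / r| ≤ 1) ∧
    (∀ k, k ≤ n → ((tl.getD k 0 : ℤ) : ℝ) = ∑ i, g i * RT p q r k (lam i)) ∧
    ∀ β : ℝ, ZZ N W R β = ∑ i, g i * Real.exp (-(β * lam i))

theorem chan_of_moments (N : ℕ) [NeZero N] (W R : Matrix (Fin 3) (Fin 3) ℝ) (hW : W * W.transpose = 1)
    (M1 M : List ℤ)
    (h1 : ∀ k, k < M1.length → (glob N 1 * (HR N R) ^ k).trace = ((M1.getD k 0 : ℤ) : ℝ))
    (hM : ∀ k, k < M.length → (glob N W * (HR N R) ^ k).trace = ((M.getD k 0 : ℤ) : ℝ))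
    (p q r : ℤ) (hr : 0 < r) (m : ℕ) (hm : 0 < m) (hl : 2 * m < M1.length)
    (hint : (iterL p q (2 * m) M1).headD 0 ≤ r ^ (2 * m))
    (n : ℕ) (hn : n < M.length) (tl : List ℤ) (htl : chL p q (r * r) n M = tl) :
    Chan N W R p q r n tl := by
  obtain ⟨lam, g, hg, hk, hk1, he⟩ := spec_matrix (HR N R) (glob N W) (HR_isHermitian N R)
    (glob_orth N W hW)
  have hM1 : IsMom (fun _ => 1) lam M1 (fun _ => 1) := by
    intro j hj
    rw [← h1 j hj, glob_oneP, Matrix.one_mul, hk1]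
    refine sum_congr rfl fun i _ => ?_
    ring
  have hMM : IsMom g lam M (fun _ => 1) := by
    intro j hj
    rw [← hM j hj, hk]
    refine sum_congr rfl fun i _ => ?_
    ring
  have h2 := chL_spec g lam p q r hr.ne' n M hMM hn
  refine ⟨?_, lam, g, hg, lam_interval lam p q r hr m hm M1 hM1 hl hint, ?_, he⟩
  · rw [← htl]
    unfold chL
    have h0 : IsMom g lam M (RT p q r 0) := by
      intro j hj
      rw [hMM j hj]
      simp [RT, tch]
    have h3 : IsMom g lam (firstL p q M) (RT p q r (0 + 1)) := by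
      intro j hj
      rw [isMom_firstL g lam p q M _ hMM j hj]
      refine sum_congr rfl fun i _ => ?_
      have hr' : (r : ℝ) ≠ 0 := by exact_mod_cast hr.ne'
      simp only [RT, tch, zero_add, pow_one]
      field_simp
    have h4 := (headsL_spec g lam p q r hr.ne' n (firstL p q M) M 0 h3 h0
      (by rw [length_firstL]; omega) (by omega)).1
    rw [List.length_cons, h4]
  · intro k hk
    rw [← htl]
    exact h2 k hk

/-- a certified approximation of `exp (-β λ - s)` -/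
def ExpCert (p q r : ℤ) (n : ℕ) (dl : List ℤ) (S : ℕ) (β s ε : ℝ) : Prop :=
  dl.length = n + 1 ∧ ∀ lam : ℝ, |((p : ℝ) - q * lam) / r| ≤ 1 →
    |Real.exp (-(β * lam) - s) -
      chebS (fun m => ((dl.getD m 0 : ℤ) : ℝ)) n (((p : ℝ) - q * lam) / r) / S| ≤ ε

theorem expCert_of (p q r : ℤ) (hr : 0 < r) (hq : 0 < q) (n : ℕ) (dl el : List ℤ) (S a1 a2 B : ℕ)
    (hS : 0 < S) (ha1 : 0 < a1) (ha2 : 0 < a2)
    (hdl : dl.length = n + 1) (hel : el.length = n + 1)
    (hrec : ∀ k, k ≤ n → el.getD k 0 = el.getD (k + 2) 0 + 2 * (k + 1) * dl.getD (k + 1) 0)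
    (hB : ∑ k ∈ range (n + 1), |(a2 : ℤ) * el.getD k 0 - a1 * dl.getD k 0| ≤ B)
    (β s δ ε : ℝ) (ha : (a1 / a2 : ℝ) = β * r / q)
    (h1 : |Real.exp (β * (r - p) / q - s) -
      (∑ m ∈ range (n + 1), ((dl.getD m 0 : ℤ) : ℝ) - ((dl.getD 0 0 : ℤ) : ℝ) / 2) / S| ≤ δ)
    (hε : δ + B / (a1 * S) ≤ ε) : ExpCert p q r n dl S β s ε := by
  refine ⟨hdl, fun lam hlam => ?_⟩
  have h2 := cheb_cert (fun k => dl.getD k 0) (fun k => el.getD k 0) n S a1 a2 B hS ha1 ha2
    (fun k hk => List.getD_eq_default _ _ (by omega))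
    (fun k hk => List.getD_eq_default _ _ (by omega)) hrec hB
    (Real.exp (β * (r - p) / q - s)) δ h1 _ hlam
  refine le_trans (le_of_eq ?_) (h2.trans hε)
  have hr' : (r : ℝ) ≠ 0 := by exact_mod_cast hr.ne'
  have hq' : (q : ℝ) ≠ 0 := by exact_mod_cast hq.ne'
  rw [← Real.exp_add, ha]
  congr 3
  field_simp
  ring

/-- sum of a list -/
def sumL : ℤ → List ℤ → ℤ
  | acc, [] => acc
  | acc, d :: ds => sumL (acc + d) ds

theorem sumL_spec (ds : List ℤ) : ∀ acc : ℤ, sumL acc ds = acc + ∑ m ∈ range ds.length, ds.getD m 0 := by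
  induction ds with
  | nil => intro acc; simp [sumL]
  | cons d ds ih =>
    intro acc
    simp only [sumL, List.length_cons]
    rw [ih, sum_range_succ']
    simp only [List.getD_cons_succ, List.getD_cons_zero]
    ring

/-- list check of the recursion for the derivative -/
def recL : ℕ → List ℤ → List ℤ → Bool
  | _, [], [] => true
  | k, _ :: ds, e :: es => (e == es.getD 1 0 + 2 * ((k : ℤ) + 1) * ds.headD 0) && recL (k + 1) ds es
  | _, _, _ => false

theorem recL_spec (dl : List ℤ) : ∀ (k0 : ℕ) (el : List ℤ), recL k0 dl el = true →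
    dl.length = el.length ∧ ∀ k, k < dl.length →
      el.getD k 0 = el.getD (k + 2) 0 + 2 * (((k0 + k : ℕ) : ℤ) + 1) * dl.getD (k + 1) 0 := by
  induction dl with
  | nil =>
    intro k0 el h
    cases el with
    | nil => simp
    | cons e es => simp [recL] at h
  | cons d ds ih =>
    intro k0 el h
    cases el with
    | nil => simp [recL] at h
    | cons e es =>
      simp only [recL, Bool.and_eq_true, beq_iff_eq] at h
      obtain ⟨h1, h2⟩ := h
      obtain ⟨h3, h4⟩ := ih (k0 + 1) es h2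
      refine ⟨by simp [h3], ?_⟩
      intro k hk
      cases k with
      | zero =>
        simp only [List.getD_cons_zero, zero_add, List.getD_cons_succ, add_zero]
        rw [h1]
        congr 2
        cases ds <;> simp
      | succ k =>
        simp only [List.getD_cons_succ]
        rw [h4 k (by simpa using hk)]
        congr 3
        push_cast
        ring

/-- sum of the absolute residuals -/
def resL (a1 a2 : ℤ) : ℕ → List ℤ → List ℤ → ℕ
  | acc, d :: ds, e :: es => resL a1 a2 (acc + (a2 * e - a1 * d).natAbs) ds es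
  | acc, _, _ => acc

theorem resL_spec (a1 a2 : ℤ) (dl : List ℤ) : ∀ (acc : ℕ) (el : List ℤ), dl.length = el.length →
    (resL a1 a2 acc dl el : ℤ) = acc +
      ∑ k ∈ range dl.length, |a2 * el.getD k 0 - a1 * dl.getD k 0| := by
  induction dl with
  | nil =>
    intro acc el h
    cases el <;> simp [resL]
  | cons d ds ih =>
    intro acc el h
    cases el with
    | nil => simp at h
    | cons e es =>
      simp only [resL, List.length_cons]
      rw [ih _ es (by simpa using h), sum_range_succ']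
      simp only [List.getD_cons_succ, List.getD_cons_zero]
      push_cast
      ring

/-- bounds of the exponential through the eighth power -/
theorem exp_eighth (z lo hi : ℝ) (hz0 : 0 ≤ z) (hz1 : z ≤ 1) (hlo0 : 0 ≤ lo)
    (hlo : lo ≤ ∑ i ∈ range 20, z ^ i / (i.factorial : ℝ))
    (hhi : ∑ i ∈ range 20, z ^ i / (i.factorial : ℝ) + z ^ 20 * (21 / ((Nat.factorial 20 : ℕ) * 20)) ≤ hi) :
    lo ^ 8 ≤ Real.exp (8 * z) ∧ Real.exp (8 * z) ≤ hi ^ 8 := by
  have h1 := Real.sum_le_exp_of_nonneg hz0 20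
  have h2 := Real.exp_bound (x := z) (by rw [abs_of_nonneg hz0]; exact hz1) (n := 20) (by norm_num)
  rw [abs_of_nonneg hz0] at h2
  have h3 := (abs_le.1 h2).2
  have h4 : Real.exp (8 * z) = Real.exp z ^ 8 := by
    rw [← Real.exp_nat_mul]
    norm_num
  rw [h4]
  refine ⟨pow_le_pow_left₀ hlo0 (hlo.trans h1) 8, pow_le_pow_left₀ (Real.exp_pos z).le ?_ 8⟩
  refine le_trans ?_ hhi
  norm_num at h3 ⊢
  linarith

/-- integer form of the certificate -/
theorem expCert_int (p q r : ℤ) (hr : 0 < r) (hq : 0 < q) (n : ℕ) (dl el : List ℤ) (S a1 a2 B : ℕ)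
    (hS : 0 < S) (ha1 : 0 < a1) (ha2 : 0 < a2)
    (hdl : dl.length = n + 1)
    (hrec : recL 0 dl el = true)
    (hB : resL a1 a2 0 dl el = B)
    (β s z lo hi sm δ ε : ℝ) (ha : (a1 / a2 : ℝ) = β * r / q)
    (hz : β * (r - p) / q - s = 8 * z) (hz0 : 0 ≤ z) (hz1 : z ≤ 1) (hlo0 : 0 ≤ lo)
    (hlo : lo ≤ ∑ i ∈ range 20, z ^ i / (i.factorial : ℝ))
    (hhi : ∑ i ∈ range 20, z ^ i / (i.factorial : ℝ) + z ^ 20 * (21 / ((Nat.factorial 20 : ℕ) * 20)) ≤ hi)
    (hsm : sm = ((2 * sumL 0 dl - dl.getD 0 0 : ℤ) : ℝ) / (2 * S))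
    (hd1 : sm - δ ≤ lo ^ 8) (hd2 : hi ^ 8 ≤ sm + δ)
    (hε : δ + B / (a1 * S) ≤ ε) : ExpCert p q r n dl S β s ε := by
  obtain ⟨hlen, hrec'⟩ := recL_spec dl 0 el hrec
  refine expCert_of p q r hr hq n dl el S a1 a2 B hS ha1 ha2 hdl (by omega) ?_ ?_ β s δ ε ha ?_ hε
  · intro k hk
    have := hrec' k (by omega)
    simpa using this
  · rw [← hdl]
    have := resL_spec a1 a2 dl 0 el hlen
    rw [hB] at this
    push_cast at this
    rw [this]
    simp
  · obtain ⟨h1, h2⟩ := exp_eighth z lo hi hz0 hz1 hlo0 hlo hhi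
    rw [hz]
    have h3 : (∑ m ∈ range (n + 1), ((dl.getD m 0 : ℤ) : ℝ) - ((dl.getD 0 0 : ℤ) : ℝ) / 2) / S = sm := by
      rw [hsm, sumL_spec, hdl]
      push_cast
      have hS' : (S : ℝ) ≠ 0 := by exact_mod_cast hS.ne'
      field_simp
      ring
    rw [h3, abs_le]
    constructor <;> linarith

/-- the value of a twisted partition function -/
theorem zz_value (N : ℕ) [NeZero N] (W R : Matrix (Fin 3) (Fin 3) ℝ) (p q r : ℤ) (hr : 0 < r)
    (n0 n : ℕ) (hn0 : n ≤ n0)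
    (tl dl : List ℤ) (S : ℕ) (hS : 0 < S) (β s ε : ℝ) (hC : Chan N W R p q r n0 tl)
    (hE : ExpCert p q r n dl S β s ε) (Q η : ℝ) (v : ℤ) (hv : dotL r 0 dl tl = v)
    (hQ : |((2 * v - dl.getD 0 0 * tl.getD 0 0 * r ^ n : ℤ) : ℝ) / (2 * S * (r : ℝ) ^ n) - Q| ≤ η) :
    |ZZ N W R β * Real.exp (-s) - Q| ≤ 3 ^ (2 * N) * ε + η := by
  obtain ⟨hlen, lam, g, hg, hx, ht, hZ⟩ := hC
  obtain ⟨hdl, hE⟩ := hE
  have hr' : (r : ℝ) ≠ 0 := by exact_mod_cast hr.ne'
  have hS' : (S : ℝ) ≠ 0 := by exact_mod_cast hS.ne'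
  obtain ⟨P, hP⟩ : ∃ P : ℝ → ℝ, P = fun l =>
      chebS (fun m => ((dl.getD m 0 : ℤ) : ℝ)) n (((p : ℝ) - q * l) / r) / S := ⟨_, rfl⟩
  have h1 : ZZ N W R β * Real.exp (-s) = ∑ i, g i * Real.exp (-(β * lam i) - s) := by
    rw [hZ, sum_mul]
    refine sum_congr rfl fun i _ => ?_
    rw [mul_assoc, ← Real.exp_add, ← sub_eq_add_neg]
  have h2 : |∑ i, g i * Real.exp (-(β * lam i) - s) - ∑ i, g i * P (lam i)| ≤ 3 ^ (2 * N) * ε := by
    rw [← sum_sub_distrib]
    refine (abs_sum_le_sum_abs _ _).trans ?_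
    have h3 : ∀ i ∈ (univ : Finset (Cfg N)),
        |g i * Real.exp (-(β * lam i) - s) - g i * P (lam i)| ≤ ε := by
      intro i _
      rw [← mul_sub, abs_mul]
      have h4 := hE (lam i) (hx i)
      calc |g i| * |Real.exp (-(β * lam i) - s) - P (lam i)|
          ≤ 1 * |Real.exp (-(β * lam i) - s) - P (lam i)| :=
            mul_le_mul_of_nonneg_right (hg i) (abs_nonneg _)
        _ ≤ ε := by
            rw [one_mul, hP]
            exact h4
    refine (sum_le_card_nsmul _ _ _ h3).trans ?_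
    rw [card_univ, card_Cfg, nsmul_eq_mul]
    push_cast
    rfl
  have h5 : ∑ i, g i * P (lam i) =
      ((2 * v - dl.getD 0 0 * tl.getD 0 0 * r ^ n : ℤ) : ℝ) / (2 * S * (r : ℝ) ^ n) := by
    have h6 : ∀ k, k ≤ n → ((tl.getD k 0 : ℤ) : ℝ) * (r : ℝ) ^ (n - k) =
        (r : ℝ) ^ n * ∑ i, g i * tch (((p : ℝ) - q * lam i) / r) k := by
      intro k hk
      rw [ht k (hk.trans hn0)]
      unfold RT
      rw [sum_mul, mul_sum]
      refine sum_congr rfl fun i _ => ?_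
      have : (r : ℝ) ^ n = r ^ k * r ^ (n - k) := by rw [← pow_add]; congr 1; omega
      rw [this]
      ring
    have h7 : ((v : ℤ) : ℝ) = ∑ k ∈ range (n + 1), ((dl.getD k 0 : ℤ) : ℝ) *
        ((r : ℝ) ^ n * ∑ i, g i * tch (((p : ℝ) - q * lam i) / r) k) := by
      rw [← hv, dotL_spec r dl 0 tl (by omega), hdl]
      push_cast
      rw [zero_mul, zero_add]
      refine sum_congr rfl fun k hk => ?_
      have hk' : k ≤ n := by have := mem_range.1 hk; omega
      rw [← h6 k hk', mul_assoc]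
    have h8 : ((tl.getD 0 0 : ℤ) : ℝ) = ∑ i, g i := by
      rw [ht 0 (by omega)]
      refine sum_congr rfl fun i _ => ?_
      simp [RT, tch]
    push_cast
    rw [h7, h8, hP]
    unfold chebS
    simp only [mul_div_assoc', ← sum_div, mul_sub, sum_sub_distrib]
    have h9 : ∑ i, g i * ∑ m ∈ range (n + 1), ((dl.getD m 0 : ℤ) : ℝ) *
        tch (((p : ℝ) - q * lam i) / r) m = ∑ k ∈ range (n + 1), ((dl.getD k 0 : ℤ) : ℝ) *
        ∑ i, g i * tch (((p : ℝ) - q * lam i) / r) k := by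
      simp only [mul_sum]
      rw [sum_comm]
      refine sum_congr rfl fun k _ => sum_congr rfl fun i _ => ?_
      ring
    rw [h9]
    have h10 : ∑ k ∈ range (n + 1), ((dl.getD k 0 : ℤ) : ℝ) *
        ((r : ℝ) ^ n * ∑ i, g i * tch (((p : ℝ) - q * lam i) / r) k) =
        (r : ℝ) ^ n * ∑ k ∈ range (n + 1), ((dl.getD k 0 : ℤ) : ℝ) *
        ∑ i, g i * tch (((p : ℝ) - q * lam i) / r) k := by
      rw [mul_sum]
      refine sum_congr rfl fun k _ => ?_
      ring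
    rw [h10]
    have hrn : (r : ℝ) ^ n ≠ 0 := pow_ne_zero _ hr'
    rw [← sum_mul]
    field_simp
  rw [h1]
  rw [h5] at h2
  have h11 := abs_sub_le (∑ i, g i * Real.exp (-(β * lam i) - s))
    (((2 * v - dl.getD 0 0 * tl.getD 0 0 * r ^ n : ℤ) : ℝ) / (2 * S * (r : ℝ) ^ n)) Q
  linarith

/-- moments of a channel -/
def MomOK (N : ℕ) [NeZero N] (W R : Matrix (Fin 3) (Fin 3) ℝ) (M : List ℤ) : Prop :=
  ∀ k, k < M.length → (glob N W * (HR N R) ^ k).trace = ((M.getD k 0 : ℤ) : ℝ)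

/-- integer check: the value is within `10⁻⁹` of `Q / 10⁹` -/
def valOK (r : ℤ) (n S : ℕ) (dl tl : List ℤ) (Q : ℤ) : Bool :=
  decide (((10 : ℤ) ^ 9 * (2 * dotL r 0 dl tl - dl.getD 0 0 * tl.getD 0 0 * r ^ n) -
    Q * (2 * S * r ^ n)).natAbs ≤ (2 * S * r ^ n).natAbs)

theorem zz_bound (N : ℕ) [NeZero N] (W R : Matrix (Fin 3) (Fin 3) ℝ) (p q r : ℤ) (hr : 0 < r)
    (n0 n : ℕ) (hn0 : n ≤ n0)
    (tl dl : List ℤ) (S : ℕ) (hS : 0 < S) (β s ε : ℝ) (hC : Chan N W R p q r n0 tl)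
    (hE : ExpCert p q r n dl S β s ε) (Q : ℤ) (hv : valOK r n S dl tl Q = true) (τ : ℝ)
    (hτ : 3 ^ (2 * N) * ε + 1 / 10 ^ 9 ≤ τ) :
    |ZZ N W R β * Real.exp (-s) - (Q : ℝ) / 10 ^ 9| ≤ τ := by
  refine (zz_value N W R p q r hr n0 n hn0 tl dl S hS β s ε hC hE ((Q : ℝ) / 10 ^ 9) (1 / 10 ^ 9)
    (dotL r 0 dl tl) rfl ?_).trans hτ
  unfold valOK at hv
  have h1 := of_decide_eq_true hv
  have hr' : (0 : ℝ) < r := by exact_mod_cast hr
  have hS' : (0 : ℝ) < S := by exact_mod_cast hS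
  have hpos : (0 : ℝ) < 2 * S * (r : ℝ) ^ n := by positivity
  generalize 2 * dotL r 0 dl tl - dl.getD 0 0 * tl.getD 0 0 * r ^ n = X at h1 ⊢
  have h2 : |((10 : ℝ) ^ 9 * X - Q * (2 * S * (r : ℝ) ^ n))| ≤ 2 * S * (r : ℝ) ^ n := by
    have h3 : (((((10 : ℤ) ^ 9 * X - Q * (2 * S * r ^ n)).natAbs : ℕ) : ℤ) : ℝ) ≤
        ((((2 * S * r ^ n : ℤ).natAbs : ℕ) : ℤ) : ℝ) := by exact_mod_cast h1
    rw [Int.natCast_natAbs, Int.natCast_natAbs] at h3
    push_cast at h3
    rw [abs_of_pos hpos] at h3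
    norm_num at h3 ⊢
    exact h3
  have h4 : ((X : ℤ) : ℝ) / (2 * S * (r : ℝ) ^ n) - (Q : ℝ) / 10 ^ 9 =
      ((10 : ℝ) ^ 9 * X - Q * (2 * S * (r : ℝ) ^ n)) / (10 ^ 9 * (2 * S * (r : ℝ) ^ n)) := by
    field_simp
  rw [h4, abs_div, abs_of_pos (by positivity : (0 : ℝ) < 10 ^ 9 * (2 * S * (r : ℝ) ^ n)),
    div_le_div_iff₀ (by positivity) (by positivity)]
  nlinarith

theorem rz_orth : rz * rz.transpose = 1 := by
  ext i j
  fin_cases i <;> fin_cases j <;> simp [rz, Matrix.mul_apply, Fin.sum_univ_three]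

theorem rx_orth : rx * rx.transpose = 1 := by
  ext i j
  fin_cases i <;> fin_cases j <;> simp [rx, Matrix.mul_apply, Fin.sum_univ_three]

theorem one_orth : (1 : Matrix (Fin 3) (Fin 3) ℝ) * (1 : Matrix (Fin 3) (Fin 3) ℝ).transpose = 1 := by
  simp

end P348
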