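import Vale.Agent.Lib.P348.KDefs
import Vale.Agent.Lib.P348.PAsm

/-!
# P348 module KShift: from the moments of the shifted Hamiltonian to the moments of the Hamiltonian

With `L^(j)_i = tr (W H^j (H + a)^i)`: `L^(j+1)_i = L^(j)_(i+1) - a L^(j)_i`.
-/

namespace P348

open Matrix

/-- moments of the shifted Hamiltonian -/
def MomHS (N : ℕ) [NeZero N] (W R : Matrix (Fin 3) (Fin 3) ℝ) (S : List ℤ) : Prop :=
  ∀ k, k < S.length → (glob N W * HS N R ^ k).trace = ((S.getD k 0 : ℤ) : ℝ)

/-- one step of the difference scheme -/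
def stepS (a : ℤ) : List ℤ → List ℤ
  | [] => []
  | [_] => []
  | x :: y :: l => (y - a * x) :: stepS a (y :: l)

/-- the difference scheme -/
def unshift (a : ℤ) : ℕ → List ℤ → List ℤ
  | 0, _ => []
  | n + 1, L => L.getD 0 0 :: unshift a n (stepS a L)

theorem stepS_length (a : ℤ) : ∀ L : List ℤ, (stepS a L).length = L.length - 1
  | [] => rfl
  | [_] => rfl
  | x :: y :: l => by
    have h := stepS_length a (y :: l)
    simp only [stepS, List.length_cons] at h ⊢
    omega

theorem stepS_getD (a : ℤ) : ∀ (L : List ℤ) (i : ℕ), i + 1 < L.length →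
    (stepS a L).getD i 0 = L.getD (i + 1) 0 - a * L.getD i 0
  | [], i, h => by simp at h
  | [_], i, h => by simp at h
  | x :: y :: l, 0, _ => by simp [stepS]
  | x :: y :: l, i + 1, h => by
    have h1 := stepS_getD a (y :: l) i (by simp only [List.length_cons] at h ⊢; omega)
    simp only [stepS, List.getD_cons_succ] at h1 ⊢
    exact h1

theorem unshift_length (a : ℤ) : ∀ (n : ℕ) (L : List ℤ), (unshift a n L).length = n
  | 0, _ => rfl
  | n + 1, L => by
    simp only [unshift, List.length_cons, unshift_length a n]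

theorem unshift_spec {ι : Type} [Fintype ι] [DecidableEq ι] (W H : Matrix ι ι ℝ) (a : ℤ) :
    ∀ (n j : ℕ) (L : List ℤ), n ≤ L.length →
      (∀ i, i < L.length → (W * H ^ j * (H + (a : ℝ) • (1 : Matrix ι ι ℝ)) ^ i).trace =
        ((L.getD i 0 : ℤ) : ℝ)) →
      ∀ k, k < n → (W * H ^ (j + k)).trace = (((unshift a n L).getD k 0 : ℤ) : ℝ)
  | 0, _, _, _, _, k, hk => by omega
  | n + 1, j, L, hL, h, k, hk => by
    rcases k with _ | k
    · have h0 := h 0 (by omega)
      simpa [unshift] using h0
    · have h1 := unshift_spec W H a n (j + 1) (stepS a L) (by rw [stepS_length]; omega)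
        (fun i hi => by
          rw [stepS_length] at hi
          rw [stepS_getD a L i (by omega)]
          have e1 := h (i + 1) (by omega)
          have e2 := h i (by omega)
          have e3 : W * H ^ (j + 1) * (H + (a : ℝ) • (1 : Matrix ι ι ℝ)) ^ i =
              W * H ^ j * (H + (a : ℝ) • (1 : Matrix ι ι ℝ)) ^ (i + 1) -
                (a : ℝ) • (W * H ^ j * (H + (a : ℝ) • (1 : Matrix ι ι ℝ)) ^ i) := by
            rw [pow_succ H j, pow_succ' (H + (a : ℝ) • (1 : Matrix ι ι ℝ)) i]
            simp only [Matrix.add_mul, Matrix.mul_add, Matrix.smul_mul, Matrix.mul_smul,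
              Matrix.one_mul, Matrix.mul_assoc]
            abel
          rw [e3, Matrix.trace_sub, Matrix.trace_smul, e1, e2]
          push_cast
          simp) k (by omega)
      simp only [unshift, List.getD_cons_succ]
      rw [← h1]
      congr 3
      omega

/-- the moments of the Hamiltonian from the moments of the shifted Hamiltonian -/
theorem momOK_of_shift (N : ℕ) [NeZero N] (W R : Matrix (Fin 3) (Fin 3) ℝ) (S M : List ℤ)
    (hS : MomHS N W R S) (hl : M.length ≤ S.length)
    (hM : unshift (2 * N) M.length S = M) : MomOK N W R M := by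
  intro k hk
  have h := unshift_spec (glob N W) (HR N R) (2 * N) M.length 0 S hl (fun i hi => by
    have h1 := hS i hi
    unfold HS at h1
    rw [pow_zero, Matrix.mul_one]
    push_cast
    exact h1) k hk
  rw [hM, Nat.zero_add] at h
  exact h

end P348
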