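import Vale.Agent.Lib.P348.KG
import Vale.Agent.Lib.P348.KA
import Vale.Agent.Lib.P348.KShift

/-!
# P348 (K), module KF: from the path counts of groups of configurations to the moments (generic part)
-/

namespace P348

open Matrix

/-! ### rows and tables of numbers -/

/-- sum of two rows -/
def add2 : List ℕ → List ℕ → List ℕ
  | [], b => b
  | x :: a, [] => x :: a
  | x :: a, y :: b => (x + y) :: add2 a b

theorem add2_getD : ∀ (a b : List ℕ) (i : ℕ), (add2 a b).getD i 0 = a.getD i 0 + b.getD i 0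
  | [], b, i => by simp [add2]
  | x :: a, [], i => by simp [add2]
  | x :: a, y :: b, 0 => by simp [add2]
  | x :: a, y :: b, i + 1 => by
    have h := add2_getD a b i
    simpa [add2] using h

/-- sum of two tables -/
def addT (A B : List (List ℕ)) : List (List ℕ) := List.zipWith add2 A B

theorem addT_getD (A B : List (List ℕ)) (k : ℕ) (hA : k < A.length) (hB : k < B.length) :
    (addT A B).getD k [] = add2 (A.getD k []) (B.getD k []) := by
  unfold addT
  have h : k < (List.zipWith add2 A B).length := by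
    rw [List.length_zipWith]
    exact lt_min hA hB
  rw [List.getD_eq_getElem _ _ h, List.getD_eq_getElem _ _ hA, List.getD_eq_getElem _ _ hB]
  exact List.getElem_zipWith

theorem addT_length {A B : List (List ℕ)} {k : ℕ} (h : k < (addT A B).length) :
    k < A.length ∧ k < B.length := by
  unfold addT at h
  rw [List.length_zipWith] at h
  exact lt_min_iff.1 h

section groups

variable {N : ℕ} [NeZero N] {C : ℕ}

theorem GrpOK.append {l1 l2 : List (ℕ × ℕ)} {o1 o2 : List (List ℕ)} (h1 : GrpOK N C l1 o1)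
    (h2 : GrpOK N C l2 o2) : GrpOK N C (l1 ++ l2) (addT o1 o2) := by
  intro k hk c hc
  obtain ⟨hk1, hk2⟩ := addT_length hk
  rw [List.map_append, List.sum_append, h1 k hk1 c hc, h2 k hk2 c hc, addT_getD _ _ _ hk1 hk2,
    add2_getD]

theorem GrpFlip.append {l1 l2 : List (ℕ × ℕ)} {o1 o2 : List (List ℕ)} (h1 : GrpFlip N C l1 o1)
    (h2 : GrpFlip N C l2 o2) : GrpFlip N C (l1 ++ l2) (addT o1 o2) := by
  intro k hk c hc
  obtain ⟨hk1, hk2⟩ := addT_length hk
  rw [List.map_append, List.sum_append, h1 k hk1 c hc, h2 k hk2 c hc, addT_getD _ _ _ hk1 hk2,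
    add2_getD]

end groups

/-- integer combination of the entries of a row -/
def comb : List ℤ → List ℕ → ℤ
  | x :: a, y :: b => x * y + comb a b
  | _, _ => 0

theorem comb_eq : ∀ (a : List ℤ) (row : List ℕ),
    comb a row = ∑ c ∈ Finset.range a.length, a.getD c 0 * (row.getD c 0 : ℕ)
  | [], row => by simp [comb]
  | x :: a, [] => by simp [comb]
  | x :: a, y :: b => by
    rw [comb, comb_eq a b, List.length_cons, Finset.sum_range_succ']
    simp [add_comm]

/-- weighted sum over a group -/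
theorem group_sum (C : ℕ) (a : List ℤ) (ha : a.length = C) (cols : List (ℕ × ℕ)) (row : List ℕ)
    (cn : ℕ → ℕ → ℕ) (h : ∀ c < C, (cols.map fun r => r.2 * cn r.1 c).sum = row.getD c 0)
    (w : ℕ → ℝ) (d : ℝ) (hw : ∀ c < C, d * w c = ((a.getD c 0 : ℤ) : ℝ)) :
    d * (cols.map fun r => (r.2 : ℝ) * ∑ c ∈ Finset.range C, w c * (cn r.1 c : ℝ)).sum
      = ((comb a row : ℤ) : ℝ) := by
  have h1 : (cols.map fun r => (r.2 : ℝ) * ∑ c ∈ Finset.range C, w c * (cn r.1 c : ℝ)).sum =
      ∑ c ∈ Finset.range C, w c * (((cols.map fun r => r.2 * cn r.1 c).sum : ℕ) : ℝ) := by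
    clear h
    induction cols with
    | nil => simp
    | cons r l ih =>
      simp only [List.map_cons, List.sum_cons]
      rw [ih, Finset.mul_sum, ← Finset.sum_add_distrib]
      refine Finset.sum_congr rfl fun c _ => ?_
      push_cast
      ring
  rw [h1, comb_eq, ha, Finset.mul_sum, Int.cast_sum]
  refine Finset.sum_congr rfl fun c hc => ?_
  have hc' := Finset.mem_range.1 hc
  rw [h c hc', ← mul_assoc, hw c hc']
  push_cast
  rfl

/-! ### the groups and the orbits -/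

/-- normal form: the smaller one of the code and of its flip -/
def nz (M : ℕ) (r : ℕ × ℕ) : ℕ × ℕ := (min r.1 (M - 1 - r.1), r.2)

variable {N : ℕ} [NeZero N]

/-- all sums of invariant functions are sums over the list -/
def SumCols (N : ℕ) [NeZero N] (cols : List (ℕ × ℕ)) : Prop :=
  ∀ f : Cfg N → ℂ, (∀ a, f (rotc a) = f a) → (∀ a, f (reflc a) = f a) →
    (∀ a, f (flipc a) = f a) → ∑ a : Cfg N, f a = (cols.map fun r => (r.2 : ℂ) * f (decode N r.1)).sum

theorem sumCols_of (reps cols : List (ℕ × ℕ))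
    (hp : (cols.map (nz (3 ^ (2 * N)))).Perm reps)
    (hlt : ∀ r ∈ cols, r.1 < 3 ^ (2 * N)) (hs : SumCols N reps) : SumCols N cols := by
  intro f h1 h2 h3
  rw [hs f h1 h2 h3, ← (hp.map fun r => (r.2 : ℂ) * f (decode N r.1)).sum_eq, List.map_map]
  congr 1
  refine List.map_congr_left fun r hr => ?_
  have h4 := hlt r hr
  have h5 : f (decode N (3 ^ (2 * N) - 1 - r.1)) = f (decode N r.1) := by
    rw [← flip_decode h4, h3]
  simp only [Function.comp_apply, nz]
  rcases min_choice r.1 (3 ^ (2 * N) - 1 - r.1) with h | h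
  · rw [h]
  · rw [h, h5]

/-! ### Fourier transform -/

theorem entry_cnt (hN : 2 ≤ N) (C : ℕ) [NeZero C] (ζ : ℂ) (hζ : ζ ^ C = 1) (k s t : ℕ) :
    ((act N ζ)^[k] (Pi.single (decode N s) 1)) (decode N t)
      = ∑ c ∈ Finset.range C, ζ ^ c * (cnt N C k s t c : ℂ) := by
  rw [fourier hN C ζ hζ]
  refine Finset.sum_nbij' (fun c => c.val) (fun c => (c : ZMod C)) ?_ ?_ ?_ ?_ ?_
  · intro c _
    exact Finset.mem_range.2 (ZMod.val_lt c)
  · intro c _
    exact Finset.mem_univ _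
  · intro c _
    exact ZMod.natCast_zmod_val c
  · intro c hc
    exact ZMod.val_cast_of_lt (Finset.mem_range.1 hc)
  · intro c _
    unfold cnt
    rw [ZMod.natCast_zmod_val c]

/-- the sum over all configurations as a sum over two lists with signs -/
theorem main_sum (hN : 2 ≤ N) (C : ℕ) [NeZero C] (ζ : ℂ) (hζ : ζ ^ C = 1) (k : ℕ)
    (colsE colsO : List (ℕ × ℕ)) (hS : SumCols N (colsE ++ colsO))
    (tg : ℕ → ℕ) (sg : Cfg N → ℝ) (σ : ℝ) (T : ℝ) (F : Cfg N → ℂ)
    (hF1 : ∀ a, F (rotc a) = F a) (hF2 : ∀ a, F (reflc a) = F a) (hF3 : ∀ a, F (flipc a) = F a)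
    (hT : (T : ℂ) = ∑ a, F a)
    (hF : ∀ r ∈ colsE ++ colsO, F (decode N r.1) = (sg (decode N r.1) : ℂ) *
      ((act N ζ)^[k] (Pi.single (decode N r.1) 1)) (decode N (tg r.1)))
    (hE : ∀ r ∈ colsE, sg (decode N r.1) = 1) (hO : ∀ r ∈ colsO, sg (decode N r.1) = σ)
    (a : List ℤ) (ha : a.length = C) (d : ℝ) (hw : ∀ c < C, d * (ζ ^ c).re = ((a.getD c 0 : ℤ) : ℝ))
    (rowE rowO : List ℕ)
    (hrE : ∀ c < C, (colsE.map fun r => r.2 * cnt N C k r.1 (tg r.1) c).sum = rowE.getD c 0)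
    (hrO : ∀ c < C, (colsO.map fun r => r.2 * cnt N C k r.1 (tg r.1) c).sum = rowO.getD c 0) :
    d * T = (comb a rowE : ℤ) + σ * (comb a rowO : ℤ) := by
  have key : ∀ (cols : List (ℕ × ℕ)) (τ : ℝ) (hsub : ∀ r ∈ cols, r ∈ colsE ++ colsO)
      (hτ : ∀ r ∈ cols, sg (decode N r.1) = τ),
      ((cols.map fun r => (r.2 : ℂ) * F (decode N r.1)).sum).re =
        τ * (cols.map fun r => (r.2 : ℝ) * ∑ c ∈ Finset.range C,
          (ζ ^ c).re * (cnt N C k r.1 (tg r.1) c : ℝ)).sum := by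
    intro cols τ hsub hτ
    induction cols with
    | nil => simp
    | cons r l ih =>
      simp only [List.map_cons, List.sum_cons]
      rw [Complex.add_re, ih (fun r hr => hsub r (List.mem_cons_of_mem _ hr))
        (fun r hr => hτ r (List.mem_cons_of_mem _ hr)), mul_add]
      congr 1
      rw [hF r (hsub r List.mem_cons_self), hτ r List.mem_cons_self, entry_cnt hN C ζ hζ]
      rw [show ((r.2 : ℂ)) = ((r.2 : ℝ) : ℂ) by push_cast; rfl, Complex.re_ofReal_mul,
        Complex.re_ofReal_mul, Complex.re_sum]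
      have h2 : ∀ c ∈ Finset.range C, (ζ ^ c * (cnt N C k r.1 (tg r.1) c : ℂ)).re =
          (ζ ^ c).re * (cnt N C k r.1 (tg r.1) c : ℝ) := by
        intro c _
        rw [show ((cnt N C k r.1 (tg r.1) c : ℕ) : ℂ) =
          (((cnt N C k r.1 (tg r.1) c : ℕ) : ℝ) : ℂ) by push_cast; rfl, Complex.re_mul_ofReal]
      rw [Finset.sum_congr rfl h2]
      ring
  have h1 : T = ((∑ a, F a : ℂ)).re := by rw [← hT, Complex.ofReal_re]
  rw [h1, hS F hF1 hF2 hF3, List.map_append, List.sum_append, Complex.add_re,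
    key colsE 1 (fun r hr => List.mem_append_left _ hr) hE,
    key colsO σ (fun r hr => List.mem_append_right _ hr) hO, one_mul]
  have e1 := group_sum C a ha colsE rowE (fun s c => cnt N C k s (tg s) c) hrE
    (fun c => (ζ ^ c).re) d hw
  have e2 := group_sum C a ha colsO rowO (fun s c => cnt N C k s (tg s) c) hrO
    (fun c => (ζ ^ c).re) d hw
  rw [← e1, ← e2]
  ring

/-! ### invariance of the sign -/

/-- sign of the digit sum -/
noncomputable def sgn (a : Cfg N) : ℝ := (-1 : ℝ) ^ (∑ x, (a x : ℕ))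

theorem sgn_rot (a : Cfg N) : sgn (rotc a) = sgn a := by
  unfold sgn
  congr 1
  exact Equiv.sum_comp (KBaux.σ (N := N)) (fun x => (a x : ℕ))

theorem sgn_refl (a : Cfg N) : sgn (reflc a) = sgn a := by
  unfold sgn
  congr 1
  exact Equiv.sum_comp (KBaux.rho (N := N)) (fun x => (a x : ℕ))

omit [NeZero N] in
theorem sgn_flip (a : Cfg N) : sgn (flipc a) = sgn a := by
  have h : ∀ b : Fin 3, ((2 - b : Fin 3) : ℕ) + (b : ℕ) = 2 := by decide
  have h1 : (∑ x, (flipc a x : ℕ)) + ∑ x, (a x : ℕ) = 2 * (2 * N) := by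
    rw [← Finset.sum_add_distrib]
    have h2 : ∀ x ∈ (Finset.univ : Finset (Site N)), (flipc a x : ℕ) + (a x : ℕ) = 2 :=
      fun x _ => h (a x)
    rw [Finset.sum_congr rfl h2, Finset.sum_const, KAaux.card_site, smul_eq_mul, mul_comm]
  unfold sgn
  have h3 : (-1 : ℝ) ^ (∑ x, (flipc a x : ℕ)) * (-1 : ℝ) ^ (∑ x, (a x : ℕ)) = 1 := by
    rw [← pow_add, h1, pow_mul]
    norm_num
  have h4 : (-1 : ℝ) ^ (∑ x, (a x : ℕ)) * (-1 : ℝ) ^ (∑ x, (a x : ℕ)) = 1 := by
    rw [← pow_add, ← two_mul, pow_mul]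
    norm_num
  have h5 : (-1 : ℝ) ^ (∑ x, (a x : ℕ)) ≠ 0 := pow_ne_zero _ (by norm_num)
  exact mul_right_cancel₀ h5 (h3.trans h4.symm)

theorem sgn_decode (i : ℕ) : sgn (decode N i) = (-1 : ℝ) ^ digsum (2 * N) i := by
  unfold sgn
  rw [sum_labels]

/-! ### the moments -/

/-- scaled moments of the shifted Hamiltonian -/
def MomHSd (N : ℕ) [NeZero N] (d : ℤ) (W R : Matrix (Fin 3) (Fin 3) ℝ) (S : List ℤ) : Prop :=
  ∀ k, k < S.length → (d : ℝ) * (glob N W * HS N R ^ k).trace = ((S.getD k 0 : ℤ) : ℝ)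

/-- table of the combinations -/
def tabS (a : List ℤ) (σ : ℤ) (oE oO : List (List ℕ)) : List ℤ :=
  List.zipWith (fun r r' => comb a r + σ * comb a r') oE oO

theorem tabS_length {a : List ℤ} {σ : ℤ} {oE oO : List (List ℕ)} {k : ℕ}
    (h : k < (tabS a σ oE oO).length) : k < oE.length ∧ k < oO.length := by
  unfold tabS at h
  rw [List.length_zipWith] at h
  exact lt_min_iff.1 h

theorem tabS_getD (a : List ℤ) (σ : ℤ) (oE oO : List (List ℕ)) (k : ℕ)
    (h : k < (tabS a σ oE oO).length) :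
    (tabS a σ oE oO).getD k 0 = comb a (oE.getD k []) + σ * comb a (oO.getD k []) := by
  obtain ⟨h1, h2⟩ := tabS_length h
  unfold tabS at h ⊢
  rw [List.getD_eq_getElem _ _ h, List.getD_eq_getElem _ _ h1, List.getD_eq_getElem _ _ h2]
  exact List.getElem_zipWith

/-- W = 1 -/
theorem momHSd_one (hN : 2 ≤ N) (C : ℕ) [NeZero C] (c s : ℝ) (h : c ^ 2 + s ^ 2 = 1)
    (hζ : ((c : ℂ) - s * Complex.I) ^ C = 1) (colsE colsO : List (ℕ × ℕ))
    (hS : SumCols N (colsE ++ colsO)) (oE oO : List (List ℕ)) (hE : GrpOK N C colsE oE)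
    (hO : GrpOK N C colsO oO) (a : List ℤ) (ha : a.length = C) (d : ℤ)
    (hw : ∀ j < C, (d : ℝ) * (((c : ℂ) - s * Complex.I) ^ j).re = ((a.getD j 0 : ℤ) : ℝ)) :
    MomHSd N d 1 (rotz c s) (tabS a 1 oE oO) := by
  intro k hk
  rw [tabS_getD _ _ _ _ _ hk]
  obtain ⟨hk1, hk2⟩ := tabS_length hk
  have hz : ((c : ℂ) - s * Complex.I) ≠ 0 := by
    intro h0
    rw [h0, zero_pow (NeZero.ne C)] at hζ
    exact zero_ne_one hζ
  have key := main_sum hN C _ hζ k colsE colsO hS (fun t => t) (fun _ => 1) 1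
    ((glob N 1 * HS N (rotz c s) ^ k).trace)
    (fun a => ((act N ((c : ℂ) - s * Complex.I))^[k] (Pi.single a 1)) a)
    (fun a => diag_rot hN _ hz k a) (fun a => diag_refl hN _ hz k a)
    (fun a => diag_flip hN _ hz k a) (P348.trace_one N hN c s h k)
    (fun r _ => by simp) (fun _ _ => rfl) (fun _ _ => rfl) a ha d hw
    (oE.getD k []) (oO.getD k []) (fun j hj => hE k hk1 j hj) (fun j hj => hO k hk2 j hj)
  rw [key]
  push_cast
  ring

/-- W = rz -/
theorem momHSd_rz (hN : 2 ≤ N) (C : ℕ) [NeZero C] (c s : ℝ) (h : c ^ 2 + s ^ 2 = 1)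
    (hζ : ((c : ℂ) - s * Complex.I) ^ C = 1) (colsE colsO : List (ℕ × ℕ))
    (hS : SumCols N (colsE ++ colsO)) (oE oO : List (List ℕ)) (hE : GrpOK N C colsE oE)
    (hO : GrpOK N C colsO oO)
    (hpE : ∀ r ∈ colsE, digsum (2 * N) r.1 % 2 = 0) (hpO : ∀ r ∈ colsO, digsum (2 * N) r.1 % 2 = 1)
    (a : List ℤ) (ha : a.length = C) (d : ℤ)
    (hw : ∀ j < C, (d : ℝ) * (((c : ℂ) - s * Complex.I) ^ j).re = ((a.getD j 0 : ℤ) : ℝ)) :
    MomHSd N d rz (rotz c s) (tabS a (-1) oE oO) := by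
  intro k hk
  rw [tabS_getD _ _ _ _ _ hk]
  obtain ⟨hk1, hk2⟩ := tabS_length hk
  have hz : ((c : ℂ) - s * Complex.I) ≠ 0 := by
    intro h0
    rw [h0, zero_pow (NeZero.ne C)] at hζ
    exact zero_ne_one hζ
  have hsg : ∀ a : Cfg N, ((sgn a : ℝ) : ℂ) = (-1 : ℂ) ^ (∑ x, (a x : ℕ)) := by
    intro a
    unfold sgn
    push_cast
    rfl
  have key := main_sum hN C _ hζ k colsE colsO hS (fun t => t) sgn (-1)
    ((glob N rz * HS N (rotz c s) ^ k).trace)
    (fun a => ((sgn a : ℝ) : ℂ) * ((act N ((c : ℂ) - s * Complex.I))^[k] (Pi.single a 1)) a)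
    (fun a => by rw [sgn_rot, diag_rot hN _ hz k a])
    (fun a => by rw [sgn_refl, diag_refl hN _ hz k a])
    (fun a => by rw [sgn_flip, diag_flip hN _ hz k a])
    (by
      rw [trace_rz N hN c s h k]
      exact Finset.sum_congr rfl fun a _ => by rw [hsg])
    (fun r _ => rfl)
    (fun r hr => by
      rw [sgn_decode]
      exact (Nat.even_iff.2 (hpE r hr)).neg_one_pow)
    (fun r hr => by
      rw [sgn_decode]
      exact (Nat.odd_iff.2 (hpO r hr)).neg_one_pow) a ha d hw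
    (oE.getD k []) (oO.getD k []) (fun j hj => hE k hk1 j hj) (fun j hj => hO k hk2 j hj)
  rw [key]
  push_cast
  ring

/-- W = rx, R = rz -/
theorem momHSd_rx (hN : 2 ≤ N) (cols0 colsX : List (ℕ × ℕ))
    (hS : SumCols N (cols0 ++ colsX)) (o0 : List (List ℕ)) (h0 : GrpFlip N 4 cols0 o0)
    (hlt : ∀ r ∈ cols0 ++ colsX, r.1 < 3 ^ (2 * N))
    (hX : ∀ r ∈ colsX, digsum (2 * N) r.1 ≠ digsum (2 * N) (3 ^ (2 * N) - 1 - r.1)) :
    MomHSd N 1 rx (rotz (-1) 0) (o0.map (comb [1, -1, 1, -1])) := by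
  intro k hk
  rw [List.length_map] at hk
  have e0 : (o0.map (comb [1, -1, 1, -1])).getD k 0 = comb [1, -1, 1, -1] (o0.getD k []) := by
    rw [List.getD_eq_getElem _ _ (by rw [List.length_map]; exact hk),
      List.getD_eq_getElem _ _ hk, List.getElem_map]
  rw [e0]
  have ez : (((-1 : ℝ) : ℂ) - ((0 : ℝ) : ℂ) * Complex.I) = -1 := by push_cast; ring
  have hrec : ∀ r ∈ cols0 ++ colsX, ((act N (-1))^[k] (Pi.single (decode N r.1) 1))
      (flipc (decode N r.1)) = (((fun _ : Cfg N => (1 : ℝ)) (decode N r.1) : ℝ) : ℂ) *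
      ((act N (-1))^[k] (Pi.single (decode N r.1) 1)) (decode N (3 ^ (2 * N) - 1 - r.1)) := by
    intro r hr
    rw [flip_decode (hlt r hr)]
    simp
  have key := main_sum hN 4 (-1) (by norm_num) k cols0 colsX hS (fun t => 3 ^ (2 * N) - 1 - t)
    (fun _ => 1) 1
    ((glob N rx * HS N (rotz (-1) 0) ^ k).trace)
    (fun a => ((act N (-1))^[k] (Pi.single a 1)) (flipc a))
    (fun a => flip_rot hN k a) (fun a => flip_refl hN k a)
    (fun a => flip_flip hN k a)
    (by
      rw [trace_rx N hN (-1) 0 (by norm_num) k, ez])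
    hrec (fun _ _ => rfl) (fun _ _ => rfl) [1, -1, 1, -1] rfl 1
    (by
      intro j hj
      interval_cases j <;> norm_num)
    (o0.getD k []) [] (fun j hj => h0 k hk j hj)
    (fun j hj => by
      rw [List.sum_eq_zero]
      · simp
      · intro x hx
        obtain ⟨r, hr, rfl⟩ := List.mem_map.1 hx
        have h1 := hlt r (List.mem_append_right _ hr)
        rw [cnt_sector N hN 4 k r.1 _ j h1 (by omega) (hX r hr), Nat.mul_zero])
  rw [Int.cast_one, key]
  simp [comb]

/-- from scaled moments of the shifted Hamiltonian to the moments of the Hamiltonian -/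
theorem momOK_of_momHSd (d : ℤ) (hd : d ≠ 0) (W R : Matrix (Fin 3) (Fin 3) ℝ) (S M : List ℤ)
    (hS : MomHSd N d W R S) (hl : M.length ≤ S.length)
    (hM : unshift (2 * N) M.length S = M.map (d * ·)) : MomOK N W R M := by
  intro k hk
  have h := unshift_spec ((d : ℝ) • glob N W) (HR N R) (2 * N) M.length 0 S hl (fun i hi => by
    have h1 := hS i hi
    unfold HS at h1
    rw [pow_zero, Matrix.mul_one, Matrix.smul_mul, Matrix.trace_smul, smul_eq_mul]
    push_cast
    exact h1) k hk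
  rw [hM, Nat.zero_add, Matrix.smul_mul, Matrix.trace_smul, smul_eq_mul] at h
  have e : (M.map (d * ·)).getD k 0 = d * M.getD k 0 := by
    rw [List.getD_eq_getElem _ _ (by rw [List.length_map]; exact hk),
      List.getD_eq_getElem _ _ hk, List.getElem_map]
  rw [e] at h
  push_cast at h
  exact mul_left_cancel₀ (by exact_mod_cast hd) h

end P348
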