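import Vale.Agent.Lib.P348.KFC
import Vale.Agent.Lib.P348.KE3
import Vale.Agent.Lib.P348.MomData2

/-!
# P348 (K), module KF2: the moments of the eight channels of the ring of length 4
-/

set_option linter.style.longLine false

namespace P348

/-- configurations of digit sum 4 -/
def cZ2 : List (ℕ × ℕ) := cols2_0

/-- the other configurations of even digit sum -/
def cR2 : List (ℕ × ℕ) := cols2_2 ++ (cols2_4)

/-- configurations of odd digit sum -/
def cO2 : List (ℕ × ℕ) := cols2_1 ++ (cols2_3)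

theorem grpE2 : GrpOK 2 4 (cZ2 ++ cR2) (addT (out2_4_0) (addT out2_4_2 (out2_4_4))) :=
  GrpOK.append (show GrpOK 2 4 cZ2 _ from grp2_4_0) (show GrpOK 2 4 cR2 _ from grp2_4_2.append (grp2_4_4))

theorem grpO2 : GrpOK 2 4 cO2 (addT out2_4_1 (out2_4_3)) := grp2_4_1.append (grp2_4_3)

theorem grpE2t : GrpOK 2 3 (cZ2 ++ cR2) (addT (out2_3_0) (addT out2_3_2 (out2_3_4))) :=
  GrpOK.append (show GrpOK 2 3 cZ2 _ from grp2_3_0) (show GrpOK 2 3 cR2 _ from grp2_3_2.append (grp2_3_4))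

theorem grpO2t : GrpOK 2 3 cO2 (addT out2_3_1 (out2_3_3)) := grp2_3_1.append (grp2_3_3)

theorem flipZ2 : GrpFlip 2 4 cZ2 (fout2_0) := flip2_0

theorem lt2 : ∀ r ∈ (cZ2 ++ cR2) ++ cO2, r.1 < 3 ^ (2 * 2) := by decide +kernel

theorem sum2 : SumCols 2 ((cZ2 ++ cR2) ++ cO2) :=
  sumCols_of reps2 _ (by decide +kernel) lt2 (fun f h1 h2 h3 => orbit_sum2 f h1 h2 h3)

theorem parE2 : ∀ r ∈ cZ2 ++ cR2, digsum (2 * 2) r.1 % 2 = 0 := by decide +kernel

theorem parO2 : ∀ r ∈ cO2, digsum (2 * 2) r.1 % 2 = 1 := by decide +kernel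

theorem parX2 : ∀ r ∈ cR2 ++ cO2,
    digsum (2 * 2) r.1 ≠ digsum (2 * 2) (3 ^ (2 * 2) - 1 - r.1) := by decide +kernel

theorem mok2_1_1 : MomOK 2 1 1 mom2_1_1 :=
  momOK_of_momHSd 1 (by norm_num) _ _ _ _
    (mom_1_1 (by norm_num) _ _ sum2 _ _ grpE2 grpO2) (by decide +kernel) (by decide +kernel)

theorem mok2_rz_1 : MomOK 2 1 rz mom2_rz_1 :=
  momOK_of_momHSd 1 (by norm_num) _ _ _ _
    (mom_rz_1 (by norm_num) _ _ sum2 _ _ grpE2 grpO2) (by decide +kernel) (by decide +kernel)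

theorem mok2_qz_1 : MomOK 2 1 qz mom2_qz_1 :=
  momOK_of_momHSd 1 (by norm_num) _ _ _ _
    (mom_qz_1 (by norm_num) _ _ sum2 _ _ grpE2 grpO2) (by decide +kernel) (by decide +kernel)

theorem mok2_1_rz : MomOK 2 rz 1 mom2_1_rz :=
  momOK_of_momHSd 1 (by norm_num) _ _ _ _
    (mom_1_rz (by norm_num) _ _ sum2 _ _ grpE2 grpO2 parE2 parO2) (by decide +kernel)
    (by decide +kernel)

theorem mok2_rz_rz : MomOK 2 rz rz mom2_rz_rz :=
  momOK_of_momHSd 1 (by norm_num) _ _ _ _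
    (mom_rz_rz (by norm_num) _ _ sum2 _ _ grpE2 grpO2 parE2 parO2) (by decide +kernel)
    (by decide +kernel)

theorem mok2_qz_rz : MomOK 2 rz qz mom2_qz_rz :=
  momOK_of_momHSd 1 (by norm_num) _ _ _ _
    (mom_qz_rz (by norm_num) _ _ sum2 _ _ grpE2 grpO2 parE2 parO2) (by decide +kernel)
    (by decide +kernel)

theorem mok2_c3_1 : MomOK 2 1 c3 mom2_c3_1 :=
  momOK_of_momHSd 2 (by norm_num) _ _ _ _
    (mom_c3_1 (by norm_num) _ _ sum2 _ _ grpE2t grpO2t) (by decide +kernel)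
    (by decide +kernel)

theorem mok2_rz_rx : MomOK 2 rx rz mom2_rz_rx := by
  have hs := sum2
  have hl := lt2
  rw [List.append_assoc] at hs hl
  exact momOK_of_momHSd 1 (by norm_num) _ _ _ _
    (mom_rz_rx (by norm_num) cZ2 (cR2 ++ cO2) hs _ flipZ2 hl parX2) (by decide +kernel)
    (by decide +kernel)

end P348
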