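import Vale.Agent.Lib.P348.KFC
import Vale.Agent.Lib.P348.KE3
import Vale.Agent.Lib.P348.MomData3

/-!
# P348 (K), module KF3: the moments of the eight channels of the ring of length 6
-/

set_option linter.style.longLine false

namespace P348

/-- configurations of digit sum 6 -/
def cZ3 : List (ℕ × ℕ) := cols3_0

/-- the other configurations of even digit sum -/
def cR3 : List (ℕ × ℕ) := cols3_2 ++ (cols3_4 ++ (cols3_6))

/-- configurations of odd digit sum -/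
def cO3 : List (ℕ × ℕ) := cols3_1 ++ (cols3_3 ++ (cols3_5))

theorem grpE3 : GrpOK 3 4 (cZ3 ++ cR3) (addT (out3_4_0) (addT out3_4_2 (addT out3_4_4 (out3_4_6)))) :=
  GrpOK.append (show GrpOK 3 4 cZ3 _ from grp3_4_0) (show GrpOK 3 4 cR3 _ from grp3_4_2.append (grp3_4_4.append (grp3_4_6)))

theorem grpO3 : GrpOK 3 4 cO3 (addT out3_4_1 (addT out3_4_3 (out3_4_5))) := grp3_4_1.append (grp3_4_3.append (grp3_4_5))

theorem grpE3t : GrpOK 3 3 (cZ3 ++ cR3) (addT (out3_3_0) (addT out3_3_2 (addT out3_3_4 (out3_3_6)))) :=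
  GrpOK.append (show GrpOK 3 3 cZ3 _ from grp3_3_0) (show GrpOK 3 3 cR3 _ from grp3_3_2.append (grp3_3_4.append (grp3_3_6)))

theorem grpO3t : GrpOK 3 3 cO3 (addT out3_3_1 (addT out3_3_3 (out3_3_5))) := grp3_3_1.append (grp3_3_3.append (grp3_3_5))

theorem flipZ3 : GrpFlip 3 4 cZ3 (fout3_0) := flip3_0

theorem lt3 : ∀ r ∈ (cZ3 ++ cR3) ++ cO3, r.1 < 3 ^ (2 * 3) := by decide +kernel

theorem sum3 : SumCols 3 ((cZ3 ++ cR3) ++ cO3) :=
  sumCols_of reps3 _ (by decide +kernel) lt3 (fun f h1 h2 h3 => orbit_sum3 f h1 h2 h3)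

theorem parE3 : ∀ r ∈ cZ3 ++ cR3, digsum (2 * 3) r.1 % 2 = 0 := by decide +kernel

theorem parO3 : ∀ r ∈ cO3, digsum (2 * 3) r.1 % 2 = 1 := by decide +kernel

theorem parX3 : ∀ r ∈ cR3 ++ cO3,
    digsum (2 * 3) r.1 ≠ digsum (2 * 3) (3 ^ (2 * 3) - 1 - r.1) := by decide +kernel

theorem mok3_1_1 : MomOK 3 1 1 mom3_1_1 :=
  momOK_of_momHSd 1 (by norm_num) _ _ _ _
    (mom_1_1 (by norm_num) _ _ sum3 _ _ grpE3 grpO3) (by decide +kernel) (by decide +kernel)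

theorem mok3_rz_1 : MomOK 3 1 rz mom3_rz_1 :=
  momOK_of_momHSd 1 (by norm_num) _ _ _ _
    (mom_rz_1 (by norm_num) _ _ sum3 _ _ grpE3 grpO3) (by decide +kernel) (by decide +kernel)

theorem mok3_qz_1 : MomOK 3 1 qz mom3_qz_1 :=
  momOK_of_momHSd 1 (by norm_num) _ _ _ _
    (mom_qz_1 (by norm_num) _ _ sum3 _ _ grpE3 grpO3) (by decide +kernel) (by decide +kernel)

theorem mok3_1_rz : MomOK 3 rz 1 mom3_1_rz :=
  momOK_of_momHSd 1 (by norm_num) _ _ _ _
    (mom_1_rz (by norm_num) _ _ sum3 _ _ grpE3 grpO3 parE3 parO3) (by decide +kernel)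
    (by decide +kernel)

theorem mok3_rz_rz : MomOK 3 rz rz mom3_rz_rz :=
  momOK_of_momHSd 1 (by norm_num) _ _ _ _
    (mom_rz_rz (by norm_num) _ _ sum3 _ _ grpE3 grpO3 parE3 parO3) (by decide +kernel)
    (by decide +kernel)

theorem mok3_qz_rz : MomOK 3 rz qz mom3_qz_rz :=
  momOK_of_momHSd 1 (by norm_num) _ _ _ _
    (mom_qz_rz (by norm_num) _ _ sum3 _ _ grpE3 grpO3 parE3 parO3) (by decide +kernel)
    (by decide +kernel)

theorem mok3_c3_1 : MomOK 3 1 c3 mom3_c3_1 :=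
  momOK_of_momHSd 2 (by norm_num) _ _ _ _
    (mom_c3_1 (by norm_num) _ _ sum3 _ _ grpE3t grpO3t) (by decide +kernel)
    (by decide +kernel)

theorem mok3_rz_rx : MomOK 3 rx rz mom3_rz_rx := by
  have hs := sum3
  have hl := lt3
  rw [List.append_assoc] at hs hl
  exact momOK_of_momHSd 1 (by norm_num) _ _ _ _
    (mom_rz_rx (by norm_num) cZ3 (cR3 ++ cO3) hs _ flipZ3 hl parX3) (by decide +kernel)
    (by decide +kernel)

end P348
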