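import Vale.Agent.Lib.P348.KFC
import Vale.Agent.Lib.P348.KE4
import Vale.Agent.Lib.P348.MomData4

/-!
# P348 (K), module KF4: the moments of the eight channels of the ring of length 8
-/

set_option linter.style.longLine false

namespace P348

/-- configurations of digit sum 8 -/
def cZ4 : List (ℕ × ℕ) := cols4_0a ++ (cols4_0b ++ (cols4_0c))

/-- the other configurations of even digit sum -/
def cR4 : List (ℕ × ℕ) := cols4_2a ++ (cols4_2b ++ (cols4_4 ++ (cols4_6 ++ (cols4_8))))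

/-- configurations of odd digit sum -/
def cO4 : List (ℕ × ℕ) := cols4_1a ++ (cols4_1b ++ (cols4_1c ++ (cols4_3 ++ (cols4_5 ++ (cols4_7)))))

theorem grpE4 : GrpOK 4 4 (cZ4 ++ cR4) (addT (addT out4_4_0a (addT out4_4_0b (out4_4_0c))) (addT out4_4_2a (addT out4_4_2b (addT out4_4_4 (addT out4_4_6 (out4_4_8)))))) :=
  GrpOK.append (show GrpOK 4 4 cZ4 _ from grp4_4_0a.append (grp4_4_0b.append (grp4_4_0c))) (show GrpOK 4 4 cR4 _ from grp4_4_2a.append (grp4_4_2b.append (grp4_4_4.append (grp4_4_6.append (grp4_4_8)))))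

theorem grpO4 : GrpOK 4 4 cO4 (addT out4_4_1a (addT out4_4_1b (addT out4_4_1c (addT out4_4_3 (addT out4_4_5 (out4_4_7)))))) := grp4_4_1a.append (grp4_4_1b.append (grp4_4_1c.append (grp4_4_3.append (grp4_4_5.append (grp4_4_7)))))

theorem grpE4t : GrpOK 4 3 (cZ4 ++ cR4) (addT (addT out4_3_0a (addT out4_3_0b (out4_3_0c))) (addT out4_3_2a (addT out4_3_2b (addT out4_3_4 (addT out4_3_6 (out4_3_8)))))) :=
  GrpOK.append (show GrpOK 4 3 cZ4 _ from grp4_3_0a.append (grp4_3_0b.append (grp4_3_0c))) (show GrpOK 4 3 cR4 _ from grp4_3_2a.append (grp4_3_2b.append (grp4_3_4.append (grp4_3_6.append (grp4_3_8)))))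

theorem grpO4t : GrpOK 4 3 cO4 (addT out4_3_1a (addT out4_3_1b (addT out4_3_1c (addT out4_3_3 (addT out4_3_5 (out4_3_7)))))) := grp4_3_1a.append (grp4_3_1b.append (grp4_3_1c.append (grp4_3_3.append (grp4_3_5.append (grp4_3_7)))))

theorem flipZ4 : GrpFlip 4 4 cZ4 (addT fout4_0a (addT fout4_0b (fout4_0c))) := flip4_0a.append (flip4_0b.append (flip4_0c))

theorem lt4 : ∀ r ∈ (cZ4 ++ cR4) ++ cO4, r.1 < 3 ^ (2 * 4) := by decide +kernel

theorem sum4 : SumCols 4 ((cZ4 ++ cR4) ++ cO4) :=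
  sumCols_of reps4 _ (by decide +kernel) lt4 (fun f h1 h2 h3 => orbit_sum4 f h1 h2 h3)

theorem parE4 : ∀ r ∈ cZ4 ++ cR4, digsum (2 * 4) r.1 % 2 = 0 := by decide +kernel

theorem parO4 : ∀ r ∈ cO4, digsum (2 * 4) r.1 % 2 = 1 := by decide +kernel

theorem parX4 : ∀ r ∈ cR4 ++ cO4,
    digsum (2 * 4) r.1 ≠ digsum (2 * 4) (3 ^ (2 * 4) - 1 - r.1) := by decide +kernel

theorem mok4_1_1 : MomOK 4 1 1 mom4_1_1 :=
  momOK_of_momHSd 1 (by norm_num) _ _ _ _
    (mom_1_1 (by norm_num) _ _ sum4 _ _ grpE4 grpO4) (by decide +kernel) (by decide +kernel)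

theorem mok4_rz_1 : MomOK 4 1 rz mom4_rz_1 :=
  momOK_of_momHSd 1 (by norm_num) _ _ _ _
    (mom_rz_1 (by norm_num) _ _ sum4 _ _ grpE4 grpO4) (by decide +kernel) (by decide +kernel)

theorem mok4_qz_1 : MomOK 4 1 qz mom4_qz_1 :=
  momOK_of_momHSd 1 (by norm_num) _ _ _ _
    (mom_qz_1 (by norm_num) _ _ sum4 _ _ grpE4 grpO4) (by decide +kernel) (by decide +kernel)

theorem mok4_1_rz : MomOK 4 rz 1 mom4_1_rz :=
  momOK_of_momHSd 1 (by norm_num) _ _ _ _
    (mom_1_rz (by norm_num) _ _ sum4 _ _ grpE4 grpO4 parE4 parO4) (by decide +kernel)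
    (by decide +kernel)

theorem mok4_rz_rz : MomOK 4 rz rz mom4_rz_rz :=
  momOK_of_momHSd 1 (by norm_num) _ _ _ _
    (mom_rz_rz (by norm_num) _ _ sum4 _ _ grpE4 grpO4 parE4 parO4) (by decide +kernel)
    (by decide +kernel)

theorem mok4_qz_rz : MomOK 4 rz qz mom4_qz_rz :=
  momOK_of_momHSd 1 (by norm_num) _ _ _ _
    (mom_qz_rz (by norm_num) _ _ sum4 _ _ grpE4 grpO4 parE4 parO4) (by decide +kernel)
    (by decide +kernel)

theorem mok4_c3_1 : MomOK 4 1 c3 mom4_c3_1 :=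
  momOK_of_momHSd 2 (by norm_num) _ _ _ _
    (mom_c3_1 (by norm_num) _ _ sum4 _ _ grpE4t grpO4t) (by decide +kernel)
    (by decide +kernel)

theorem mok4_rz_rx : MomOK 4 rx rz mom4_rz_rx := by
  have hs := sum4
  have hl := lt4
  rw [List.append_assoc] at hs hl
  exact momOK_of_momHSd 1 (by norm_num) _ _ _ _
    (mom_rz_rx (by norm_num) cZ4 (cR4 ++ cO4) hs _ flipZ4 hl parX4) (by decide +kernel)
    (by decide +kernel)

end P348
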