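import Vale.Agent.Lib.P348.KF

/-!
# P348 (K), module KFC: the eight channels
-/

namespace P348

open Matrix

theorem rotz_one : rotz 1 0 = 1 := by
  ext i j
  fin_cases i <;> fin_cases j <;> simp [rotz]

theorem rotz_rz : rotz (-1) 0 = rz := by
  ext i j
  fin_cases i <;> fin_cases j <;> simp [rotz, rz]

theorem rotz_qz : rotz 0 1 = qz := by
  ext i j
  fin_cases i <;> fin_cases j <;> simp [rotz, qz]

theorem z1 : (((1 : ℝ) : ℂ) - ((0 : ℝ) : ℂ) * Complex.I) = 1 := by push_cast; ring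

theorem zm : (((-1 : ℝ) : ℂ) - ((0 : ℝ) : ℂ) * Complex.I) = -1 := by push_cast; ring

theorem zi : (((0 : ℝ) : ℂ) - ((1 : ℝ) : ℂ) * Complex.I) = -Complex.I := by push_cast; ring

theorem zi2 : (-Complex.I) ^ 2 = -1 := by rw [neg_sq, Complex.I_sq]

theorem zi3 : (-Complex.I) ^ 3 = Complex.I := by
  rw [pow_succ, zi2]; ring

theorem zi4 : (-Complex.I) ^ 4 = 1 := by
  rw [pow_succ, zi3, mul_neg, Complex.I_mul_I, neg_neg]

theorem sq3 : ((√3 : ℝ) : ℂ) ^ 2 = 3 := by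
  have h : (√3 : ℝ) ^ 2 = 3 := Real.sq_sqrt (by norm_num)
  exact_mod_cast h

theorem zt2 : (((-1 / 2 : ℝ) : ℂ) - ((√3 / 2 : ℝ) : ℂ) * Complex.I) ^ 2 =
    ((-1 / 2 : ℝ) : ℂ) + ((√3 / 2 : ℝ) : ℂ) * Complex.I := by
  have h := sq3
  have hI := Complex.I_sq
  push_cast
  linear_combination ((3 : ℂ) / 4) * hI + (1 / 4 : ℂ) * Complex.I ^ 2 * h

theorem zt3 : (((-1 / 2 : ℝ) : ℂ) - ((√3 / 2 : ℝ) : ℂ) * Complex.I) ^ 3 = 1 := by
  rw [pow_succ, zt2]
  have h := sq3
  have hI := Complex.I_sq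
  push_cast
  linear_combination (-(3 : ℂ) / 4) * hI - (1 / 4 : ℂ) * Complex.I ^ 2 * h

theorem hc3 : (-1 / 2 : ℝ) ^ 2 + (√3 / 2) ^ 2 = 1 := by
  have h : (√3 : ℝ) ^ 2 = 3 := Real.sq_sqrt (by norm_num)
  rw [div_pow, div_pow, h]
  norm_num

variable {N : ℕ} [NeZero N]

section

variable (hN : 2 ≤ N) (colsE colsO : List (ℕ × ℕ)) (hS : SumCols N (colsE ++ colsO))
  (oE oO : List (List ℕ)) (hE : GrpOK N 4 colsE oE) (hO : GrpOK N 4 colsO oO)
  (hpE : ∀ r ∈ colsE, digsum (2 * N) r.1 % 2 = 0) (hpO : ∀ r ∈ colsO, digsum (2 * N) r.1 % 2 = 1)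

include hN hS hE hO

theorem mom_1_1 : MomHSd N 1 1 1 (tabS [1, 1, 1, 1] 1 oE oO) := by
  have h := momHSd_one hN 4 1 0 (by norm_num) (by rw [z1]; norm_num) colsE colsO hS oE oO hE hO
    [1, 1, 1, 1] rfl 1 (by
      rw [z1]
      intro j hj
      interval_cases j <;> norm_num)
  rw [rotz_one] at h
  exact h

theorem mom_rz_1 : MomHSd N 1 1 rz (tabS [1, -1, 1, -1] 1 oE oO) := by
  have h := momHSd_one hN 4 (-1) 0 (by norm_num) (by rw [zm]; norm_num) colsE colsO hS oE oO hE hO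
    [1, -1, 1, -1] rfl 1 (by
      rw [zm]
      intro j hj
      interval_cases j <;> norm_num)
  rw [rotz_rz] at h
  exact h

theorem mom_qz_1 : MomHSd N 1 1 qz (tabS [1, 0, -1, 0] 1 oE oO) := by
  have h := momHSd_one hN 4 0 1 (by norm_num) (by rw [zi]; exact zi4) colsE colsO hS oE oO hE hO
    [1, 0, -1, 0] rfl 1 (by
      rw [zi]
      intro j hj
      interval_cases j
      · norm_num
      · norm_num
      · rw [zi2]; norm_num
      · rw [zi3]; norm_num)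
  rw [rotz_qz] at h
  exact h

include hpE hpO

theorem mom_1_rz : MomHSd N 1 rz 1 (tabS [1, 1, 1, 1] (-1) oE oO) := by
  have h := momHSd_rz hN 4 1 0 (by norm_num) (by rw [z1]; norm_num) colsE colsO hS oE oO hE hO
    hpE hpO [1, 1, 1, 1] rfl 1 (by
      rw [z1]
      intro j hj
      interval_cases j <;> norm_num)
  rw [rotz_one] at h
  exact h

theorem mom_rz_rz : MomHSd N 1 rz rz (tabS [1, -1, 1, -1] (-1) oE oO) := by
  have h := momHSd_rz hN 4 (-1) 0 (by norm_num) (by rw [zm]; norm_num) colsE colsO hS oE oO hE hO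
    hpE hpO [1, -1, 1, -1] rfl 1 (by
      rw [zm]
      intro j hj
      interval_cases j <;> norm_num)
  rw [rotz_rz] at h
  exact h

theorem mom_qz_rz : MomHSd N 1 rz qz (tabS [1, 0, -1, 0] (-1) oE oO) := by
  have h := momHSd_rz hN 4 0 1 (by norm_num) (by rw [zi]; exact zi4) colsE colsO hS oE oO hE hO
    hpE hpO [1, 0, -1, 0] rfl 1 (by
      rw [zi]
      intro j hj
      interval_cases j
      · norm_num
      · norm_num
      · rw [zi2]; norm_num
      · rw [zi3]; norm_num)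
  rw [rotz_qz] at h
  exact h

end

theorem mom_c3_1 (hN : 2 ≤ N) (colsE colsO : List (ℕ × ℕ)) (hS : SumCols N (colsE ++ colsO))
    (oE oO : List (List ℕ)) (hE : GrpOK N 3 colsE oE) (hO : GrpOK N 3 colsO oO) :
    MomHSd N 2 1 c3 (tabS [2, -1, -1] 1 oE oO) := by
  have h := momHSd_one hN 3 (-1 / 2) (√3 / 2) hc3 zt3 colsE colsO hS oE oO hE hO
    [2, -1, -1] rfl 2 (by
      intro j hj
      interval_cases j
      · norm_num
      · rw [pow_one]
        rw [Complex.sub_re, Complex.ofReal_re, Complex.re_ofReal_mul, Complex.I_re]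
        norm_num
      · rw [zt2]
        rw [Complex.add_re, Complex.ofReal_re, Complex.re_ofReal_mul, Complex.I_re]
        norm_num)
  intro k hk
  rw [trace_c3 N hN k]
  exact h k hk

theorem mom_rz_rx (hN : 2 ≤ N) (cols0 colsX : List (ℕ × ℕ))
    (hS : SumCols N (cols0 ++ colsX)) (o0 : List (List ℕ)) (h0 : GrpFlip N 4 cols0 o0)
    (hlt : ∀ r ∈ cols0 ++ colsX, r.1 < 3 ^ (2 * N))
    (hX : ∀ r ∈ colsX, digsum (2 * N) r.1 ≠ digsum (2 * N) (3 ^ (2 * N) - 1 - r.1)) :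
    MomHSd N 1 rx rz (o0.map (comb [1, -1, 1, -1])) := by
  have h := momHSd_rx hN cols0 colsX hS o0 h0 hlt hX
  rw [rotz_rz] at h
  exact h

end P348
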