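import Vale.Agent.Lib.P348.KT0

/-!
# P348 (K), module KT2: the step in terms of codes

Position of a site: `2 * x.1 + (if x.2 then 1 else 0)`, a bijection `Site N ≃ Fin (2N)` under which
`nxt` is `p ↦ (p + 1) % (2N)` and the twisted bond starts at position `2N - 1`; `decode N i` has the label
`dig i p` at position p.  Adding `3^p` to i changes only the digit p if that digit is not 2,
subtracting `3^p` changes only the digit p if it is not 0.
-/

namespace P348

variable {N : ℕ} [NeZero N]

namespace KT2

/-! ### numbers with given digits -/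

theorem enc_update : ∀ (L : ℕ) (g : ℕ → ℕ) (p v : ℕ), p < L →
    enc L (Function.update g p v) + g p * 3 ^ p = enc L g + v * 3 ^ p
  | 0, _, _, _, hp => absurd hp (Nat.not_lt_zero _)
  | L + 1, g, p, v, hp => by
      simp only [enc]
      rcases Nat.lt_succ_iff_lt_or_eq.mp hp with h | h
      · have h1 := enc_update L g p v h
        have h2 : Function.update g p v L = g L := Function.update_of_ne (by omega) _ _
        rw [h2]
        omega
      · subst h
        have h1 : ∀ (n : ℕ), n ≤ p → enc n (Function.update g p v) = enc n g := by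
          intro n
          induction n with
          | zero => intro _; rfl
          | succ n ih =>
              intro hn
              simp only [enc]
              rw [ih (by omega), Function.update_of_ne (by omega)]
        rw [h1 p le_rfl, Function.update_self]
        omega

theorem sum_update (L : ℕ) (g : ℕ → ℕ) (p v : ℕ) (hp : p < L) :
    ∑ q ∈ Finset.range L, Function.update g p v q + g p = ∑ q ∈ Finset.range L, g q + v := by
  induction L with
  | zero => exact absurd hp (Nat.not_lt_zero _)
  | succ L ih =>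
      rw [Finset.sum_range_succ, Finset.sum_range_succ]
      rcases Nat.lt_succ_iff_lt_or_eq.mp hp with h | h
      · have h1 := ih h
        have h2 : Function.update g p v L = g L := Function.update_of_ne (by omega) _ _
        rw [h2]
        omega
      · subst h
        have h1 : ∑ q ∈ Finset.range p, Function.update g p v q = ∑ q ∈ Finset.range p, g q := by
          refine Finset.sum_congr rfl fun q hq => ?_
          have := Finset.mem_range.mp hq
          rw [Function.update_of_ne (by omega)]
        rw [h1, Function.update_self]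
        omega

/-- one unit is moved from the digit y to the digit x -/
def mv (g : ℕ → ℕ) (x y : ℕ) : ℕ → ℕ :=
  Function.update (Function.update g x (g x + 1)) y (g y - 1)

theorem mv_lt {g : ℕ → ℕ} (hg : ∀ p, g p < 3) {x y : ℕ} (hx : g x ≠ 2) (p : ℕ) :
    mv g x y p < 3 := by
  unfold mv
  rcases eq_or_ne p y with h | h
  · subst h
    rw [Function.update_self]
    have := hg p
    omega
  · rw [Function.update_of_ne h]
    rcases eq_or_ne p x with h' | h'
    · subst h'
      rw [Function.update_self]
      have := hg p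
      omega
    · rw [Function.update_of_ne h']
      exact hg p

theorem enc_mv (L : ℕ) (g : ℕ → ℕ) {x y : ℕ} (hxL : x < L) (hyL : y < L) (hxy : x ≠ y)
    (hy : g y ≠ 0) : enc L g + 3 ^ x - 3 ^ y = enc L (mv g x y) := by
  have h1 := enc_update L g x (g x + 1) hxL
  have h2 := enc_update L (Function.update g x (g x + 1)) y (g y - 1) hyL
  rw [Function.update_of_ne hxy.symm] at h2
  obtain ⟨k, hk⟩ := Nat.exists_eq_succ_of_ne_zero hy
  have h3 : mv g x y = Function.update (Function.update g x (g x + 1)) y (g y - 1) := rfl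
  rw [h3]
  rw [hk] at h2 ⊢
  simp only [Nat.succ_eq_add_one, Nat.add_sub_cancel, add_mul, one_mul] at h1 h2 ⊢
  omega

theorem sum_mv (L : ℕ) (g : ℕ → ℕ) {x y : ℕ} (hxL : x < L) (hyL : y < L) (hxy : x ≠ y)
    (hy : g y ≠ 0) :
    ∑ q ∈ Finset.range L, mv g x y q = ∑ q ∈ Finset.range L, g q := by
  have h1 := sum_update L g x (g x + 1) hxL
  have h2 := sum_update L (Function.update g x (g x + 1)) y (g y - 1) hyL
  rw [Function.update_of_ne hxy.symm] at h2
  have h3 : mv g x y = Function.update (Function.update g x (g x + 1)) y (g y - 1) := rfl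
  rw [h3]
  omega

theorem enc_dig : ∀ (L i : ℕ), i < 3 ^ L → enc L (dig i) = i := by
  have key : ∀ (L i : ℕ), enc L (dig i) = i % 3 ^ L := by
    intro L
    induction L with
    | zero => intro i; simp [enc, Nat.mod_one]
    | succ L ih =>
        intro i
        simp only [enc]
        rw [ih i, pow_succ, Nat.mod_mul, dig, mul_comm (3 ^ L)]
  intro L i hi
  rw [key, Nat.mod_eq_of_lt hi]

theorem digsum_eq (L i : ℕ) : digsum L i = ∑ p ∈ Finset.range L, dig i p := by
  unfold digsum
  induction L with
  | zero => rfl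
  | succ L ih =>
      rw [List.range_succ, List.map_append, List.sum_append, Finset.sum_range_succ, ih]
      simp

theorem digsum_enc (L : ℕ) {g : ℕ → ℕ} (hg : ∀ p, g p < 3) :
    digsum L (enc L g) = ∑ p ∈ Finset.range L, g p := by
  rw [digsum_eq]
  exact Finset.sum_congr rfl fun p hp => dig_enc L g hg p (Finset.mem_range.mp hp)

/-- moving a unit in the code -/
theorem move_mem {L i x y : ℕ} (hi : i < 3 ^ L) (hxL : x < L) (hyL : y < L) (hxy : x ≠ y)
    (hx : dig i x ≠ 2) (hy : dig i y ≠ 0) :
    i + 3 ^ x - 3 ^ y < 3 ^ L ∧ digsum L (i + 3 ^ x - 3 ^ y) = digsum L i := by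
  have h1 := enc_mv L (dig i) hxL hyL hxy hy
  rw [enc_dig L i hi] at h1
  have h2 : ∀ p, mv (dig i) x y p < 3 := mv_lt (fun p => dig_lt i p) hx
  rw [h1]
  refine ⟨enc_lt L _ h2, ?_⟩
  rw [digsum_enc L h2, sum_mv L (dig i) hxL hyL hxy hy, digsum_eq]

/-! ### positions -/

omit [NeZero N] in
theorem ps_inj {x y : Site N} (h : ps x = ps y) : x = y := by
  obtain ⟨i, b⟩ := x
  obtain ⟨j, d⟩ := y
  unfold ps at h
  cases b <;> cases d <;>
    simp only [if_true, Bool.false_eq_true, if_false, add_zero] at h
  · have h1 : (i : ℕ) = j := by omega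
    rw [Fin.ext h1]
  · omega
  · omega
  · have h1 : (i : ℕ) = j := by omega
    rw [Fin.ext h1]

omit [NeZero N] in
theorem sum_ps (F : ℕ → ℕ) : ∑ x : Site N, F (ps x) = ∑ p ∈ Finset.range (2 * N), F p := by
  rw [Fintype.sum_prod_type]
  simp only [Fintype.sum_bool, ps, if_true, Bool.false_eq_true, if_false, add_zero]
  have h1 : ∀ n : ℕ, ∑ i ∈ Finset.range n, (F (2 * i + 1) + F (2 * i)) =
      ∑ p ∈ Finset.range (2 * n), F p := by
    intro n
    induction n with
    | zero => rfl
    | succ n ih =>
        rw [Finset.sum_range_succ, ih, mul_add, mul_one, Finset.sum_range_succ,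
          Finset.sum_range_succ]
        ring
  rw [← h1 N, Finset.sum_range]

theorem wrap_iff (x : Site N) : isWrap x ↔ ps x = 2 * N - 1 := by
  obtain ⟨i, b⟩ := x
  have hi := i.isLt
  unfold isWrap ps
  cases b
  · simp only [Bool.false_eq_true, false_and, if_false, add_zero, false_iff]
    omega
  · simp only [if_true, true_and]
    rw [Fin.ext_iff, Fin.val_add, Fin.val_one']
    simp only [Nat.add_mod_mod, Fin.val_zero]
    constructor
    · intro h
      rcases Nat.lt_or_ge ((i : ℕ) + 1) N with h' | h'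
      · rw [Nat.mod_eq_of_lt h'] at h
        omega
      · omega
    · intro h
      have h' : (i : ℕ) + 1 = N := by omega
      rw [h', Nat.mod_self]

theorem decode_move {i : ℕ} (hi : i < 3 ^ (2 * N)) {x y : Site N} (hxy : x ≠ y)
    (hx : dig i (ps x) ≠ 2) (hy : dig i (ps y) ≠ 0) :
    upd (decode N i) x y = decode N (i + 3 ^ ps x - 3 ^ ps y) := by
  have hxy' : ps x ≠ ps y := fun h => hxy (ps_inj h)
  have h1 := enc_mv (2 * N) (dig i) (ps_lt x) (ps_lt y) hxy' hy
  rw [enc_dig _ i hi] at h1
  have h2 : ∀ p, mv (dig i) (ps x) (ps y) p < 3 := mv_lt (fun p => dig_lt i p) hx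
  rw [h1]
  funext z
  apply Fin.ext
  rw [decode_val, dig_enc _ _ h2 _ (ps_lt z)]
  have e1 : ∀ w : Fin 3, (w : ℕ) ≠ 2 → ((w + 1 : Fin 3) : ℕ) = (w : ℕ) + 1 := by decide
  have e2 : ∀ w : Fin 3, (w : ℕ) ≠ 0 → ((w - 1 : Fin 3) : ℕ) = (w : ℕ) - 1 := by decide
  unfold upd mv
  rcases eq_or_ne z y with h | h
  · subst h
    rw [Function.update_self, Function.update_self, e2 _ (by rw [decode_val]; exact hy),
      decode_val]
  · rw [Function.update_of_ne h, Function.update_of_ne (fun h' => h (ps_inj h'))]
    rcases eq_or_ne z x with h' | h'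
    · subst h'
      rw [Function.update_self, Function.update_self, e1 _ (by rw [decode_val]; exact hx),
        decode_val]
    · rw [Function.update_of_ne h', Function.update_of_ne (fun h'' => h' (ps_inj h'')),
        decode_val]

theorem list_sum_range (f : ℕ → ℕ) (n : ℕ) :
    ((List.range n).map f).sum = ∑ p ∈ Finset.range n, f p := by
  induction n with
  | zero => rfl
  | succ n ih =>
      rw [List.range_succ, List.map_append, List.sum_append, Finset.sum_range_succ, ih]
      simp

theorem list_sum_flatMap (F : ℕ → ℕ) (g : ℕ → List ℕ) (l : List ℕ) :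
    ((l.flatMap g).map F).sum = (l.map fun x => ((g x).map F).sum).sum := by
  induction l with
  | nil => rfl
  | cons a l ih =>
      rw [List.flatMap_cons, List.map_append, List.sum_append, List.map_cons, List.sum_cons, ih]

theorem if_congr_then {P : Prop} [Decidable P] {a b : ℕ} (h : P → a = b) :
    (if P then a else 0) = (if P then b else 0) := by
  by_cases hP : P
  · rw [if_pos hP, if_pos hP, h hP]
  · rw [if_neg hP, if_neg hP]

theorem map_if {P : Prop} [Decidable P] (F : ℕ → ℕ) (a : ℕ) :
    ((if P then [a] else []).map F).sum = (if P then F a else 0) := by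
  by_cases hP : P
  · rw [if_pos hP, if_pos hP]
    simp
  · rw [if_neg hP, if_neg hP]
    rfl

/-- the sum over the positions, split at the last one -/
theorem split_sum {M : ℕ} (hM : 1 ≤ M) (i w : ℕ) (F Fu Fn : ℕ → ℕ) :
    ∑ p ∈ Finset.range (M + 1), (dgn (dig i p) (dig i ((p + 1) % (M + 1))) * w
        + (if dig i p ≠ 2 ∧ dig i ((p + 1) % (M + 1)) ≠ 0 then
            (if p = M then Fu (i + 3 ^ p - 3 ^ ((p + 1) % (M + 1)))
              else F (i + 3 ^ p - 3 ^ ((p + 1) % (M + 1)))) else 0)
        + (if dig i p ≠ 0 ∧ dig i ((p + 1) % (M + 1)) ≠ 2 then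
            (if p = M then Fn (i + 3 ^ ((p + 1) % (M + 1)) - 3 ^ p)
              else F (i + 3 ^ ((p + 1) % (M + 1)) - 3 ^ p)) else 0))
      = spD (M + 1) i * w + ((spR (M + 1) i).map F).sum + ((spU (M + 1) i).map Fu).sum
        + ((spN (M + 1) i).map Fn).sum := by
  have eD : spD (M + 1) i * w
      = ∑ p ∈ Finset.range (M + 1), dgn (dig i p) (dig i ((p + 1) % (M + 1))) * w := by
    unfold spD
    rw [list_sum_range, Finset.sum_mul]
  have eR : ((spR (M + 1) i).map F).sum
      = ∑ p ∈ Finset.range M, ((if dig i p ≠ 2 ∧ dig i (p + 1) ≠ 0 then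
            F (i + 3 ^ p - 3 ^ (p + 1)) else 0)
          + (if dig i p ≠ 0 ∧ dig i (p + 1) ≠ 2 then F (i + 3 ^ (p + 1) - 3 ^ p) else 0)) := by
    unfold spR
    rw [list_sum_flatMap, list_sum_range]
    refine Finset.sum_congr rfl fun p _ => ?_
    rw [List.map_append, List.sum_append, map_if, map_if]
  have eU : ((spU (M + 1) i).map Fu).sum
      = (if dig i M ≠ 2 ∧ dig i 0 ≠ 0 then Fu (i + 3 ^ M - 1) else 0) := by
    unfold spU
    rw [map_if]
    rfl
  have eN : ((spN (M + 1) i).map Fn).sum
      = (if dig i M ≠ 0 ∧ dig i 0 ≠ 2 then Fn (i + 1 - 3 ^ M) else 0) := by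
    unfold spN
    rw [map_if]
    rfl
  rw [Finset.sum_add_distrib, Finset.sum_add_distrib, ← eD, eR, eU, eN,
    Finset.sum_range_succ, Finset.sum_range_succ (n := M)]
  rw [Nat.mod_self, pow_zero, if_pos (rfl : M = M), if_pos (rfl : M = M), Finset.sum_add_distrib]
  have e1 : ∑ p ∈ Finset.range M, (if dig i p ≠ 2 ∧ dig i ((p + 1) % (M + 1)) ≠ 0 then
            (if p = M then Fu (i + 3 ^ p - 3 ^ ((p + 1) % (M + 1)))
              else F (i + 3 ^ p - 3 ^ ((p + 1) % (M + 1)))) else 0)
      = ∑ p ∈ Finset.range M, (if dig i p ≠ 2 ∧ dig i (p + 1) ≠ 0 then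
            F (i + 3 ^ p - 3 ^ (p + 1)) else 0) := by
    refine Finset.sum_congr rfl fun p hp => ?_
    have hp' := Finset.mem_range.mp hp
    rw [Nat.mod_eq_of_lt (by omega : p + 1 < M + 1), if_neg (by omega : ¬ p = M)]
  have e2 : ∑ p ∈ Finset.range M, (if dig i p ≠ 0 ∧ dig i ((p + 1) % (M + 1)) ≠ 2 then
            (if p = M then Fn (i + 3 ^ ((p + 1) % (M + 1)) - 3 ^ p)
              else F (i + 3 ^ ((p + 1) % (M + 1)) - 3 ^ p)) else 0)
      = ∑ p ∈ Finset.range M, (if dig i p ≠ 0 ∧ dig i (p + 1) ≠ 2 then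
            F (i + 3 ^ (p + 1) - 3 ^ p) else 0) := by
    refine Finset.sum_congr rfl fun p hp => ?_
    have hp' := Finset.mem_range.mp hp
    rw [Nat.mod_eq_of_lt (by omega : p + 1 < M + 1), if_neg (by omega : ¬ p = M)]
  rw [e1, e2]
  ring

end KT2

open KT2

theorem decode_inj {i j : ℕ} (hi : i < 3 ^ (2 * N)) (hj : j < 3 ^ (2 * N))
    (h : decode N i = decode N j) : i = j := by
  have hb : Function.Bijective (fun c : Fin (3 ^ (2 * N)) => decode N (c : ℕ)) := by
    rw [Fintype.bijective_iff_surjective_and_card]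
    refine ⟨?_, ?_⟩
    · intro a
      obtain ⟨c, hc, h⟩ := decode_surj a
      exact ⟨⟨c, hc⟩, h⟩
    · simp only [Fintype.card_fin, Fintype.card_fun, Fintype.card_prod, Fintype.card_bool]
      rw [mul_comm]
  have h1 : (⟨i, hi⟩ : Fin (3 ^ (2 * N))) = ⟨j, hj⟩ := hb.1 h
  exact congrArg Fin.val h1

theorem step_decode (hN : 2 ≤ N) (C : ℕ) (u : ZMod C → Cfg N → ℕ) (c : ZMod C) {i : ℕ}
    (hi : i < 3 ^ (2 * N)) :
    stepN N C u c (decode N i) = spD (2 * N) i * u c (decode N i)
      + ((spR (2 * N) i).map fun a => u c (decode N a)).sum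
      + ((spU (2 * N) i).map fun a => u (c - 1) (decode N a)).sum
      + ((spN (2 * N) i).map fun a => u (c + 1) (decode N a)).sum := by
  have hne : ∀ x : Site N, x ≠ nxt x := by
    intro x h
    have h1 := congrArg ps h
    rw [ps_nxt] at h1
    have h2 := ps_lt x
    rcases Nat.lt_or_ge (ps x + 1) (2 * N) with h3 | h3
    · rw [Nat.mod_eq_of_lt h3] at h1
      omega
    · have h4 : ps x + 1 = 2 * N := by omega
      rw [h4, Nat.mod_self] at h1
      omega
  have d1 : ∀ a b : Fin 3, dg a b = dgn (a : ℕ) (b : ℕ) := by decide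
  have d2 : ∀ a : Fin 3, a ≠ 2 ↔ (a : ℕ) ≠ 2 := by decide
  have d0 : ∀ a : Fin 3, a ≠ 0 ↔ (a : ℕ) ≠ 0 := by decide
  have hterm : ∀ x : Site N,
      dg (decode N i x) (decode N i (nxt x)) * u c (decode N i)
        + (if decode N i x ≠ 2 ∧ decode N i (nxt x) ≠ 0 then
            u (if isWrap x then c - 1 else c) (upd (decode N i) x (nxt x)) else 0)
        + (if decode N i x ≠ 0 ∧ decode N i (nxt x) ≠ 2 then
            u (if isWrap x then c + 1 else c) (upd (decode N i) (nxt x) x) else 0)
      = (fun p => dgn (dig i p) (dig i ((p + 1) % (2 * N))) * u c (decode N i)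
        + (if dig i p ≠ 2 ∧ dig i ((p + 1) % (2 * N)) ≠ 0 then
            u (if p = 2 * N - 1 then c - 1 else c)
              (decode N (i + 3 ^ p - 3 ^ ((p + 1) % (2 * N)))) else 0)
        + (if dig i p ≠ 0 ∧ dig i ((p + 1) % (2 * N)) ≠ 2 then
            u (if p = 2 * N - 1 then c + 1 else c)
              (decode N (i + 3 ^ ((p + 1) % (2 * N)) - 3 ^ p)) else 0)) (ps x) := by
    intro x
    have hw : (if isWrap x then c - 1 else c) = (if ps x = 2 * N - 1 then c - 1 else c) := by
      simp only [wrap_iff]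
    have hw' : (if isWrap x then c + 1 else c) = (if ps x = 2 * N - 1 then c + 1 else c) := by
      simp only [wrap_iff]
    simp only [d1, d2, d0, decode_val, hw, hw', ps_nxt]
    congr 1
    · congr 1
      refine if_congr_then ?_
      intro h
      rw [decode_move hi (hne x) h.1 (by rw [ps_nxt]; exact h.2), ps_nxt]
    · refine if_congr_then ?_
      intro h
      rw [decode_move hi (hne x).symm (by rw [ps_nxt]; exact h.2) h.1, ps_nxt]
  unfold stepN
  rw [Finset.sum_congr rfl fun x _ => hterm x, sum_ps (fun p =>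
    dgn (dig i p) (dig i ((p + 1) % (2 * N))) * u c (decode N i)
        + (if dig i p ≠ 2 ∧ dig i ((p + 1) % (2 * N)) ≠ 0 then
            u (if p = 2 * N - 1 then c - 1 else c)
              (decode N (i + 3 ^ p - 3 ^ ((p + 1) % (2 * N)))) else 0)
        + (if dig i p ≠ 0 ∧ dig i ((p + 1) % (2 * N)) ≠ 2 then
            u (if p = 2 * N - 1 then c + 1 else c)
              (decode N (i + 3 ^ ((p + 1) % (2 * N)) - 3 ^ p)) else 0))]
  have hM : 2 * N = (2 * N - 1) + 1 := by omega
  have hs := split_sum (M := 2 * N - 1) (by omega) i (u c (decode N i))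
    (fun a => u c (decode N a)) (fun a => u (c - 1) (decode N a)) (fun a => u (c + 1) (decode N a))
  rw [← hM] at hs
  rw [← hs]
  refine Finset.sum_congr rfl fun p _ => ?_
  congr 1
  · congr 1
    refine if_congr_then fun _ => ?_
    split_ifs <;> rfl
  · refine if_congr_then fun _ => ?_
    split_ifs <;> rfl

theorem spR_mem (hN : 2 ≤ N) {i a : ℕ} (hi : i < 3 ^ (2 * N)) (ha : a ∈ spR (2 * N) i) :
    a < 3 ^ (2 * N) ∧ digsum (2 * N) a = digsum (2 * N) i := by
  unfold spR at ha
  rw [List.mem_flatMap] at ha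
  obtain ⟨x, hx, ha⟩ := ha
  rw [List.mem_range] at hx
  rw [List.mem_append] at ha
  rcases ha with ha | ha
  · split_ifs at ha with h
    · rw [List.mem_singleton] at ha
      rw [ha]
      exact move_mem hi (by omega) (by omega) (by omega) h.1 h.2
    · exact absurd ha List.not_mem_nil
  · split_ifs at ha with h
    · rw [List.mem_singleton] at ha
      rw [ha]
      exact move_mem hi (by omega) (by omega) (by omega) h.2 h.1
    · exact absurd ha List.not_mem_nil

theorem spU_mem (hN : 2 ≤ N) {i a : ℕ} (hi : i < 3 ^ (2 * N)) (ha : a ∈ spU (2 * N) i) :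
    a < 3 ^ (2 * N) ∧ digsum (2 * N) a = digsum (2 * N) i := by
  unfold spU at ha
  split_ifs at ha with h
  · rw [List.mem_singleton] at ha
    rw [ha]
    have h1 := move_mem (x := 2 * N - 1) (y := 0) hi (by omega) (by omega) (by omega) h.1 h.2
    rw [pow_zero] at h1
    exact h1
  · exact absurd ha List.not_mem_nil

theorem spN_mem (hN : 2 ≤ N) {i a : ℕ} (hi : i < 3 ^ (2 * N)) (ha : a ∈ spN (2 * N) i) :
    a < 3 ^ (2 * N) ∧ digsum (2 * N) a = digsum (2 * N) i := by
  unfold spN at ha
  split_ifs at ha with h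
  · rw [List.mem_singleton] at ha
    rw [ha]
    have h1 := move_mem (x := 0) (y := 2 * N - 1) hi (by omega) (by omega) (by omega) h.2 h.1
    rw [pow_zero] at h1
    exact h1
  · exact absurd ha List.not_mem_nil

theorem flip_decode {i : ℕ} (hi : i < 3 ^ (2 * N)) :
    flipc (decode N i) = decode N (3 ^ (2 * N) - 1 - i) := by
  have h1 : ∀ L : ℕ, enc L (fun p => 2 - dig i p) + enc L (dig i) + 1 = 3 ^ L := by
    intro L
    induction L with
    | zero => simp [enc]
    | succ L ih =>
        simp only [enc, pow_succ]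
        have h2 := dig_lt i L
        have h3 : (2 - dig i L) * 3 ^ L + dig i L * 3 ^ L = 2 * 3 ^ L := by
          rw [← add_mul]
          congr 1
          omega
        omega
  have h2 := h1 (2 * N)
  rw [enc_dig _ i hi] at h2
  have h3 : 3 ^ (2 * N) - 1 - i = enc (2 * N) (fun p => 2 - dig i p) := by omega
  rw [h3]
  funext x
  apply Fin.ext
  have h4 : ∀ y : Fin 3, ((2 - y : Fin 3) : ℕ) = 2 - (y : ℕ) := by decide
  unfold flipc
  rw [h4, decode_val, decode_val]
  exact (dig_enc _ (fun p => 2 - dig i p)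
    (fun p => lt_of_le_of_lt (Nat.sub_le _ _) (by norm_num)) _ (ps_lt x)).symm

/-- the sum of the labels of a configuration is the digit sum of its code -/
theorem sum_labels (i : ℕ) : ∑ x : Site N, ((decode N i x : Fin 3) : ℕ) = digsum (2 * N) i := by
  rw [digsum_eq, ← sum_ps]
  exact Finset.sum_congr rfl fun x _ => decode_val i x

end P348
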