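import Vale.Agent.Lib.P348.KT1
import Vale.Agent.Lib.P348.KT2

/-!
# P348 (K), module KG: groups of start configurations (definitions)
-/

namespace P348

/-- number of (weighted) paths of length k from the configuration with code s to the one with code t
with winding number c modulo C -/
def cnt (N : ℕ) [NeZero N] (C k s t c : ℕ) : ℕ :=
  ((stepN N C)^[k] (ini C (decode N s))) (c : ZMod C) (decode N t)

/-- weighted counts of closed paths of a group of start configurations -/
def GrpOK (N : ℕ) [NeZero N] (C : ℕ) (cols : List (ℕ × ℕ)) (out : List (List ℕ)) : Prop :=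
  ∀ k, k < out.length → ∀ c, c < C →
    (cols.map fun r => r.2 * cnt N C k r.1 r.1 c).sum = (out.getD k []).getD c 0

/-- weighted counts of paths from a configuration to the flipped configuration -/
def GrpFlip (N : ℕ) [NeZero N] (C : ℕ) (cols : List (ℕ × ℕ)) (out : List (List ℕ)) : Prop :=
  ∀ k, k < out.length → ∀ c, c < C →
    (cols.map fun r => r.2 * cnt N C k r.1 (3 ^ (2 * N) - 1 - r.1) c).sum
      = (out.getD k []).getD c 0

/-- the digit sum is conserved -/
theorem cnt_sector (N : ℕ) [NeZero N] (hN : 2 ≤ N) (C k s t c : ℕ) (hs : s < 3 ^ (2 * N))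
    (ht : t < 3 ^ (2 * N)) (h : digsum (2 * N) s ≠ digsum (2 * N) t) : cnt N C k s t c = 0 := by
  unfold cnt
  have key : ∀ k (c : ZMod C) t, t < 3 ^ (2 * N) → digsum (2 * N) s ≠ digsum (2 * N) t →
      ((stepN N C)^[k] (ini C (decode N s))) c (decode N t) = 0 := by
    intro k
    induction k with
    | zero =>
      intro c t ht h
      simp only [Function.iterate_zero, id_eq, ini]
      rw [if_neg]
      rintro ⟨_, h2⟩
      exact h (by rw [decode_inj ht hs h2])
    | succ k ih =>
      intro c t ht h
      rw [Function.iterate_succ_apply', step_decode hN C _ c ht, ih c t ht h]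
      have h1 : ((spR (2 * N) t).map fun a =>
          ((stepN N C)^[k] (ini C (decode N s))) c (decode N a)).sum = 0 := by
        apply List.sum_eq_zero
        intro x hx
        obtain ⟨a, ha, rfl⟩ := List.mem_map.mp hx
        obtain ⟨h2, h3⟩ := spR_mem hN ht ha
        exact ih c a h2 (by rw [h3]; exact h)
      have h4 : ((spU (2 * N) t).map fun a =>
          ((stepN N C)^[k] (ini C (decode N s))) (c - 1) (decode N a)).sum = 0 := by
        apply List.sum_eq_zero
        intro x hx
        obtain ⟨a, ha, rfl⟩ := List.mem_map.mp hx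
        obtain ⟨h2, h3⟩ := spU_mem hN ht ha
        exact ih (c - 1) a h2 (by rw [h3]; exact h)
      have h5 : ((spN (2 * N) t).map fun a =>
          ((stepN N C)^[k] (ini C (decode N s))) (c + 1) (decode N a)).sum = 0 := by
        apply List.sum_eq_zero
        intro x hx
        obtain ⟨a, ha, rfl⟩ := List.mem_map.mp hx
        obtain ⟨h2, h3⟩ := spN_mem hN ht ha
        exact ih (c + 1) a h2 (by rw [h3]; exact h)
      rw [h1, h4, h5, Nat.mul_zero]
  exact key k c t ht h

end P348
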