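import Vale.Agent.Lib.P348.KC

/-!
# P348 (K): winding resolved path counting (definitions)

`stepN N C u` is the shifted Hamiltonian acting on functions `u c t`, `c : ZMod C` counting the
winding of the twisted bond, `t : Cfg N`; all coefficients are natural numbers.
Configurations are coded by numbers `i < 3^(2N)`, digit `dig i p` at position `p`.
-/

namespace P348

/-- one application of the shifted Hamiltonian, winding number modulo C -/
def stepN (N : ℕ) [NeZero N] (C : ℕ) (u : ZMod C → Cfg N → ℕ) : ZMod C → Cfg N → ℕ := fun c t =>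
  ∑ x : Site N, (dg (t x) (t (nxt x)) * u c t
    + (if t x ≠ 2 ∧ t (nxt x) ≠ 0 then
        u (if isWrap x then c - 1 else c) (upd t x (nxt x)) else 0)
    + (if t x ≠ 0 ∧ t (nxt x) ≠ 2 then
        u (if isWrap x then c + 1 else c) (upd t (nxt x) x) else 0))

/-- start at the configuration s -/
def ini {N : ℕ} (C : ℕ) (s : Cfg N) : ZMod C → Cfg N → ℕ := fun c t =>
  if c = 0 ∧ t = s then 1 else 0

/-- several start configurations packed with digits of w bits -/
def pini {N : ℕ} (C w : ℕ) : List (Cfg N) → ZMod C → Cfg N → ℕ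
  | [], _, _ => 0
  | s :: ss, c, t => ini C s c t + 2 ^ w * pini C w ss c t

/-- sum of the first L ternary digits -/
def digsum (L i : ℕ) : ℕ := ((List.range L).map (dig i)).sum

/-- diagonal entry of the shifted bond term (numbers) -/
def dgn (a b : ℕ) : ℕ := if a = 1 ∨ b = 1 then 1 else if a = b then 2 else 0

/-- diagonal entry of the shifted Hamiltonian -/
def spD (L i : ℕ) : ℕ := ((List.range L).map fun x => dgn (dig i x) (dig i ((x + 1) % L))).sum

/-- neighbours through the untwisted bonds -/
def spR (L i : ℕ) : List ℕ := (List.range (L - 1)).flatMap fun x =>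
  (if dig i x ≠ 2 ∧ dig i (x + 1) ≠ 0 then [i + 3 ^ x - 3 ^ (x + 1)] else []) ++
  (if dig i x ≠ 0 ∧ dig i (x + 1) ≠ 2 then [i + 3 ^ (x + 1) - 3 ^ x] else [])

/-- neighbour through the twisted bond, label of the last site increased -/
def spU (L i : ℕ) : List ℕ :=
  if dig i (L - 1) ≠ 2 ∧ dig i 0 ≠ 0 then [i + 3 ^ (L - 1) - 1] else []

/-- neighbour through the twisted bond, label of the last site decreased -/
def spN (L i : ℕ) : List ℕ :=
  if dig i (L - 1) ≠ 0 ∧ dig i 0 ≠ 2 then [i + 1 - 3 ^ (L - 1)] else []

end P348
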