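import Mathlib.Data.ZMod.Basic
import Vale.Agent.Lib.P348.KT0

/-!
# P348 (K), module KT1: Fourier transform in the winding number, packing of start vectors

* `fourier`: induction on k, both sides are linear; `∑_c ζ^c u (c - 1) = ζ ∑_c ζ^c u c` as `ζ^C = 1`.
* `digit_eq`: `stepN` is linear over ℕ, so `stepN^[k] (pini C w ss) = ∑_j 2^(w j) stepN^[k] (ini C ss_j)`,
  and every entry of `stepN^[k] (ini C s)` is `≤ 16^k * 2^N < 2^w`.  The bound: let
  `h t = 2 ^ (#{x | t x = 1} / 2)` (natural number); for every bond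
  `dg a b * h t + (moves) = 2 h t` (9 cases), so `∑_c stepN u c t ≤ 4 N A h t` if
  `∑_c u c t ≤ A h t`, which gives `∑_c (stepN^[k] (ini C s)) c t ≤ (4N)^k h t ≤ 16^k 2^N`.
  Then extract base `2^w` digits by induction on the list.
-/

namespace P348

variable {N : ℕ} [NeZero N]

private lemma kt1_pow_mod (C : ℕ) (ζ : ℂ) (hζ : ζ ^ C = 1) (n : ℕ) : ζ ^ (n % C) = ζ ^ n := by
  conv_rhs => rw [← Nat.div_add_mod n C]
  rw [pow_add, pow_mul, hζ, one_pow, one_mul]

private lemma kt1_pow_succ (C : ℕ) [NeZero C] (ζ : ℂ) (hζ : ζ ^ C = 1) (c : ZMod C) :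
    ζ ^ (c + 1).val = ζ * ζ ^ c.val := by
  rw [ZMod.val_add, kt1_pow_mod C ζ hζ, pow_add, ZMod.val_one_eq_one_mod, kt1_pow_mod C ζ hζ,
    pow_one, mul_comm]

private lemma kt1_sum_sub (C : ℕ) [NeZero C] (ζ : ℂ) (hζ : ζ ^ C = 1) (f : ZMod C → ℂ) :
    ∑ c : ZMod C, ζ ^ c.val * f (c - 1) = ζ * ∑ c : ZMod C, ζ ^ c.val * f c := by
  rw [Finset.mul_sum, ← Equiv.sum_comp (Equiv.addRight (1 : ZMod C))]
  apply Finset.sum_congr rfl
  intro c _
  simp only [Equiv.coe_addRight, add_sub_cancel_right]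
  rw [kt1_pow_succ C ζ hζ]; ring

private lemma kt1_sum_add (C : ℕ) [NeZero C] (ζ : ℂ) (hζ : ζ ^ C = 1) (f : ZMod C → ℂ) :
    ∑ c : ZMod C, ζ ^ c.val * f (c + 1) = ζ⁻¹ * ∑ c : ZMod C, ζ ^ c.val * f c := by
  have hz : ζ ≠ 0 := by
    intro h
    rw [h, zero_pow (NeZero.ne C)] at hζ
    exact zero_ne_one hζ
  have h := kt1_sum_sub C ζ hζ (fun c => f (c + 1))
  simp only [sub_add_cancel] at h
  rw [h, ← mul_assoc, inv_mul_cancel₀ hz, one_mul]

private noncomputable def kt1F (C : ℕ) [NeZero C] (ζ : ℂ) (u : ZMod C → Cfg N → ℕ) : Cfg N → ℂ :=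
  fun t => ∑ c : ZMod C, ζ ^ c.val * ((u c t : ℕ) : ℂ)

private lemma kt1_step (C : ℕ) [NeZero C] (ζ : ℂ) (hζ : ζ ^ C = 1) (u : ZMod C → Cfg N → ℕ) :
    kt1F C ζ (stepN N C u) = act N ζ (kt1F C ζ u) := by
  funext t
  simp only [kt1F, stepN, act]
  simp only [Nat.cast_sum, Nat.cast_add, Nat.cast_mul, Finset.mul_sum]
  rw [Finset.sum_comm]
  apply Finset.sum_congr rfl
  intro x _
  simp only [mul_add, Finset.sum_add_distrib]
  congr 1
  · congr 1
    · apply Finset.sum_congr rfl
      intro c _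
      ring
    · by_cases h1 : t x ≠ 2 ∧ t (nxt x) ≠ 0
      · simp only [if_pos h1]
        by_cases hw : isWrap x
        · simp only [if_pos hw]
          rw [kt1_sum_sub C ζ hζ (fun c => ((u c (upd t x (nxt x)) : ℕ) : ℂ)), Finset.mul_sum]
        · simp only [if_neg hw, one_mul]
      · simp only [if_neg h1, Nat.cast_zero, mul_zero, Finset.sum_const_zero]
  · by_cases h1 : t x ≠ 0 ∧ t (nxt x) ≠ 2
    · simp only [if_pos h1]
      by_cases hw : isWrap x
      · simp only [if_pos hw]
        rw [kt1_sum_add C ζ hζ (fun c => ((u c (upd t (nxt x) x) : ℕ) : ℂ)), Finset.mul_sum]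
      · simp only [if_neg hw, one_mul]
    · simp only [if_neg h1, Nat.cast_zero, mul_zero, Finset.sum_const_zero]

private lemma kt1_ini (C : ℕ) [NeZero C] (ζ : ℂ) (s : Cfg N) :
    kt1F C ζ (ini C s) = Pi.single s 1 := by
  funext t
  simp only [kt1F, ini]
  rw [Finset.sum_eq_single 0]
  · by_cases h : t = s
    · subst h
      simp
    · simp [h]
  · intro c _ hc
    simp [hc]
  · intro h
    exact absurd (Finset.mem_univ _) h

theorem fourier (hN : 2 ≤ N) (C : ℕ) [NeZero C] (ζ : ℂ) (hζ : ζ ^ C = 1) (k : ℕ) (s t : Cfg N) :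
    ((act N ζ)^[k] (Pi.single s 1)) t
      = ∑ c : ZMod C, ζ ^ c.val * ((((stepN N C)^[k] (ini C s)) c t : ℕ) : ℂ) := by
  have key : ∀ k : ℕ, (act N ζ)^[k] (Pi.single s 1) = kt1F C ζ ((stepN N C)^[k] (ini C s)) := by
    intro k
    induction k with
    | zero => simp only [Function.iterate_zero, id_eq]; exact (kt1_ini C ζ s).symm
    | succ k ih =>
      rw [Function.iterate_succ_apply', Function.iterate_succ_apply', ih, kt1_step C ζ hζ]
  rw [key k]
  rfl

/-! ### the bound -/

private def kt1o (t : Cfg N) : ℕ := ∑ z : Site N, if t z = 1 then 1 else 0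

private def kt1h (t : Cfg N) : ℕ := 2 ^ (kt1o t / 2)

private lemma kt1_nxt_ne (x : Site N) : nxt x ≠ x := by
  intro h
  have h2 := congrArg Prod.snd h
  unfold nxt at h2
  by_cases hx : x.2 = true
  · simp [hx] at h2
  · simp [hx] at h2

private lemma kt1_o_split (t : Cfg N) (x y : Site N) (hxy : y ≠ x) :
    ∃ R : ℕ, kt1o t = (if t x = 1 then 1 else 0) + (if t y = 1 then 1 else 0) + R ∧
      kt1o (upd t x y) = (if t x + 1 = 1 then 1 else 0) + (if t y - 1 = 1 then 1 else 0) + R ∧
      kt1o (upd t y x) = (if t x - 1 = 1 then 1 else 0) + (if t y + 1 = 1 then 1 else 0) + R := by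
  have hs : ∀ f : Site N → ℕ, ∑ z, f z = f x + f y + ∑ z ∈ (Finset.univ.erase x).erase y, f z := by
    intro f
    rw [← Finset.add_sum_erase Finset.univ f (Finset.mem_univ x),
      ← Finset.add_sum_erase (Finset.univ.erase x) f
        (Finset.mem_erase.mpr ⟨hxy, Finset.mem_univ y⟩), add_assoc]
  refine ⟨∑ z ∈ (Finset.univ.erase x).erase y, if t z = 1 then 1 else 0, ?_, ?_, ?_⟩
  · exact hs _
  · unfold kt1o
    rw [hs]
    congr 1
    · simp [upd, hxy, hxy.symm]
    · apply Finset.sum_congr rfl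
      intro z hz
      have hz1 : z ≠ y := (Finset.mem_erase.mp hz).1
      have hz2 : z ≠ x := (Finset.mem_erase.mp (Finset.mem_erase.mp hz).2).1
      simp [upd, hz1, hz2]
  · unfold kt1o
    rw [hs]
    congr 1
    · simp [upd, hxy, hxy.symm]
    · apply Finset.sum_congr rfl
      intro z hz
      have hz1 : z ≠ y := (Finset.mem_erase.mp hz).1
      have hz2 : z ≠ x := (Finset.mem_erase.mp (Finset.mem_erase.mp hz).2).1
      simp [upd, hz1, hz2]

private lemma kt1_bond (t : Cfg N) (x y : Site N) (hxy : y ≠ x) :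
    dg (t x) (t y) * kt1h t + (if t x ≠ 2 ∧ t y ≠ 0 then kt1h (upd t x y) else 0)
      + (if t x ≠ 0 ∧ t y ≠ 2 then kt1h (upd t y x) else 0) = 2 * kt1h t := by
  obtain ⟨R, h0, h1, h2⟩ := kt1_o_split t x y hxy
  unfold kt1h
  rw [h0, h1, h2]
  generalize t x = a
  generalize t y = b
  have e0 : (0 + 0 + R) / 2 = R / 2 := by omega
  have e1 : (1 + 0 + R) / 2 = (1 + R) / 2 := by omega
  have e2 : (0 + 1 + R) / 2 = (1 + R) / 2 := by omega
  have e3 : (1 + 1 + R) / 2 = R / 2 + 1 := by omega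
  fin_cases a <;> fin_cases b <;> simp [dg, e3, pow_succ] <;> ring

private lemma kt1_o_le (t : Cfg N) : kt1o t ≤ 2 * N := by
  unfold kt1o
  calc ∑ z : Site N, (if t z = 1 then 1 else 0) ≤ ∑ _z : Site N, 1 :=
        Finset.sum_le_sum (fun z _ => by split_ifs <;> simp)
    _ = 2 * N := by simp [mul_comm]

private lemma kt1_h_le (t : Cfg N) : kt1h t ≤ 2 ^ N :=
  Nat.pow_le_pow_right (by norm_num) (by have := kt1_o_le t; omega)

private lemma kt1_sum_step (C : ℕ) [NeZero C] (u : ZMod C → Cfg N → ℕ) (t : Cfg N) :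
    ∑ c, stepN N C u c t = ∑ x : Site N, (dg (t x) (t (nxt x)) * ∑ c, u c t
      + (if t x ≠ 2 ∧ t (nxt x) ≠ 0 then ∑ c, u c (upd t x (nxt x)) else 0)
      + (if t x ≠ 0 ∧ t (nxt x) ≠ 2 then ∑ c, u c (upd t (nxt x) x) else 0)) := by
  simp only [stepN]
  rw [Finset.sum_comm]
  apply Finset.sum_congr rfl
  intro x _
  simp only [Finset.sum_add_distrib]
  congr 1
  · congr 1
    · rw [Finset.mul_sum]
    · by_cases h1 : t x ≠ 2 ∧ t (nxt x) ≠ 0
      · simp only [if_pos h1]
        by_cases hw : isWrap x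
        · simp only [if_pos hw]
          exact Equiv.sum_comp (Equiv.subRight (1 : ZMod C)) (fun c => u c (upd t x (nxt x)))
        · simp only [if_neg hw]
      · simp only [if_neg h1, Finset.sum_const_zero]
  · by_cases h1 : t x ≠ 0 ∧ t (nxt x) ≠ 2
    · simp only [if_pos h1]
      by_cases hw : isWrap x
      · simp only [if_pos hw]
        exact Equiv.sum_comp (Equiv.addRight (1 : ZMod C)) (fun c => u c (upd t (nxt x) x))
      · simp only [if_neg hw]
    · simp only [if_neg h1, Finset.sum_const_zero]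

private lemma kt1_bstep (C : ℕ) [NeZero C] (u : ZMod C → Cfg N → ℕ) (A : ℕ)
    (hu : ∀ t, ∑ c, u c t ≤ A * kt1h t) (t : Cfg N) :
    ∑ c, stepN N C u c t ≤ (4 * N * A) * kt1h t := by
  rw [kt1_sum_step]
  calc _ ≤ ∑ _x : Site N, A * (2 * kt1h t) := by
        apply Finset.sum_le_sum
        intro x _
        rw [← kt1_bond t x (nxt x) (kt1_nxt_ne x), mul_add, mul_add]
        refine add_le_add (add_le_add ?_ ?_) ?_
        · calc dg (t x) (t (nxt x)) * ∑ c, u c t
              ≤ dg (t x) (t (nxt x)) * (A * kt1h t) := Nat.mul_le_mul_left _ (hu t)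
            _ = A * (dg (t x) (t (nxt x)) * kt1h t) := by ring
        · split_ifs
          · exact hu _
          · simp
        · split_ifs
          · exact hu _
          · simp
    _ = (4 * N * A) * kt1h t := by
        simp only [Finset.sum_const, Finset.card_univ, Fintype.card_prod, Fintype.card_fin,
          Fintype.card_bool, smul_eq_mul]
        ring

private lemma kt1_bound (hN4 : N ≤ 4) (C : ℕ) [NeZero C] (s : Cfg N) (k : ℕ) (t : Cfg N) :
    ∑ c, ((stepN N C)^[k] (ini C s)) c t ≤ 16 ^ k * kt1h t := by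
  induction k generalizing t with
  | zero =>
    have h1 : ∑ c, ini C s c t ≤ 1 := by
      simp only [ini]
      rw [Finset.sum_eq_single (0 : ZMod C)]
      · split_ifs <;> simp
      · intro c _ hc
        simp [hc]
      · intro h
        exact absurd (Finset.mem_univ _) h
    have h2 : 1 ≤ kt1h t := Nat.one_le_two_pow
    simp only [Function.iterate_zero, id_eq, pow_zero, one_mul]
    exact h1.trans h2
  | succ k ih =>
    rw [Function.iterate_succ_apply']
    refine (kt1_bstep C _ _ ih t).trans ?_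
    apply Nat.mul_le_mul_right
    rw [pow_succ, mul_comm (16 ^ k) 16]
    apply Nat.mul_le_mul_right
    omega

private lemma kt1_entry (hN4 : N ≤ 4) (C : ℕ) [NeZero C] (s : Cfg N) (k w : ℕ)
    (hw : 4 * k + N < w) (c : ZMod C) (t : Cfg N) :
    ((stepN N C)^[k] (ini C s)) c t < 2 ^ w := by
  calc ((stepN N C)^[k] (ini C s)) c t
      ≤ ∑ c, ((stepN N C)^[k] (ini C s)) c t :=
        Finset.single_le_sum (f := fun c => ((stepN N C)^[k] (ini C s)) c t)
          (fun _ _ => Nat.zero_le _) (Finset.mem_univ c)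
    _ ≤ 16 ^ k * kt1h t := kt1_bound hN4 C s k t
    _ ≤ 16 ^ k * 2 ^ N := Nat.mul_le_mul_left _ (kt1_h_le t)
    _ = 2 ^ (4 * k + N) := by
        rw [pow_add, pow_mul]; norm_num
    _ < 2 ^ w := Nat.pow_lt_pow_right (by norm_num) hw

private lemma kt1_lin (C m : ℕ) (u v : ZMod C → Cfg N → ℕ) :
    stepN N C (fun c t => u c t + m * v c t)
      = fun c t => stepN N C u c t + m * stepN N C v c t := by
  funext c t
  simp only [stepN, Finset.mul_sum, ← Finset.sum_add_distrib]
  apply Finset.sum_congr rfl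
  intro x _
  by_cases h1 : t x ≠ 2 ∧ t (nxt x) ≠ 0
  · by_cases h2 : t x ≠ 0 ∧ t (nxt x) ≠ 2
    · simp only [if_pos h1, if_pos h2]
      ring
    · simp only [if_pos h1, if_neg h2]
      ring
  · by_cases h2 : t x ≠ 0 ∧ t (nxt x) ≠ 2
    · simp only [if_neg h1, if_pos h2]
      ring
    · simp only [if_neg h1, if_neg h2]
      ring

private lemma kt1_lin_iter (C m : ℕ) (u v : ZMod C → Cfg N → ℕ) (k : ℕ) :
    (stepN N C)^[k] (fun c t => u c t + m * v c t)
      = fun c t => ((stepN N C)^[k] u) c t + m * ((stepN N C)^[k] v) c t := by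
  induction k with
  | zero => rfl
  | succ k ih =>
    rw [Function.iterate_succ_apply', ih, kt1_lin, Function.iterate_succ_apply',
      Function.iterate_succ_apply']

theorem digit_eq (hN : 2 ≤ N) (hN4 : N ≤ 4) (C : ℕ) [NeZero C] (w : ℕ) (ss : List (Cfg N)) (k : ℕ)
    (hw : 4 * k + N < w) (j : ℕ) (hj : j < ss.length) (c : ZMod C) (t : Cfg N) :
    ((stepN N C)^[k] (pini C w ss)) c t / 2 ^ (w * j) % 2 ^ w
      = ((stepN N C)^[k] (ini C ss[j])) c t := by
  induction ss generalizing j with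
  | nil => simp at hj
  | cons s ss ih =>
    have e : ((stepN N C)^[k] (pini C w (s :: ss))) c t
        = ((stepN N C)^[k] (ini C s)) c t + 2 ^ w * ((stepN N C)^[k] (pini C w ss)) c t :=
      congrFun (congrFun (kt1_lin_iter C (2 ^ w) (ini C s) (pini C w ss) k) c) t
    have hE := kt1_entry hN4 C s k w hw c t
    rw [e]
    cases j with
    | zero =>
      simp only [mul_zero, pow_zero, Nat.div_one, List.getElem_cons_zero, Nat.add_mul_mod_self_left]
      exact Nat.mod_eq_of_lt hE
    | succ j =>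
      rw [mul_add, mul_one, add_comm (w * j) w, pow_add, ← Nat.div_div_eq_div_mul,
        Nat.add_mul_div_left _ _ (by positivity), Nat.div_eq_of_lt hE, zero_add]
      simp only [List.getElem_cons_succ]
      exact ih j (by simpa using hj)

/-- the packed value of the winding number c fits into `w * length` bits -/
theorem pack_lt (hN4 : N ≤ 4) (C : ℕ) [NeZero C] (w : ℕ) (ss : List (Cfg N)) (k : ℕ)
    (hw : 4 * k + N < w) (c : ZMod C) (t : Cfg N) :
    ((stepN N C)^[k] (pini C w ss)) c t < 2 ^ (w * ss.length) := by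
  induction ss with
  | nil =>
    have h0 : ∀ k, (stepN N C)^[k] (pini C w ([] : List (Cfg N))) = fun _ _ => 0 := by
      intro k
      induction k with
      | zero => rfl
      | succ k ih =>
        rw [Function.iterate_succ_apply', ih]
        funext c t
        simp [stepN]
    rw [h0 k]
    positivity
  | cons s ss ih =>
    have e : ((stepN N C)^[k] (pini C w (s :: ss))) c t
        = ((stepN N C)^[k] (ini C s)) c t + 2 ^ w * ((stepN N C)^[k] (pini C w ss)) c t :=
      congrFun (congrFun (kt1_lin_iter C (2 ^ w) (ini C s) (pini C w ss) k) c) t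
    have hE := kt1_entry hN4 C s k w hw c t
    rw [e, List.length_cons, mul_add, mul_one, add_comm (w * ss.length) w, pow_add]
    calc _ < 2 ^ w + 2 ^ w * ((stepN N C)^[k] (pini C w ss)) c t := by omega
      _ = 2 ^ w * (((stepN N C)^[k] (pini C w ss)) c t + 1) := by ring
      _ ≤ 2 ^ w * 2 ^ (w * ss.length) := Nat.mul_le_mul_left _ ih

end P348
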