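import Vale.Agent.Lib.P348.KG
import Vale.Agent.Lib.P348.KEv

/-!
# P348 (K), module KT3: check of the tables
-/

namespace P348

noncomputable section

/-- the row of the code i is the one of the Hamiltonian -/
def rowChk (L i : Nat) (x : RD) : Bool :=
  Nat.beq x.i i && Nat.beq x.d (spD L i) && lbeq x.r (spR L i) && lbeq x.u (spU L i)
    && lbeq x.n (spN L i)

/-- check all rows `lo ≤ i < lo + 2^d` with `i < 3^L` and digit sum sig -/
def tabChk (L sig : Nat) (t : Trie) : Nat → Nat → Bool
  | 0, lo => if Nat.ble (3 ^ L) lo then true else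
      if Nat.beq (digsum L lo) sig then rowChk L lo (rdat (t.get lo)) else true
  | d + 1, lo => tabChk L sig t d lo && tabChk L sig t d (lo + 2 ^ d)

end

end P348
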