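import Vale.Agent.Lib.P348.KEv

/-!
# P348 (K): the rows of the Hamiltonian, ring of length 8, one table for each digit sum (data)
-/

set_option maxRecDepth 10000

namespace P348

def tab4_8 : Trie :=
 (.n (nat_lit 3278)
 (.n (nat_lit 1774)
 (.n (nat_lit 1102)
 (.n (nat_lit 636)
 (.n (nat_lit 446)
 (.n (nat_lit 314)
 (.n (nat_lit 212)
 (.n (nat_lit 158)
 (.n (nat_lit 134)
 (.n (nat_lit 80)
 (.l (.k1_1 (nat_lit 12) (nat_lit 80) (nat_lit 134) (nat_lit 2266)))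
 (.l (.k1_4 (nat_lit 11) (nat_lit 134) (nat_lit 152) (nat_lit 80) (nat_lit 188) (nat_lit 296) (nat_lit 2320))))
 (.n (nat_lit 152)
 (.l (.k1_4 (nat_lit 10) (nat_lit 152) (nat_lit 158) (nat_lit 134) (nat_lit 206) (nat_lit 314) (nat_lit 2338)))
 (.l (.k1_4 (nat_lit 10) (nat_lit 158) (nat_lit 160) (nat_lit 152) (nat_lit 212) (nat_lit 320) (nat_lit 2344)))))
 (.n (nat_lit 188)
 (.n (nat_lit 160)
 (.l (.k1_3 (nat_lit 12) (nat_lit 160) (nat_lit 158) (nat_lit 214) (nat_lit 322) (nat_lit 2346)))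
 (.l (.k1_3 (nat_lit 8) (nat_lit 188) (nat_lit 206) (nat_lit 134) (nat_lit 350) (nat_lit 2374))))
 (.n (nat_lit 206)
 (.l (.k1_5 (nat_lit 9) (nat_lit 206) (nat_lit 212) (nat_lit 188) (nat_lit 224) (nat_lit 152) (nat_lit 368) (nat_lit 2392)))
 (.l (.k1_5 (nat_lit 8) (nat_lit 212) (nat_lit 214) (nat_lit 206) (nat_lit 230) (nat_lit 158) (nat_lit 374) (nat_lit 2398))))))
 (.n (nat_lit 232)
 (.n (nat_lit 224)
 (.n (nat_lit 214)
 (.l (.k1_4 (nat_lit 10) (nat_lit 214) (nat_lit 212) (nat_lit 232) (nat_lit 160) (nat_lit 376) (nat_lit 2400)))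
 (.l (.k1_3 (nat_lit 8) (nat_lit 224) (nat_lit 230) (nat_lit 206) (nat_lit 386) (nat_lit 2410))))
 (.n (nat_lit 230)
 (.l (.k1_5 (nat_lit 9) (nat_lit 230) (nat_lit 232) (nat_lit 224) (nat_lit 236) (nat_lit 212) (nat_lit 392) (nat_lit 2416)))
 (.l (.k1_4 (nat_lit 10) (nat_lit 232) (nat_lit 230) (nat_lit 238) (nat_lit 214) (nat_lit 394) (nat_lit 2418)))))
 (.n (nat_lit 238)
 (.n (nat_lit 236)
 (.l (.k1_3 (nat_lit 8) (nat_lit 236) (nat_lit 238) (nat_lit 230) (nat_lit 398) (nat_lit 2422)))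
 (.l (.k1_4 (nat_lit 11) (nat_lit 238) (nat_lit 236) (nat_lit 240) (nat_lit 232) (nat_lit 400) (nat_lit 2424))))
 (.n (nat_lit 240)
 (.l (.k0_2 (nat_lit 12) (nat_lit 240) (nat_lit 238) (nat_lit 402)))
 (.n (nat_lit 296)
 (.l (.k1_4 (nat_lit 10) (nat_lit 296) (nat_lit 314) (nat_lit 350) (nat_lit 134) (nat_lit 782) (nat_lit 2482)))
 (.l (.k1_5 (nat_lit 8) (nat_lit 314) (nat_lit 320) (nat_lit 296) (nat_lit 368) (nat_lit 152) (nat_lit 800) (nat_lit 2500))))))))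
 (.n (nat_lit 392)
 (.n (nat_lit 368)
 (.n (nat_lit 322)
 (.n (nat_lit 320)
 (.l (.k1_5 (nat_lit 8) (nat_lit 320) (nat_lit 322) (nat_lit 314) (nat_lit 374) (nat_lit 158) (nat_lit 806) (nat_lit 2506)))
 (.l (.k1_4 (nat_lit 10) (nat_lit 322) (nat_lit 320) (nat_lit 376) (nat_lit 160) (nat_lit 808) (nat_lit 2508))))
 (.n (nat_lit 350)
 (.l (.k1_5 (nat_lit 9) (nat_lit 350) (nat_lit 368) (nat_lit 296) (nat_lit 188) (nat_lit 512) (nat_lit 836) (nat_lit 2536)))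
 (.l (.k1_8 (nat_lit 9) (nat_lit 368) (nat_lit 374) (nat_lit 350) (nat_lit 386) (nat_lit 314) (nat_lit 422) (nat_lit 206) (nat_lit 530) (nat_lit 854) (nat_lit 2554)))))
 (.n (nat_lit 376)
 (.n (nat_lit 374)
 (.l (.k1_8 (nat_lit 8) (nat_lit 374) (nat_lit 376) (nat_lit 368) (nat_lit 392) (nat_lit 320) (nat_lit 428) (nat_lit 212) (nat_lit 536) (nat_lit 860) (nat_lit 2560)))
 (.l (.k1_7 (nat_lit 10) (nat_lit 376) (nat_lit 374) (nat_lit 394) (nat_lit 322) (nat_lit 430) (nat_lit 214) (nat_lit 538) (nat_lit 862) (nat_lit 2562))))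
 (.n (nat_lit 386)
 (.l (.k1_6 (nat_lit 7) (nat_lit 386) (nat_lit 392) (nat_lit 368) (nat_lit 440) (nat_lit 224) (nat_lit 548) (nat_lit 872) (nat_lit 2572)))
 (.l (.k1_8 (nat_lit 8) (nat_lit 392) (nat_lit 394) (nat_lit 386) (nat_lit 398) (nat_lit 374) (nat_lit 446) (nat_lit 230) (nat_lit 554) (nat_lit 878) (nat_lit 2578))))))
 (.n (nat_lit 402)
 (.n (nat_lit 398)
 (.n (nat_lit 394)
 (.l (.k1_7 (nat_lit 9) (nat_lit 394) (nat_lit 392) (nat_lit 400) (nat_lit 376) (nat_lit 448) (nat_lit 232) (nat_lit 556) (nat_lit 880) (nat_lit 2580)))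
 (.l (.k1_6 (nat_lit 7) (nat_lit 398) (nat_lit 400) (nat_lit 392) (nat_lit 452) (nat_lit 236) (nat_lit 560) (nat_lit 884) (nat_lit 2584))))
 (.n (nat_lit 400)
 (.l (.k1_7 (nat_lit 10) (nat_lit 400) (nat_lit 398) (nat_lit 402) (nat_lit 394) (nat_lit 454) (nat_lit 238) (nat_lit 562) (nat_lit 886) (nat_lit 2586)))
 (.l (.k0_5 (nat_lit 11) (nat_lit 402) (nat_lit 400) (nat_lit 456) (nat_lit 240) (nat_lit 564) (nat_lit 888)))))
 (.n (nat_lit 428)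
 (.n (nat_lit 422)
 (.l (.k1_5 (nat_lit 8) (nat_lit 422) (nat_lit 428) (nat_lit 440) (nat_lit 368) (nat_lit 584) (nat_lit 908) (nat_lit 2608)))
 (.l (.k1_6 (nat_lit 6) (nat_lit 428) (nat_lit 430) (nat_lit 422) (nat_lit 446) (nat_lit 374) (nat_lit 590) (nat_lit 914) (nat_lit 2614))))
 (.n (nat_lit 430)
 (.l (.k1_5 (nat_lit 8) (nat_lit 430) (nat_lit 428) (nat_lit 448) (nat_lit 376) (nat_lit 592) (nat_lit 916) (nat_lit 2616)))
 (.n (nat_lit 440)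
 (.l (.k1_5 (nat_lit 8) (nat_lit 440) (nat_lit 446) (nat_lit 422) (nat_lit 386) (nat_lit 602) (nat_lit 926) (nat_lit 2626)))
 (.l (.k1_8 (nat_lit 8) (nat_lit 446) (nat_lit 448) (nat_lit 440) (nat_lit 452) (nat_lit 428) (nat_lit 464) (nat_lit 392) (nat_lit 608) (nat_lit 932) (nat_lit 2632)))))))))
 (.n (nat_lit 554)
 (.n (nat_lit 472)
 (.n (nat_lit 456)
 (.n (nat_lit 452)
 (.n (nat_lit 448)
 (.l (.k1_7 (nat_lit 9) (nat_lit 448) (nat_lit 446) (nat_lit 454) (nat_lit 430) (nat_lit 466) (nat_lit 394) (nat_lit 610) (nat_lit 934) (nat_lit 2634)))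
 (.l (.k1_6 (nat_lit 6) (nat_lit 452) (nat_lit 454) (nat_lit 446) (nat_lit 470) (nat_lit 398) (nat_lit 614) (nat_lit 938) (nat_lit 2638))))
 (.n (nat_lit 454)
 (.l (.k1_7 (nat_lit 9) (nat_lit 454) (nat_lit 452) (nat_lit 456) (nat_lit 448) (nat_lit 472) (nat_lit 400) (nat_lit 616) (nat_lit 940) (nat_lit 2640)))
 (.l (.k0_5 (nat_lit 10) (nat_lit 456) (nat_lit 454) (nat_lit 474) (nat_lit 402) (nat_lit 618) (nat_lit 942)))))
 (.n (nat_lit 466)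
 (.n (nat_lit 464)
 (.l (.k1_5 (nat_lit 8) (nat_lit 464) (nat_lit 466) (nat_lit 470) (nat_lit 446) (nat_lit 626) (nat_lit 950) (nat_lit 2650)))
 (.l (.k1_5 (nat_lit 8) (nat_lit 466) (nat_lit 464) (nat_lit 472) (nat_lit 448) (nat_lit 628) (nat_lit 952) (nat_lit 2652))))
 (.n (nat_lit 470)
 (.l (.k1_5 (nat_lit 8) (nat_lit 470) (nat_lit 472) (nat_lit 464) (nat_lit 452) (nat_lit 632) (nat_lit 956) (nat_lit 2656)))
 (.l (.k1_7 (nat_lit 10) (nat_lit 472) (nat_lit 470) (nat_lit 474) (nat_lit 466) (nat_lit 478) (nat_lit 454) (nat_lit 634) (nat_lit 958) (nat_lit 2658))))))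
 (.n (nat_lit 512)
 (.n (nat_lit 478)
 (.n (nat_lit 474)
 (.l (.k0_5 (nat_lit 10) (nat_lit 474) (nat_lit 472) (nat_lit 480) (nat_lit 456) (nat_lit 636) (nat_lit 960)))
 (.l (.k1_4 (nat_lit 10) (nat_lit 478) (nat_lit 480) (nat_lit 472) (nat_lit 640) (nat_lit 964) (nat_lit 2664))))
 (.n (nat_lit 480)
 (.l (.k0_4 (nat_lit 12) (nat_lit 480) (nat_lit 478) (nat_lit 474) (nat_lit 642) (nat_lit 966)))
 (.l (.k1_3 (nat_lit 8) (nat_lit 512) (nat_lit 530) (nat_lit 350) (nat_lit 998) (nat_lit 2698)))))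
 (.n (nat_lit 536)
 (.n (nat_lit 530)
 (.l (.k1_6 (nat_lit 7) (nat_lit 530) (nat_lit 536) (nat_lit 512) (nat_lit 548) (nat_lit 584) (nat_lit 368) (nat_lit 1016) (nat_lit 2716)))
 (.l (.k1_6 (nat_lit 6) (nat_lit 536) (nat_lit 538) (nat_lit 530) (nat_lit 554) (nat_lit 590) (nat_lit 374) (nat_lit 1022) (nat_lit 2722))))
 (.n (nat_lit 538)
 (.l (.k1_5 (nat_lit 8) (nat_lit 538) (nat_lit 536) (nat_lit 556) (nat_lit 592) (nat_lit 376) (nat_lit 1024) (nat_lit 2724)))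
 (.n (nat_lit 548)
 (.l (.k1_5 (nat_lit 4) (nat_lit 548) (nat_lit 554) (nat_lit 530) (nat_lit 602) (nat_lit 386) (nat_lit 1034) (nat_lit 2734)))
 (.l (.k1_7 (nat_lit 5) (nat_lit 554) (nat_lit 556) (nat_lit 548) (nat_lit 560) (nat_lit 536) (nat_lit 608) (nat_lit 392) (nat_lit 1040) (nat_lit 2740))))))))
 (.n (nat_lit 608)
 (.n (nat_lit 564)
 (.n (nat_lit 560)
 (.n (nat_lit 556)
 (.l (.k1_6 (nat_lit 6) (nat_lit 556) (nat_lit 554) (nat_lit 562) (nat_lit 538) (nat_lit 610) (nat_lit 394) (nat_lit 1042) (nat_lit 2742)))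
 (.l (.k1_5 (nat_lit 4) (nat_lit 560) (nat_lit 562) (nat_lit 554) (nat_lit 614) (nat_lit 398) (nat_lit 1046) (nat_lit 2746))))
 (.n (nat_lit 562)
 (.l (.k1_6 (nat_lit 7) (nat_lit 562) (nat_lit 560) (nat_lit 564) (nat_lit 556) (nat_lit 616) (nat_lit 400) (nat_lit 1048) (nat_lit 2748)))
 (.l (.k0_4 (nat_lit 8) (nat_lit 564) (nat_lit 562) (nat_lit 618) (nat_lit 402) (nat_lit 1050)))))
 (.n (nat_lit 590)
 (.n (nat_lit 584)
 (.l (.k1_5 (nat_lit 8) (nat_lit 584) (nat_lit 590) (nat_lit 602) (nat_lit 530) (nat_lit 422) (nat_lit 1070) (nat_lit 2770)))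
 (.l (.k1_6 (nat_lit 6) (nat_lit 590) (nat_lit 592) (nat_lit 584) (nat_lit 608) (nat_lit 536) (nat_lit 428) (nat_lit 1076) (nat_lit 2776))))
 (.n (nat_lit 592)
 (.l (.k1_5 (nat_lit 8) (nat_lit 592) (nat_lit 590) (nat_lit 610) (nat_lit 538) (nat_lit 430) (nat_lit 1078) (nat_lit 2778)))
 (.n (nat_lit 602)
 (.l (.k1_6 (nat_lit 7) (nat_lit 602) (nat_lit 608) (nat_lit 584) (nat_lit 548) (nat_lit 656) (nat_lit 440) (nat_lit 1088) (nat_lit 2788)))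
 (.l (.k1_9 (nat_lit 7) (nat_lit 608) (nat_lit 610) (nat_lit 602) (nat_lit 614) (nat_lit 590) (nat_lit 626) (nat_lit 554) (nat_lit 662) (nat_lit 446) (nat_lit 1094) (nat_lit 2794)))))))
 (.n (nat_lit 618)
 (.n (nat_lit 614)
 (.n (nat_lit 610)
 (.l (.k1_8 (nat_lit 8) (nat_lit 610) (nat_lit 608) (nat_lit 616) (nat_lit 592) (nat_lit 628) (nat_lit 556) (nat_lit 664) (nat_lit 448) (nat_lit 1096) (nat_lit 2796)))
 (.l (.k1_7 (nat_lit 5) (nat_lit 614) (nat_lit 616) (nat_lit 608) (nat_lit 632) (nat_lit 560) (nat_lit 668) (nat_lit 452) (nat_lit 1100) (nat_lit 2800))))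
 (.n (nat_lit 616)
 (.l (.k1_8 (nat_lit 8) (nat_lit 616) (nat_lit 614) (nat_lit 618) (nat_lit 610) (nat_lit 634) (nat_lit 562) (nat_lit 670) (nat_lit 454) (nat_lit 1102) (nat_lit 2802)))
 (.l (.k0_6 (nat_lit 9) (nat_lit 618) (nat_lit 616) (nat_lit 636) (nat_lit 564) (nat_lit 672) (nat_lit 456) (nat_lit 1104)))))
 (.n (nat_lit 628)
 (.n (nat_lit 626)
 (.l (.k1_6 (nat_lit 6) (nat_lit 626) (nat_lit 628) (nat_lit 632) (nat_lit 608) (nat_lit 680) (nat_lit 464) (nat_lit 1112) (nat_lit 2812)))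
 (.l (.k1_6 (nat_lit 6) (nat_lit 628) (nat_lit 626) (nat_lit 634) (nat_lit 610) (nat_lit 682) (nat_lit 466) (nat_lit 1114) (nat_lit 2814))))
 (.n (nat_lit 632)
 (.l (.k1_6 (nat_lit 6) (nat_lit 632) (nat_lit 634) (nat_lit 626) (nat_lit 614) (nat_lit 686) (nat_lit 470) (nat_lit 1118) (nat_lit 2818)))
 (.n (nat_lit 634)
 (.l (.k1_8 (nat_lit 8) (nat_lit 634) (nat_lit 632) (nat_lit 636) (nat_lit 628) (nat_lit 640) (nat_lit 616) (nat_lit 688) (nat_lit 472) (nat_lit 1120) (nat_lit 2820)))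
 (.l (.k0_6 (nat_lit 8) (nat_lit 636) (nat_lit 634) (nat_lit 642) (nat_lit 618) (nat_lit 690) (nat_lit 474) (nat_lit 1122))))))))))
 (.n (nat_lit 886)
 (.n (nat_lit 706)
 (.n (nat_lit 672)
 (.n (nat_lit 662)
 (.n (nat_lit 642)
 (.n (nat_lit 640)
 (.l (.k1_5 (nat_lit 8) (nat_lit 640) (nat_lit 642) (nat_lit 634) (nat_lit 694) (nat_lit 478) (nat_lit 1126) (nat_lit 2826)))
 (.l (.k0_5 (nat_lit 10) (nat_lit 642) (nat_lit 640) (nat_lit 636) (nat_lit 696) (nat_lit 480) (nat_lit 1128))))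
 (.n (nat_lit 656)
 (.l (.k1_3 (nat_lit 8) (nat_lit 656) (nat_lit 662) (nat_lit 602) (nat_lit 1142) (nat_lit 2842)))
 (.l (.k1_6 (nat_lit 7) (nat_lit 662) (nat_lit 664) (nat_lit 656) (nat_lit 668) (nat_lit 680) (nat_lit 608) (nat_lit 1148) (nat_lit 2848)))))
 (.n (nat_lit 668)
 (.n (nat_lit 664)
 (.l (.k1_5 (nat_lit 8) (nat_lit 664) (nat_lit 662) (nat_lit 670) (nat_lit 682) (nat_lit 610) (nat_lit 1150) (nat_lit 2850)))
 (.l (.k1_5 (nat_lit 4) (nat_lit 668) (nat_lit 670) (nat_lit 662) (nat_lit 686) (nat_lit 614) (nat_lit 1154) (nat_lit 2854))))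
 (.n (nat_lit 670)
 (.l (.k1_6 (nat_lit 7) (nat_lit 670) (nat_lit 668) (nat_lit 672) (nat_lit 664) (nat_lit 688) (nat_lit 616) (nat_lit 1156) (nat_lit 2856)))
 (.l (.k0_4 (nat_lit 8) (nat_lit 672) (nat_lit 670) (nat_lit 690) (nat_lit 618) (nat_lit 1158))))))
 (.n (nat_lit 688)
 (.n (nat_lit 682)
 (.n (nat_lit 680)
 (.l (.k1_5 (nat_lit 8) (nat_lit 680) (nat_lit 682) (nat_lit 686) (nat_lit 662) (nat_lit 626) (nat_lit 1166) (nat_lit 2866)))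
 (.l (.k1_5 (nat_lit 8) (nat_lit 682) (nat_lit 680) (nat_lit 688) (nat_lit 664) (nat_lit 628) (nat_lit 1168) (nat_lit 2868))))
 (.n (nat_lit 686)
 (.l (.k1_6 (nat_lit 7) (nat_lit 686) (nat_lit 688) (nat_lit 680) (nat_lit 668) (nat_lit 704) (nat_lit 632) (nat_lit 1172) (nat_lit 2872)))
 (.l (.k1_8 (nat_lit 9) (nat_lit 688) (nat_lit 686) (nat_lit 690) (nat_lit 682) (nat_lit 694) (nat_lit 670) (nat_lit 706) (nat_lit 634) (nat_lit 1174) (nat_lit 2874)))))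
 (.n (nat_lit 694)
 (.n (nat_lit 690)
 (.l (.k0_6 (nat_lit 9) (nat_lit 690) (nat_lit 688) (nat_lit 696) (nat_lit 672) (nat_lit 708) (nat_lit 636) (nat_lit 1176)))
 (.l (.k1_5 (nat_lit 8) (nat_lit 694) (nat_lit 696) (nat_lit 688) (nat_lit 712) (nat_lit 640) (nat_lit 1180) (nat_lit 2880))))
 (.n (nat_lit 696)
 (.l (.k0_5 (nat_lit 10) (nat_lit 696) (nat_lit 694) (nat_lit 690) (nat_lit 714) (nat_lit 642) (nat_lit 1182)))
 (.n (nat_lit 704)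
 (.l (.k1_3 (nat_lit 8) (nat_lit 704) (nat_lit 706) (nat_lit 686) (nat_lit 1190) (nat_lit 2890)))
 (.l (.k1_5 (nat_lit 9) (nat_lit 706) (nat_lit 704) (nat_lit 708) (nat_lit 712) (nat_lit 688) (nat_lit 1192) (nat_lit 2892))))))))
 (.n (nat_lit 808)
 (.n (nat_lit 720)
 (.n (nat_lit 712)
 (.n (nat_lit 708)
 (.l (.k0_4 (nat_lit 8) (nat_lit 708) (nat_lit 706) (nat_lit 714) (nat_lit 690) (nat_lit 1194)))
 (.l (.k1_4 (nat_lit 10) (nat_lit 712) (nat_lit 714) (nat_lit 706) (nat_lit 694) (nat_lit 1198) (nat_lit 2898))))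
 (.n (nat_lit 714)
 (.l (.k0_5 (nat_lit 11) (nat_lit 714) (nat_lit 712) (nat_lit 708) (nat_lit 720) (nat_lit 696) (nat_lit 1200)))
 (.l (.k0_2 (nat_lit 12) (nat_lit 720) (nat_lit 714) (nat_lit 1206)))))
 (.n (nat_lit 800)
 (.n (nat_lit 782)
 (.l (.k1_4 (nat_lit 10) (nat_lit 782) (nat_lit 800) (nat_lit 836) (nat_lit 296) (nat_lit 2240) (nat_lit 2968)))
 (.l (.k1_5 (nat_lit 8) (nat_lit 800) (nat_lit 806) (nat_lit 782) (nat_lit 854) (nat_lit 314) (nat_lit 2258) (nat_lit 2986))))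
 (.n (nat_lit 806)
 (.l (.k1_5 (nat_lit 8) (nat_lit 806) (nat_lit 808) (nat_lit 800) (nat_lit 860) (nat_lit 320) (nat_lit 2264) (nat_lit 2992)))
 (.l (.k1_4 (nat_lit 10) (nat_lit 808) (nat_lit 806) (nat_lit 862) (nat_lit 322) (nat_lit 2266) (nat_lit 2994))))))
 (.n (nat_lit 862)
 (.n (nat_lit 854)
 (.n (nat_lit 836)
 (.l (.k1_5 (nat_lit 8) (nat_lit 836) (nat_lit 854) (nat_lit 782) (nat_lit 998) (nat_lit 350) (nat_lit 2294) (nat_lit 3022)))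
 (.l (.k1_8 (nat_lit 8) (nat_lit 854) (nat_lit 860) (nat_lit 836) (nat_lit 872) (nat_lit 800) (nat_lit 908) (nat_lit 1016) (nat_lit 368) (nat_lit 2312) (nat_lit 3040))))
 (.n (nat_lit 860)
 (.l (.k1_8 (nat_lit 7) (nat_lit 860) (nat_lit 862) (nat_lit 854) (nat_lit 878) (nat_lit 806) (nat_lit 914) (nat_lit 1022) (nat_lit 374) (nat_lit 2318) (nat_lit 3046)))
 (.l (.k1_7 (nat_lit 9) (nat_lit 862) (nat_lit 860) (nat_lit 880) (nat_lit 808) (nat_lit 916) (nat_lit 1024) (nat_lit 376) (nat_lit 2320) (nat_lit 3048)))))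
 (.n (nat_lit 878)
 (.n (nat_lit 872)
 (.l (.k1_6 (nat_lit 6) (nat_lit 872) (nat_lit 878) (nat_lit 854) (nat_lit 926) (nat_lit 1034) (nat_lit 386) (nat_lit 2330) (nat_lit 3058)))
 (.l (.k1_8 (nat_lit 7) (nat_lit 878) (nat_lit 880) (nat_lit 872) (nat_lit 884) (nat_lit 860) (nat_lit 932) (nat_lit 1040) (nat_lit 392) (nat_lit 2336) (nat_lit 3064))))
 (.n (nat_lit 880)
 (.l (.k1_7 (nat_lit 8) (nat_lit 880) (nat_lit 878) (nat_lit 886) (nat_lit 862) (nat_lit 934) (nat_lit 1042) (nat_lit 394) (nat_lit 2338) (nat_lit 3066)))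
 (.n (nat_lit 884)
 (.l (.k1_6 (nat_lit 6) (nat_lit 884) (nat_lit 886) (nat_lit 878) (nat_lit 938) (nat_lit 1046) (nat_lit 398) (nat_lit 2342) (nat_lit 3070)))
 (.l (.k1_7 (nat_lit 9) (nat_lit 886) (nat_lit 884) (nat_lit 888) (nat_lit 880) (nat_lit 940) (nat_lit 1048) (nat_lit 400) (nat_lit 2344) (nat_lit 3072)))))))))
 (.n (nat_lit 966)
 (.n (nat_lit 938)
 (.n (nat_lit 916)
 (.n (nat_lit 908)
 (.n (nat_lit 888)
 (.l (.k0_5 (nat_lit 10) (nat_lit 888) (nat_lit 886) (nat_lit 942) (nat_lit 1050) (nat_lit 402) (nat_lit 2346)))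
 (.l (.k1_6 (nat_lit 6) (nat_lit 908) (nat_lit 914) (nat_lit 926) (nat_lit 854) (nat_lit 1070) (nat_lit 422) (nat_lit 2366) (nat_lit 3094))))
 (.n (nat_lit 914)
 (.l (.k1_7 (nat_lit 4) (nat_lit 914) (nat_lit 916) (nat_lit 908) (nat_lit 932) (nat_lit 860) (nat_lit 1076) (nat_lit 428) (nat_lit 2372) (nat_lit 3100)))
 (.l (.k1_6 (nat_lit 6) (nat_lit 916) (nat_lit 914) (nat_lit 934) (nat_lit 862) (nat_lit 1078) (nat_lit 430) (nat_lit 2374) (nat_lit 3102)))))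
 (.n (nat_lit 932)
 (.n (nat_lit 926)
 (.l (.k1_6 (nat_lit 6) (nat_lit 926) (nat_lit 932) (nat_lit 908) (nat_lit 872) (nat_lit 1088) (nat_lit 440) (nat_lit 2384) (nat_lit 3112)))
 (.l (.k1_9 (nat_lit 6) (nat_lit 932) (nat_lit 934) (nat_lit 926) (nat_lit 938) (nat_lit 914) (nat_lit 950) (nat_lit 878) (nat_lit 1094) (nat_lit 446) (nat_lit 2390) (nat_lit 3118))))
 (.n (nat_lit 934)
 (.l (.k1_8 (nat_lit 7) (nat_lit 934) (nat_lit 932) (nat_lit 940) (nat_lit 916) (nat_lit 952) (nat_lit 880) (nat_lit 1096) (nat_lit 448) (nat_lit 2392) (nat_lit 3120)))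
 (.l (.k1_7 (nat_lit 4) (nat_lit 938) (nat_lit 940) (nat_lit 932) (nat_lit 956) (nat_lit 884) (nat_lit 1100) (nat_lit 452) (nat_lit 2396) (nat_lit 3124))))))
 (.n (nat_lit 952)
 (.n (nat_lit 942)
 (.n (nat_lit 940)
 (.l (.k1_8 (nat_lit 7) (nat_lit 940) (nat_lit 938) (nat_lit 942) (nat_lit 934) (nat_lit 958) (nat_lit 886) (nat_lit 1102) (nat_lit 454) (nat_lit 2398) (nat_lit 3126)))
 (.l (.k0_6 (nat_lit 8) (nat_lit 942) (nat_lit 940) (nat_lit 960) (nat_lit 888) (nat_lit 1104) (nat_lit 456) (nat_lit 2400))))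
 (.n (nat_lit 950)
 (.l (.k1_6 (nat_lit 6) (nat_lit 950) (nat_lit 952) (nat_lit 956) (nat_lit 932) (nat_lit 1112) (nat_lit 464) (nat_lit 2408) (nat_lit 3136)))
 (.l (.k1_6 (nat_lit 6) (nat_lit 952) (nat_lit 950) (nat_lit 958) (nat_lit 934) (nat_lit 1114) (nat_lit 466) (nat_lit 2410) (nat_lit 3138)))))
 (.n (nat_lit 958)
 (.n (nat_lit 956)
 (.l (.k1_6 (nat_lit 6) (nat_lit 956) (nat_lit 958) (nat_lit 950) (nat_lit 938) (nat_lit 1118) (nat_lit 470) (nat_lit 2414) (nat_lit 3142)))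
 (.l (.k1_8 (nat_lit 8) (nat_lit 958) (nat_lit 956) (nat_lit 960) (nat_lit 952) (nat_lit 964) (nat_lit 940) (nat_lit 1120) (nat_lit 472) (nat_lit 2416) (nat_lit 3144))))
 (.n (nat_lit 960)
 (.l (.k0_6 (nat_lit 8) (nat_lit 960) (nat_lit 958) (nat_lit 966) (nat_lit 942) (nat_lit 1122) (nat_lit 474) (nat_lit 2418)))
 (.n (nat_lit 964)
 (.l (.k1_5 (nat_lit 8) (nat_lit 964) (nat_lit 966) (nat_lit 958) (nat_lit 1126) (nat_lit 478) (nat_lit 2422) (nat_lit 3150)))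
 (.l (.k0_5 (nat_lit 10) (nat_lit 966) (nat_lit 964) (nat_lit 960) (nat_lit 1128) (nat_lit 480) (nat_lit 2424))))))))
 (.n (nat_lit 1048)
 (.n (nat_lit 1024)
 (.n (nat_lit 1016)
 (.n (nat_lit 998)
 (.l (.k1_5 (nat_lit 9) (nat_lit 998) (nat_lit 1016) (nat_lit 836) (nat_lit 512) (nat_lit 1484) (nat_lit 2456) (nat_lit 3184)))
 (.l (.k1_8 (nat_lit 8) (nat_lit 1016) (nat_lit 1022) (nat_lit 998) (nat_lit 1034) (nat_lit 1070) (nat_lit 854) (nat_lit 530) (nat_lit 1502) (nat_lit 2474) (nat_lit 3202))))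
 (.n (nat_lit 1022)
 (.l (.k1_8 (nat_lit 7) (nat_lit 1022) (nat_lit 1024) (nat_lit 1016) (nat_lit 1040) (nat_lit 1076) (nat_lit 860) (nat_lit 536) (nat_lit 1508) (nat_lit 2480) (nat_lit 3208)))
 (.l (.k1_7 (nat_lit 9) (nat_lit 1024) (nat_lit 1022) (nat_lit 1042) (nat_lit 1078) (nat_lit 862) (nat_lit 538) (nat_lit 1510) (nat_lit 2482) (nat_lit 3210)))))
 (.n (nat_lit 1040)
 (.n (nat_lit 1034)
 (.l (.k1_7 (nat_lit 5) (nat_lit 1034) (nat_lit 1040) (nat_lit 1016) (nat_lit 1088) (nat_lit 872) (nat_lit 548) (nat_lit 1520) (nat_lit 2492) (nat_lit 3220)))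
 (.l (.k1_9 (nat_lit 6) (nat_lit 1040) (nat_lit 1042) (nat_lit 1034) (nat_lit 1046) (nat_lit 1022) (nat_lit 1094) (nat_lit 878) (nat_lit 554) (nat_lit 1526) (nat_lit 2498) (nat_lit 3226))))
 (.n (nat_lit 1042)
 (.l (.k1_8 (nat_lit 7) (nat_lit 1042) (nat_lit 1040) (nat_lit 1048) (nat_lit 1024) (nat_lit 1096) (nat_lit 880) (nat_lit 556) (nat_lit 1528) (nat_lit 2500) (nat_lit 3228)))
 (.n (nat_lit 1046)
 (.l (.k1_7 (nat_lit 5) (nat_lit 1046) (nat_lit 1048) (nat_lit 1040) (nat_lit 1100) (nat_lit 884) (nat_lit 560) (nat_lit 1532) (nat_lit 2504) (nat_lit 3232)))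
 (.l (.k1_8 (nat_lit 8) (nat_lit 1048) (nat_lit 1046) (nat_lit 1050) (nat_lit 1042) (nat_lit 1102) (nat_lit 886) (nat_lit 562) (nat_lit 1534) (nat_lit 2506) (nat_lit 3234)))))))
 (.n (nat_lit 1078)
 (.n (nat_lit 1070)
 (.n (nat_lit 1050)
 (.l (.k0_6 (nat_lit 9) (nat_lit 1050) (nat_lit 1048) (nat_lit 1104) (nat_lit 888) (nat_lit 564) (nat_lit 1536) (nat_lit 2508)))
 (.l (.k1_8 (nat_lit 8) (nat_lit 1070) (nat_lit 1076) (nat_lit 1088) (nat_lit 1016) (nat_lit 908) (nat_lit 1232) (nat_lit 584) (nat_lit 1556) (nat_lit 2528) (nat_lit 3256))))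
 (.n (nat_lit 1076)
 (.l (.k1_9 (nat_lit 6) (nat_lit 1076) (nat_lit 1078) (nat_lit 1070) (nat_lit 1094) (nat_lit 1022) (nat_lit 914) (nat_lit 1238) (nat_lit 590) (nat_lit 1562) (nat_lit 2534) (nat_lit 3262)))
 (.l (.k1_8 (nat_lit 8) (nat_lit 1078) (nat_lit 1076) (nat_lit 1096) (nat_lit 1024) (nat_lit 916) (nat_lit 1240) (nat_lit 592) (nat_lit 1564) (nat_lit 2536) (nat_lit 3264)))))
 (.n (nat_lit 1094)
 (.n (nat_lit 1088)
 (.l (.k1_9 (nat_lit 7) (nat_lit 1088) (nat_lit 1094) (nat_lit 1070) (nat_lit 1034) (nat_lit 1142) (nat_lit 926) (nat_lit 1250) (nat_lit 602) (nat_lit 1574) (nat_lit 2546) (nat_lit 3274)))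
 (.l (.k1_12 (nat_lit 7) (nat_lit 1094) (nat_lit 1096) (nat_lit 1088) (nat_lit 1100) (nat_lit 1076) (nat_lit 1112) (nat_lit 1040) (nat_lit 1148) (nat_lit 932) (nat_lit 1256) (nat_lit 608) (nat_lit 1580) (nat_lit 2552) (nat_lit 3280))))
 (.n (nat_lit 1096)
 (.l (.k1_11 (nat_lit 8) (nat_lit 1096) (nat_lit 1094) (nat_lit 1102) (nat_lit 1078) (nat_lit 1114) (nat_lit 1042) (nat_lit 1150) (nat_lit 934) (nat_lit 1258) (nat_lit 610) (nat_lit 1582) (nat_lit 2554) (nat_lit 3282)))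
 (.n (nat_lit 1100)
 (.l (.k1_10 (nat_lit 5) (nat_lit 1100) (nat_lit 1102) (nat_lit 1094) (nat_lit 1118) (nat_lit 1046) (nat_lit 1154) (nat_lit 938) (nat_lit 1262) (nat_lit 614) (nat_lit 1586) (nat_lit 2558) (nat_lit 3286)))
 (.l (.k1_11 (nat_lit 8) (nat_lit 1102) (nat_lit 1100) (nat_lit 1104) (nat_lit 1096) (nat_lit 1120) (nat_lit 1048) (nat_lit 1156) (nat_lit 940) (nat_lit 1264) (nat_lit 616) (nat_lit 1588) (nat_lit 2560) (nat_lit 3288)))))))))))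
 (.n (nat_lit 1398)
 (.n (nat_lit 1262)
 (.n (nat_lit 1172)
 (.n (nat_lit 1128)
 (.n (nat_lit 1118)
 (.n (nat_lit 1112)
 (.n (nat_lit 1104)
 (.l (.k0_9 (nat_lit 9) (nat_lit 1104) (nat_lit 1102) (nat_lit 1122) (nat_lit 1050) (nat_lit 1158) (nat_lit 942) (nat_lit 1266) (nat_lit 618) (nat_lit 1590) (nat_lit 2562)))
 (.l (.k1_9 (nat_lit 6) (nat_lit 1112) (nat_lit 1114) (nat_lit 1118) (nat_lit 1094) (nat_lit 1166) (nat_lit 950) (nat_lit 1274) (nat_lit 626) (nat_lit 1598) (nat_lit 2570) (nat_lit 3298))))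
 (.n (nat_lit 1114)
 (.l (.k1_9 (nat_lit 6) (nat_lit 1114) (nat_lit 1112) (nat_lit 1120) (nat_lit 1096) (nat_lit 1168) (nat_lit 952) (nat_lit 1276) (nat_lit 628) (nat_lit 1600) (nat_lit 2572) (nat_lit 3300)))
 (.l (.k1_9 (nat_lit 6) (nat_lit 1118) (nat_lit 1120) (nat_lit 1112) (nat_lit 1100) (nat_lit 1172) (nat_lit 956) (nat_lit 1280) (nat_lit 632) (nat_lit 1604) (nat_lit 2576) (nat_lit 3304)))))
 (.n (nat_lit 1122)
 (.n (nat_lit 1120)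
 (.l (.k1_11 (nat_lit 8) (nat_lit 1120) (nat_lit 1118) (nat_lit 1122) (nat_lit 1114) (nat_lit 1126) (nat_lit 1102) (nat_lit 1174) (nat_lit 958) (nat_lit 1282) (nat_lit 634) (nat_lit 1606) (nat_lit 2578) (nat_lit 3306)))
 (.l (.k0_9 (nat_lit 8) (nat_lit 1122) (nat_lit 1120) (nat_lit 1128) (nat_lit 1104) (nat_lit 1176) (nat_lit 960) (nat_lit 1284) (nat_lit 636) (nat_lit 1608) (nat_lit 2580))))
 (.n (nat_lit 1126)
 (.l (.k1_8 (nat_lit 8) (nat_lit 1126) (nat_lit 1128) (nat_lit 1120) (nat_lit 1180) (nat_lit 964) (nat_lit 1288) (nat_lit 640) (nat_lit 1612) (nat_lit 2584) (nat_lit 3312)))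
 (.l (.k0_8 (nat_lit 10) (nat_lit 1128) (nat_lit 1126) (nat_lit 1122) (nat_lit 1182) (nat_lit 966) (nat_lit 1290) (nat_lit 642) (nat_lit 1614) (nat_lit 2586))))))
 (.n (nat_lit 1154)
 (.n (nat_lit 1148)
 (.n (nat_lit 1142)
 (.l (.k1_6 (nat_lit 7) (nat_lit 1142) (nat_lit 1148) (nat_lit 1088) (nat_lit 1304) (nat_lit 656) (nat_lit 1628) (nat_lit 2600) (nat_lit 3328)))
 (.l (.k1_9 (nat_lit 6) (nat_lit 1148) (nat_lit 1150) (nat_lit 1142) (nat_lit 1154) (nat_lit 1166) (nat_lit 1094) (nat_lit 1310) (nat_lit 662) (nat_lit 1634) (nat_lit 2606) (nat_lit 3334))))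
 (.n (nat_lit 1150)
 (.l (.k1_8 (nat_lit 7) (nat_lit 1150) (nat_lit 1148) (nat_lit 1156) (nat_lit 1168) (nat_lit 1096) (nat_lit 1312) (nat_lit 664) (nat_lit 1636) (nat_lit 2608) (nat_lit 3336)))
 (.l (.k1_8 (nat_lit 3) (nat_lit 1154) (nat_lit 1156) (nat_lit 1148) (nat_lit 1172) (nat_lit 1100) (nat_lit 1316) (nat_lit 668) (nat_lit 1640) (nat_lit 2612) (nat_lit 3340)))))
 (.n (nat_lit 1158)
 (.n (nat_lit 1156)
 (.l (.k1_9 (nat_lit 6) (nat_lit 1156) (nat_lit 1154) (nat_lit 1158) (nat_lit 1150) (nat_lit 1174) (nat_lit 1102) (nat_lit 1318) (nat_lit 670) (nat_lit 1642) (nat_lit 2614) (nat_lit 3342)))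
 (.l (.k0_7 (nat_lit 7) (nat_lit 1158) (nat_lit 1156) (nat_lit 1176) (nat_lit 1104) (nat_lit 1320) (nat_lit 672) (nat_lit 1644) (nat_lit 2616))))
 (.n (nat_lit 1166)
 (.l (.k1_8 (nat_lit 7) (nat_lit 1166) (nat_lit 1168) (nat_lit 1172) (nat_lit 1148) (nat_lit 1112) (nat_lit 1328) (nat_lit 680) (nat_lit 1652) (nat_lit 2624) (nat_lit 3352)))
 (.n (nat_lit 1168)
 (.l (.k1_8 (nat_lit 7) (nat_lit 1168) (nat_lit 1166) (nat_lit 1174) (nat_lit 1150) (nat_lit 1114) (nat_lit 1330) (nat_lit 682) (nat_lit 1654) (nat_lit 2626) (nat_lit 3354)))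
 (.l (.k1_9 (nat_lit 6) (nat_lit 1172) (nat_lit 1174) (nat_lit 1166) (nat_lit 1154) (nat_lit 1190) (nat_lit 1118) (nat_lit 1334) (nat_lit 686) (nat_lit 1658) (nat_lit 2630) (nat_lit 3358))))))))
 (.n (nat_lit 1198)
 (.n (nat_lit 1182)
 (.n (nat_lit 1176)
 (.n (nat_lit 1174)
 (.l (.k1_11 (nat_lit 8) (nat_lit 1174) (nat_lit 1172) (nat_lit 1176) (nat_lit 1168) (nat_lit 1180) (nat_lit 1156) (nat_lit 1192) (nat_lit 1120) (nat_lit 1336) (nat_lit 688) (nat_lit 1660) (nat_lit 2632) (nat_lit 3360)))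
 (.l (.k0_9 (nat_lit 8) (nat_lit 1176) (nat_lit 1174) (nat_lit 1182) (nat_lit 1158) (nat_lit 1194) (nat_lit 1122) (nat_lit 1338) (nat_lit 690) (nat_lit 1662) (nat_lit 2634))))
 (.n (nat_lit 1180)
 (.l (.k1_8 (nat_lit 7) (nat_lit 1180) (nat_lit 1182) (nat_lit 1174) (nat_lit 1198) (nat_lit 1126) (nat_lit 1342) (nat_lit 694) (nat_lit 1666) (nat_lit 2638) (nat_lit 3366)))
 (.l (.k0_8 (nat_lit 9) (nat_lit 1182) (nat_lit 1180) (nat_lit 1176) (nat_lit 1200) (nat_lit 1128) (nat_lit 1344) (nat_lit 696) (nat_lit 1668) (nat_lit 2640)))))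
 (.n (nat_lit 1192)
 (.n (nat_lit 1190)
 (.l (.k1_6 (nat_lit 7) (nat_lit 1190) (nat_lit 1192) (nat_lit 1172) (nat_lit 1352) (nat_lit 704) (nat_lit 1676) (nat_lit 2648) (nat_lit 3376)))
 (.l (.k1_8 (nat_lit 8) (nat_lit 1192) (nat_lit 1190) (nat_lit 1194) (nat_lit 1198) (nat_lit 1174) (nat_lit 1354) (nat_lit 706) (nat_lit 1678) (nat_lit 2650) (nat_lit 3378))))
 (.n (nat_lit 1194)
 (.l (.k0_7 (nat_lit 7) (nat_lit 1194) (nat_lit 1192) (nat_lit 1200) (nat_lit 1176) (nat_lit 1356) (nat_lit 708) (nat_lit 1680) (nat_lit 2652)))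
 (.l (.k1_7 (nat_lit 9) (nat_lit 1198) (nat_lit 1200) (nat_lit 1192) (nat_lit 1180) (nat_lit 1360) (nat_lit 712) (nat_lit 1684) (nat_lit 2656) (nat_lit 3384))))))
 (.n (nat_lit 1238)
 (.n (nat_lit 1206)
 (.n (nat_lit 1200)
 (.l (.k0_8 (nat_lit 10) (nat_lit 1200) (nat_lit 1198) (nat_lit 1194) (nat_lit 1206) (nat_lit 1182) (nat_lit 1362) (nat_lit 714) (nat_lit 1686) (nat_lit 2658)))
 (.l (.k0_5 (nat_lit 11) (nat_lit 1206) (nat_lit 1200) (nat_lit 1368) (nat_lit 720) (nat_lit 1692) (nat_lit 2664))))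
 (.n (nat_lit 1232)
 (.l (.k1_5 (nat_lit 8) (nat_lit 1232) (nat_lit 1238) (nat_lit 1250) (nat_lit 1070) (nat_lit 1718) (nat_lit 2690) (nat_lit 3418)))
 (.l (.k1_6 (nat_lit 6) (nat_lit 1238) (nat_lit 1240) (nat_lit 1232) (nat_lit 1256) (nat_lit 1076) (nat_lit 1724) (nat_lit 2696) (nat_lit 3424)))))
 (.n (nat_lit 1250)
 (.n (nat_lit 1240)
 (.l (.k1_5 (nat_lit 8) (nat_lit 1240) (nat_lit 1238) (nat_lit 1258) (nat_lit 1078) (nat_lit 1726) (nat_lit 2698) (nat_lit 3426)))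
 (.l (.k1_6 (nat_lit 6) (nat_lit 1250) (nat_lit 1256) (nat_lit 1232) (nat_lit 1304) (nat_lit 1088) (nat_lit 1736) (nat_lit 2708) (nat_lit 3436))))
 (.n (nat_lit 1256)
 (.l (.k1_9 (nat_lit 6) (nat_lit 1256) (nat_lit 1258) (nat_lit 1250) (nat_lit 1262) (nat_lit 1238) (nat_lit 1274) (nat_lit 1310) (nat_lit 1094) (nat_lit 1742) (nat_lit 2714) (nat_lit 3442)))
 (.n (nat_lit 1258)
 (.l (.k1_8 (nat_lit 7) (nat_lit 1258) (nat_lit 1256) (nat_lit 1264) (nat_lit 1240) (nat_lit 1276) (nat_lit 1312) (nat_lit 1096) (nat_lit 1744) (nat_lit 2716) (nat_lit 3444)))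
 (.l (.k1_7 (nat_lit 4) (nat_lit 1262) (nat_lit 1264) (nat_lit 1256) (nat_lit 1280) (nat_lit 1316) (nat_lit 1100) (nat_lit 1748) (nat_lit 2720) (nat_lit 3448)))))))))
 (.n (nat_lit 1330)
 (.n (nat_lit 1288)
 (.n (nat_lit 1276)
 (.n (nat_lit 1266)
 (.n (nat_lit 1264)
 (.l (.k1_8 (nat_lit 7) (nat_lit 1264) (nat_lit 1262) (nat_lit 1266) (nat_lit 1258) (nat_lit 1282) (nat_lit 1318) (nat_lit 1102) (nat_lit 1750) (nat_lit 2722) (nat_lit 3450)))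
 (.l (.k0_6 (nat_lit 8) (nat_lit 1266) (nat_lit 1264) (nat_lit 1284) (nat_lit 1320) (nat_lit 1104) (nat_lit 1752) (nat_lit 2724))))
 (.n (nat_lit 1274)
 (.l (.k1_7 (nat_lit 4) (nat_lit 1274) (nat_lit 1276) (nat_lit 1280) (nat_lit 1256) (nat_lit 1328) (nat_lit 1112) (nat_lit 1760) (nat_lit 2732) (nat_lit 3460)))
 (.l (.k1_7 (nat_lit 4) (nat_lit 1276) (nat_lit 1274) (nat_lit 1282) (nat_lit 1258) (nat_lit 1330) (nat_lit 1114) (nat_lit 1762) (nat_lit 2734) (nat_lit 3462)))))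
 (.n (nat_lit 1282)
 (.n (nat_lit 1280)
 (.l (.k1_7 (nat_lit 4) (nat_lit 1280) (nat_lit 1282) (nat_lit 1274) (nat_lit 1262) (nat_lit 1334) (nat_lit 1118) (nat_lit 1766) (nat_lit 2738) (nat_lit 3466)))
 (.l (.k1_9 (nat_lit 6) (nat_lit 1282) (nat_lit 1280) (nat_lit 1284) (nat_lit 1276) (nat_lit 1288) (nat_lit 1264) (nat_lit 1336) (nat_lit 1120) (nat_lit 1768) (nat_lit 2740) (nat_lit 3468))))
 (.n (nat_lit 1284)
 (.l (.k0_7 (nat_lit 6) (nat_lit 1284) (nat_lit 1282) (nat_lit 1290) (nat_lit 1266) (nat_lit 1338) (nat_lit 1122) (nat_lit 1770) (nat_lit 2742)))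
 (.l (.k1_6 (nat_lit 6) (nat_lit 1288) (nat_lit 1290) (nat_lit 1282) (nat_lit 1342) (nat_lit 1126) (nat_lit 1774) (nat_lit 2746) (nat_lit 3474))))))
 (.n (nat_lit 1312)
 (.n (nat_lit 1304)
 (.n (nat_lit 1290)
 (.l (.k0_6 (nat_lit 8) (nat_lit 1290) (nat_lit 1288) (nat_lit 1284) (nat_lit 1344) (nat_lit 1128) (nat_lit 1776) (nat_lit 2748)))
 (.l (.k1_5 (nat_lit 8) (nat_lit 1304) (nat_lit 1310) (nat_lit 1250) (nat_lit 1142) (nat_lit 1790) (nat_lit 2762) (nat_lit 3490))))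
 (.n (nat_lit 1310)
 (.l (.k1_8 (nat_lit 7) (nat_lit 1310) (nat_lit 1312) (nat_lit 1304) (nat_lit 1316) (nat_lit 1328) (nat_lit 1256) (nat_lit 1148) (nat_lit 1796) (nat_lit 2768) (nat_lit 3496)))
 (.l (.k1_7 (nat_lit 8) (nat_lit 1312) (nat_lit 1310) (nat_lit 1318) (nat_lit 1330) (nat_lit 1258) (nat_lit 1150) (nat_lit 1798) (nat_lit 2770) (nat_lit 3498)))))
 (.n (nat_lit 1318)
 (.n (nat_lit 1316)
 (.l (.k1_7 (nat_lit 4) (nat_lit 1316) (nat_lit 1318) (nat_lit 1310) (nat_lit 1334) (nat_lit 1262) (nat_lit 1154) (nat_lit 1802) (nat_lit 2774) (nat_lit 3502)))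
 (.l (.k1_8 (nat_lit 7) (nat_lit 1318) (nat_lit 1316) (nat_lit 1320) (nat_lit 1312) (nat_lit 1336) (nat_lit 1264) (nat_lit 1156) (nat_lit 1804) (nat_lit 2776) (nat_lit 3504))))
 (.n (nat_lit 1320)
 (.l (.k0_6 (nat_lit 8) (nat_lit 1320) (nat_lit 1318) (nat_lit 1338) (nat_lit 1266) (nat_lit 1158) (nat_lit 1806) (nat_lit 2778)))
 (.n (nat_lit 1328)
 (.l (.k1_8 (nat_lit 7) (nat_lit 1328) (nat_lit 1330) (nat_lit 1334) (nat_lit 1310) (nat_lit 1274) (nat_lit 1382) (nat_lit 1166) (nat_lit 1814) (nat_lit 2786) (nat_lit 3514)))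
 (.l (.k1_8 (nat_lit 7) (nat_lit 1330) (nat_lit 1328) (nat_lit 1336) (nat_lit 1312) (nat_lit 1276) (nat_lit 1384) (nat_lit 1168) (nat_lit 1816) (nat_lit 2788) (nat_lit 3516))))))))
 (.n (nat_lit 1360)
 (.n (nat_lit 1342)
 (.n (nat_lit 1336)
 (.n (nat_lit 1334)
 (.l (.k1_9 (nat_lit 6) (nat_lit 1334) (nat_lit 1336) (nat_lit 1328) (nat_lit 1316) (nat_lit 1352) (nat_lit 1280) (nat_lit 1388) (nat_lit 1172) (nat_lit 1820) (nat_lit 2792) (nat_lit 3520)))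
 (.l (.k1_11 (nat_lit 8) (nat_lit 1336) (nat_lit 1334) (nat_lit 1338) (nat_lit 1330) (nat_lit 1342) (nat_lit 1318) (nat_lit 1354) (nat_lit 1282) (nat_lit 1390) (nat_lit 1174) (nat_lit 1822) (nat_lit 2794) (nat_lit 3522))))
 (.n (nat_lit 1338)
 (.l (.k0_9 (nat_lit 8) (nat_lit 1338) (nat_lit 1336) (nat_lit 1344) (nat_lit 1320) (nat_lit 1356) (nat_lit 1284) (nat_lit 1392) (nat_lit 1176) (nat_lit 1824) (nat_lit 2796)))
 (.l (.k1_8 (nat_lit 7) (nat_lit 1342) (nat_lit 1344) (nat_lit 1336) (nat_lit 1360) (nat_lit 1288) (nat_lit 1396) (nat_lit 1180) (nat_lit 1828) (nat_lit 2800) (nat_lit 3528)))))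
 (.n (nat_lit 1352)
 (.n (nat_lit 1344)
 (.l (.k0_8 (nat_lit 9) (nat_lit 1344) (nat_lit 1342) (nat_lit 1338) (nat_lit 1362) (nat_lit 1290) (nat_lit 1398) (nat_lit 1182) (nat_lit 1830) (nat_lit 2802)))
 (.l (.k1_6 (nat_lit 6) (nat_lit 1352) (nat_lit 1354) (nat_lit 1334) (nat_lit 1406) (nat_lit 1190) (nat_lit 1838) (nat_lit 2810) (nat_lit 3538))))
 (.n (nat_lit 1354)
 (.l (.k1_8 (nat_lit 7) (nat_lit 1354) (nat_lit 1352) (nat_lit 1356) (nat_lit 1360) (nat_lit 1336) (nat_lit 1408) (nat_lit 1192) (nat_lit 1840) (nat_lit 2812) (nat_lit 3540)))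
 (.n (nat_lit 1356)
 (.l (.k0_7 (nat_lit 6) (nat_lit 1356) (nat_lit 1354) (nat_lit 1362) (nat_lit 1338) (nat_lit 1410) (nat_lit 1194) (nat_lit 1842) (nat_lit 2814)))
 (.l (.k1_7 (nat_lit 8) (nat_lit 1360) (nat_lit 1362) (nat_lit 1354) (nat_lit 1342) (nat_lit 1414) (nat_lit 1198) (nat_lit 1846) (nat_lit 2818) (nat_lit 3546)))))))
 (.n (nat_lit 1384)
 (.n (nat_lit 1368)
 (.n (nat_lit 1362)
 (.l (.k0_8 (nat_lit 9) (nat_lit 1362) (nat_lit 1360) (nat_lit 1356) (nat_lit 1368) (nat_lit 1344) (nat_lit 1416) (nat_lit 1200) (nat_lit 1848) (nat_lit 2820)))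
 (.l (.k0_5 (nat_lit 10) (nat_lit 1368) (nat_lit 1362) (nat_lit 1422) (nat_lit 1206) (nat_lit 1854) (nat_lit 2826))))
 (.n (nat_lit 1382)
 (.l (.k1_5 (nat_lit 8) (nat_lit 1382) (nat_lit 1384) (nat_lit 1388) (nat_lit 1328) (nat_lit 1868) (nat_lit 2840) (nat_lit 3568)))
 (.l (.k1_5 (nat_lit 8) (nat_lit 1384) (nat_lit 1382) (nat_lit 1390) (nat_lit 1330) (nat_lit 1870) (nat_lit 2842) (nat_lit 3570)))))
 (.n (nat_lit 1390)
 (.n (nat_lit 1388)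
 (.l (.k1_6 (nat_lit 6) (nat_lit 1388) (nat_lit 1390) (nat_lit 1382) (nat_lit 1406) (nat_lit 1334) (nat_lit 1874) (nat_lit 2846) (nat_lit 3574)))
 (.l (.k1_8 (nat_lit 8) (nat_lit 1390) (nat_lit 1388) (nat_lit 1392) (nat_lit 1384) (nat_lit 1396) (nat_lit 1408) (nat_lit 1336) (nat_lit 1876) (nat_lit 2848) (nat_lit 3576))))
 (.n (nat_lit 1392)
 (.l (.k0_6 (nat_lit 8) (nat_lit 1392) (nat_lit 1390) (nat_lit 1398) (nat_lit 1410) (nat_lit 1338) (nat_lit 1878) (nat_lit 2850)))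
 (.n (nat_lit 1396)
 (.l (.k1_6 (nat_lit 6) (nat_lit 1396) (nat_lit 1398) (nat_lit 1390) (nat_lit 1414) (nat_lit 1342) (nat_lit 1882) (nat_lit 2854) (nat_lit 3582)))
 (.l (.k0_6 (nat_lit 8) (nat_lit 1398) (nat_lit 1396) (nat_lit 1392) (nat_lit 1416) (nat_lit 1344) (nat_lit 1884) (nat_lit 2856))))))))))
 (.n (nat_lit 1612)
 (.n (nat_lit 1532)
 (.n (nat_lit 1434)
 (.n (nat_lit 1414)
 (.n (nat_lit 1408)
 (.n (nat_lit 1406)
 (.l (.k1_5 (nat_lit 8) (nat_lit 1406) (nat_lit 1408) (nat_lit 1388) (nat_lit 1352) (nat_lit 1892) (nat_lit 2864) (nat_lit 3592)))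
 (.l (.k1_7 (nat_lit 9) (nat_lit 1408) (nat_lit 1406) (nat_lit 1410) (nat_lit 1414) (nat_lit 1390) (nat_lit 1354) (nat_lit 1894) (nat_lit 2866) (nat_lit 3594))))
 (.n (nat_lit 1410)
 (.l (.k0_6 (nat_lit 8) (nat_lit 1410) (nat_lit 1408) (nat_lit 1416) (nat_lit 1392) (nat_lit 1356) (nat_lit 1896) (nat_lit 2868)))
 (.l (.k1_7 (nat_lit 9) (nat_lit 1414) (nat_lit 1416) (nat_lit 1408) (nat_lit 1396) (nat_lit 1432) (nat_lit 1360) (nat_lit 1900) (nat_lit 2872) (nat_lit 3600)))))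
 (.n (nat_lit 1422)
 (.n (nat_lit 1416)
 (.l (.k0_8 (nat_lit 10) (nat_lit 1416) (nat_lit 1414) (nat_lit 1410) (nat_lit 1422) (nat_lit 1398) (nat_lit 1434) (nat_lit 1362) (nat_lit 1902) (nat_lit 2874)))
 (.l (.k0_5 (nat_lit 10) (nat_lit 1422) (nat_lit 1416) (nat_lit 1440) (nat_lit 1368) (nat_lit 1908) (nat_lit 2880))))
 (.n (nat_lit 1432)
 (.l (.k1_4 (nat_lit 10) (nat_lit 1432) (nat_lit 1434) (nat_lit 1414) (nat_lit 1918) (nat_lit 2890) (nat_lit 3618)))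
 (.l (.k0_5 (nat_lit 10) (nat_lit 1434) (nat_lit 1432) (nat_lit 1440) (nat_lit 1416) (nat_lit 1920) (nat_lit 2892))))))
 (.n (nat_lit 1508)
 (.n (nat_lit 1484)
 (.n (nat_lit 1440)
 (.l (.k0_4 (nat_lit 12) (nat_lit 1440) (nat_lit 1434) (nat_lit 1422) (nat_lit 1926) (nat_lit 2898)))
 (.l (.k1_3 (nat_lit 8) (nat_lit 1484) (nat_lit 1502) (nat_lit 998) (nat_lit 2942) (nat_lit 3670))))
 (.n (nat_lit 1502)
 (.l (.k1_6 (nat_lit 7) (nat_lit 1502) (nat_lit 1508) (nat_lit 1484) (nat_lit 1520) (nat_lit 1556) (nat_lit 1016) (nat_lit 2960) (nat_lit 3688)))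
 (.l (.k1_6 (nat_lit 6) (nat_lit 1508) (nat_lit 1510) (nat_lit 1502) (nat_lit 1526) (nat_lit 1562) (nat_lit 1022) (nat_lit 2966) (nat_lit 3694)))))
 (.n (nat_lit 1520)
 (.n (nat_lit 1510)
 (.l (.k1_5 (nat_lit 8) (nat_lit 1510) (nat_lit 1508) (nat_lit 1528) (nat_lit 1564) (nat_lit 1024) (nat_lit 2968) (nat_lit 3696)))
 (.l (.k1_5 (nat_lit 4) (nat_lit 1520) (nat_lit 1526) (nat_lit 1502) (nat_lit 1574) (nat_lit 1034) (nat_lit 2978) (nat_lit 3706))))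
 (.n (nat_lit 1526)
 (.l (.k1_7 (nat_lit 5) (nat_lit 1526) (nat_lit 1528) (nat_lit 1520) (nat_lit 1532) (nat_lit 1508) (nat_lit 1580) (nat_lit 1040) (nat_lit 2984) (nat_lit 3712)))
 (.n (nat_lit 1528)
 (.l (.k1_6 (nat_lit 6) (nat_lit 1528) (nat_lit 1526) (nat_lit 1534) (nat_lit 1510) (nat_lit 1582) (nat_lit 1042) (nat_lit 2986) (nat_lit 3714)))
 (.l (.k1_5 (nat_lit 4) (nat_lit 1532) (nat_lit 1534) (nat_lit 1526) (nat_lit 1586) (nat_lit 1046) (nat_lit 2990) (nat_lit 3718))))))))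
 (.n (nat_lit 1582)
 (.n (nat_lit 1562)
 (.n (nat_lit 1536)
 (.n (nat_lit 1534)
 (.l (.k1_6 (nat_lit 7) (nat_lit 1534) (nat_lit 1532) (nat_lit 1536) (nat_lit 1528) (nat_lit 1588) (nat_lit 1048) (nat_lit 2992) (nat_lit 3720)))
 (.l (.k0_4 (nat_lit 8) (nat_lit 1536) (nat_lit 1534) (nat_lit 1590) (nat_lit 1050) (nat_lit 2994))))
 (.n (nat_lit 1556)
 (.l (.k1_6 (nat_lit 6) (nat_lit 1556) (nat_lit 1562) (nat_lit 1574) (nat_lit 1502) (nat_lit 1718) (nat_lit 1070) (nat_lit 3014) (nat_lit 3742)))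
 (.l (.k1_7 (nat_lit 4) (nat_lit 1562) (nat_lit 1564) (nat_lit 1556) (nat_lit 1580) (nat_lit 1508) (nat_lit 1724) (nat_lit 1076) (nat_lit 3020) (nat_lit 3748)))))
 (.n (nat_lit 1574)
 (.n (nat_lit 1564)
 (.l (.k1_6 (nat_lit 6) (nat_lit 1564) (nat_lit 1562) (nat_lit 1582) (nat_lit 1510) (nat_lit 1726) (nat_lit 1078) (nat_lit 3022) (nat_lit 3750)))
 (.l (.k1_7 (nat_lit 5) (nat_lit 1574) (nat_lit 1580) (nat_lit 1556) (nat_lit 1520) (nat_lit 1628) (nat_lit 1736) (nat_lit 1088) (nat_lit 3032) (nat_lit 3760))))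
 (.n (nat_lit 1580)
 (.l (.k1_10 (nat_lit 5) (nat_lit 1580) (nat_lit 1582) (nat_lit 1574) (nat_lit 1586) (nat_lit 1562) (nat_lit 1598) (nat_lit 1526) (nat_lit 1634) (nat_lit 1742) (nat_lit 1094) (nat_lit 3038) (nat_lit 3766)))
 (.l (.k1_9 (nat_lit 6) (nat_lit 1582) (nat_lit 1580) (nat_lit 1588) (nat_lit 1564) (nat_lit 1600) (nat_lit 1528) (nat_lit 1636) (nat_lit 1744) (nat_lit 1096) (nat_lit 3040) (nat_lit 3768))))))
 (.n (nat_lit 1598)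
 (.n (nat_lit 1588)
 (.n (nat_lit 1586)
 (.l (.k1_8 (nat_lit 3) (nat_lit 1586) (nat_lit 1588) (nat_lit 1580) (nat_lit 1604) (nat_lit 1532) (nat_lit 1640) (nat_lit 1748) (nat_lit 1100) (nat_lit 3044) (nat_lit 3772)))
 (.l (.k1_9 (nat_lit 6) (nat_lit 1588) (nat_lit 1586) (nat_lit 1590) (nat_lit 1582) (nat_lit 1606) (nat_lit 1534) (nat_lit 1642) (nat_lit 1750) (nat_lit 1102) (nat_lit 3046) (nat_lit 3774))))
 (.n (nat_lit 1590)
 (.l (.k0_7 (nat_lit 7) (nat_lit 1590) (nat_lit 1588) (nat_lit 1608) (nat_lit 1536) (nat_lit 1644) (nat_lit 1752) (nat_lit 1104) (nat_lit 3048)))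
 (.l (.k1_7 (nat_lit 4) (nat_lit 1598) (nat_lit 1600) (nat_lit 1604) (nat_lit 1580) (nat_lit 1652) (nat_lit 1760) (nat_lit 1112) (nat_lit 3056) (nat_lit 3784)))))
 (.n (nat_lit 1604)
 (.n (nat_lit 1600)
 (.l (.k1_7 (nat_lit 4) (nat_lit 1600) (nat_lit 1598) (nat_lit 1606) (nat_lit 1582) (nat_lit 1654) (nat_lit 1762) (nat_lit 1114) (nat_lit 3058) (nat_lit 3786)))
 (.l (.k1_7 (nat_lit 4) (nat_lit 1604) (nat_lit 1606) (nat_lit 1598) (nat_lit 1586) (nat_lit 1658) (nat_lit 1766) (nat_lit 1118) (nat_lit 3062) (nat_lit 3790))))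
 (.n (nat_lit 1606)
 (.l (.k1_9 (nat_lit 6) (nat_lit 1606) (nat_lit 1604) (nat_lit 1608) (nat_lit 1600) (nat_lit 1612) (nat_lit 1588) (nat_lit 1660) (nat_lit 1768) (nat_lit 1120) (nat_lit 3064) (nat_lit 3792)))
 (.n (nat_lit 1608)
 (.l (.k0_7 (nat_lit 6) (nat_lit 1608) (nat_lit 1606) (nat_lit 1614) (nat_lit 1590) (nat_lit 1662) (nat_lit 1770) (nat_lit 1122) (nat_lit 3066)))
 (.l (.k1_6 (nat_lit 6) (nat_lit 1612) (nat_lit 1614) (nat_lit 1606) (nat_lit 1666) (nat_lit 1774) (nat_lit 1126) (nat_lit 3070) (nat_lit 3798)))))))))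
 (.n (nat_lit 1680)
 (.n (nat_lit 1652)
 (.n (nat_lit 1636)
 (.n (nat_lit 1628)
 (.n (nat_lit 1614)
 (.l (.k0_6 (nat_lit 8) (nat_lit 1614) (nat_lit 1612) (nat_lit 1608) (nat_lit 1668) (nat_lit 1776) (nat_lit 1128) (nat_lit 3072)))
 (.l (.k1_5 (nat_lit 4) (nat_lit 1628) (nat_lit 1634) (nat_lit 1574) (nat_lit 1790) (nat_lit 1142) (nat_lit 3086) (nat_lit 3814))))
 (.n (nat_lit 1634)
 (.l (.k1_8 (nat_lit 3) (nat_lit 1634) (nat_lit 1636) (nat_lit 1628) (nat_lit 1640) (nat_lit 1652) (nat_lit 1580) (nat_lit 1796) (nat_lit 1148) (nat_lit 3092) (nat_lit 3820)))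
 (.l (.k1_7 (nat_lit 4) (nat_lit 1636) (nat_lit 1634) (nat_lit 1642) (nat_lit 1654) (nat_lit 1582) (nat_lit 1798) (nat_lit 1150) (nat_lit 3094) (nat_lit 3822)))))
 (.n (nat_lit 1642)
 (.n (nat_lit 1640)
 (.l (.k1_7 (nat_lit 0) (nat_lit 1640) (nat_lit 1642) (nat_lit 1634) (nat_lit 1658) (nat_lit 1586) (nat_lit 1802) (nat_lit 1154) (nat_lit 3098) (nat_lit 3826)))
 (.l (.k1_8 (nat_lit 3) (nat_lit 1642) (nat_lit 1640) (nat_lit 1644) (nat_lit 1636) (nat_lit 1660) (nat_lit 1588) (nat_lit 1804) (nat_lit 1156) (nat_lit 3100) (nat_lit 3828))))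
 (.n (nat_lit 1644)
 (.l (.k0_6 (nat_lit 4) (nat_lit 1644) (nat_lit 1642) (nat_lit 1662) (nat_lit 1590) (nat_lit 1806) (nat_lit 1158) (nat_lit 3102)))
 (.l (.k1_7 (nat_lit 4) (nat_lit 1652) (nat_lit 1654) (nat_lit 1658) (nat_lit 1634) (nat_lit 1598) (nat_lit 1814) (nat_lit 1166) (nat_lit 3110) (nat_lit 3838))))))
 (.n (nat_lit 1662)
 (.n (nat_lit 1658)
 (.n (nat_lit 1654)
 (.l (.k1_7 (nat_lit 4) (nat_lit 1654) (nat_lit 1652) (nat_lit 1660) (nat_lit 1636) (nat_lit 1600) (nat_lit 1816) (nat_lit 1168) (nat_lit 3112) (nat_lit 3840)))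
 (.l (.k1_8 (nat_lit 3) (nat_lit 1658) (nat_lit 1660) (nat_lit 1652) (nat_lit 1640) (nat_lit 1676) (nat_lit 1604) (nat_lit 1820) (nat_lit 1172) (nat_lit 3116) (nat_lit 3844))))
 (.n (nat_lit 1660)
 (.l (.k1_10 (nat_lit 5) (nat_lit 1660) (nat_lit 1658) (nat_lit 1662) (nat_lit 1654) (nat_lit 1666) (nat_lit 1642) (nat_lit 1678) (nat_lit 1606) (nat_lit 1822) (nat_lit 1174) (nat_lit 3118) (nat_lit 3846)))
 (.l (.k0_8 (nat_lit 5) (nat_lit 1662) (nat_lit 1660) (nat_lit 1668) (nat_lit 1644) (nat_lit 1680) (nat_lit 1608) (nat_lit 1824) (nat_lit 1176) (nat_lit 3120)))))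
 (.n (nat_lit 1668)
 (.n (nat_lit 1666)
 (.l (.k1_7 (nat_lit 4) (nat_lit 1666) (nat_lit 1668) (nat_lit 1660) (nat_lit 1684) (nat_lit 1612) (nat_lit 1828) (nat_lit 1180) (nat_lit 3124) (nat_lit 3852)))
 (.l (.k0_7 (nat_lit 6) (nat_lit 1668) (nat_lit 1666) (nat_lit 1662) (nat_lit 1686) (nat_lit 1614) (nat_lit 1830) (nat_lit 1182) (nat_lit 3126))))
 (.n (nat_lit 1676)
 (.l (.k1_5 (nat_lit 4) (nat_lit 1676) (nat_lit 1678) (nat_lit 1658) (nat_lit 1838) (nat_lit 1190) (nat_lit 3134) (nat_lit 3862)))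
 (.n (nat_lit 1678)
 (.l (.k1_7 (nat_lit 5) (nat_lit 1678) (nat_lit 1676) (nat_lit 1680) (nat_lit 1684) (nat_lit 1660) (nat_lit 1840) (nat_lit 1192) (nat_lit 3136) (nat_lit 3864)))
 (.l (.k0_6 (nat_lit 4) (nat_lit 1680) (nat_lit 1678) (nat_lit 1686) (nat_lit 1662) (nat_lit 1842) (nat_lit 1194) (nat_lit 3138))))))))
 (.n (nat_lit 1744)
 (.n (nat_lit 1718)
 (.n (nat_lit 1686)
 (.n (nat_lit 1684)
 (.l (.k1_6 (nat_lit 6) (nat_lit 1684) (nat_lit 1686) (nat_lit 1678) (nat_lit 1666) (nat_lit 1846) (nat_lit 1198) (nat_lit 3142) (nat_lit 3870)))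
 (.l (.k0_7 (nat_lit 7) (nat_lit 1686) (nat_lit 1684) (nat_lit 1680) (nat_lit 1692) (nat_lit 1668) (nat_lit 1848) (nat_lit 1200) (nat_lit 3144))))
 (.n (nat_lit 1692)
 (.l (.k0_4 (nat_lit 8) (nat_lit 1692) (nat_lit 1686) (nat_lit 1854) (nat_lit 1206) (nat_lit 3150)))
 (.l (.k1_5 (nat_lit 8) (nat_lit 1718) (nat_lit 1724) (nat_lit 1736) (nat_lit 1556) (nat_lit 1232) (nat_lit 3176) (nat_lit 3904)))))
 (.n (nat_lit 1726)
 (.n (nat_lit 1724)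
 (.l (.k1_6 (nat_lit 6) (nat_lit 1724) (nat_lit 1726) (nat_lit 1718) (nat_lit 1742) (nat_lit 1562) (nat_lit 1238) (nat_lit 3182) (nat_lit 3910)))
 (.l (.k1_5 (nat_lit 8) (nat_lit 1726) (nat_lit 1724) (nat_lit 1744) (nat_lit 1564) (nat_lit 1240) (nat_lit 3184) (nat_lit 3912))))
 (.n (nat_lit 1736)
 (.l (.k1_6 (nat_lit 6) (nat_lit 1736) (nat_lit 1742) (nat_lit 1718) (nat_lit 1790) (nat_lit 1574) (nat_lit 1250) (nat_lit 3194) (nat_lit 3922)))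
 (.n (nat_lit 1742)
 (.l (.k1_9 (nat_lit 6) (nat_lit 1742) (nat_lit 1744) (nat_lit 1736) (nat_lit 1748) (nat_lit 1724) (nat_lit 1760) (nat_lit 1796) (nat_lit 1580) (nat_lit 1256) (nat_lit 3200) (nat_lit 3928)))
 (.l (.k1_8 (nat_lit 7) (nat_lit 1744) (nat_lit 1742) (nat_lit 1750) (nat_lit 1726) (nat_lit 1762) (nat_lit 1798) (nat_lit 1582) (nat_lit 1258) (nat_lit 3202) (nat_lit 3930)))))))
 (.n (nat_lit 1760)
 (.n (nat_lit 1750)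
 (.n (nat_lit 1748)
 (.l (.k1_7 (nat_lit 4) (nat_lit 1748) (nat_lit 1750) (nat_lit 1742) (nat_lit 1766) (nat_lit 1802) (nat_lit 1586) (nat_lit 1262) (nat_lit 3206) (nat_lit 3934)))
 (.l (.k1_8 (nat_lit 7) (nat_lit 1750) (nat_lit 1748) (nat_lit 1752) (nat_lit 1744) (nat_lit 1768) (nat_lit 1804) (nat_lit 1588) (nat_lit 1264) (nat_lit 3208) (nat_lit 3936))))
 (.n (nat_lit 1752)
 (.l (.k0_6 (nat_lit 8) (nat_lit 1752) (nat_lit 1750) (nat_lit 1770) (nat_lit 1806) (nat_lit 1590) (nat_lit 1266) (nat_lit 3210)))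
 (.l (.k1_7 (nat_lit 4) (nat_lit 1760) (nat_lit 1762) (nat_lit 1766) (nat_lit 1742) (nat_lit 1814) (nat_lit 1598) (nat_lit 1274) (nat_lit 3218) (nat_lit 3946)))))
 (.n (nat_lit 1766)
 (.n (nat_lit 1762)
 (.l (.k1_7 (nat_lit 4) (nat_lit 1762) (nat_lit 1760) (nat_lit 1768) (nat_lit 1744) (nat_lit 1816) (nat_lit 1600) (nat_lit 1276) (nat_lit 3220) (nat_lit 3948)))
 (.l (.k1_7 (nat_lit 4) (nat_lit 1766) (nat_lit 1768) (nat_lit 1760) (nat_lit 1748) (nat_lit 1820) (nat_lit 1604) (nat_lit 1280) (nat_lit 3224) (nat_lit 3952))))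
 (.n (nat_lit 1768)
 (.l (.k1_9 (nat_lit 6) (nat_lit 1768) (nat_lit 1766) (nat_lit 1770) (nat_lit 1762) (nat_lit 1774) (nat_lit 1750) (nat_lit 1822) (nat_lit 1606) (nat_lit 1282) (nat_lit 3226) (nat_lit 3954)))
 (.n (nat_lit 1770)
 (.l (.k0_7 (nat_lit 6) (nat_lit 1770) (nat_lit 1768) (nat_lit 1776) (nat_lit 1752) (nat_lit 1824) (nat_lit 1608) (nat_lit 1284) (nat_lit 3228)))
 (.l (.k1_6 (nat_lit 6) (nat_lit 1774) (nat_lit 1776) (nat_lit 1768) (nat_lit 1828) (nat_lit 1612) (nat_lit 1288) (nat_lit 3232) (nat_lit 3960))))))))))))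
 (.n (nat_lit 2600)
 (.n (nat_lit 2080)
 (.n (nat_lit 1918)
 (.n (nat_lit 1842)
 (.n (nat_lit 1814)
 (.n (nat_lit 1798)
 (.n (nat_lit 1790)
 (.n (nat_lit 1776)
 (.l (.k0_6 (nat_lit 8) (nat_lit 1776) (nat_lit 1774) (nat_lit 1770) (nat_lit 1830) (nat_lit 1614) (nat_lit 1290) (nat_lit 3234)))
 (.l (.k1_6 (nat_lit 7) (nat_lit 1790) (nat_lit 1796) (nat_lit 1736) (nat_lit 1628) (nat_lit 1952) (nat_lit 1304) (nat_lit 3248) (nat_lit 3976))))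
 (.n (nat_lit 1796)
 (.l (.k1_9 (nat_lit 6) (nat_lit 1796) (nat_lit 1798) (nat_lit 1790) (nat_lit 1802) (nat_lit 1814) (nat_lit 1742) (nat_lit 1634) (nat_lit 1958) (nat_lit 1310) (nat_lit 3254) (nat_lit 3982)))
 (.l (.k1_8 (nat_lit 7) (nat_lit 1798) (nat_lit 1796) (nat_lit 1804) (nat_lit 1816) (nat_lit 1744) (nat_lit 1636) (nat_lit 1960) (nat_lit 1312) (nat_lit 3256) (nat_lit 3984)))))
 (.n (nat_lit 1804)
 (.n (nat_lit 1802)
 (.l (.k1_8 (nat_lit 3) (nat_lit 1802) (nat_lit 1804) (nat_lit 1796) (nat_lit 1820) (nat_lit 1748) (nat_lit 1640) (nat_lit 1964) (nat_lit 1316) (nat_lit 3260) (nat_lit 3988)))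
 (.l (.k1_9 (nat_lit 6) (nat_lit 1804) (nat_lit 1802) (nat_lit 1806) (nat_lit 1798) (nat_lit 1822) (nat_lit 1750) (nat_lit 1642) (nat_lit 1966) (nat_lit 1318) (nat_lit 3262) (nat_lit 3990))))
 (.n (nat_lit 1806)
 (.l (.k0_7 (nat_lit 7) (nat_lit 1806) (nat_lit 1804) (nat_lit 1824) (nat_lit 1752) (nat_lit 1644) (nat_lit 1968) (nat_lit 1320) (nat_lit 3264)))
 (.l (.k1_9 (nat_lit 6) (nat_lit 1814) (nat_lit 1816) (nat_lit 1820) (nat_lit 1796) (nat_lit 1760) (nat_lit 1868) (nat_lit 1652) (nat_lit 1976) (nat_lit 1328) (nat_lit 3272) (nat_lit 4000))))))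
 (.n (nat_lit 1824)
 (.n (nat_lit 1820)
 (.n (nat_lit 1816)
 (.l (.k1_9 (nat_lit 6) (nat_lit 1816) (nat_lit 1814) (nat_lit 1822) (nat_lit 1798) (nat_lit 1762) (nat_lit 1870) (nat_lit 1654) (nat_lit 1978) (nat_lit 1330) (nat_lit 3274) (nat_lit 4002)))
 (.l (.k1_10 (nat_lit 5) (nat_lit 1820) (nat_lit 1822) (nat_lit 1814) (nat_lit 1802) (nat_lit 1838) (nat_lit 1766) (nat_lit 1874) (nat_lit 1658) (nat_lit 1982) (nat_lit 1334) (nat_lit 3278) (nat_lit 4006))))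
 (.n (nat_lit 1822)
 (.l (.k1_12 (nat_lit 7) (nat_lit 1822) (nat_lit 1820) (nat_lit 1824) (nat_lit 1816) (nat_lit 1828) (nat_lit 1804) (nat_lit 1840) (nat_lit 1768) (nat_lit 1876) (nat_lit 1660) (nat_lit 1984) (nat_lit 1336) (nat_lit 3280) (nat_lit 4008)))
 (.l (.k0_10 (nat_lit 7) (nat_lit 1824) (nat_lit 1822) (nat_lit 1830) (nat_lit 1806) (nat_lit 1842) (nat_lit 1770) (nat_lit 1878) (nat_lit 1662) (nat_lit 1986) (nat_lit 1338) (nat_lit 3282)))))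
 (.n (nat_lit 1830)
 (.n (nat_lit 1828)
 (.l (.k1_9 (nat_lit 6) (nat_lit 1828) (nat_lit 1830) (nat_lit 1822) (nat_lit 1846) (nat_lit 1774) (nat_lit 1882) (nat_lit 1666) (nat_lit 1990) (nat_lit 1342) (nat_lit 3286) (nat_lit 4014)))
 (.l (.k0_9 (nat_lit 8) (nat_lit 1830) (nat_lit 1828) (nat_lit 1824) (nat_lit 1848) (nat_lit 1776) (nat_lit 1884) (nat_lit 1668) (nat_lit 1992) (nat_lit 1344) (nat_lit 3288))))
 (.n (nat_lit 1838)
 (.l (.k1_7 (nat_lit 5) (nat_lit 1838) (nat_lit 1840) (nat_lit 1820) (nat_lit 1892) (nat_lit 1676) (nat_lit 2000) (nat_lit 1352) (nat_lit 3296) (nat_lit 4024)))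
 (.n (nat_lit 1840)
 (.l (.k1_9 (nat_lit 6) (nat_lit 1840) (nat_lit 1838) (nat_lit 1842) (nat_lit 1846) (nat_lit 1822) (nat_lit 1894) (nat_lit 1678) (nat_lit 2002) (nat_lit 1354) (nat_lit 3298) (nat_lit 4026)))
 (.l (.k0_8 (nat_lit 5) (nat_lit 1842) (nat_lit 1840) (nat_lit 1848) (nat_lit 1824) (nat_lit 1896) (nat_lit 1680) (nat_lit 2004) (nat_lit 1356) (nat_lit 3300))))))))
 (.n (nat_lit 1878)
 (.n (nat_lit 1868)
 (.n (nat_lit 1848)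
 (.n (nat_lit 1846)
 (.l (.k1_8 (nat_lit 7) (nat_lit 1846) (nat_lit 1848) (nat_lit 1840) (nat_lit 1828) (nat_lit 1900) (nat_lit 1684) (nat_lit 2008) (nat_lit 1360) (nat_lit 3304) (nat_lit 4032)))
 (.l (.k0_9 (nat_lit 8) (nat_lit 1848) (nat_lit 1846) (nat_lit 1842) (nat_lit 1854) (nat_lit 1830) (nat_lit 1902) (nat_lit 1686) (nat_lit 2010) (nat_lit 1362) (nat_lit 3306))))
 (.n (nat_lit 1854)
 (.l (.k0_6 (nat_lit 9) (nat_lit 1854) (nat_lit 1848) (nat_lit 1908) (nat_lit 1692) (nat_lit 2016) (nat_lit 1368) (nat_lit 3312)))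
 (.l (.k1_6 (nat_lit 6) (nat_lit 1868) (nat_lit 1870) (nat_lit 1874) (nat_lit 1814) (nat_lit 2030) (nat_lit 1382) (nat_lit 3326) (nat_lit 4054)))))
 (.n (nat_lit 1874)
 (.n (nat_lit 1870)
 (.l (.k1_6 (nat_lit 6) (nat_lit 1870) (nat_lit 1868) (nat_lit 1876) (nat_lit 1816) (nat_lit 2032) (nat_lit 1384) (nat_lit 3328) (nat_lit 4056)))
 (.l (.k1_7 (nat_lit 4) (nat_lit 1874) (nat_lit 1876) (nat_lit 1868) (nat_lit 1892) (nat_lit 1820) (nat_lit 2036) (nat_lit 1388) (nat_lit 3332) (nat_lit 4060))))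
 (.n (nat_lit 1876)
 (.l (.k1_9 (nat_lit 6) (nat_lit 1876) (nat_lit 1874) (nat_lit 1878) (nat_lit 1870) (nat_lit 1882) (nat_lit 1894) (nat_lit 1822) (nat_lit 2038) (nat_lit 1390) (nat_lit 3334) (nat_lit 4062)))
 (.l (.k0_7 (nat_lit 6) (nat_lit 1878) (nat_lit 1876) (nat_lit 1884) (nat_lit 1896) (nat_lit 1824) (nat_lit 2040) (nat_lit 1392) (nat_lit 3336))))))
 (.n (nat_lit 1894)
 (.n (nat_lit 1884)
 (.n (nat_lit 1882)
 (.l (.k1_7 (nat_lit 4) (nat_lit 1882) (nat_lit 1884) (nat_lit 1876) (nat_lit 1900) (nat_lit 1828) (nat_lit 2044) (nat_lit 1396) (nat_lit 3340) (nat_lit 4068)))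
 (.l (.k0_7 (nat_lit 6) (nat_lit 1884) (nat_lit 1882) (nat_lit 1878) (nat_lit 1902) (nat_lit 1830) (nat_lit 2046) (nat_lit 1398) (nat_lit 3342))))
 (.n (nat_lit 1892)
 (.l (.k1_6 (nat_lit 6) (nat_lit 1892) (nat_lit 1894) (nat_lit 1874) (nat_lit 1838) (nat_lit 2054) (nat_lit 1406) (nat_lit 3350) (nat_lit 4078)))
 (.l (.k1_8 (nat_lit 7) (nat_lit 1894) (nat_lit 1892) (nat_lit 1896) (nat_lit 1900) (nat_lit 1876) (nat_lit 1840) (nat_lit 2056) (nat_lit 1408) (nat_lit 3352) (nat_lit 4080)))))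
 (.n (nat_lit 1900)
 (.n (nat_lit 1896)
 (.l (.k0_7 (nat_lit 6) (nat_lit 1896) (nat_lit 1894) (nat_lit 1902) (nat_lit 1878) (nat_lit 1842) (nat_lit 2058) (nat_lit 1410) (nat_lit 3354)))
 (.l (.k1_8 (nat_lit 7) (nat_lit 1900) (nat_lit 1902) (nat_lit 1894) (nat_lit 1882) (nat_lit 1918) (nat_lit 1846) (nat_lit 2062) (nat_lit 1414) (nat_lit 3358) (nat_lit 4086))))
 (.n (nat_lit 1902)
 (.l (.k0_9 (nat_lit 8) (nat_lit 1902) (nat_lit 1900) (nat_lit 1896) (nat_lit 1908) (nat_lit 1884) (nat_lit 1920) (nat_lit 1848) (nat_lit 2064) (nat_lit 1416) (nat_lit 3360)))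
 (.n (nat_lit 1908)
 (.l (.k0_6 (nat_lit 8) (nat_lit 1908) (nat_lit 1902) (nat_lit 1926) (nat_lit 1854) (nat_lit 2070) (nat_lit 1422) (nat_lit 3366)))
 (.l (.k1_5 (nat_lit 8) (nat_lit 1918) (nat_lit 1920) (nat_lit 1900) (nat_lit 2080) (nat_lit 1432) (nat_lit 3376) (nat_lit 4104)))))))))
 (.n (nat_lit 2002)
 (.n (nat_lit 1968)
 (.n (nat_lit 1958)
 (.n (nat_lit 1926)
 (.n (nat_lit 1920)
 (.l (.k0_6 (nat_lit 8) (nat_lit 1920) (nat_lit 1918) (nat_lit 1926) (nat_lit 1902) (nat_lit 2082) (nat_lit 1434) (nat_lit 3378)))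
 (.l (.k0_5 (nat_lit 10) (nat_lit 1926) (nat_lit 1920) (nat_lit 1908) (nat_lit 2088) (nat_lit 1440) (nat_lit 3384))))
 (.n (nat_lit 1952)
 (.l (.k1_3 (nat_lit 8) (nat_lit 1952) (nat_lit 1958) (nat_lit 1790) (nat_lit 3410) (nat_lit 4138)))
 (.l (.k1_6 (nat_lit 7) (nat_lit 1958) (nat_lit 1960) (nat_lit 1952) (nat_lit 1964) (nat_lit 1976) (nat_lit 1796) (nat_lit 3416) (nat_lit 4144)))))
 (.n (nat_lit 1964)
 (.n (nat_lit 1960)
 (.l (.k1_5 (nat_lit 8) (nat_lit 1960) (nat_lit 1958) (nat_lit 1966) (nat_lit 1978) (nat_lit 1798) (nat_lit 3418) (nat_lit 4146)))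
 (.l (.k1_5 (nat_lit 4) (nat_lit 1964) (nat_lit 1966) (nat_lit 1958) (nat_lit 1982) (nat_lit 1802) (nat_lit 3422) (nat_lit 4150))))
 (.n (nat_lit 1966)
 (.l (.k1_6 (nat_lit 7) (nat_lit 1966) (nat_lit 1964) (nat_lit 1968) (nat_lit 1960) (nat_lit 1984) (nat_lit 1804) (nat_lit 3424) (nat_lit 4152)))
 (.l (.k0_4 (nat_lit 8) (nat_lit 1968) (nat_lit 1966) (nat_lit 1986) (nat_lit 1806) (nat_lit 3426))))))
 (.n (nat_lit 1984)
 (.n (nat_lit 1978)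
 (.n (nat_lit 1976)
 (.l (.k1_6 (nat_lit 6) (nat_lit 1976) (nat_lit 1978) (nat_lit 1982) (nat_lit 1958) (nat_lit 2030) (nat_lit 1814) (nat_lit 3434) (nat_lit 4162)))
 (.l (.k1_6 (nat_lit 6) (nat_lit 1978) (nat_lit 1976) (nat_lit 1984) (nat_lit 1960) (nat_lit 2032) (nat_lit 1816) (nat_lit 3436) (nat_lit 4164))))
 (.n (nat_lit 1982)
 (.l (.k1_7 (nat_lit 5) (nat_lit 1982) (nat_lit 1984) (nat_lit 1976) (nat_lit 1964) (nat_lit 2000) (nat_lit 2036) (nat_lit 1820) (nat_lit 3440) (nat_lit 4168)))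
 (.l (.k1_9 (nat_lit 7) (nat_lit 1984) (nat_lit 1982) (nat_lit 1986) (nat_lit 1978) (nat_lit 1990) (nat_lit 1966) (nat_lit 2002) (nat_lit 2038) (nat_lit 1822) (nat_lit 3442) (nat_lit 4170)))))
 (.n (nat_lit 1990)
 (.n (nat_lit 1986)
 (.l (.k0_7 (nat_lit 7) (nat_lit 1986) (nat_lit 1984) (nat_lit 1992) (nat_lit 1968) (nat_lit 2004) (nat_lit 2040) (nat_lit 1824) (nat_lit 3444)))
 (.l (.k1_6 (nat_lit 6) (nat_lit 1990) (nat_lit 1992) (nat_lit 1984) (nat_lit 2008) (nat_lit 2044) (nat_lit 1828) (nat_lit 3448) (nat_lit 4176))))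
 (.n (nat_lit 1992)
 (.l (.k0_6 (nat_lit 8) (nat_lit 1992) (nat_lit 1990) (nat_lit 1986) (nat_lit 2010) (nat_lit 2046) (nat_lit 1830) (nat_lit 3450)))
 (.n (nat_lit 2000)
 (.l (.k1_5 (nat_lit 4) (nat_lit 2000) (nat_lit 2002) (nat_lit 1982) (nat_lit 2054) (nat_lit 1838) (nat_lit 3458) (nat_lit 4186)))
 (.l (.k1_7 (nat_lit 5) (nat_lit 2002) (nat_lit 2000) (nat_lit 2004) (nat_lit 2008) (nat_lit 1984) (nat_lit 2056) (nat_lit 1840) (nat_lit 3460) (nat_lit 4188))))))))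
 (.n (nat_lit 2040)
 (.n (nat_lit 2016)
 (.n (nat_lit 2008)
 (.n (nat_lit 2004)
 (.l (.k0_6 (nat_lit 4) (nat_lit 2004) (nat_lit 2002) (nat_lit 2010) (nat_lit 1986) (nat_lit 2058) (nat_lit 1842) (nat_lit 3462)))
 (.l (.k1_6 (nat_lit 6) (nat_lit 2008) (nat_lit 2010) (nat_lit 2002) (nat_lit 1990) (nat_lit 2062) (nat_lit 1846) (nat_lit 3466) (nat_lit 4194))))
 (.n (nat_lit 2010)
 (.l (.k0_7 (nat_lit 7) (nat_lit 2010) (nat_lit 2008) (nat_lit 2004) (nat_lit 2016) (nat_lit 1992) (nat_lit 2064) (nat_lit 1848) (nat_lit 3468)))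
 (.l (.k0_4 (nat_lit 8) (nat_lit 2016) (nat_lit 2010) (nat_lit 2070) (nat_lit 1854) (nat_lit 3474)))))
 (.n (nat_lit 2032)
 (.n (nat_lit 2030)
 (.l (.k1_5 (nat_lit 8) (nat_lit 2030) (nat_lit 2032) (nat_lit 2036) (nat_lit 1976) (nat_lit 1868) (nat_lit 3488) (nat_lit 4216)))
 (.l (.k1_5 (nat_lit 8) (nat_lit 2032) (nat_lit 2030) (nat_lit 2038) (nat_lit 1978) (nat_lit 1870) (nat_lit 3490) (nat_lit 4218))))
 (.n (nat_lit 2036)
 (.l (.k1_6 (nat_lit 6) (nat_lit 2036) (nat_lit 2038) (nat_lit 2030) (nat_lit 2054) (nat_lit 1982) (nat_lit 1874) (nat_lit 3494) (nat_lit 4222)))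
 (.n (nat_lit 2038)
 (.l (.k1_8 (nat_lit 8) (nat_lit 2038) (nat_lit 2036) (nat_lit 2040) (nat_lit 2032) (nat_lit 2044) (nat_lit 2056) (nat_lit 1984) (nat_lit 1876) (nat_lit 3496) (nat_lit 4224)))
 (.l (.k0_6 (nat_lit 8) (nat_lit 2040) (nat_lit 2038) (nat_lit 2046) (nat_lit 2058) (nat_lit 1986) (nat_lit 1878) (nat_lit 3498)))))))
 (.n (nat_lit 2056)
 (.n (nat_lit 2046)
 (.n (nat_lit 2044)
 (.l (.k1_6 (nat_lit 6) (nat_lit 2044) (nat_lit 2046) (nat_lit 2038) (nat_lit 2062) (nat_lit 1990) (nat_lit 1882) (nat_lit 3502) (nat_lit 4230)))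
 (.l (.k0_6 (nat_lit 8) (nat_lit 2046) (nat_lit 2044) (nat_lit 2040) (nat_lit 2064) (nat_lit 1992) (nat_lit 1884) (nat_lit 3504))))
 (.n (nat_lit 2054)
 (.l (.k1_6 (nat_lit 7) (nat_lit 2054) (nat_lit 2056) (nat_lit 2036) (nat_lit 2000) (nat_lit 2108) (nat_lit 1892) (nat_lit 3512) (nat_lit 4240)))
 (.l (.k1_8 (nat_lit 8) (nat_lit 2056) (nat_lit 2054) (nat_lit 2058) (nat_lit 2062) (nat_lit 2038) (nat_lit 2002) (nat_lit 2110) (nat_lit 1894) (nat_lit 3514) (nat_lit 4242)))))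
 (.n (nat_lit 2062)
 (.n (nat_lit 2058)
 (.l (.k0_7 (nat_lit 7) (nat_lit 2058) (nat_lit 2056) (nat_lit 2064) (nat_lit 2040) (nat_lit 2004) (nat_lit 2112) (nat_lit 1896) (nat_lit 3516)))
 (.l (.k1_8 (nat_lit 8) (nat_lit 2062) (nat_lit 2064) (nat_lit 2056) (nat_lit 2044) (nat_lit 2080) (nat_lit 2008) (nat_lit 2116) (nat_lit 1900) (nat_lit 3520) (nat_lit 4248))))
 (.n (nat_lit 2064)
 (.l (.k0_9 (nat_lit 9) (nat_lit 2064) (nat_lit 2062) (nat_lit 2058) (nat_lit 2070) (nat_lit 2046) (nat_lit 2082) (nat_lit 2010) (nat_lit 2118) (nat_lit 1902) (nat_lit 3522)))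
 (.n (nat_lit 2070)
 (.l (.k0_6 (nat_lit 9) (nat_lit 2070) (nat_lit 2064) (nat_lit 2088) (nat_lit 2016) (nat_lit 2124) (nat_lit 1908) (nat_lit 3528)))
 (.l (.k1_5 (nat_lit 8) (nat_lit 2080) (nat_lit 2082) (nat_lit 2062) (nat_lit 2134) (nat_lit 1918) (nat_lit 3538) (nat_lit 4266))))))))))
 (.n (nat_lit 2398)
 (.n (nat_lit 2294)
 (.n (nat_lit 2124)
 (.n (nat_lit 2110)
 (.n (nat_lit 2088)
 (.n (nat_lit 2082)
 (.l (.k0_6 (nat_lit 8) (nat_lit 2082) (nat_lit 2080) (nat_lit 2088) (nat_lit 2064) (nat_lit 2136) (nat_lit 1920) (nat_lit 3540)))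
 (.l (.k0_5 (nat_lit 10) (nat_lit 2088) (nat_lit 2082) (nat_lit 2070) (nat_lit 2142) (nat_lit 1926) (nat_lit 3546))))
 (.n (nat_lit 2108)
 (.l (.k1_3 (nat_lit 8) (nat_lit 2108) (nat_lit 2110) (nat_lit 2054) (nat_lit 3566) (nat_lit 4294)))
 (.l (.k1_5 (nat_lit 9) (nat_lit 2110) (nat_lit 2108) (nat_lit 2112) (nat_lit 2116) (nat_lit 2056) (nat_lit 3568) (nat_lit 4296)))))
 (.n (nat_lit 2116)
 (.n (nat_lit 2112)
 (.l (.k0_4 (nat_lit 8) (nat_lit 2112) (nat_lit 2110) (nat_lit 2118) (nat_lit 2058) (nat_lit 3570)))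
 (.l (.k1_5 (nat_lit 8) (nat_lit 2116) (nat_lit 2118) (nat_lit 2110) (nat_lit 2134) (nat_lit 2062) (nat_lit 3574) (nat_lit 4302))))
 (.n (nat_lit 2118)
 (.l (.k0_6 (nat_lit 9) (nat_lit 2118) (nat_lit 2116) (nat_lit 2112) (nat_lit 2124) (nat_lit 2136) (nat_lit 2064) (nat_lit 3576)))
 (.l (.k0_4 (nat_lit 8) (nat_lit 2124) (nat_lit 2118) (nat_lit 2142) (nat_lit 2070) (nat_lit 3582))))))
 (.n (nat_lit 2160)
 (.n (nat_lit 2136)
 (.n (nat_lit 2134)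
 (.l (.k1_4 (nat_lit 10) (nat_lit 2134) (nat_lit 2136) (nat_lit 2116) (nat_lit 2080) (nat_lit 3592) (nat_lit 4320)))
 (.l (.k0_5 (nat_lit 10) (nat_lit 2136) (nat_lit 2134) (nat_lit 2142) (nat_lit 2118) (nat_lit 2082) (nat_lit 3594))))
 (.n (nat_lit 2142)
 (.l (.k0_5 (nat_lit 11) (nat_lit 2142) (nat_lit 2136) (nat_lit 2124) (nat_lit 2160) (nat_lit 2088) (nat_lit 3600)))
 (.l (.k0_2 (nat_lit 12) (nat_lit 2160) (nat_lit 2142) (nat_lit 3618)))))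
 (.n (nat_lit 2258)
 (.n (nat_lit 2240)
 (.l (.k1_3 (nat_lit 12) (nat_lit 2240) (nat_lit 2258) (nat_lit 2294) (nat_lit 782) (nat_lit 4426)))
 (.l (.k1_4 (nat_lit 10) (nat_lit 2258) (nat_lit 2264) (nat_lit 2240) (nat_lit 2312) (nat_lit 800) (nat_lit 4444))))
 (.n (nat_lit 2264)
 (.l (.k1_4 (nat_lit 10) (nat_lit 2264) (nat_lit 2266) (nat_lit 2258) (nat_lit 2318) (nat_lit 806) (nat_lit 4450)))
 (.n (nat_lit 2266)
 (.l (.k3_3 (nat_lit 11) (nat_lit 2266) (nat_lit 2264) (nat_lit 2320) (nat_lit 808) (nat_lit 4452) (nat_lit 80)))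
 (.l (.k1_4 (nat_lit 10) (nat_lit 2294) (nat_lit 2312) (nat_lit 2240) (nat_lit 2456) (nat_lit 836) (nat_lit 4480))))))))
 (.n (nat_lit 2344)
 (.n (nat_lit 2330)
 (.n (nat_lit 2318)
 (.n (nat_lit 2312)
 (.l (.k1_7 (nat_lit 10) (nat_lit 2312) (nat_lit 2318) (nat_lit 2294) (nat_lit 2330) (nat_lit 2258) (nat_lit 2366) (nat_lit 2474) (nat_lit 854) (nat_lit 4498)))
 (.l (.k1_7 (nat_lit 9) (nat_lit 2318) (nat_lit 2320) (nat_lit 2312) (nat_lit 2336) (nat_lit 2264) (nat_lit 2372) (nat_lit 2480) (nat_lit 860) (nat_lit 4504))))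
 (.n (nat_lit 2320)
 (.l (.k3_6 (nat_lit 10) (nat_lit 2320) (nat_lit 2318) (nat_lit 2338) (nat_lit 2266) (nat_lit 2374) (nat_lit 2482) (nat_lit 862) (nat_lit 4506) (nat_lit 134)))
 (.l (.k1_5 (nat_lit 8) (nat_lit 2330) (nat_lit 2336) (nat_lit 2312) (nat_lit 2384) (nat_lit 2492) (nat_lit 872) (nat_lit 4516)))))
 (.n (nat_lit 2338)
 (.n (nat_lit 2336)
 (.l (.k1_7 (nat_lit 9) (nat_lit 2336) (nat_lit 2338) (nat_lit 2330) (nat_lit 2342) (nat_lit 2318) (nat_lit 2390) (nat_lit 2498) (nat_lit 878) (nat_lit 4522)))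
 (.l (.k3_6 (nat_lit 9) (nat_lit 2338) (nat_lit 2336) (nat_lit 2344) (nat_lit 2320) (nat_lit 2392) (nat_lit 2500) (nat_lit 880) (nat_lit 4524) (nat_lit 152))))
 (.n (nat_lit 2342)
 (.l (.k1_5 (nat_lit 8) (nat_lit 2342) (nat_lit 2344) (nat_lit 2336) (nat_lit 2396) (nat_lit 2504) (nat_lit 884) (nat_lit 4528)))
 (.l (.k3_6 (nat_lit 10) (nat_lit 2344) (nat_lit 2342) (nat_lit 2346) (nat_lit 2338) (nat_lit 2398) (nat_lit 2506) (nat_lit 886) (nat_lit 4530) (nat_lit 158))))))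
 (.n (nat_lit 2374)
 (.n (nat_lit 2366)
 (.n (nat_lit 2346)
 (.l (.k2_4 (nat_lit 10) (nat_lit 2346) (nat_lit 2344) (nat_lit 2400) (nat_lit 2508) (nat_lit 888) (nat_lit 160)))
 (.l (.k1_5 (nat_lit 8) (nat_lit 2366) (nat_lit 2372) (nat_lit 2384) (nat_lit 2312) (nat_lit 2528) (nat_lit 908) (nat_lit 4552))))
 (.n (nat_lit 2372)
 (.l (.k1_6 (nat_lit 6) (nat_lit 2372) (nat_lit 2374) (nat_lit 2366) (nat_lit 2390) (nat_lit 2318) (nat_lit 2534) (nat_lit 914) (nat_lit 4558)))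
 (.l (.k3_5 (nat_lit 7) (nat_lit 2374) (nat_lit 2372) (nat_lit 2392) (nat_lit 2320) (nat_lit 2536) (nat_lit 916) (nat_lit 4560) (nat_lit 188)))))
 (.n (nat_lit 2390)
 (.n (nat_lit 2384)
 (.l (.k1_5 (nat_lit 8) (nat_lit 2384) (nat_lit 2390) (nat_lit 2366) (nat_lit 2330) (nat_lit 2546) (nat_lit 926) (nat_lit 4570)))
 (.l (.k1_8 (nat_lit 8) (nat_lit 2390) (nat_lit 2392) (nat_lit 2384) (nat_lit 2396) (nat_lit 2372) (nat_lit 2408) (nat_lit 2336) (nat_lit 2552) (nat_lit 932) (nat_lit 4576))))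
 (.n (nat_lit 2392)
 (.l (.k3_7 (nat_lit 8) (nat_lit 2392) (nat_lit 2390) (nat_lit 2398) (nat_lit 2374) (nat_lit 2410) (nat_lit 2338) (nat_lit 2554) (nat_lit 934) (nat_lit 4578) (nat_lit 206)))
 (.n (nat_lit 2396)
 (.l (.k1_6 (nat_lit 6) (nat_lit 2396) (nat_lit 2398) (nat_lit 2390) (nat_lit 2414) (nat_lit 2342) (nat_lit 2558) (nat_lit 938) (nat_lit 4582)))
 (.l (.k3_7 (nat_lit 8) (nat_lit 2398) (nat_lit 2396) (nat_lit 2400) (nat_lit 2392) (nat_lit 2416) (nat_lit 2344) (nat_lit 2560) (nat_lit 940) (nat_lit 4584) (nat_lit 212)))))))))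
 (.n (nat_lit 2506)
 (.n (nat_lit 2424)
 (.n (nat_lit 2414)
 (.n (nat_lit 2408)
 (.n (nat_lit 2400)
 (.l (.k2_5 (nat_lit 8) (nat_lit 2400) (nat_lit 2398) (nat_lit 2418) (nat_lit 2346) (nat_lit 2562) (nat_lit 942) (nat_lit 214)))
 (.l (.k1_5 (nat_lit 8) (nat_lit 2408) (nat_lit 2410) (nat_lit 2414) (nat_lit 2390) (nat_lit 2570) (nat_lit 950) (nat_lit 4594))))
 (.n (nat_lit 2410)
 (.l (.k3_5 (nat_lit 7) (nat_lit 2410) (nat_lit 2408) (nat_lit 2416) (nat_lit 2392) (nat_lit 2572) (nat_lit 952) (nat_lit 4596) (nat_lit 224)))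
 (.l (.k1_5 (nat_lit 8) (nat_lit 2414) (nat_lit 2416) (nat_lit 2408) (nat_lit 2396) (nat_lit 2576) (nat_lit 956) (nat_lit 4600)))))
 (.n (nat_lit 2418)
 (.n (nat_lit 2416)
 (.l (.k3_7 (nat_lit 9) (nat_lit 2416) (nat_lit 2414) (nat_lit 2418) (nat_lit 2410) (nat_lit 2422) (nat_lit 2398) (nat_lit 2578) (nat_lit 958) (nat_lit 4602) (nat_lit 230)))
 (.l (.k2_5 (nat_lit 8) (nat_lit 2418) (nat_lit 2416) (nat_lit 2424) (nat_lit 2400) (nat_lit 2580) (nat_lit 960) (nat_lit 232))))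
 (.n (nat_lit 2422)
 (.l (.k3_4 (nat_lit 9) (nat_lit 2422) (nat_lit 2424) (nat_lit 2416) (nat_lit 2584) (nat_lit 964) (nat_lit 4608) (nat_lit 236)))
 (.l (.k2_4 (nat_lit 10) (nat_lit 2424) (nat_lit 2422) (nat_lit 2418) (nat_lit 2586) (nat_lit 966) (nat_lit 238))))))
 (.n (nat_lit 2482)
 (.n (nat_lit 2474)
 (.n (nat_lit 2456)
 (.l (.k1_4 (nat_lit 10) (nat_lit 2456) (nat_lit 2474) (nat_lit 2294) (nat_lit 2942) (nat_lit 998) (nat_lit 4642)))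
 (.l (.k1_7 (nat_lit 9) (nat_lit 2474) (nat_lit 2480) (nat_lit 2456) (nat_lit 2492) (nat_lit 2528) (nat_lit 2312) (nat_lit 2960) (nat_lit 1016) (nat_lit 4660))))
 (.n (nat_lit 2480)
 (.l (.k1_7 (nat_lit 8) (nat_lit 2480) (nat_lit 2482) (nat_lit 2474) (nat_lit 2498) (nat_lit 2534) (nat_lit 2318) (nat_lit 2966) (nat_lit 1022) (nat_lit 4666)))
 (.l (.k3_6 (nat_lit 9) (nat_lit 2482) (nat_lit 2480) (nat_lit 2500) (nat_lit 2536) (nat_lit 2320) (nat_lit 2968) (nat_lit 1024) (nat_lit 4668) (nat_lit 296)))))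
 (.n (nat_lit 2498)
 (.n (nat_lit 2492)
 (.l (.k1_6 (nat_lit 6) (nat_lit 2492) (nat_lit 2498) (nat_lit 2474) (nat_lit 2546) (nat_lit 2330) (nat_lit 2978) (nat_lit 1034) (nat_lit 4678)))
 (.l (.k1_8 (nat_lit 7) (nat_lit 2498) (nat_lit 2500) (nat_lit 2492) (nat_lit 2504) (nat_lit 2480) (nat_lit 2552) (nat_lit 2336) (nat_lit 2984) (nat_lit 1040) (nat_lit 4684))))
 (.n (nat_lit 2500)
 (.l (.k3_7 (nat_lit 7) (nat_lit 2500) (nat_lit 2498) (nat_lit 2506) (nat_lit 2482) (nat_lit 2554) (nat_lit 2338) (nat_lit 2986) (nat_lit 1042) (nat_lit 4686) (nat_lit 314)))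
 (.n (nat_lit 2504)
 (.l (.k1_6 (nat_lit 6) (nat_lit 2504) (nat_lit 2506) (nat_lit 2498) (nat_lit 2558) (nat_lit 2342) (nat_lit 2990) (nat_lit 1046) (nat_lit 4690)))
 (.l (.k3_7 (nat_lit 8) (nat_lit 2506) (nat_lit 2504) (nat_lit 2508) (nat_lit 2500) (nat_lit 2560) (nat_lit 2344) (nat_lit 2992) (nat_lit 1048) (nat_lit 4692) (nat_lit 320))))))))
 (.n (nat_lit 2560)
 (.n (nat_lit 2536)
 (.n (nat_lit 2528)
 (.n (nat_lit 2508)
 (.l (.k2_5 (nat_lit 8) (nat_lit 2508) (nat_lit 2506) (nat_lit 2562) (nat_lit 2346) (nat_lit 2994) (nat_lit 1050) (nat_lit 322)))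
 (.l (.k1_7 (nat_lit 9) (nat_lit 2528) (nat_lit 2534) (nat_lit 2546) (nat_lit 2474) (nat_lit 2366) (nat_lit 2690) (nat_lit 3014) (nat_lit 1070) (nat_lit 4714))))
 (.n (nat_lit 2534)
 (.l (.k1_8 (nat_lit 7) (nat_lit 2534) (nat_lit 2536) (nat_lit 2528) (nat_lit 2552) (nat_lit 2480) (nat_lit 2372) (nat_lit 2696) (nat_lit 3020) (nat_lit 1076) (nat_lit 4720)))
 (.l (.k3_7 (nat_lit 8) (nat_lit 2536) (nat_lit 2534) (nat_lit 2554) (nat_lit 2482) (nat_lit 2374) (nat_lit 2698) (nat_lit 3022) (nat_lit 1078) (nat_lit 4722) (nat_lit 350)))))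
 (.n (nat_lit 2552)
 (.n (nat_lit 2546)
 (.l (.k1_8 (nat_lit 8) (nat_lit 2546) (nat_lit 2552) (nat_lit 2528) (nat_lit 2492) (nat_lit 2600) (nat_lit 2384) (nat_lit 2708) (nat_lit 3032) (nat_lit 1088) (nat_lit 4732)))
 (.l (.k1_11 (nat_lit 8) (nat_lit 2552) (nat_lit 2554) (nat_lit 2546) (nat_lit 2558) (nat_lit 2534) (nat_lit 2570) (nat_lit 2498) (nat_lit 2606) (nat_lit 2390) (nat_lit 2714) (nat_lit 3038) (nat_lit 1094) (nat_lit 4738))))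
 (.n (nat_lit 2554)
 (.l (.k3_10 (nat_lit 8) (nat_lit 2554) (nat_lit 2552) (nat_lit 2560) (nat_lit 2536) (nat_lit 2572) (nat_lit 2500) (nat_lit 2608) (nat_lit 2392) (nat_lit 2716) (nat_lit 3040) (nat_lit 1096) (nat_lit 4740) (nat_lit 368)))
 (.n (nat_lit 2558)
 (.l (.k1_9 (nat_lit 6) (nat_lit 2558) (nat_lit 2560) (nat_lit 2552) (nat_lit 2576) (nat_lit 2504) (nat_lit 2612) (nat_lit 2396) (nat_lit 2720) (nat_lit 3044) (nat_lit 1100) (nat_lit 4744)))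
 (.l (.k3_10 (nat_lit 8) (nat_lit 2560) (nat_lit 2558) (nat_lit 2562) (nat_lit 2554) (nat_lit 2578) (nat_lit 2506) (nat_lit 2614) (nat_lit 2398) (nat_lit 2722) (nat_lit 3046) (nat_lit 1102) (nat_lit 4746) (nat_lit 374)))))))
 (.n (nat_lit 2576)
 (.n (nat_lit 2570)
 (.n (nat_lit 2562)
 (.l (.k2_8 (nat_lit 8) (nat_lit 2562) (nat_lit 2560) (nat_lit 2580) (nat_lit 2508) (nat_lit 2616) (nat_lit 2400) (nat_lit 2724) (nat_lit 3048) (nat_lit 1104) (nat_lit 376)))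
 (.l (.k1_8 (nat_lit 7) (nat_lit 2570) (nat_lit 2572) (nat_lit 2576) (nat_lit 2552) (nat_lit 2624) (nat_lit 2408) (nat_lit 2732) (nat_lit 3056) (nat_lit 1112) (nat_lit 4756))))
 (.n (nat_lit 2572)
 (.l (.k3_8 (nat_lit 6) (nat_lit 2572) (nat_lit 2570) (nat_lit 2578) (nat_lit 2554) (nat_lit 2626) (nat_lit 2410) (nat_lit 2734) (nat_lit 3058) (nat_lit 1114) (nat_lit 4758) (nat_lit 386)))
 (.l (.k1_8 (nat_lit 7) (nat_lit 2576) (nat_lit 2578) (nat_lit 2570) (nat_lit 2558) (nat_lit 2630) (nat_lit 2414) (nat_lit 2738) (nat_lit 3062) (nat_lit 1118) (nat_lit 4762)))))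
 (.n (nat_lit 2580)
 (.n (nat_lit 2578)
 (.l (.k3_10 (nat_lit 8) (nat_lit 2578) (nat_lit 2576) (nat_lit 2580) (nat_lit 2572) (nat_lit 2584) (nat_lit 2560) (nat_lit 2632) (nat_lit 2416) (nat_lit 2740) (nat_lit 3064) (nat_lit 1120) (nat_lit 4764) (nat_lit 392)))
 (.l (.k2_8 (nat_lit 7) (nat_lit 2580) (nat_lit 2578) (nat_lit 2586) (nat_lit 2562) (nat_lit 2634) (nat_lit 2418) (nat_lit 2742) (nat_lit 3066) (nat_lit 1122) (nat_lit 394))))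
 (.n (nat_lit 2584)
 (.l (.k3_7 (nat_lit 8) (nat_lit 2584) (nat_lit 2586) (nat_lit 2578) (nat_lit 2638) (nat_lit 2422) (nat_lit 2746) (nat_lit 3070) (nat_lit 1126) (nat_lit 4770) (nat_lit 398)))
 (.n (nat_lit 2586)
 (.l (.k2_7 (nat_lit 9) (nat_lit 2586) (nat_lit 2584) (nat_lit 2580) (nat_lit 2640) (nat_lit 2424) (nat_lit 2748) (nat_lit 3072) (nat_lit 1128) (nat_lit 400)))
 (.l (.k1_5 (nat_lit 8) (nat_lit 2600) (nat_lit 2606) (nat_lit 2546) (nat_lit 2762) (nat_lit 3086) (nat_lit 1142) (nat_lit 4786)))))))))))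
 (.n (nat_lit 2898)
 (.n (nat_lit 2748)
 (.n (nat_lit 2658)
 (.n (nat_lit 2630)
 (.n (nat_lit 2614)
 (.n (nat_lit 2608)
 (.n (nat_lit 2606)
 (.l (.k1_8 (nat_lit 7) (nat_lit 2606) (nat_lit 2608) (nat_lit 2600) (nat_lit 2612) (nat_lit 2624) (nat_lit 2552) (nat_lit 2768) (nat_lit 3092) (nat_lit 1148) (nat_lit 4792)))
 (.l (.k3_7 (nat_lit 7) (nat_lit 2608) (nat_lit 2606) (nat_lit 2614) (nat_lit 2626) (nat_lit 2554) (nat_lit 2770) (nat_lit 3094) (nat_lit 1150) (nat_lit 4794) (nat_lit 422))))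
 (.n (nat_lit 2612)
 (.l (.k1_7 (nat_lit 4) (nat_lit 2612) (nat_lit 2614) (nat_lit 2606) (nat_lit 2630) (nat_lit 2558) (nat_lit 2774) (nat_lit 3098) (nat_lit 1154) (nat_lit 4798)))
 (.l (.k3_8 (nat_lit 6) (nat_lit 2614) (nat_lit 2612) (nat_lit 2616) (nat_lit 2608) (nat_lit 2632) (nat_lit 2560) (nat_lit 2776) (nat_lit 3100) (nat_lit 1156) (nat_lit 4800) (nat_lit 428)))))
 (.n (nat_lit 2624)
 (.n (nat_lit 2616)
 (.l (.k2_6 (nat_lit 6) (nat_lit 2616) (nat_lit 2614) (nat_lit 2634) (nat_lit 2562) (nat_lit 2778) (nat_lit 3102) (nat_lit 1158) (nat_lit 430)))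
 (.l (.k1_7 (nat_lit 8) (nat_lit 2624) (nat_lit 2626) (nat_lit 2630) (nat_lit 2606) (nat_lit 2570) (nat_lit 2786) (nat_lit 3110) (nat_lit 1166) (nat_lit 4810))))
 (.n (nat_lit 2626)
 (.l (.k3_7 (nat_lit 7) (nat_lit 2626) (nat_lit 2624) (nat_lit 2632) (nat_lit 2608) (nat_lit 2572) (nat_lit 2788) (nat_lit 3112) (nat_lit 1168) (nat_lit 4812) (nat_lit 440)))
 (.l (.k1_8 (nat_lit 7) (nat_lit 2630) (nat_lit 2632) (nat_lit 2624) (nat_lit 2612) (nat_lit 2648) (nat_lit 2576) (nat_lit 2792) (nat_lit 3116) (nat_lit 1172) (nat_lit 4816))))))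
 (.n (nat_lit 2640)
 (.n (nat_lit 2634)
 (.n (nat_lit 2632)
 (.l (.k3_10 (nat_lit 8) (nat_lit 2632) (nat_lit 2630) (nat_lit 2634) (nat_lit 2626) (nat_lit 2638) (nat_lit 2614) (nat_lit 2650) (nat_lit 2578) (nat_lit 2794) (nat_lit 3118) (nat_lit 1174) (nat_lit 4818) (nat_lit 446)))
 (.l (.k2_8 (nat_lit 7) (nat_lit 2634) (nat_lit 2632) (nat_lit 2640) (nat_lit 2616) (nat_lit 2652) (nat_lit 2580) (nat_lit 2796) (nat_lit 3120) (nat_lit 1176) (nat_lit 448))))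
 (.n (nat_lit 2638)
 (.l (.k3_7 (nat_lit 7) (nat_lit 2638) (nat_lit 2640) (nat_lit 2632) (nat_lit 2656) (nat_lit 2584) (nat_lit 2800) (nat_lit 3124) (nat_lit 1180) (nat_lit 4824) (nat_lit 452)))
 (.l (.k2_7 (nat_lit 8) (nat_lit 2640) (nat_lit 2638) (nat_lit 2634) (nat_lit 2658) (nat_lit 2586) (nat_lit 2802) (nat_lit 3126) (nat_lit 1182) (nat_lit 454)))))
 (.n (nat_lit 2650)
 (.n (nat_lit 2648)
 (.l (.k1_5 (nat_lit 8) (nat_lit 2648) (nat_lit 2650) (nat_lit 2630) (nat_lit 2810) (nat_lit 3134) (nat_lit 1190) (nat_lit 4834)))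
 (.l (.k3_7 (nat_lit 8) (nat_lit 2650) (nat_lit 2648) (nat_lit 2652) (nat_lit 2656) (nat_lit 2632) (nat_lit 2812) (nat_lit 3136) (nat_lit 1192) (nat_lit 4836) (nat_lit 464))))
 (.n (nat_lit 2652)
 (.l (.k2_6 (nat_lit 6) (nat_lit 2652) (nat_lit 2650) (nat_lit 2658) (nat_lit 2634) (nat_lit 2814) (nat_lit 3138) (nat_lit 1194) (nat_lit 466)))
 (.n (nat_lit 2656)
 (.l (.k3_6 (nat_lit 9) (nat_lit 2656) (nat_lit 2658) (nat_lit 2650) (nat_lit 2638) (nat_lit 2818) (nat_lit 3142) (nat_lit 1198) (nat_lit 4842) (nat_lit 470)))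
 (.l (.k2_7 (nat_lit 9) (nat_lit 2658) (nat_lit 2656) (nat_lit 2652) (nat_lit 2664) (nat_lit 2640) (nat_lit 2820) (nat_lit 3144) (nat_lit 1200) (nat_lit 472))))))))
 (.n (nat_lit 2720)
 (.n (nat_lit 2698)
 (.n (nat_lit 2690)
 (.n (nat_lit 2664)
 (.l (.k2_4 (nat_lit 10) (nat_lit 2664) (nat_lit 2658) (nat_lit 2826) (nat_lit 3150) (nat_lit 1206) (nat_lit 478)))
 (.l (.k1_5 (nat_lit 8) (nat_lit 2690) (nat_lit 2696) (nat_lit 2708) (nat_lit 2528) (nat_lit 3176) (nat_lit 1232) (nat_lit 4876))))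
 (.n (nat_lit 2696)
 (.l (.k1_6 (nat_lit 6) (nat_lit 2696) (nat_lit 2698) (nat_lit 2690) (nat_lit 2714) (nat_lit 2534) (nat_lit 3182) (nat_lit 1238) (nat_lit 4882)))
 (.l (.k3_5 (nat_lit 7) (nat_lit 2698) (nat_lit 2696) (nat_lit 2716) (nat_lit 2536) (nat_lit 3184) (nat_lit 1240) (nat_lit 4884) (nat_lit 512)))))
 (.n (nat_lit 2714)
 (.n (nat_lit 2708)
 (.l (.k1_6 (nat_lit 6) (nat_lit 2708) (nat_lit 2714) (nat_lit 2690) (nat_lit 2762) (nat_lit 2546) (nat_lit 3194) (nat_lit 1250) (nat_lit 4894)))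
 (.l (.k1_9 (nat_lit 6) (nat_lit 2714) (nat_lit 2716) (nat_lit 2708) (nat_lit 2720) (nat_lit 2696) (nat_lit 2732) (nat_lit 2768) (nat_lit 2552) (nat_lit 3200) (nat_lit 1256) (nat_lit 4900))))
 (.n (nat_lit 2716)
 (.l (.k3_8 (nat_lit 6) (nat_lit 2716) (nat_lit 2714) (nat_lit 2722) (nat_lit 2698) (nat_lit 2734) (nat_lit 2770) (nat_lit 2554) (nat_lit 3202) (nat_lit 1258) (nat_lit 4902) (nat_lit 530)))
 (.l (.k1_7 (nat_lit 4) (nat_lit 2720) (nat_lit 2722) (nat_lit 2714) (nat_lit 2738) (nat_lit 2774) (nat_lit 2558) (nat_lit 3206) (nat_lit 1262) (nat_lit 4906))))))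
 (.n (nat_lit 2734)
 (.n (nat_lit 2724)
 (.n (nat_lit 2722)
 (.l (.k3_8 (nat_lit 6) (nat_lit 2722) (nat_lit 2720) (nat_lit 2724) (nat_lit 2716) (nat_lit 2740) (nat_lit 2776) (nat_lit 2560) (nat_lit 3208) (nat_lit 1264) (nat_lit 4908) (nat_lit 536)))
 (.l (.k2_6 (nat_lit 6) (nat_lit 2724) (nat_lit 2722) (nat_lit 2742) (nat_lit 2778) (nat_lit 2562) (nat_lit 3210) (nat_lit 1266) (nat_lit 538))))
 (.n (nat_lit 2732)
 (.l (.k1_7 (nat_lit 4) (nat_lit 2732) (nat_lit 2734) (nat_lit 2738) (nat_lit 2714) (nat_lit 2786) (nat_lit 2570) (nat_lit 3218) (nat_lit 1274) (nat_lit 4918)))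
 (.l (.k3_7 (nat_lit 3) (nat_lit 2734) (nat_lit 2732) (nat_lit 2740) (nat_lit 2716) (nat_lit 2788) (nat_lit 2572) (nat_lit 3220) (nat_lit 1276) (nat_lit 4920) (nat_lit 548)))))
 (.n (nat_lit 2740)
 (.n (nat_lit 2738)
 (.l (.k1_7 (nat_lit 4) (nat_lit 2738) (nat_lit 2740) (nat_lit 2732) (nat_lit 2720) (nat_lit 2792) (nat_lit 2576) (nat_lit 3224) (nat_lit 1280) (nat_lit 4924)))
 (.l (.k3_9 (nat_lit 5) (nat_lit 2740) (nat_lit 2738) (nat_lit 2742) (nat_lit 2734) (nat_lit 2746) (nat_lit 2722) (nat_lit 2794) (nat_lit 2578) (nat_lit 3226) (nat_lit 1282) (nat_lit 4926) (nat_lit 554))))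
 (.n (nat_lit 2742)
 (.l (.k2_7 (nat_lit 4) (nat_lit 2742) (nat_lit 2740) (nat_lit 2748) (nat_lit 2724) (nat_lit 2796) (nat_lit 2580) (nat_lit 3228) (nat_lit 1284) (nat_lit 556)))
 (.n (nat_lit 2746)
 (.l (.k3_6 (nat_lit 5) (nat_lit 2746) (nat_lit 2748) (nat_lit 2740) (nat_lit 2800) (nat_lit 2584) (nat_lit 3232) (nat_lit 1288) (nat_lit 4932) (nat_lit 560)))
 (.l (.k2_6 (nat_lit 6) (nat_lit 2748) (nat_lit 2746) (nat_lit 2742) (nat_lit 2802) (nat_lit 2586) (nat_lit 3234) (nat_lit 1290) (nat_lit 562)))))))))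
 (.n (nat_lit 2818)
 (.n (nat_lit 2788)
 (.n (nat_lit 2774)
 (.n (nat_lit 2768)
 (.n (nat_lit 2762)
 (.l (.k1_5 (nat_lit 8) (nat_lit 2762) (nat_lit 2768) (nat_lit 2708) (nat_lit 2600) (nat_lit 3248) (nat_lit 1304) (nat_lit 4948)))
 (.l (.k1_8 (nat_lit 7) (nat_lit 2768) (nat_lit 2770) (nat_lit 2762) (nat_lit 2774) (nat_lit 2786) (nat_lit 2714) (nat_lit 2606) (nat_lit 3254) (nat_lit 1310) (nat_lit 4954))))
 (.n (nat_lit 2770)
 (.l (.k3_7 (nat_lit 7) (nat_lit 2770) (nat_lit 2768) (nat_lit 2776) (nat_lit 2788) (nat_lit 2716) (nat_lit 2608) (nat_lit 3256) (nat_lit 1312) (nat_lit 4956) (nat_lit 584)))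
 (.l (.k1_7 (nat_lit 4) (nat_lit 2774) (nat_lit 2776) (nat_lit 2768) (nat_lit 2792) (nat_lit 2720) (nat_lit 2612) (nat_lit 3260) (nat_lit 1316) (nat_lit 4960)))))
 (.n (nat_lit 2778)
 (.n (nat_lit 2776)
 (.l (.k3_8 (nat_lit 6) (nat_lit 2776) (nat_lit 2774) (nat_lit 2778) (nat_lit 2770) (nat_lit 2794) (nat_lit 2722) (nat_lit 2614) (nat_lit 3262) (nat_lit 1318) (nat_lit 4962) (nat_lit 590)))
 (.l (.k2_6 (nat_lit 6) (nat_lit 2778) (nat_lit 2776) (nat_lit 2796) (nat_lit 2724) (nat_lit 2616) (nat_lit 3264) (nat_lit 1320) (nat_lit 592))))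
 (.n (nat_lit 2786)
 (.l (.k1_8 (nat_lit 7) (nat_lit 2786) (nat_lit 2788) (nat_lit 2792) (nat_lit 2768) (nat_lit 2732) (nat_lit 2840) (nat_lit 2624) (nat_lit 3272) (nat_lit 1328) (nat_lit 4972)))
 (.l (.k3_8 (nat_lit 6) (nat_lit 2788) (nat_lit 2786) (nat_lit 2794) (nat_lit 2770) (nat_lit 2734) (nat_lit 2842) (nat_lit 2626) (nat_lit 3274) (nat_lit 1330) (nat_lit 4974) (nat_lit 602))))))
 (.n (nat_lit 2800)
 (.n (nat_lit 2794)
 (.n (nat_lit 2792)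
 (.l (.k1_9 (nat_lit 6) (nat_lit 2792) (nat_lit 2794) (nat_lit 2786) (nat_lit 2774) (nat_lit 2810) (nat_lit 2738) (nat_lit 2846) (nat_lit 2630) (nat_lit 3278) (nat_lit 1334) (nat_lit 4978)))
 (.l (.k3_11 (nat_lit 7) (nat_lit 2794) (nat_lit 2792) (nat_lit 2796) (nat_lit 2788) (nat_lit 2800) (nat_lit 2776) (nat_lit 2812) (nat_lit 2740) (nat_lit 2848) (nat_lit 2632) (nat_lit 3280) (nat_lit 1336) (nat_lit 4980) (nat_lit 608))))
 (.n (nat_lit 2796)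
 (.l (.k2_9 (nat_lit 6) (nat_lit 2796) (nat_lit 2794) (nat_lit 2802) (nat_lit 2778) (nat_lit 2814) (nat_lit 2742) (nat_lit 2850) (nat_lit 2634) (nat_lit 3282) (nat_lit 1338) (nat_lit 610)))
 (.l (.k3_8 (nat_lit 6) (nat_lit 2800) (nat_lit 2802) (nat_lit 2794) (nat_lit 2818) (nat_lit 2746) (nat_lit 2854) (nat_lit 2638) (nat_lit 3286) (nat_lit 1342) (nat_lit 4986) (nat_lit 614)))))
 (.n (nat_lit 2810)
 (.n (nat_lit 2802)
 (.l (.k2_8 (nat_lit 7) (nat_lit 2802) (nat_lit 2800) (nat_lit 2796) (nat_lit 2820) (nat_lit 2748) (nat_lit 2856) (nat_lit 2640) (nat_lit 3288) (nat_lit 1344) (nat_lit 616)))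
 (.l (.k1_6 (nat_lit 6) (nat_lit 2810) (nat_lit 2812) (nat_lit 2792) (nat_lit 2864) (nat_lit 2648) (nat_lit 3296) (nat_lit 1352) (nat_lit 4996))))
 (.n (nat_lit 2812)
 (.l (.k3_8 (nat_lit 6) (nat_lit 2812) (nat_lit 2810) (nat_lit 2814) (nat_lit 2818) (nat_lit 2794) (nat_lit 2866) (nat_lit 2650) (nat_lit 3298) (nat_lit 1354) (nat_lit 4998) (nat_lit 626)))
 (.n (nat_lit 2814)
 (.l (.k2_7 (nat_lit 4) (nat_lit 2814) (nat_lit 2812) (nat_lit 2820) (nat_lit 2796) (nat_lit 2868) (nat_lit 2652) (nat_lit 3300) (nat_lit 1356) (nat_lit 628)))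
 (.l (.k3_7 (nat_lit 7) (nat_lit 2818) (nat_lit 2820) (nat_lit 2812) (nat_lit 2800) (nat_lit 2872) (nat_lit 2656) (nat_lit 3304) (nat_lit 1360) (nat_lit 5004) (nat_lit 632))))))))
 (.n (nat_lit 2856)
 (.n (nat_lit 2842)
 (.n (nat_lit 2826)
 (.n (nat_lit 2820)
 (.l (.k2_8 (nat_lit 7) (nat_lit 2820) (nat_lit 2818) (nat_lit 2814) (nat_lit 2826) (nat_lit 2802) (nat_lit 2874) (nat_lit 2658) (nat_lit 3306) (nat_lit 1362) (nat_lit 634)))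
 (.l (.k2_5 (nat_lit 8) (nat_lit 2826) (nat_lit 2820) (nat_lit 2880) (nat_lit 2664) (nat_lit 3312) (nat_lit 1368) (nat_lit 640))))
 (.n (nat_lit 2840)
 (.l (.k1_5 (nat_lit 8) (nat_lit 2840) (nat_lit 2842) (nat_lit 2846) (nat_lit 2786) (nat_lit 3326) (nat_lit 1382) (nat_lit 5026)))
 (.l (.k3_5 (nat_lit 7) (nat_lit 2842) (nat_lit 2840) (nat_lit 2848) (nat_lit 2788) (nat_lit 3328) (nat_lit 1384) (nat_lit 5028) (nat_lit 656)))))
 (.n (nat_lit 2848)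
 (.n (nat_lit 2846)
 (.l (.k1_6 (nat_lit 6) (nat_lit 2846) (nat_lit 2848) (nat_lit 2840) (nat_lit 2864) (nat_lit 2792) (nat_lit 3332) (nat_lit 1388) (nat_lit 5032)))
 (.l (.k3_8 (nat_lit 7) (nat_lit 2848) (nat_lit 2846) (nat_lit 2850) (nat_lit 2842) (nat_lit 2854) (nat_lit 2866) (nat_lit 2794) (nat_lit 3334) (nat_lit 1390) (nat_lit 5034) (nat_lit 662))))
 (.n (nat_lit 2850)
 (.l (.k2_6 (nat_lit 6) (nat_lit 2850) (nat_lit 2848) (nat_lit 2856) (nat_lit 2868) (nat_lit 2796) (nat_lit 3336) (nat_lit 1392) (nat_lit 664)))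
 (.n (nat_lit 2854)
 (.l (.k3_6 (nat_lit 5) (nat_lit 2854) (nat_lit 2856) (nat_lit 2848) (nat_lit 2872) (nat_lit 2800) (nat_lit 3340) (nat_lit 1396) (nat_lit 5040) (nat_lit 668)))
 (.l (.k2_6 (nat_lit 6) (nat_lit 2856) (nat_lit 2854) (nat_lit 2850) (nat_lit 2874) (nat_lit 2802) (nat_lit 3342) (nat_lit 1398) (nat_lit 670)))))))
 (.n (nat_lit 2872)
 (.n (nat_lit 2866)
 (.n (nat_lit 2864)
 (.l (.k1_5 (nat_lit 8) (nat_lit 2864) (nat_lit 2866) (nat_lit 2846) (nat_lit 2810) (nat_lit 3350) (nat_lit 1406) (nat_lit 5050)))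
 (.l (.k3_7 (nat_lit 8) (nat_lit 2866) (nat_lit 2864) (nat_lit 2868) (nat_lit 2872) (nat_lit 2848) (nat_lit 2812) (nat_lit 3352) (nat_lit 1408) (nat_lit 5052) (nat_lit 680))))
 (.n (nat_lit 2868)
 (.l (.k2_6 (nat_lit 6) (nat_lit 2868) (nat_lit 2866) (nat_lit 2874) (nat_lit 2850) (nat_lit 2814) (nat_lit 3354) (nat_lit 1410) (nat_lit 682)))
 (.l (.k3_7 (nat_lit 8) (nat_lit 2872) (nat_lit 2874) (nat_lit 2866) (nat_lit 2854) (nat_lit 2890) (nat_lit 2818) (nat_lit 3358) (nat_lit 1414) (nat_lit 5058) (nat_lit 686)))))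
 (.n (nat_lit 2880)
 (.n (nat_lit 2874)
 (.l (.k2_8 (nat_lit 8) (nat_lit 2874) (nat_lit 2872) (nat_lit 2868) (nat_lit 2880) (nat_lit 2856) (nat_lit 2892) (nat_lit 2820) (nat_lit 3360) (nat_lit 1416) (nat_lit 688)))
 (.l (.k2_5 (nat_lit 8) (nat_lit 2880) (nat_lit 2874) (nat_lit 2898) (nat_lit 2826) (nat_lit 3366) (nat_lit 1422) (nat_lit 694))))
 (.n (nat_lit 2890)
 (.l (.k3_4 (nat_lit 9) (nat_lit 2890) (nat_lit 2892) (nat_lit 2872) (nat_lit 3376) (nat_lit 1432) (nat_lit 5076) (nat_lit 704)))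
 (.n (nat_lit 2892)
 (.l (.k2_5 (nat_lit 8) (nat_lit 2892) (nat_lit 2890) (nat_lit 2898) (nat_lit 2874) (nat_lit 3378) (nat_lit 1434) (nat_lit 706)))
 (.l (.k2_4 (nat_lit 10) (nat_lit 2898) (nat_lit 2892) (nat_lit 2880) (nat_lit 3384) (nat_lit 1440) (nat_lit 712))))))))))
 (.n (nat_lit 3116)
 (.n (nat_lit 3044)
 (.n (nat_lit 2990)
 (.n (nat_lit 2968)
 (.n (nat_lit 2960)
 (.n (nat_lit 2942)
 (.l (.k1_4 (nat_lit 11) (nat_lit 2942) (nat_lit 2960) (nat_lit 2456) (nat_lit 1484) (nat_lit 4400) (nat_lit 5128)))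
 (.l (.k1_7 (nat_lit 10) (nat_lit 2960) (nat_lit 2966) (nat_lit 2942) (nat_lit 2978) (nat_lit 3014) (nat_lit 2474) (nat_lit 1502) (nat_lit 4418) (nat_lit 5146))))
 (.n (nat_lit 2966)
 (.l (.k1_7 (nat_lit 9) (nat_lit 2966) (nat_lit 2968) (nat_lit 2960) (nat_lit 2984) (nat_lit 3020) (nat_lit 2480) (nat_lit 1508) (nat_lit 4424) (nat_lit 5152)))
 (.l (.k3_6 (nat_lit 10) (nat_lit 2968) (nat_lit 2966) (nat_lit 2986) (nat_lit 3022) (nat_lit 2482) (nat_lit 1510) (nat_lit 4426) (nat_lit 5154) (nat_lit 782)))))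
 (.n (nat_lit 2984)
 (.n (nat_lit 2978)
 (.l (.k1_6 (nat_lit 7) (nat_lit 2978) (nat_lit 2984) (nat_lit 2960) (nat_lit 3032) (nat_lit 2492) (nat_lit 1520) (nat_lit 4436) (nat_lit 5164)))
 (.l (.k1_8 (nat_lit 8) (nat_lit 2984) (nat_lit 2986) (nat_lit 2978) (nat_lit 2990) (nat_lit 2966) (nat_lit 3038) (nat_lit 2498) (nat_lit 1526) (nat_lit 4442) (nat_lit 5170))))
 (.n (nat_lit 2986)
 (.l (.k3_7 (nat_lit 8) (nat_lit 2986) (nat_lit 2984) (nat_lit 2992) (nat_lit 2968) (nat_lit 3040) (nat_lit 2500) (nat_lit 1528) (nat_lit 4444) (nat_lit 5172) (nat_lit 800)))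
 (.l (.k1_6 (nat_lit 7) (nat_lit 2990) (nat_lit 2992) (nat_lit 2984) (nat_lit 3044) (nat_lit 2504) (nat_lit 1532) (nat_lit 4448) (nat_lit 5176))))))
 (.n (nat_lit 3020)
 (.n (nat_lit 2994)
 (.n (nat_lit 2992)
 (.l (.k3_7 (nat_lit 9) (nat_lit 2992) (nat_lit 2990) (nat_lit 2994) (nat_lit 2986) (nat_lit 3046) (nat_lit 2506) (nat_lit 1534) (nat_lit 4450) (nat_lit 5178) (nat_lit 806)))
 (.l (.k2_5 (nat_lit 9) (nat_lit 2994) (nat_lit 2992) (nat_lit 3048) (nat_lit 2508) (nat_lit 1536) (nat_lit 4452) (nat_lit 808))))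
 (.n (nat_lit 3014)
 (.l (.k1_7 (nat_lit 9) (nat_lit 3014) (nat_lit 3020) (nat_lit 3032) (nat_lit 2960) (nat_lit 3176) (nat_lit 2528) (nat_lit 1556) (nat_lit 4472) (nat_lit 5200)))
 (.l (.k1_8 (nat_lit 7) (nat_lit 3020) (nat_lit 3022) (nat_lit 3014) (nat_lit 3038) (nat_lit 2966) (nat_lit 3182) (nat_lit 2534) (nat_lit 1562) (nat_lit 4478) (nat_lit 5206)))))
 (.n (nat_lit 3032)
 (.n (nat_lit 3022)
 (.l (.k3_7 (nat_lit 8) (nat_lit 3022) (nat_lit 3020) (nat_lit 3040) (nat_lit 2968) (nat_lit 3184) (nat_lit 2536) (nat_lit 1564) (nat_lit 4480) (nat_lit 5208) (nat_lit 836)))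
 (.l (.k1_8 (nat_lit 8) (nat_lit 3032) (nat_lit 3038) (nat_lit 3014) (nat_lit 2978) (nat_lit 3086) (nat_lit 3194) (nat_lit 2546) (nat_lit 1574) (nat_lit 4490) (nat_lit 5218))))
 (.n (nat_lit 3038)
 (.l (.k1_11 (nat_lit 8) (nat_lit 3038) (nat_lit 3040) (nat_lit 3032) (nat_lit 3044) (nat_lit 3020) (nat_lit 3056) (nat_lit 2984) (nat_lit 3092) (nat_lit 3200) (nat_lit 2552) (nat_lit 1580) (nat_lit 4496) (nat_lit 5224)))
 (.n (nat_lit 3040)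
 (.l (.k3_10 (nat_lit 8) (nat_lit 3040) (nat_lit 3038) (nat_lit 3046) (nat_lit 3022) (nat_lit 3058) (nat_lit 2986) (nat_lit 3094) (nat_lit 3202) (nat_lit 2554) (nat_lit 1582) (nat_lit 4498) (nat_lit 5226) (nat_lit 854)))
 (.l (.k1_9 (nat_lit 6) (nat_lit 3044) (nat_lit 3046) (nat_lit 3038) (nat_lit 3062) (nat_lit 2990) (nat_lit 3098) (nat_lit 3206) (nat_lit 2558) (nat_lit 1586) (nat_lit 4502) (nat_lit 5230))))))))
 (.n (nat_lit 3072)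
 (.n (nat_lit 3058)
 (.n (nat_lit 3048)
 (.n (nat_lit 3046)
 (.l (.k3_10 (nat_lit 8) (nat_lit 3046) (nat_lit 3044) (nat_lit 3048) (nat_lit 3040) (nat_lit 3064) (nat_lit 2992) (nat_lit 3100) (nat_lit 3208) (nat_lit 2560) (nat_lit 1588) (nat_lit 4504) (nat_lit 5232) (nat_lit 860)))
 (.l (.k2_8 (nat_lit 8) (nat_lit 3048) (nat_lit 3046) (nat_lit 3066) (nat_lit 2994) (nat_lit 3102) (nat_lit 3210) (nat_lit 2562) (nat_lit 1590) (nat_lit 4506) (nat_lit 862))))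
 (.n (nat_lit 3056)
 (.l (.k1_8 (nat_lit 7) (nat_lit 3056) (nat_lit 3058) (nat_lit 3062) (nat_lit 3038) (nat_lit 3110) (nat_lit 3218) (nat_lit 2570) (nat_lit 1598) (nat_lit 4514) (nat_lit 5242)))
 (.l (.k3_8 (nat_lit 6) (nat_lit 3058) (nat_lit 3056) (nat_lit 3064) (nat_lit 3040) (nat_lit 3112) (nat_lit 3220) (nat_lit 2572) (nat_lit 1600) (nat_lit 4516) (nat_lit 5244) (nat_lit 872)))))
 (.n (nat_lit 3064)
 (.n (nat_lit 3062)
 (.l (.k1_8 (nat_lit 7) (nat_lit 3062) (nat_lit 3064) (nat_lit 3056) (nat_lit 3044) (nat_lit 3116) (nat_lit 3224) (nat_lit 2576) (nat_lit 1604) (nat_lit 4520) (nat_lit 5248)))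
 (.l (.k3_10 (nat_lit 8) (nat_lit 3064) (nat_lit 3062) (nat_lit 3066) (nat_lit 3058) (nat_lit 3070) (nat_lit 3046) (nat_lit 3118) (nat_lit 3226) (nat_lit 2578) (nat_lit 1606) (nat_lit 4522) (nat_lit 5250) (nat_lit 878))))
 (.n (nat_lit 3066)
 (.l (.k2_8 (nat_lit 7) (nat_lit 3066) (nat_lit 3064) (nat_lit 3072) (nat_lit 3048) (nat_lit 3120) (nat_lit 3228) (nat_lit 2580) (nat_lit 1608) (nat_lit 4524) (nat_lit 880)))
 (.n (nat_lit 3070)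
 (.l (.k3_7 (nat_lit 8) (nat_lit 3070) (nat_lit 3072) (nat_lit 3064) (nat_lit 3124) (nat_lit 3232) (nat_lit 2584) (nat_lit 1612) (nat_lit 4528) (nat_lit 5256) (nat_lit 884)))
 (.l (.k2_7 (nat_lit 9) (nat_lit 3072) (nat_lit 3070) (nat_lit 3066) (nat_lit 3126) (nat_lit 3234) (nat_lit 2586) (nat_lit 1614) (nat_lit 4530) (nat_lit 886)))))))
 (.n (nat_lit 3098)
 (.n (nat_lit 3092)
 (.n (nat_lit 3086)
 (.l (.k1_6 (nat_lit 7) (nat_lit 3086) (nat_lit 3092) (nat_lit 3032) (nat_lit 3248) (nat_lit 2600) (nat_lit 1628) (nat_lit 4544) (nat_lit 5272)))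
 (.l (.k1_9 (nat_lit 6) (nat_lit 3092) (nat_lit 3094) (nat_lit 3086) (nat_lit 3098) (nat_lit 3110) (nat_lit 3038) (nat_lit 3254) (nat_lit 2606) (nat_lit 1634) (nat_lit 4550) (nat_lit 5278))))
 (.n (nat_lit 3094)
 (.l (.k3_8 (nat_lit 6) (nat_lit 3094) (nat_lit 3092) (nat_lit 3100) (nat_lit 3112) (nat_lit 3040) (nat_lit 3256) (nat_lit 2608) (nat_lit 1636) (nat_lit 4552) (nat_lit 5280) (nat_lit 908)))
 (.l (.k1_8 (nat_lit 3) (nat_lit 3098) (nat_lit 3100) (nat_lit 3092) (nat_lit 3116) (nat_lit 3044) (nat_lit 3260) (nat_lit 2612) (nat_lit 1640) (nat_lit 4556) (nat_lit 5284)))))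
 (.n (nat_lit 3102)
 (.n (nat_lit 3100)
 (.l (.k3_9 (nat_lit 5) (nat_lit 3100) (nat_lit 3098) (nat_lit 3102) (nat_lit 3094) (nat_lit 3118) (nat_lit 3046) (nat_lit 3262) (nat_lit 2614) (nat_lit 1642) (nat_lit 4558) (nat_lit 5286) (nat_lit 914)))
 (.l (.k2_7 (nat_lit 5) (nat_lit 3102) (nat_lit 3100) (nat_lit 3120) (nat_lit 3048) (nat_lit 3264) (nat_lit 2616) (nat_lit 1644) (nat_lit 4560) (nat_lit 916))))
 (.n (nat_lit 3110)
 (.l (.k1_8 (nat_lit 7) (nat_lit 3110) (nat_lit 3112) (nat_lit 3116) (nat_lit 3092) (nat_lit 3056) (nat_lit 3272) (nat_lit 2624) (nat_lit 1652) (nat_lit 4568) (nat_lit 5296)))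
 (.n (nat_lit 3112)
 (.l (.k3_8 (nat_lit 6) (nat_lit 3112) (nat_lit 3110) (nat_lit 3118) (nat_lit 3094) (nat_lit 3058) (nat_lit 3274) (nat_lit 2626) (nat_lit 1654) (nat_lit 4570) (nat_lit 5298) (nat_lit 926)))
 (.l (.k1_9 (nat_lit 6) (nat_lit 3116) (nat_lit 3118) (nat_lit 3110) (nat_lit 3098) (nat_lit 3134) (nat_lit 3062) (nat_lit 3278) (nat_lit 2630) (nat_lit 1658) (nat_lit 4574) (nat_lit 5302)))))))))
 (.n (nat_lit 3206)
 (.n (nat_lit 3142)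
 (.n (nat_lit 3126)
 (.n (nat_lit 3120)
 (.n (nat_lit 3118)
 (.l (.k3_11 (nat_lit 7) (nat_lit 3118) (nat_lit 3116) (nat_lit 3120) (nat_lit 3112) (nat_lit 3124) (nat_lit 3100) (nat_lit 3136) (nat_lit 3064) (nat_lit 3280) (nat_lit 2632) (nat_lit 1660) (nat_lit 4576) (nat_lit 5304) (nat_lit 932)))
 (.l (.k2_9 (nat_lit 6) (nat_lit 3120) (nat_lit 3118) (nat_lit 3126) (nat_lit 3102) (nat_lit 3138) (nat_lit 3066) (nat_lit 3282) (nat_lit 2634) (nat_lit 1662) (nat_lit 4578) (nat_lit 934))))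
 (.n (nat_lit 3124)
 (.l (.k3_8 (nat_lit 6) (nat_lit 3124) (nat_lit 3126) (nat_lit 3118) (nat_lit 3142) (nat_lit 3070) (nat_lit 3286) (nat_lit 2638) (nat_lit 1666) (nat_lit 4582) (nat_lit 5310) (nat_lit 938)))
 (.l (.k2_8 (nat_lit 7) (nat_lit 3126) (nat_lit 3124) (nat_lit 3120) (nat_lit 3144) (nat_lit 3072) (nat_lit 3288) (nat_lit 2640) (nat_lit 1668) (nat_lit 4584) (nat_lit 940)))))
 (.n (nat_lit 3136)
 (.n (nat_lit 3134)
 (.l (.k1_6 (nat_lit 7) (nat_lit 3134) (nat_lit 3136) (nat_lit 3116) (nat_lit 3296) (nat_lit 2648) (nat_lit 1676) (nat_lit 4592) (nat_lit 5320)))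
 (.l (.k3_8 (nat_lit 7) (nat_lit 3136) (nat_lit 3134) (nat_lit 3138) (nat_lit 3142) (nat_lit 3118) (nat_lit 3298) (nat_lit 2650) (nat_lit 1678) (nat_lit 4594) (nat_lit 5322) (nat_lit 950))))
 (.n (nat_lit 3138)
 (.l (.k2_7 (nat_lit 5) (nat_lit 3138) (nat_lit 3136) (nat_lit 3144) (nat_lit 3120) (nat_lit 3300) (nat_lit 2652) (nat_lit 1680) (nat_lit 4596) (nat_lit 952)))
 (.l (.k3_7 (nat_lit 8) (nat_lit 3142) (nat_lit 3144) (nat_lit 3136) (nat_lit 3124) (nat_lit 3304) (nat_lit 2656) (nat_lit 1684) (nat_lit 4600) (nat_lit 5328) (nat_lit 956))))))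
 (.n (nat_lit 3182)
 (.n (nat_lit 3150)
 (.n (nat_lit 3144)
 (.l (.k2_8 (nat_lit 8) (nat_lit 3144) (nat_lit 3142) (nat_lit 3138) (nat_lit 3150) (nat_lit 3126) (nat_lit 3306) (nat_lit 2658) (nat_lit 1686) (nat_lit 4602) (nat_lit 958)))
 (.l (.k2_5 (nat_lit 9) (nat_lit 3150) (nat_lit 3144) (nat_lit 3312) (nat_lit 2664) (nat_lit 1692) (nat_lit 4608) (nat_lit 964))))
 (.n (nat_lit 3176)
 (.l (.k1_7 (nat_lit 10) (nat_lit 3176) (nat_lit 3182) (nat_lit 3194) (nat_lit 3014) (nat_lit 2690) (nat_lit 3662) (nat_lit 1718) (nat_lit 4634) (nat_lit 5362)))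
 (.l (.k1_8 (nat_lit 8) (nat_lit 3182) (nat_lit 3184) (nat_lit 3176) (nat_lit 3200) (nat_lit 3020) (nat_lit 2696) (nat_lit 3668) (nat_lit 1724) (nat_lit 4640) (nat_lit 5368)))))
 (.n (nat_lit 3194)
 (.n (nat_lit 3184)
 (.l (.k3_7 (nat_lit 9) (nat_lit 3184) (nat_lit 3182) (nat_lit 3202) (nat_lit 3022) (nat_lit 2698) (nat_lit 3670) (nat_lit 1726) (nat_lit 4642) (nat_lit 5370) (nat_lit 998)))
 (.l (.k1_8 (nat_lit 8) (nat_lit 3194) (nat_lit 3200) (nat_lit 3176) (nat_lit 3248) (nat_lit 3032) (nat_lit 2708) (nat_lit 3680) (nat_lit 1736) (nat_lit 4652) (nat_lit 5380))))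
 (.n (nat_lit 3200)
 (.l (.k1_11 (nat_lit 8) (nat_lit 3200) (nat_lit 3202) (nat_lit 3194) (nat_lit 3206) (nat_lit 3182) (nat_lit 3218) (nat_lit 3254) (nat_lit 3038) (nat_lit 2714) (nat_lit 3686) (nat_lit 1742) (nat_lit 4658) (nat_lit 5386)))
 (.n (nat_lit 3202)
 (.l (.k3_10 (nat_lit 8) (nat_lit 3202) (nat_lit 3200) (nat_lit 3208) (nat_lit 3184) (nat_lit 3220) (nat_lit 3256) (nat_lit 3040) (nat_lit 2716) (nat_lit 3688) (nat_lit 1744) (nat_lit 4660) (nat_lit 5388) (nat_lit 1016)))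
 (.l (.k1_9 (nat_lit 6) (nat_lit 3206) (nat_lit 3208) (nat_lit 3200) (nat_lit 3224) (nat_lit 3260) (nat_lit 3044) (nat_lit 2720) (nat_lit 3692) (nat_lit 1748) (nat_lit 4664) (nat_lit 5392))))))))
 (.n (nat_lit 3234)
 (.n (nat_lit 3220)
 (.n (nat_lit 3210)
 (.n (nat_lit 3208)
 (.l (.k3_10 (nat_lit 8) (nat_lit 3208) (nat_lit 3206) (nat_lit 3210) (nat_lit 3202) (nat_lit 3226) (nat_lit 3262) (nat_lit 3046) (nat_lit 2722) (nat_lit 3694) (nat_lit 1750) (nat_lit 4666) (nat_lit 5394) (nat_lit 1022)))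
 (.l (.k2_8 (nat_lit 8) (nat_lit 3210) (nat_lit 3208) (nat_lit 3228) (nat_lit 3264) (nat_lit 3048) (nat_lit 2724) (nat_lit 3696) (nat_lit 1752) (nat_lit 4668) (nat_lit 1024))))
 (.n (nat_lit 3218)
 (.l (.k1_9 (nat_lit 6) (nat_lit 3218) (nat_lit 3220) (nat_lit 3224) (nat_lit 3200) (nat_lit 3272) (nat_lit 3056) (nat_lit 2732) (nat_lit 3704) (nat_lit 1760) (nat_lit 4676) (nat_lit 5404)))
 (.l (.k3_9 (nat_lit 5) (nat_lit 3220) (nat_lit 3218) (nat_lit 3226) (nat_lit 3202) (nat_lit 3274) (nat_lit 3058) (nat_lit 2734) (nat_lit 3706) (nat_lit 1762) (nat_lit 4678) (nat_lit 5406) (nat_lit 1034)))))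
 (.n (nat_lit 3226)
 (.n (nat_lit 3224)
 (.l (.k1_9 (nat_lit 6) (nat_lit 3224) (nat_lit 3226) (nat_lit 3218) (nat_lit 3206) (nat_lit 3278) (nat_lit 3062) (nat_lit 2738) (nat_lit 3710) (nat_lit 1766) (nat_lit 4682) (nat_lit 5410)))
 (.l (.k3_11 (nat_lit 7) (nat_lit 3226) (nat_lit 3224) (nat_lit 3228) (nat_lit 3220) (nat_lit 3232) (nat_lit 3208) (nat_lit 3280) (nat_lit 3064) (nat_lit 2740) (nat_lit 3712) (nat_lit 1768) (nat_lit 4684) (nat_lit 5412) (nat_lit 1040))))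
 (.n (nat_lit 3228)
 (.l (.k2_9 (nat_lit 6) (nat_lit 3228) (nat_lit 3226) (nat_lit 3234) (nat_lit 3210) (nat_lit 3282) (nat_lit 3066) (nat_lit 2742) (nat_lit 3714) (nat_lit 1770) (nat_lit 4686) (nat_lit 1042)))
 (.n (nat_lit 3232)
 (.l (.k3_8 (nat_lit 7) (nat_lit 3232) (nat_lit 3234) (nat_lit 3226) (nat_lit 3286) (nat_lit 3070) (nat_lit 2746) (nat_lit 3718) (nat_lit 1774) (nat_lit 4690) (nat_lit 5418) (nat_lit 1046)))
 (.l (.k2_8 (nat_lit 8) (nat_lit 3234) (nat_lit 3232) (nat_lit 3228) (nat_lit 3288) (nat_lit 3072) (nat_lit 2748) (nat_lit 3720) (nat_lit 1776) (nat_lit 4692) (nat_lit 1048)))))))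
 (.n (nat_lit 3260)
 (.n (nat_lit 3254)
 (.n (nat_lit 3248)
 (.l (.k1_8 (nat_lit 9) (nat_lit 3248) (nat_lit 3254) (nat_lit 3194) (nat_lit 3086) (nat_lit 3410) (nat_lit 2762) (nat_lit 3734) (nat_lit 1790) (nat_lit 4706) (nat_lit 5434)))
 (.l (.k1_11 (nat_lit 8) (nat_lit 3254) (nat_lit 3256) (nat_lit 3248) (nat_lit 3260) (nat_lit 3272) (nat_lit 3200) (nat_lit 3092) (nat_lit 3416) (nat_lit 2768) (nat_lit 3740) (nat_lit 1796) (nat_lit 4712) (nat_lit 5440))))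
 (.n (nat_lit 3256)
 (.l (.k3_10 (nat_lit 8) (nat_lit 3256) (nat_lit 3254) (nat_lit 3262) (nat_lit 3274) (nat_lit 3202) (nat_lit 3094) (nat_lit 3418) (nat_lit 2770) (nat_lit 3742) (nat_lit 1798) (nat_lit 4714) (nat_lit 5442) (nat_lit 1070)))
 (.l (.k1_10 (nat_lit 5) (nat_lit 3260) (nat_lit 3262) (nat_lit 3254) (nat_lit 3278) (nat_lit 3206) (nat_lit 3098) (nat_lit 3422) (nat_lit 2774) (nat_lit 3746) (nat_lit 1802) (nat_lit 4718) (nat_lit 5446)))))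
 (.n (nat_lit 3264)
 (.n (nat_lit 3262)
 (.l (.k3_11 (nat_lit 7) (nat_lit 3262) (nat_lit 3260) (nat_lit 3264) (nat_lit 3256) (nat_lit 3280) (nat_lit 3208) (nat_lit 3100) (nat_lit 3424) (nat_lit 2776) (nat_lit 3748) (nat_lit 1804) (nat_lit 4720) (nat_lit 5448) (nat_lit 1076)))
 (.l (.k2_9 (nat_lit 7) (nat_lit 3264) (nat_lit 3262) (nat_lit 3282) (nat_lit 3210) (nat_lit 3102) (nat_lit 3426) (nat_lit 2778) (nat_lit 3750) (nat_lit 1806) (nat_lit 4722) (nat_lit 1078))))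
 (.n (nat_lit 3272)
 (.l (.k1_11 (nat_lit 8) (nat_lit 3272) (nat_lit 3274) (nat_lit 3278) (nat_lit 3254) (nat_lit 3218) (nat_lit 3326) (nat_lit 3110) (nat_lit 3434) (nat_lit 2786) (nat_lit 3758) (nat_lit 1814) (nat_lit 4730) (nat_lit 5458)))
 (.n (nat_lit 3274)
 (.l (.k3_11 (nat_lit 7) (nat_lit 3274) (nat_lit 3272) (nat_lit 3280) (nat_lit 3256) (nat_lit 3220) (nat_lit 3328) (nat_lit 3112) (nat_lit 3436) (nat_lit 2788) (nat_lit 3760) (nat_lit 1816) (nat_lit 4732) (nat_lit 5460) (nat_lit 1088)))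
 (.l (.k1_12 (nat_lit 7) (nat_lit 3278) (nat_lit 3280) (nat_lit 3272) (nat_lit 3260) (nat_lit 3296) (nat_lit 3224) (nat_lit 3332) (nat_lit 3116) (nat_lit 3440) (nat_lit 2792) (nat_lit 3764) (nat_lit 1820) (nat_lit 4736) (nat_lit 5464)))))))))))))
 (.n (nat_lit 4770)
 (.n (nat_lit 3948)
 (.n (nat_lit 3594)
 (.n (nat_lit 3436)
 (.n (nat_lit 3342)
 (.n (nat_lit 3304)
 (.n (nat_lit 3288)
 (.n (nat_lit 3282)
 (.n (nat_lit 3280)
 (.l (.k3_14 (nat_lit 8) (nat_lit 3280) (nat_lit 3278) (nat_lit 3282) (nat_lit 3274) (nat_lit 3286) (nat_lit 3262) (nat_lit 3298) (nat_lit 3226) (nat_lit 3334) (nat_lit 3118) (nat_lit 3442) (nat_lit 2794) (nat_lit 3766) (nat_lit 1822) (nat_lit 4738) (nat_lit 5466) (nat_lit 1094)))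
 (.l (.k2_12 (nat_lit 7) (nat_lit 3282) (nat_lit 3280) (nat_lit 3288) (nat_lit 3264) (nat_lit 3300) (nat_lit 3228) (nat_lit 3336) (nat_lit 3120) (nat_lit 3444) (nat_lit 2796) (nat_lit 3768) (nat_lit 1824) (nat_lit 4740) (nat_lit 1096))))
 (.n (nat_lit 3286)
 (.l (.k3_11 (nat_lit 7) (nat_lit 3286) (nat_lit 3288) (nat_lit 3280) (nat_lit 3304) (nat_lit 3232) (nat_lit 3340) (nat_lit 3124) (nat_lit 3448) (nat_lit 2800) (nat_lit 3772) (nat_lit 1828) (nat_lit 4744) (nat_lit 5472) (nat_lit 1100)))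
 (.l (.k2_11 (nat_lit 8) (nat_lit 3288) (nat_lit 3286) (nat_lit 3282) (nat_lit 3306) (nat_lit 3234) (nat_lit 3342) (nat_lit 3126) (nat_lit 3450) (nat_lit 2802) (nat_lit 3774) (nat_lit 1830) (nat_lit 4746) (nat_lit 1102)))))
 (.n (nat_lit 3298)
 (.n (nat_lit 3296)
 (.l (.k1_9 (nat_lit 7) (nat_lit 3296) (nat_lit 3298) (nat_lit 3278) (nat_lit 3350) (nat_lit 3134) (nat_lit 3458) (nat_lit 2810) (nat_lit 3782) (nat_lit 1838) (nat_lit 4754) (nat_lit 5482)))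
 (.l (.k3_11 (nat_lit 7) (nat_lit 3298) (nat_lit 3296) (nat_lit 3300) (nat_lit 3304) (nat_lit 3280) (nat_lit 3352) (nat_lit 3136) (nat_lit 3460) (nat_lit 2812) (nat_lit 3784) (nat_lit 1840) (nat_lit 4756) (nat_lit 5484) (nat_lit 1112))))
 (.n (nat_lit 3300)
 (.l (.k2_10 (nat_lit 5) (nat_lit 3300) (nat_lit 3298) (nat_lit 3306) (nat_lit 3282) (nat_lit 3354) (nat_lit 3138) (nat_lit 3462) (nat_lit 2814) (nat_lit 3786) (nat_lit 1842) (nat_lit 4758) (nat_lit 1114)))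
 (.l (.k3_10 (nat_lit 8) (nat_lit 3304) (nat_lit 3306) (nat_lit 3298) (nat_lit 3286) (nat_lit 3358) (nat_lit 3142) (nat_lit 3466) (nat_lit 2818) (nat_lit 3790) (nat_lit 1846) (nat_lit 4762) (nat_lit 5490) (nat_lit 1118))))))
 (.n (nat_lit 3328)
 (.n (nat_lit 3312)
 (.n (nat_lit 3306)
 (.l (.k2_11 (nat_lit 8) (nat_lit 3306) (nat_lit 3304) (nat_lit 3300) (nat_lit 3312) (nat_lit 3288) (nat_lit 3360) (nat_lit 3144) (nat_lit 3468) (nat_lit 2820) (nat_lit 3792) (nat_lit 1848) (nat_lit 4764) (nat_lit 1120)))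
 (.l (.k2_8 (nat_lit 9) (nat_lit 3312) (nat_lit 3306) (nat_lit 3366) (nat_lit 3150) (nat_lit 3474) (nat_lit 2826) (nat_lit 3798) (nat_lit 1854) (nat_lit 4770) (nat_lit 1126))))
 (.n (nat_lit 3326)
 (.l (.k1_8 (nat_lit 8) (nat_lit 3326) (nat_lit 3328) (nat_lit 3332) (nat_lit 3272) (nat_lit 3488) (nat_lit 2840) (nat_lit 3812) (nat_lit 1868) (nat_lit 4784) (nat_lit 5512)))
 (.l (.k3_8 (nat_lit 7) (nat_lit 3328) (nat_lit 3326) (nat_lit 3334) (nat_lit 3274) (nat_lit 3490) (nat_lit 2842) (nat_lit 3814) (nat_lit 1870) (nat_lit 4786) (nat_lit 5514) (nat_lit 1142)))))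
 (.n (nat_lit 3334)
 (.n (nat_lit 3332)
 (.l (.k1_9 (nat_lit 6) (nat_lit 3332) (nat_lit 3334) (nat_lit 3326) (nat_lit 3350) (nat_lit 3278) (nat_lit 3494) (nat_lit 2846) (nat_lit 3818) (nat_lit 1874) (nat_lit 4790) (nat_lit 5518)))
 (.l (.k3_11 (nat_lit 7) (nat_lit 3334) (nat_lit 3332) (nat_lit 3336) (nat_lit 3328) (nat_lit 3340) (nat_lit 3352) (nat_lit 3280) (nat_lit 3496) (nat_lit 2848) (nat_lit 3820) (nat_lit 1876) (nat_lit 4792) (nat_lit 5520) (nat_lit 1148))))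
 (.n (nat_lit 3336)
 (.l (.k2_9 (nat_lit 6) (nat_lit 3336) (nat_lit 3334) (nat_lit 3342) (nat_lit 3354) (nat_lit 3282) (nat_lit 3498) (nat_lit 2850) (nat_lit 3822) (nat_lit 1878) (nat_lit 4794) (nat_lit 1150)))
 (.n (nat_lit 3340)
 (.l (.k3_9 (nat_lit 5) (nat_lit 3340) (nat_lit 3342) (nat_lit 3334) (nat_lit 3358) (nat_lit 3286) (nat_lit 3502) (nat_lit 2854) (nat_lit 3826) (nat_lit 1882) (nat_lit 4798) (nat_lit 5526) (nat_lit 1154)))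
 (.l (.k2_9 (nat_lit 6) (nat_lit 3342) (nat_lit 3340) (nat_lit 3336) (nat_lit 3360) (nat_lit 3288) (nat_lit 3504) (nat_lit 2856) (nat_lit 3828) (nat_lit 1884) (nat_lit 4800) (nat_lit 1156))))))))
 (.n (nat_lit 3378)
 (.n (nat_lit 3358)
 (.n (nat_lit 3352)
 (.n (nat_lit 3350)
 (.l (.k1_8 (nat_lit 8) (nat_lit 3350) (nat_lit 3352) (nat_lit 3332) (nat_lit 3296) (nat_lit 3512) (nat_lit 2864) (nat_lit 3836) (nat_lit 1892) (nat_lit 4808) (nat_lit 5536)))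
 (.l (.k3_10 (nat_lit 8) (nat_lit 3352) (nat_lit 3350) (nat_lit 3354) (nat_lit 3358) (nat_lit 3334) (nat_lit 3298) (nat_lit 3514) (nat_lit 2866) (nat_lit 3838) (nat_lit 1894) (nat_lit 4810) (nat_lit 5538) (nat_lit 1166))))
 (.n (nat_lit 3354)
 (.l (.k2_9 (nat_lit 6) (nat_lit 3354) (nat_lit 3352) (nat_lit 3360) (nat_lit 3336) (nat_lit 3300) (nat_lit 3516) (nat_lit 2868) (nat_lit 3840) (nat_lit 1896) (nat_lit 4812) (nat_lit 1168)))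
 (.l (.k3_10 (nat_lit 8) (nat_lit 3358) (nat_lit 3360) (nat_lit 3352) (nat_lit 3340) (nat_lit 3376) (nat_lit 3304) (nat_lit 3520) (nat_lit 2872) (nat_lit 3844) (nat_lit 1900) (nat_lit 4816) (nat_lit 5544) (nat_lit 1172)))))
 (.n (nat_lit 3366)
 (.n (nat_lit 3360)
 (.l (.k2_11 (nat_lit 8) (nat_lit 3360) (nat_lit 3358) (nat_lit 3354) (nat_lit 3366) (nat_lit 3342) (nat_lit 3378) (nat_lit 3306) (nat_lit 3522) (nat_lit 2874) (nat_lit 3846) (nat_lit 1902) (nat_lit 4818) (nat_lit 1174)))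
 (.l (.k2_8 (nat_lit 8) (nat_lit 3366) (nat_lit 3360) (nat_lit 3384) (nat_lit 3312) (nat_lit 3528) (nat_lit 2880) (nat_lit 3852) (nat_lit 1908) (nat_lit 4824) (nat_lit 1180))))
 (.n (nat_lit 3376)
 (.l (.k3_7 (nat_lit 9) (nat_lit 3376) (nat_lit 3378) (nat_lit 3358) (nat_lit 3538) (nat_lit 2890) (nat_lit 3862) (nat_lit 1918) (nat_lit 4834) (nat_lit 5562) (nat_lit 1190)))
 (.l (.k2_8 (nat_lit 8) (nat_lit 3378) (nat_lit 3376) (nat_lit 3384) (nat_lit 3360) (nat_lit 3540) (nat_lit 2892) (nat_lit 3864) (nat_lit 1920) (nat_lit 4836) (nat_lit 1192))))))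
 (.n (nat_lit 3418)
 (.n (nat_lit 3410)
 (.n (nat_lit 3384)
 (.l (.k2_7 (nat_lit 10) (nat_lit 3384) (nat_lit 3378) (nat_lit 3366) (nat_lit 3546) (nat_lit 2898) (nat_lit 3870) (nat_lit 1926) (nat_lit 4842) (nat_lit 1198)))
 (.l (.k1_5 (nat_lit 9) (nat_lit 3410) (nat_lit 3416) (nat_lit 3248) (nat_lit 3896) (nat_lit 1952) (nat_lit 4868) (nat_lit 5596))))
 (.n (nat_lit 3416)
 (.l (.k1_8 (nat_lit 8) (nat_lit 3416) (nat_lit 3418) (nat_lit 3410) (nat_lit 3422) (nat_lit 3434) (nat_lit 3254) (nat_lit 3902) (nat_lit 1958) (nat_lit 4874) (nat_lit 5602)))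
 (.l (.k3_7 (nat_lit 8) (nat_lit 3418) (nat_lit 3416) (nat_lit 3424) (nat_lit 3436) (nat_lit 3256) (nat_lit 3904) (nat_lit 1960) (nat_lit 4876) (nat_lit 5604) (nat_lit 1232)))))
 (.n (nat_lit 3424)
 (.n (nat_lit 3422)
 (.l (.k1_7 (nat_lit 5) (nat_lit 3422) (nat_lit 3424) (nat_lit 3416) (nat_lit 3440) (nat_lit 3260) (nat_lit 3908) (nat_lit 1964) (nat_lit 4880) (nat_lit 5608)))
 (.l (.k3_8 (nat_lit 7) (nat_lit 3424) (nat_lit 3422) (nat_lit 3426) (nat_lit 3418) (nat_lit 3442) (nat_lit 3262) (nat_lit 3910) (nat_lit 1966) (nat_lit 4882) (nat_lit 5610) (nat_lit 1238))))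
 (.n (nat_lit 3426)
 (.l (.k2_6 (nat_lit 7) (nat_lit 3426) (nat_lit 3424) (nat_lit 3444) (nat_lit 3264) (nat_lit 3912) (nat_lit 1968) (nat_lit 4884) (nat_lit 1240)))
 (.n (nat_lit 3434)
 (.l (.k1_8 (nat_lit 7) (nat_lit 3434) (nat_lit 3436) (nat_lit 3440) (nat_lit 3416) (nat_lit 3488) (nat_lit 3272) (nat_lit 3920) (nat_lit 1976) (nat_lit 4892) (nat_lit 5620)))
 (.l (.k3_8 (nat_lit 6) (nat_lit 3436) (nat_lit 3434) (nat_lit 3442) (nat_lit 3418) (nat_lit 3490) (nat_lit 3274) (nat_lit 3922) (nat_lit 1978) (nat_lit 4894) (nat_lit 5622) (nat_lit 1250)))))))))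
 (.n (nat_lit 3502)
 (.n (nat_lit 3462)
 (.n (nat_lit 3448)
 (.n (nat_lit 3442)
 (.n (nat_lit 3440)
 (.l (.k1_9 (nat_lit 6) (nat_lit 3440) (nat_lit 3442) (nat_lit 3434) (nat_lit 3422) (nat_lit 3458) (nat_lit 3494) (nat_lit 3278) (nat_lit 3926) (nat_lit 1982) (nat_lit 4898) (nat_lit 5626)))
 (.l (.k3_11 (nat_lit 7) (nat_lit 3442) (nat_lit 3440) (nat_lit 3444) (nat_lit 3436) (nat_lit 3448) (nat_lit 3424) (nat_lit 3460) (nat_lit 3496) (nat_lit 3280) (nat_lit 3928) (nat_lit 1984) (nat_lit 4900) (nat_lit 5628) (nat_lit 1256))))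
 (.n (nat_lit 3444)
 (.l (.k2_9 (nat_lit 6) (nat_lit 3444) (nat_lit 3442) (nat_lit 3450) (nat_lit 3426) (nat_lit 3462) (nat_lit 3498) (nat_lit 3282) (nat_lit 3930) (nat_lit 1986) (nat_lit 4902) (nat_lit 1258)))
 (.l (.k3_8 (nat_lit 6) (nat_lit 3448) (nat_lit 3450) (nat_lit 3442) (nat_lit 3466) (nat_lit 3502) (nat_lit 3286) (nat_lit 3934) (nat_lit 1990) (nat_lit 4906) (nat_lit 5634) (nat_lit 1262)))))
 (.n (nat_lit 3458)
 (.n (nat_lit 3450)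
 (.l (.k2_8 (nat_lit 7) (nat_lit 3450) (nat_lit 3448) (nat_lit 3444) (nat_lit 3468) (nat_lit 3504) (nat_lit 3288) (nat_lit 3936) (nat_lit 1992) (nat_lit 4908) (nat_lit 1264)))
 (.l (.k1_7 (nat_lit 5) (nat_lit 3458) (nat_lit 3460) (nat_lit 3440) (nat_lit 3512) (nat_lit 3296) (nat_lit 3944) (nat_lit 2000) (nat_lit 4916) (nat_lit 5644))))
 (.n (nat_lit 3460)
 (.l (.k3_9 (nat_lit 5) (nat_lit 3460) (nat_lit 3458) (nat_lit 3462) (nat_lit 3466) (nat_lit 3442) (nat_lit 3514) (nat_lit 3298) (nat_lit 3946) (nat_lit 2002) (nat_lit 4918) (nat_lit 5646) (nat_lit 1274)))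
 (.l (.k2_8 (nat_lit 3) (nat_lit 3462) (nat_lit 3460) (nat_lit 3468) (nat_lit 3444) (nat_lit 3516) (nat_lit 3300) (nat_lit 3948) (nat_lit 2004) (nat_lit 4920) (nat_lit 1276))))))
 (.n (nat_lit 3488)
 (.n (nat_lit 3468)
 (.n (nat_lit 3466)
 (.l (.k3_8 (nat_lit 6) (nat_lit 3466) (nat_lit 3468) (nat_lit 3460) (nat_lit 3448) (nat_lit 3520) (nat_lit 3304) (nat_lit 3952) (nat_lit 2008) (nat_lit 4924) (nat_lit 5652) (nat_lit 1280)))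
 (.l (.k2_9 (nat_lit 6) (nat_lit 3468) (nat_lit 3466) (nat_lit 3462) (nat_lit 3474) (nat_lit 3450) (nat_lit 3522) (nat_lit 3306) (nat_lit 3954) (nat_lit 2010) (nat_lit 4926) (nat_lit 1282))))
 (.n (nat_lit 3474)
 (.l (.k2_6 (nat_lit 7) (nat_lit 3474) (nat_lit 3468) (nat_lit 3528) (nat_lit 3312) (nat_lit 3960) (nat_lit 2016) (nat_lit 4932) (nat_lit 1288)))
 (.l (.k1_7 (nat_lit 9) (nat_lit 3488) (nat_lit 3490) (nat_lit 3494) (nat_lit 3434) (nat_lit 3326) (nat_lit 3974) (nat_lit 2030) (nat_lit 4946) (nat_lit 5674)))))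
 (.n (nat_lit 3494)
 (.n (nat_lit 3490)
 (.l (.k3_7 (nat_lit 8) (nat_lit 3490) (nat_lit 3488) (nat_lit 3496) (nat_lit 3436) (nat_lit 3328) (nat_lit 3976) (nat_lit 2032) (nat_lit 4948) (nat_lit 5676) (nat_lit 1304)))
 (.l (.k1_8 (nat_lit 7) (nat_lit 3494) (nat_lit 3496) (nat_lit 3488) (nat_lit 3512) (nat_lit 3440) (nat_lit 3332) (nat_lit 3980) (nat_lit 2036) (nat_lit 4952) (nat_lit 5680))))
 (.n (nat_lit 3496)
 (.l (.k3_10 (nat_lit 8) (nat_lit 3496) (nat_lit 3494) (nat_lit 3498) (nat_lit 3490) (nat_lit 3502) (nat_lit 3514) (nat_lit 3442) (nat_lit 3334) (nat_lit 3982) (nat_lit 2038) (nat_lit 4954) (nat_lit 5682) (nat_lit 1310)))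
 (.n (nat_lit 3498)
 (.l (.k2_8 (nat_lit 7) (nat_lit 3498) (nat_lit 3496) (nat_lit 3504) (nat_lit 3516) (nat_lit 3444) (nat_lit 3336) (nat_lit 3984) (nat_lit 2040) (nat_lit 4956) (nat_lit 1312)))
 (.l (.k3_8 (nat_lit 6) (nat_lit 3502) (nat_lit 3504) (nat_lit 3496) (nat_lit 3520) (nat_lit 3448) (nat_lit 3340) (nat_lit 3988) (nat_lit 2044) (nat_lit 4960) (nat_lit 5688) (nat_lit 1316))))))))
 (.n (nat_lit 3540)
 (.n (nat_lit 3516)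
 (.n (nat_lit 3512)
 (.n (nat_lit 3504)
 (.l (.k2_8 (nat_lit 7) (nat_lit 3504) (nat_lit 3502) (nat_lit 3498) (nat_lit 3522) (nat_lit 3450) (nat_lit 3342) (nat_lit 3990) (nat_lit 2046) (nat_lit 4962) (nat_lit 1318)))
 (.l (.k1_8 (nat_lit 8) (nat_lit 3512) (nat_lit 3514) (nat_lit 3494) (nat_lit 3458) (nat_lit 3566) (nat_lit 3350) (nat_lit 3998) (nat_lit 2054) (nat_lit 4970) (nat_lit 5698))))
 (.n (nat_lit 3514)
 (.l (.k3_10 (nat_lit 8) (nat_lit 3514) (nat_lit 3512) (nat_lit 3516) (nat_lit 3520) (nat_lit 3496) (nat_lit 3460) (nat_lit 3568) (nat_lit 3352) (nat_lit 4000) (nat_lit 2056) (nat_lit 4972) (nat_lit 5700) (nat_lit 1328)))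
 (.l (.k2_9 (nat_lit 6) (nat_lit 3516) (nat_lit 3514) (nat_lit 3522) (nat_lit 3498) (nat_lit 3462) (nat_lit 3570) (nat_lit 3354) (nat_lit 4002) (nat_lit 2058) (nat_lit 4974) (nat_lit 1330)))))
 (.n (nat_lit 3522)
 (.n (nat_lit 3520)
 (.l (.k3_10 (nat_lit 8) (nat_lit 3520) (nat_lit 3522) (nat_lit 3514) (nat_lit 3502) (nat_lit 3538) (nat_lit 3466) (nat_lit 3574) (nat_lit 3358) (nat_lit 4006) (nat_lit 2062) (nat_lit 4978) (nat_lit 5706) (nat_lit 1334)))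
 (.l (.k2_11 (nat_lit 8) (nat_lit 3522) (nat_lit 3520) (nat_lit 3516) (nat_lit 3528) (nat_lit 3504) (nat_lit 3540) (nat_lit 3468) (nat_lit 3576) (nat_lit 3360) (nat_lit 4008) (nat_lit 2064) (nat_lit 4980) (nat_lit 1336))))
 (.n (nat_lit 3528)
 (.l (.k2_8 (nat_lit 8) (nat_lit 3528) (nat_lit 3522) (nat_lit 3546) (nat_lit 3474) (nat_lit 3582) (nat_lit 3366) (nat_lit 4014) (nat_lit 2070) (nat_lit 4986) (nat_lit 1342)))
 (.n (nat_lit 3538)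
 (.l (.k3_7 (nat_lit 8) (nat_lit 3538) (nat_lit 3540) (nat_lit 3520) (nat_lit 3592) (nat_lit 3376) (nat_lit 4024) (nat_lit 2080) (nat_lit 4996) (nat_lit 5724) (nat_lit 1352)))
 (.l (.k2_8 (nat_lit 7) (nat_lit 3540) (nat_lit 3538) (nat_lit 3546) (nat_lit 3522) (nat_lit 3594) (nat_lit 3378) (nat_lit 4026) (nat_lit 2082) (nat_lit 4998) (nat_lit 1354)))))))
 (.n (nat_lit 3570)
 (.n (nat_lit 3566)
 (.n (nat_lit 3546)
 (.l (.k2_7 (nat_lit 9) (nat_lit 3546) (nat_lit 3540) (nat_lit 3528) (nat_lit 3600) (nat_lit 3384) (nat_lit 4032) (nat_lit 2088) (nat_lit 5004) (nat_lit 1360)))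
 (.l (.k1_5 (nat_lit 9) (nat_lit 3566) (nat_lit 3568) (nat_lit 3512) (nat_lit 4052) (nat_lit 2108) (nat_lit 5024) (nat_lit 5752))))
 (.n (nat_lit 3568)
 (.l (.k3_7 (nat_lit 9) (nat_lit 3568) (nat_lit 3566) (nat_lit 3570) (nat_lit 3574) (nat_lit 3514) (nat_lit 4054) (nat_lit 2110) (nat_lit 5026) (nat_lit 5754) (nat_lit 1382)))
 (.l (.k2_6 (nat_lit 7) (nat_lit 3570) (nat_lit 3568) (nat_lit 3576) (nat_lit 3516) (nat_lit 4056) (nat_lit 2112) (nat_lit 5028) (nat_lit 1384)))))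
 (.n (nat_lit 3576)
 (.n (nat_lit 3574)
 (.l (.k3_7 (nat_lit 8) (nat_lit 3574) (nat_lit 3576) (nat_lit 3568) (nat_lit 3592) (nat_lit 3520) (nat_lit 4060) (nat_lit 2116) (nat_lit 5032) (nat_lit 5760) (nat_lit 1388)))
 (.l (.k2_8 (nat_lit 8) (nat_lit 3576) (nat_lit 3574) (nat_lit 3570) (nat_lit 3582) (nat_lit 3594) (nat_lit 3522) (nat_lit 4062) (nat_lit 2118) (nat_lit 5034) (nat_lit 1390))))
 (.n (nat_lit 3582)
 (.l (.k2_6 (nat_lit 7) (nat_lit 3582) (nat_lit 3576) (nat_lit 3600) (nat_lit 3528) (nat_lit 4068) (nat_lit 2124) (nat_lit 5040) (nat_lit 1396)))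
 (.n (nat_lit 3592)
 (.l (.k3_6 (nat_lit 10) (nat_lit 3592) (nat_lit 3594) (nat_lit 3574) (nat_lit 3538) (nat_lit 4078) (nat_lit 2134) (nat_lit 5050) (nat_lit 5778) (nat_lit 1406)))
 (.l (.k2_7 (nat_lit 9) (nat_lit 3594) (nat_lit 3592) (nat_lit 3600) (nat_lit 3576) (nat_lit 3540) (nat_lit 4080) (nat_lit 2136) (nat_lit 5052) (nat_lit 1408))))))))))
 (.n (nat_lit 3786)
 (.n (nat_lit 3718)
 (.n (nat_lit 3688)
 (.n (nat_lit 3668)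
 (.n (nat_lit 3618)
 (.n (nat_lit 3600)
 (.l (.k2_7 (nat_lit 10) (nat_lit 3600) (nat_lit 3594) (nat_lit 3582) (nat_lit 3618) (nat_lit 3546) (nat_lit 4086) (nat_lit 2142) (nat_lit 5058) (nat_lit 1414)))
 (.l (.k2_4 (nat_lit 11) (nat_lit 3618) (nat_lit 3600) (nat_lit 4104) (nat_lit 2160) (nat_lit 5076) (nat_lit 1432))))
 (.n (nat_lit 3662)
 (.l (.k1_4 (nat_lit 10) (nat_lit 3662) (nat_lit 3668) (nat_lit 3680) (nat_lit 3176) (nat_lit 5120) (nat_lit 5848)))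
 (.l (.k1_5 (nat_lit 8) (nat_lit 3668) (nat_lit 3670) (nat_lit 3662) (nat_lit 3686) (nat_lit 3182) (nat_lit 5126) (nat_lit 5854)))))
 (.n (nat_lit 3680)
 (.n (nat_lit 3670)
 (.l (.k3_4 (nat_lit 9) (nat_lit 3670) (nat_lit 3668) (nat_lit 3688) (nat_lit 3184) (nat_lit 5128) (nat_lit 5856) (nat_lit 1484)))
 (.l (.k1_5 (nat_lit 8) (nat_lit 3680) (nat_lit 3686) (nat_lit 3662) (nat_lit 3734) (nat_lit 3194) (nat_lit 5138) (nat_lit 5866))))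
 (.n (nat_lit 3686)
 (.l (.k1_8 (nat_lit 8) (nat_lit 3686) (nat_lit 3688) (nat_lit 3680) (nat_lit 3692) (nat_lit 3668) (nat_lit 3704) (nat_lit 3740) (nat_lit 3200) (nat_lit 5144) (nat_lit 5872)))
 (.l (.k3_7 (nat_lit 8) (nat_lit 3688) (nat_lit 3686) (nat_lit 3694) (nat_lit 3670) (nat_lit 3706) (nat_lit 3742) (nat_lit 3202) (nat_lit 5146) (nat_lit 5874) (nat_lit 1502))))))
 (.n (nat_lit 3704)
 (.n (nat_lit 3694)
 (.n (nat_lit 3692)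
 (.l (.k1_6 (nat_lit 6) (nat_lit 3692) (nat_lit 3694) (nat_lit 3686) (nat_lit 3710) (nat_lit 3746) (nat_lit 3206) (nat_lit 5150) (nat_lit 5878)))
 (.l (.k3_7 (nat_lit 8) (nat_lit 3694) (nat_lit 3692) (nat_lit 3696) (nat_lit 3688) (nat_lit 3712) (nat_lit 3748) (nat_lit 3208) (nat_lit 5152) (nat_lit 5880) (nat_lit 1508))))
 (.n (nat_lit 3696)
 (.l (.k2_5 (nat_lit 8) (nat_lit 3696) (nat_lit 3694) (nat_lit 3714) (nat_lit 3750) (nat_lit 3210) (nat_lit 5154) (nat_lit 1510)))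
 (.l (.k1_6 (nat_lit 6) (nat_lit 3704) (nat_lit 3706) (nat_lit 3710) (nat_lit 3686) (nat_lit 3758) (nat_lit 3218) (nat_lit 5162) (nat_lit 5890)))))
 (.n (nat_lit 3710)
 (.n (nat_lit 3706)
 (.l (.k3_6 (nat_lit 5) (nat_lit 3706) (nat_lit 3704) (nat_lit 3712) (nat_lit 3688) (nat_lit 3760) (nat_lit 3220) (nat_lit 5164) (nat_lit 5892) (nat_lit 1520)))
 (.l (.k1_6 (nat_lit 6) (nat_lit 3710) (nat_lit 3712) (nat_lit 3704) (nat_lit 3692) (nat_lit 3764) (nat_lit 3224) (nat_lit 5168) (nat_lit 5896))))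
 (.n (nat_lit 3712)
 (.l (.k3_8 (nat_lit 7) (nat_lit 3712) (nat_lit 3710) (nat_lit 3714) (nat_lit 3706) (nat_lit 3718) (nat_lit 3694) (nat_lit 3766) (nat_lit 3226) (nat_lit 5170) (nat_lit 5898) (nat_lit 1526)))
 (.n (nat_lit 3714)
 (.l (.k2_6 (nat_lit 6) (nat_lit 3714) (nat_lit 3712) (nat_lit 3720) (nat_lit 3696) (nat_lit 3768) (nat_lit 3228) (nat_lit 5172) (nat_lit 1528)))
 (.l (.k3_5 (nat_lit 7) (nat_lit 3718) (nat_lit 3720) (nat_lit 3712) (nat_lit 3772) (nat_lit 3232) (nat_lit 5176) (nat_lit 5904) (nat_lit 1532))))))))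
 (.n (nat_lit 3758)
 (.n (nat_lit 3742)
 (.n (nat_lit 3734)
 (.n (nat_lit 3720)
 (.l (.k2_5 (nat_lit 8) (nat_lit 3720) (nat_lit 3718) (nat_lit 3714) (nat_lit 3774) (nat_lit 3234) (nat_lit 5178) (nat_lit 1534)))
 (.l (.k1_5 (nat_lit 8) (nat_lit 3734) (nat_lit 3740) (nat_lit 3680) (nat_lit 3896) (nat_lit 3248) (nat_lit 5192) (nat_lit 5920))))
 (.n (nat_lit 3740)
 (.l (.k1_8 (nat_lit 7) (nat_lit 3740) (nat_lit 3742) (nat_lit 3734) (nat_lit 3746) (nat_lit 3758) (nat_lit 3686) (nat_lit 3902) (nat_lit 3254) (nat_lit 5198) (nat_lit 5926)))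
 (.l (.k3_7 (nat_lit 7) (nat_lit 3742) (nat_lit 3740) (nat_lit 3748) (nat_lit 3760) (nat_lit 3688) (nat_lit 3904) (nat_lit 3256) (nat_lit 5200) (nat_lit 5928) (nat_lit 1556)))))
 (.n (nat_lit 3748)
 (.n (nat_lit 3746)
 (.l (.k1_7 (nat_lit 4) (nat_lit 3746) (nat_lit 3748) (nat_lit 3740) (nat_lit 3764) (nat_lit 3692) (nat_lit 3908) (nat_lit 3260) (nat_lit 5204) (nat_lit 5932)))
 (.l (.k3_8 (nat_lit 6) (nat_lit 3748) (nat_lit 3746) (nat_lit 3750) (nat_lit 3742) (nat_lit 3766) (nat_lit 3694) (nat_lit 3910) (nat_lit 3262) (nat_lit 5206) (nat_lit 5934) (nat_lit 1562))))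
 (.n (nat_lit 3750)
 (.l (.k2_6 (nat_lit 6) (nat_lit 3750) (nat_lit 3748) (nat_lit 3768) (nat_lit 3696) (nat_lit 3912) (nat_lit 3264) (nat_lit 5208) (nat_lit 1564)))
 (.l (.k1_8 (nat_lit 7) (nat_lit 3758) (nat_lit 3760) (nat_lit 3764) (nat_lit 3740) (nat_lit 3704) (nat_lit 3812) (nat_lit 3920) (nat_lit 3272) (nat_lit 5216) (nat_lit 5944))))))
 (.n (nat_lit 3768)
 (.n (nat_lit 3764)
 (.n (nat_lit 3760)
 (.l (.k3_8 (nat_lit 6) (nat_lit 3760) (nat_lit 3758) (nat_lit 3766) (nat_lit 3742) (nat_lit 3706) (nat_lit 3814) (nat_lit 3922) (nat_lit 3274) (nat_lit 5218) (nat_lit 5946) (nat_lit 1574)))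
 (.l (.k1_9 (nat_lit 6) (nat_lit 3764) (nat_lit 3766) (nat_lit 3758) (nat_lit 3746) (nat_lit 3782) (nat_lit 3710) (nat_lit 3818) (nat_lit 3926) (nat_lit 3278) (nat_lit 5222) (nat_lit 5950))))
 (.n (nat_lit 3766)
 (.l (.k3_11 (nat_lit 7) (nat_lit 3766) (nat_lit 3764) (nat_lit 3768) (nat_lit 3760) (nat_lit 3772) (nat_lit 3748) (nat_lit 3784) (nat_lit 3712) (nat_lit 3820) (nat_lit 3928) (nat_lit 3280) (nat_lit 5224) (nat_lit 5952) (nat_lit 1580)))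
 (.l (.k2_9 (nat_lit 6) (nat_lit 3768) (nat_lit 3766) (nat_lit 3774) (nat_lit 3750) (nat_lit 3786) (nat_lit 3714) (nat_lit 3822) (nat_lit 3930) (nat_lit 3282) (nat_lit 5226) (nat_lit 1582)))))
 (.n (nat_lit 3774)
 (.n (nat_lit 3772)
 (.l (.k3_8 (nat_lit 6) (nat_lit 3772) (nat_lit 3774) (nat_lit 3766) (nat_lit 3790) (nat_lit 3718) (nat_lit 3826) (nat_lit 3934) (nat_lit 3286) (nat_lit 5230) (nat_lit 5958) (nat_lit 1586)))
 (.l (.k2_8 (nat_lit 7) (nat_lit 3774) (nat_lit 3772) (nat_lit 3768) (nat_lit 3792) (nat_lit 3720) (nat_lit 3828) (nat_lit 3936) (nat_lit 3288) (nat_lit 5232) (nat_lit 1588))))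
 (.n (nat_lit 3782)
 (.l (.k1_6 (nat_lit 6) (nat_lit 3782) (nat_lit 3784) (nat_lit 3764) (nat_lit 3836) (nat_lit 3944) (nat_lit 3296) (nat_lit 5240) (nat_lit 5968)))
 (.n (nat_lit 3784)
 (.l (.k3_8 (nat_lit 6) (nat_lit 3784) (nat_lit 3782) (nat_lit 3786) (nat_lit 3790) (nat_lit 3766) (nat_lit 3838) (nat_lit 3946) (nat_lit 3298) (nat_lit 5242) (nat_lit 5970) (nat_lit 1598)))
 (.l (.k2_7 (nat_lit 4) (nat_lit 3786) (nat_lit 3784) (nat_lit 3792) (nat_lit 3768) (nat_lit 3840) (nat_lit 3948) (nat_lit 3300) (nat_lit 5244) (nat_lit 1600)))))))))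
 (.n (nat_lit 3862)
 (.n (nat_lit 3822)
 (.n (nat_lit 3812)
 (.n (nat_lit 3792)
 (.n (nat_lit 3790)
 (.l (.k3_7 (nat_lit 7) (nat_lit 3790) (nat_lit 3792) (nat_lit 3784) (nat_lit 3772) (nat_lit 3844) (nat_lit 3952) (nat_lit 3304) (nat_lit 5248) (nat_lit 5976) (nat_lit 1604)))
 (.l (.k2_8 (nat_lit 7) (nat_lit 3792) (nat_lit 3790) (nat_lit 3786) (nat_lit 3798) (nat_lit 3774) (nat_lit 3846) (nat_lit 3954) (nat_lit 3306) (nat_lit 5250) (nat_lit 1606))))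
 (.n (nat_lit 3798)
 (.l (.k2_5 (nat_lit 8) (nat_lit 3798) (nat_lit 3792) (nat_lit 3852) (nat_lit 3960) (nat_lit 3312) (nat_lit 5256) (nat_lit 1612)))
 (.l (.k1_6 (nat_lit 6) (nat_lit 3812) (nat_lit 3814) (nat_lit 3818) (nat_lit 3758) (nat_lit 3974) (nat_lit 3326) (nat_lit 5270) (nat_lit 5998)))))
 (.n (nat_lit 3818)
 (.n (nat_lit 3814)
 (.l (.k3_6 (nat_lit 5) (nat_lit 3814) (nat_lit 3812) (nat_lit 3820) (nat_lit 3760) (nat_lit 3976) (nat_lit 3328) (nat_lit 5272) (nat_lit 6000) (nat_lit 1628)))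
 (.l (.k1_7 (nat_lit 4) (nat_lit 3818) (nat_lit 3820) (nat_lit 3812) (nat_lit 3836) (nat_lit 3764) (nat_lit 3980) (nat_lit 3332) (nat_lit 5276) (nat_lit 6004))))
 (.n (nat_lit 3820)
 (.l (.k3_9 (nat_lit 5) (nat_lit 3820) (nat_lit 3818) (nat_lit 3822) (nat_lit 3814) (nat_lit 3826) (nat_lit 3838) (nat_lit 3766) (nat_lit 3982) (nat_lit 3334) (nat_lit 5278) (nat_lit 6006) (nat_lit 1634)))
 (.l (.k2_7 (nat_lit 4) (nat_lit 3822) (nat_lit 3820) (nat_lit 3828) (nat_lit 3840) (nat_lit 3768) (nat_lit 3984) (nat_lit 3336) (nat_lit 5280) (nat_lit 1636))))))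
 (.n (nat_lit 3838)
 (.n (nat_lit 3828)
 (.n (nat_lit 3826)
 (.l (.k3_7 (nat_lit 3) (nat_lit 3826) (nat_lit 3828) (nat_lit 3820) (nat_lit 3844) (nat_lit 3772) (nat_lit 3988) (nat_lit 3340) (nat_lit 5284) (nat_lit 6012) (nat_lit 1640)))
 (.l (.k2_7 (nat_lit 4) (nat_lit 3828) (nat_lit 3826) (nat_lit 3822) (nat_lit 3846) (nat_lit 3774) (nat_lit 3990) (nat_lit 3342) (nat_lit 5286) (nat_lit 1642))))
 (.n (nat_lit 3836)
 (.l (.k1_6 (nat_lit 6) (nat_lit 3836) (nat_lit 3838) (nat_lit 3818) (nat_lit 3782) (nat_lit 3998) (nat_lit 3350) (nat_lit 5294) (nat_lit 6022)))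
 (.l (.k3_8 (nat_lit 6) (nat_lit 3838) (nat_lit 3836) (nat_lit 3840) (nat_lit 3844) (nat_lit 3820) (nat_lit 3784) (nat_lit 4000) (nat_lit 3352) (nat_lit 5296) (nat_lit 6024) (nat_lit 1652)))))
 (.n (nat_lit 3844)
 (.n (nat_lit 3840)
 (.l (.k2_7 (nat_lit 4) (nat_lit 3840) (nat_lit 3838) (nat_lit 3846) (nat_lit 3822) (nat_lit 3786) (nat_lit 4002) (nat_lit 3354) (nat_lit 5298) (nat_lit 1654)))
 (.l (.k3_8 (nat_lit 6) (nat_lit 3844) (nat_lit 3846) (nat_lit 3838) (nat_lit 3826) (nat_lit 3862) (nat_lit 3790) (nat_lit 4006) (nat_lit 3358) (nat_lit 5302) (nat_lit 6030) (nat_lit 1658))))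
 (.n (nat_lit 3846)
 (.l (.k2_9 (nat_lit 6) (nat_lit 3846) (nat_lit 3844) (nat_lit 3840) (nat_lit 3852) (nat_lit 3828) (nat_lit 3864) (nat_lit 3792) (nat_lit 4008) (nat_lit 3360) (nat_lit 5304) (nat_lit 1660)))
 (.n (nat_lit 3852)
 (.l (.k2_6 (nat_lit 6) (nat_lit 3852) (nat_lit 3846) (nat_lit 3870) (nat_lit 3798) (nat_lit 4014) (nat_lit 3366) (nat_lit 5310) (nat_lit 1666)))
 (.l (.k3_5 (nat_lit 7) (nat_lit 3862) (nat_lit 3864) (nat_lit 3844) (nat_lit 4024) (nat_lit 3376) (nat_lit 5320) (nat_lit 6048) (nat_lit 1676))))))))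
 (.n (nat_lit 3920)
 (.n (nat_lit 3902)
 (.n (nat_lit 3870)
 (.n (nat_lit 3864)
 (.l (.k2_6 (nat_lit 6) (nat_lit 3864) (nat_lit 3862) (nat_lit 3870) (nat_lit 3846) (nat_lit 4026) (nat_lit 3378) (nat_lit 5322) (nat_lit 1678)))
 (.l (.k2_5 (nat_lit 8) (nat_lit 3870) (nat_lit 3864) (nat_lit 3852) (nat_lit 4032) (nat_lit 3384) (nat_lit 5328) (nat_lit 1684))))
 (.n (nat_lit 3896)
 (.l (.k1_4 (nat_lit 10) (nat_lit 3896) (nat_lit 3902) (nat_lit 3734) (nat_lit 3410) (nat_lit 5354) (nat_lit 6082)))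
 (.l (.k1_7 (nat_lit 9) (nat_lit 3902) (nat_lit 3904) (nat_lit 3896) (nat_lit 3908) (nat_lit 3920) (nat_lit 3740) (nat_lit 3416) (nat_lit 5360) (nat_lit 6088)))))
 (.n (nat_lit 3908)
 (.n (nat_lit 3904)
 (.l (.k3_6 (nat_lit 9) (nat_lit 3904) (nat_lit 3902) (nat_lit 3910) (nat_lit 3922) (nat_lit 3742) (nat_lit 3418) (nat_lit 5362) (nat_lit 6090) (nat_lit 1718)))
 (.l (.k1_6 (nat_lit 6) (nat_lit 3908) (nat_lit 3910) (nat_lit 3902) (nat_lit 3926) (nat_lit 3746) (nat_lit 3422) (nat_lit 5366) (nat_lit 6094))))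
 (.n (nat_lit 3910)
 (.l (.k3_7 (nat_lit 8) (nat_lit 3910) (nat_lit 3908) (nat_lit 3912) (nat_lit 3904) (nat_lit 3928) (nat_lit 3748) (nat_lit 3424) (nat_lit 5368) (nat_lit 6096) (nat_lit 1724)))
 (.n (nat_lit 3912)
 (.l (.k2_5 (nat_lit 8) (nat_lit 3912) (nat_lit 3910) (nat_lit 3930) (nat_lit 3750) (nat_lit 3426) (nat_lit 5370) (nat_lit 1726)))
 (.l (.k1_7 (nat_lit 8) (nat_lit 3920) (nat_lit 3922) (nat_lit 3926) (nat_lit 3902) (nat_lit 3974) (nat_lit 3758) (nat_lit 3434) (nat_lit 5378) (nat_lit 6106)))))))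
 (.n (nat_lit 3930)
 (.n (nat_lit 3926)
 (.n (nat_lit 3922)
 (.l (.k3_7 (nat_lit 7) (nat_lit 3922) (nat_lit 3920) (nat_lit 3928) (nat_lit 3904) (nat_lit 3976) (nat_lit 3760) (nat_lit 3436) (nat_lit 5380) (nat_lit 6108) (nat_lit 1736)))
 (.l (.k1_8 (nat_lit 7) (nat_lit 3926) (nat_lit 3928) (nat_lit 3920) (nat_lit 3908) (nat_lit 3944) (nat_lit 3980) (nat_lit 3764) (nat_lit 3440) (nat_lit 5384) (nat_lit 6112))))
 (.n (nat_lit 3928)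
 (.l (.k3_10 (nat_lit 8) (nat_lit 3928) (nat_lit 3926) (nat_lit 3930) (nat_lit 3922) (nat_lit 3934) (nat_lit 3910) (nat_lit 3946) (nat_lit 3982) (nat_lit 3766) (nat_lit 3442) (nat_lit 5386) (nat_lit 6114) (nat_lit 1742)))
 (.l (.k2_8 (nat_lit 7) (nat_lit 3930) (nat_lit 3928) (nat_lit 3936) (nat_lit 3912) (nat_lit 3948) (nat_lit 3984) (nat_lit 3768) (nat_lit 3444) (nat_lit 5388) (nat_lit 1744)))))
 (.n (nat_lit 3936)
 (.n (nat_lit 3934)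
 (.l (.k3_7 (nat_lit 7) (nat_lit 3934) (nat_lit 3936) (nat_lit 3928) (nat_lit 3952) (nat_lit 3988) (nat_lit 3772) (nat_lit 3448) (nat_lit 5392) (nat_lit 6120) (nat_lit 1748)))
 (.l (.k2_7 (nat_lit 8) (nat_lit 3936) (nat_lit 3934) (nat_lit 3930) (nat_lit 3954) (nat_lit 3990) (nat_lit 3774) (nat_lit 3450) (nat_lit 5394) (nat_lit 1750))))
 (.n (nat_lit 3944)
 (.l (.k1_6 (nat_lit 6) (nat_lit 3944) (nat_lit 3946) (nat_lit 3926) (nat_lit 3998) (nat_lit 3782) (nat_lit 3458) (nat_lit 5402) (nat_lit 6130)))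
 (.n (nat_lit 3946)
 (.l (.k3_8 (nat_lit 6) (nat_lit 3946) (nat_lit 3944) (nat_lit 3948) (nat_lit 3952) (nat_lit 3928) (nat_lit 4000) (nat_lit 3784) (nat_lit 3460) (nat_lit 5404) (nat_lit 6132) (nat_lit 1760)))
 (.l (.k2_7 (nat_lit 4) (nat_lit 3948) (nat_lit 3946) (nat_lit 3954) (nat_lit 3930) (nat_lit 4002) (nat_lit 3786) (nat_lit 3462) (nat_lit 5406) (nat_lit 1762)))))))))))
 (.n (nat_lit 4452)
 (.n (nat_lit 4146)
 (.n (nat_lit 4024)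
 (.n (nat_lit 3984)
 (.n (nat_lit 3974)
 (.n (nat_lit 3954)
 (.n (nat_lit 3952)
 (.l (.k3_7 (nat_lit 7) (nat_lit 3952) (nat_lit 3954) (nat_lit 3946) (nat_lit 3934) (nat_lit 4006) (nat_lit 3790) (nat_lit 3466) (nat_lit 5410) (nat_lit 6138) (nat_lit 1766)))
 (.l (.k2_8 (nat_lit 7) (nat_lit 3954) (nat_lit 3952) (nat_lit 3948) (nat_lit 3960) (nat_lit 3936) (nat_lit 4008) (nat_lit 3792) (nat_lit 3468) (nat_lit 5412) (nat_lit 1768))))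
 (.n (nat_lit 3960)
 (.l (.k2_5 (nat_lit 8) (nat_lit 3960) (nat_lit 3954) (nat_lit 4014) (nat_lit 3798) (nat_lit 3474) (nat_lit 5418) (nat_lit 1774)))
 (.l (.k1_7 (nat_lit 9) (nat_lit 3974) (nat_lit 3976) (nat_lit 3980) (nat_lit 3920) (nat_lit 3812) (nat_lit 4136) (nat_lit 3488) (nat_lit 5432) (nat_lit 6160)))))
 (.n (nat_lit 3980)
 (.n (nat_lit 3976)
 (.l (.k3_7 (nat_lit 8) (nat_lit 3976) (nat_lit 3974) (nat_lit 3982) (nat_lit 3922) (nat_lit 3814) (nat_lit 4138) (nat_lit 3490) (nat_lit 5434) (nat_lit 6162) (nat_lit 1790)))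
 (.l (.k1_8 (nat_lit 7) (nat_lit 3980) (nat_lit 3982) (nat_lit 3974) (nat_lit 3998) (nat_lit 3926) (nat_lit 3818) (nat_lit 4142) (nat_lit 3494) (nat_lit 5438) (nat_lit 6166))))
 (.n (nat_lit 3982)
 (.l (.k3_10 (nat_lit 8) (nat_lit 3982) (nat_lit 3980) (nat_lit 3984) (nat_lit 3976) (nat_lit 3988) (nat_lit 4000) (nat_lit 3928) (nat_lit 3820) (nat_lit 4144) (nat_lit 3496) (nat_lit 5440) (nat_lit 6168) (nat_lit 1796)))
 (.l (.k2_8 (nat_lit 7) (nat_lit 3984) (nat_lit 3982) (nat_lit 3990) (nat_lit 4002) (nat_lit 3930) (nat_lit 3822) (nat_lit 4146) (nat_lit 3498) (nat_lit 5442) (nat_lit 1798))))))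
 (.n (nat_lit 4000)
 (.n (nat_lit 3990)
 (.n (nat_lit 3988)
 (.l (.k3_8 (nat_lit 6) (nat_lit 3988) (nat_lit 3990) (nat_lit 3982) (nat_lit 4006) (nat_lit 3934) (nat_lit 3826) (nat_lit 4150) (nat_lit 3502) (nat_lit 5446) (nat_lit 6174) (nat_lit 1802)))
 (.l (.k2_8 (nat_lit 7) (nat_lit 3990) (nat_lit 3988) (nat_lit 3984) (nat_lit 4008) (nat_lit 3936) (nat_lit 3828) (nat_lit 4152) (nat_lit 3504) (nat_lit 5448) (nat_lit 1804))))
 (.n (nat_lit 3998)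
 (.l (.k1_8 (nat_lit 8) (nat_lit 3998) (nat_lit 4000) (nat_lit 3980) (nat_lit 3944) (nat_lit 4052) (nat_lit 3836) (nat_lit 4160) (nat_lit 3512) (nat_lit 5456) (nat_lit 6184)))
 (.l (.k3_10 (nat_lit 8) (nat_lit 4000) (nat_lit 3998) (nat_lit 4002) (nat_lit 4006) (nat_lit 3982) (nat_lit 3946) (nat_lit 4054) (nat_lit 3838) (nat_lit 4162) (nat_lit 3514) (nat_lit 5458) (nat_lit 6186) (nat_lit 1814)))))
 (.n (nat_lit 4006)
 (.n (nat_lit 4002)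
 (.l (.k2_9 (nat_lit 6) (nat_lit 4002) (nat_lit 4000) (nat_lit 4008) (nat_lit 3984) (nat_lit 3948) (nat_lit 4056) (nat_lit 3840) (nat_lit 4164) (nat_lit 3516) (nat_lit 5460) (nat_lit 1816)))
 (.l (.k3_10 (nat_lit 8) (nat_lit 4006) (nat_lit 4008) (nat_lit 4000) (nat_lit 3988) (nat_lit 4024) (nat_lit 3952) (nat_lit 4060) (nat_lit 3844) (nat_lit 4168) (nat_lit 3520) (nat_lit 5464) (nat_lit 6192) (nat_lit 1820))))
 (.n (nat_lit 4008)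
 (.l (.k2_11 (nat_lit 8) (nat_lit 4008) (nat_lit 4006) (nat_lit 4002) (nat_lit 4014) (nat_lit 3990) (nat_lit 4026) (nat_lit 3954) (nat_lit 4062) (nat_lit 3846) (nat_lit 4170) (nat_lit 3522) (nat_lit 5466) (nat_lit 1822)))
 (.n (nat_lit 4014)
 (.l (.k2_8 (nat_lit 8) (nat_lit 4014) (nat_lit 4008) (nat_lit 4032) (nat_lit 3960) (nat_lit 4068) (nat_lit 3852) (nat_lit 4176) (nat_lit 3528) (nat_lit 5472) (nat_lit 1828)))
 (.l (.k3_7 (nat_lit 8) (nat_lit 4024) (nat_lit 4026) (nat_lit 4006) (nat_lit 4078) (nat_lit 3862) (nat_lit 4186) (nat_lit 3538) (nat_lit 5482) (nat_lit 6210) (nat_lit 1838))))))))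
 (.n (nat_lit 4068)
 (.n (nat_lit 4054)
 (.n (nat_lit 4032)
 (.n (nat_lit 4026)
 (.l (.k2_8 (nat_lit 7) (nat_lit 4026) (nat_lit 4024) (nat_lit 4032) (nat_lit 4008) (nat_lit 4080) (nat_lit 3864) (nat_lit 4188) (nat_lit 3540) (nat_lit 5484) (nat_lit 1840)))
 (.l (.k2_7 (nat_lit 9) (nat_lit 4032) (nat_lit 4026) (nat_lit 4014) (nat_lit 4086) (nat_lit 3870) (nat_lit 4194) (nat_lit 3546) (nat_lit 5490) (nat_lit 1846))))
 (.n (nat_lit 4052)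
 (.l (.k1_5 (nat_lit 8) (nat_lit 4052) (nat_lit 4054) (nat_lit 3998) (nat_lit 4214) (nat_lit 3566) (nat_lit 5510) (nat_lit 6238)))
 (.l (.k3_7 (nat_lit 8) (nat_lit 4054) (nat_lit 4052) (nat_lit 4056) (nat_lit 4060) (nat_lit 4000) (nat_lit 4216) (nat_lit 3568) (nat_lit 5512) (nat_lit 6240) (nat_lit 1868)))))
 (.n (nat_lit 4060)
 (.n (nat_lit 4056)
 (.l (.k2_6 (nat_lit 6) (nat_lit 4056) (nat_lit 4054) (nat_lit 4062) (nat_lit 4002) (nat_lit 4218) (nat_lit 3570) (nat_lit 5514) (nat_lit 1870)))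
 (.l (.k3_7 (nat_lit 7) (nat_lit 4060) (nat_lit 4062) (nat_lit 4054) (nat_lit 4078) (nat_lit 4006) (nat_lit 4222) (nat_lit 3574) (nat_lit 5518) (nat_lit 6246) (nat_lit 1874))))
 (.n (nat_lit 4062)
 (.l (.k2_8 (nat_lit 7) (nat_lit 4062) (nat_lit 4060) (nat_lit 4056) (nat_lit 4068) (nat_lit 4080) (nat_lit 4008) (nat_lit 4224) (nat_lit 3576) (nat_lit 5520) (nat_lit 1876)))
 (.l (.k2_6 (nat_lit 6) (nat_lit 4068) (nat_lit 4062) (nat_lit 4086) (nat_lit 4014) (nat_lit 4230) (nat_lit 3582) (nat_lit 5526) (nat_lit 1882))))))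
 (.n (nat_lit 4104)
 (.n (nat_lit 4080)
 (.n (nat_lit 4078)
 (.l (.k3_6 (nat_lit 9) (nat_lit 4078) (nat_lit 4080) (nat_lit 4060) (nat_lit 4024) (nat_lit 4240) (nat_lit 3592) (nat_lit 5536) (nat_lit 6264) (nat_lit 1892)))
 (.l (.k2_7 (nat_lit 8) (nat_lit 4080) (nat_lit 4078) (nat_lit 4086) (nat_lit 4062) (nat_lit 4026) (nat_lit 4242) (nat_lit 3594) (nat_lit 5538) (nat_lit 1894))))
 (.n (nat_lit 4086)
 (.l (.k2_7 (nat_lit 9) (nat_lit 4086) (nat_lit 4080) (nat_lit 4068) (nat_lit 4104) (nat_lit 4032) (nat_lit 4248) (nat_lit 3600) (nat_lit 5544) (nat_lit 1900)))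
 (.l (.k2_4 (nat_lit 10) (nat_lit 4104) (nat_lit 4086) (nat_lit 4266) (nat_lit 3618) (nat_lit 5562) (nat_lit 1918)))))
 (.n (nat_lit 4138)
 (.n (nat_lit 4136)
 (.l (.k1_4 (nat_lit 10) (nat_lit 4136) (nat_lit 4138) (nat_lit 4142) (nat_lit 3974) (nat_lit 5594) (nat_lit 6322)))
 (.l (.k3_4 (nat_lit 9) (nat_lit 4138) (nat_lit 4136) (nat_lit 4144) (nat_lit 3976) (nat_lit 5596) (nat_lit 6324) (nat_lit 1952))))
 (.n (nat_lit 4142)
 (.l (.k1_5 (nat_lit 8) (nat_lit 4142) (nat_lit 4144) (nat_lit 4136) (nat_lit 4160) (nat_lit 3980) (nat_lit 5600) (nat_lit 6328)))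
 (.n (nat_lit 4144)
 (.l (.k3_7 (nat_lit 9) (nat_lit 4144) (nat_lit 4142) (nat_lit 4146) (nat_lit 4138) (nat_lit 4150) (nat_lit 4162) (nat_lit 3982) (nat_lit 5602) (nat_lit 6330) (nat_lit 1958)))
 (.l (.k2_5 (nat_lit 8) (nat_lit 4146) (nat_lit 4144) (nat_lit 4152) (nat_lit 4164) (nat_lit 3984) (nat_lit 5604) (nat_lit 1960)))))))))
 (.n (nat_lit 4230)
 (.n (nat_lit 4176)
 (.n (nat_lit 4162)
 (.n (nat_lit 4152)
 (.n (nat_lit 4150)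
 (.l (.k3_5 (nat_lit 7) (nat_lit 4150) (nat_lit 4152) (nat_lit 4144) (nat_lit 4168) (nat_lit 3988) (nat_lit 5608) (nat_lit 6336) (nat_lit 1964)))
 (.l (.k2_5 (nat_lit 8) (nat_lit 4152) (nat_lit 4150) (nat_lit 4146) (nat_lit 4170) (nat_lit 3990) (nat_lit 5610) (nat_lit 1966))))
 (.n (nat_lit 4160)
 (.l (.k1_5 (nat_lit 8) (nat_lit 4160) (nat_lit 4162) (nat_lit 4142) (nat_lit 4214) (nat_lit 3998) (nat_lit 5618) (nat_lit 6346)))
 (.l (.k3_7 (nat_lit 8) (nat_lit 4162) (nat_lit 4160) (nat_lit 4164) (nat_lit 4168) (nat_lit 4144) (nat_lit 4216) (nat_lit 4000) (nat_lit 5620) (nat_lit 6348) (nat_lit 1976)))))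
 (.n (nat_lit 4168)
 (.n (nat_lit 4164)
 (.l (.k2_6 (nat_lit 6) (nat_lit 4164) (nat_lit 4162) (nat_lit 4170) (nat_lit 4146) (nat_lit 4218) (nat_lit 4002) (nat_lit 5622) (nat_lit 1978)))
 (.l (.k3_7 (nat_lit 8) (nat_lit 4168) (nat_lit 4170) (nat_lit 4162) (nat_lit 4150) (nat_lit 4186) (nat_lit 4222) (nat_lit 4006) (nat_lit 5626) (nat_lit 6354) (nat_lit 1982))))
 (.n (nat_lit 4170)
 (.l (.k2_8 (nat_lit 8) (nat_lit 4170) (nat_lit 4168) (nat_lit 4164) (nat_lit 4176) (nat_lit 4152) (nat_lit 4188) (nat_lit 4224) (nat_lit 4008) (nat_lit 5628) (nat_lit 1984)))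
 (.l (.k2_5 (nat_lit 8) (nat_lit 4176) (nat_lit 4170) (nat_lit 4194) (nat_lit 4230) (nat_lit 4014) (nat_lit 5634) (nat_lit 1990))))))
 (.n (nat_lit 4214)
 (.n (nat_lit 4188)
 (.n (nat_lit 4186)
 (.l (.k3_5 (nat_lit 7) (nat_lit 4186) (nat_lit 4188) (nat_lit 4168) (nat_lit 4240) (nat_lit 4024) (nat_lit 5644) (nat_lit 6372) (nat_lit 2000)))
 (.l (.k2_6 (nat_lit 6) (nat_lit 4188) (nat_lit 4186) (nat_lit 4194) (nat_lit 4170) (nat_lit 4242) (nat_lit 4026) (nat_lit 5646) (nat_lit 2002))))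
 (.n (nat_lit 4194)
 (.l (.k2_5 (nat_lit 8) (nat_lit 4194) (nat_lit 4188) (nat_lit 4176) (nat_lit 4248) (nat_lit 4032) (nat_lit 5652) (nat_lit 2008)))
 (.l (.k1_4 (nat_lit 10) (nat_lit 4214) (nat_lit 4216) (nat_lit 4160) (nat_lit 4052) (nat_lit 5672) (nat_lit 6400)))))
 (.n (nat_lit 4218)
 (.n (nat_lit 4216)
 (.l (.k3_6 (nat_lit 10) (nat_lit 4216) (nat_lit 4214) (nat_lit 4218) (nat_lit 4222) (nat_lit 4162) (nat_lit 4054) (nat_lit 5674) (nat_lit 6402) (nat_lit 2030)))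
 (.l (.k2_5 (nat_lit 8) (nat_lit 4218) (nat_lit 4216) (nat_lit 4224) (nat_lit 4164) (nat_lit 4056) (nat_lit 5676) (nat_lit 2032))))
 (.n (nat_lit 4222)
 (.l (.k3_6 (nat_lit 9) (nat_lit 4222) (nat_lit 4224) (nat_lit 4216) (nat_lit 4240) (nat_lit 4168) (nat_lit 4060) (nat_lit 5680) (nat_lit 6408) (nat_lit 2036)))
 (.n (nat_lit 4224)
 (.l (.k2_7 (nat_lit 9) (nat_lit 4224) (nat_lit 4222) (nat_lit 4218) (nat_lit 4230) (nat_lit 4242) (nat_lit 4170) (nat_lit 4062) (nat_lit 5682) (nat_lit 2038)))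
 (.l (.k2_5 (nat_lit 8) (nat_lit 4230) (nat_lit 4224) (nat_lit 4248) (nat_lit 4176) (nat_lit 4068) (nat_lit 5688) (nat_lit 2044))))))))
 (.n (nat_lit 4400)
 (.n (nat_lit 4266)
 (.n (nat_lit 4242)
 (.n (nat_lit 4240)
 (.l (.k3_6 (nat_lit 10) (nat_lit 4240) (nat_lit 4242) (nat_lit 4222) (nat_lit 4186) (nat_lit 4294) (nat_lit 4078) (nat_lit 5698) (nat_lit 6426) (nat_lit 2054)))
 (.l (.k2_7 (nat_lit 9) (nat_lit 4242) (nat_lit 4240) (nat_lit 4248) (nat_lit 4224) (nat_lit 4188) (nat_lit 4296) (nat_lit 4080) (nat_lit 5700) (nat_lit 2056))))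
 (.n (nat_lit 4248)
 (.l (.k2_7 (nat_lit 10) (nat_lit 4248) (nat_lit 4242) (nat_lit 4230) (nat_lit 4266) (nat_lit 4194) (nat_lit 4302) (nat_lit 4086) (nat_lit 5706) (nat_lit 2062)))
 (.l (.k2_4 (nat_lit 10) (nat_lit 4266) (nat_lit 4248) (nat_lit 4320) (nat_lit 4104) (nat_lit 5724) (nat_lit 2080)))))
 (.n (nat_lit 4296)
 (.n (nat_lit 4294)
 (.l (.k3_3 (nat_lit 11) (nat_lit 4294) (nat_lit 4296) (nat_lit 4240) (nat_lit 5752) (nat_lit 6480) (nat_lit 2108)))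
 (.l (.k2_4 (nat_lit 10) (nat_lit 4296) (nat_lit 4294) (nat_lit 4302) (nat_lit 4242) (nat_lit 5754) (nat_lit 2110))))
 (.n (nat_lit 4302)
 (.l (.k2_4 (nat_lit 10) (nat_lit 4302) (nat_lit 4296) (nat_lit 4320) (nat_lit 4248) (nat_lit 5760) (nat_lit 2116)))
 (.n (nat_lit 4320)
 (.l (.k2_3 (nat_lit 12) (nat_lit 4320) (nat_lit 4302) (nat_lit 4266) (nat_lit 5778) (nat_lit 2134)))
 (.l (.k0_2 (nat_lit 12) (nat_lit 4400) (nat_lit 4418) (nat_lit 2942)))))))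
 (.n (nat_lit 4436)
 (.n (nat_lit 4424)
 (.n (nat_lit 4418)
 (.l (.k0_5 (nat_lit 11) (nat_lit 4418) (nat_lit 4424) (nat_lit 4400) (nat_lit 4436) (nat_lit 4472) (nat_lit 2960)))
 (.l (.k0_5 (nat_lit 10) (nat_lit 4424) (nat_lit 4426) (nat_lit 4418) (nat_lit 4442) (nat_lit 4478) (nat_lit 2966))))
 (.n (nat_lit 4426)
 (.l (.k2_4 (nat_lit 10) (nat_lit 4426) (nat_lit 4424) (nat_lit 4444) (nat_lit 4480) (nat_lit 2968) (nat_lit 2240)))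
 (.l (.k0_4 (nat_lit 8) (nat_lit 4436) (nat_lit 4442) (nat_lit 4418) (nat_lit 4490) (nat_lit 2978)))))
 (.n (nat_lit 4444)
 (.n (nat_lit 4442)
 (.l (.k0_6 (nat_lit 9) (nat_lit 4442) (nat_lit 4444) (nat_lit 4436) (nat_lit 4448) (nat_lit 4424) (nat_lit 4496) (nat_lit 2984)))
 (.l (.k2_5 (nat_lit 8) (nat_lit 4444) (nat_lit 4442) (nat_lit 4450) (nat_lit 4426) (nat_lit 4498) (nat_lit 2986) (nat_lit 2258))))
 (.n (nat_lit 4448)
 (.l (.k0_4 (nat_lit 8) (nat_lit 4448) (nat_lit 4450) (nat_lit 4442) (nat_lit 4502) (nat_lit 2990)))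
 (.n (nat_lit 4450)
 (.l (.k2_5 (nat_lit 9) (nat_lit 4450) (nat_lit 4448) (nat_lit 4452) (nat_lit 4444) (nat_lit 4504) (nat_lit 2992) (nat_lit 2264)))
 (.l (.k2_3 (nat_lit 8) (nat_lit 4452) (nat_lit 4450) (nat_lit 4506) (nat_lit 2994) (nat_lit 2266))))))))))
 (.n (nat_lit 4608)
 (.n (nat_lit 4544)
 (.n (nat_lit 4504)
 (.n (nat_lit 4490)
 (.n (nat_lit 4478)
 (.n (nat_lit 4472)
 (.l (.k0_5 (nat_lit 10) (nat_lit 4472) (nat_lit 4478) (nat_lit 4490) (nat_lit 4418) (nat_lit 4634) (nat_lit 3014)))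
 (.l (.k0_6 (nat_lit 8) (nat_lit 4478) (nat_lit 4480) (nat_lit 4472) (nat_lit 4496) (nat_lit 4424) (nat_lit 4640) (nat_lit 3020))))
 (.n (nat_lit 4480)
 (.l (.k2_5 (nat_lit 8) (nat_lit 4480) (nat_lit 4478) (nat_lit 4498) (nat_lit 4426) (nat_lit 4642) (nat_lit 3022) (nat_lit 2294)))
 (.l (.k0_6 (nat_lit 9) (nat_lit 4490) (nat_lit 4496) (nat_lit 4472) (nat_lit 4436) (nat_lit 4544) (nat_lit 4652) (nat_lit 3032)))))
 (.n (nat_lit 4498)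
 (.n (nat_lit 4496)
 (.l (.k0_9 (nat_lit 9) (nat_lit 4496) (nat_lit 4498) (nat_lit 4490) (nat_lit 4502) (nat_lit 4478) (nat_lit 4514) (nat_lit 4442) (nat_lit 4550) (nat_lit 4658) (nat_lit 3038)))
 (.l (.k2_8 (nat_lit 8) (nat_lit 4498) (nat_lit 4496) (nat_lit 4504) (nat_lit 4480) (nat_lit 4516) (nat_lit 4444) (nat_lit 4552) (nat_lit 4660) (nat_lit 3040) (nat_lit 2312))))
 (.n (nat_lit 4502)
 (.l (.k0_7 (nat_lit 7) (nat_lit 4502) (nat_lit 4504) (nat_lit 4496) (nat_lit 4520) (nat_lit 4448) (nat_lit 4556) (nat_lit 4664) (nat_lit 3044)))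
 (.l (.k2_8 (nat_lit 8) (nat_lit 4504) (nat_lit 4502) (nat_lit 4506) (nat_lit 4498) (nat_lit 4522) (nat_lit 4450) (nat_lit 4558) (nat_lit 4666) (nat_lit 3046) (nat_lit 2318))))))
 (.n (nat_lit 4520)
 (.n (nat_lit 4514)
 (.n (nat_lit 4506)
 (.l (.k2_6 (nat_lit 7) (nat_lit 4506) (nat_lit 4504) (nat_lit 4524) (nat_lit 4452) (nat_lit 4560) (nat_lit 4668) (nat_lit 3048) (nat_lit 2320)))
 (.l (.k0_6 (nat_lit 8) (nat_lit 4514) (nat_lit 4516) (nat_lit 4520) (nat_lit 4496) (nat_lit 4568) (nat_lit 4676) (nat_lit 3056))))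
 (.n (nat_lit 4516)
 (.l (.k2_6 (nat_lit 6) (nat_lit 4516) (nat_lit 4514) (nat_lit 4522) (nat_lit 4498) (nat_lit 4570) (nat_lit 4678) (nat_lit 3058) (nat_lit 2330)))
 (.l (.k0_6 (nat_lit 8) (nat_lit 4520) (nat_lit 4522) (nat_lit 4514) (nat_lit 4502) (nat_lit 4574) (nat_lit 4682) (nat_lit 3062)))))
 (.n (nat_lit 4524)
 (.n (nat_lit 4522)
 (.l (.k2_8 (nat_lit 8) (nat_lit 4522) (nat_lit 4520) (nat_lit 4524) (nat_lit 4516) (nat_lit 4528) (nat_lit 4504) (nat_lit 4576) (nat_lit 4684) (nat_lit 3064) (nat_lit 2336)))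
 (.l (.k2_6 (nat_lit 6) (nat_lit 4524) (nat_lit 4522) (nat_lit 4530) (nat_lit 4506) (nat_lit 4578) (nat_lit 4686) (nat_lit 3066) (nat_lit 2338))))
 (.n (nat_lit 4528)
 (.l (.k2_5 (nat_lit 8) (nat_lit 4528) (nat_lit 4530) (nat_lit 4522) (nat_lit 4582) (nat_lit 4690) (nat_lit 3070) (nat_lit 2342)))
 (.n (nat_lit 4530)
 (.l (.k2_5 (nat_lit 8) (nat_lit 4530) (nat_lit 4528) (nat_lit 4524) (nat_lit 4584) (nat_lit 4692) (nat_lit 3072) (nat_lit 2344)))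
 (.l (.k0_4 (nat_lit 8) (nat_lit 4544) (nat_lit 4550) (nat_lit 4490) (nat_lit 4706) (nat_lit 3086))))))))
 (.n (nat_lit 4576)
 (.n (nat_lit 4558)
 (.n (nat_lit 4552)
 (.n (nat_lit 4550)
 (.l (.k0_7 (nat_lit 7) (nat_lit 4550) (nat_lit 4552) (nat_lit 4544) (nat_lit 4556) (nat_lit 4568) (nat_lit 4496) (nat_lit 4712) (nat_lit 3092)))
 (.l (.k2_6 (nat_lit 6) (nat_lit 4552) (nat_lit 4550) (nat_lit 4558) (nat_lit 4570) (nat_lit 4498) (nat_lit 4714) (nat_lit 3094) (nat_lit 2366))))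
 (.n (nat_lit 4556)
 (.l (.k0_6 (nat_lit 4) (nat_lit 4556) (nat_lit 4558) (nat_lit 4550) (nat_lit 4574) (nat_lit 4502) (nat_lit 4718) (nat_lit 3098)))
 (.l (.k2_7 (nat_lit 5) (nat_lit 4558) (nat_lit 4556) (nat_lit 4560) (nat_lit 4552) (nat_lit 4576) (nat_lit 4504) (nat_lit 4720) (nat_lit 3100) (nat_lit 2372)))))
 (.n (nat_lit 4568)
 (.n (nat_lit 4560)
 (.l (.k2_5 (nat_lit 4) (nat_lit 4560) (nat_lit 4558) (nat_lit 4578) (nat_lit 4506) (nat_lit 4722) (nat_lit 3102) (nat_lit 2374)))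
 (.l (.k0_6 (nat_lit 8) (nat_lit 4568) (nat_lit 4570) (nat_lit 4574) (nat_lit 4550) (nat_lit 4514) (nat_lit 4730) (nat_lit 3110))))
 (.n (nat_lit 4570)
 (.l (.k2_6 (nat_lit 6) (nat_lit 4570) (nat_lit 4568) (nat_lit 4576) (nat_lit 4552) (nat_lit 4516) (nat_lit 4732) (nat_lit 3112) (nat_lit 2384)))
 (.n (nat_lit 4574)
 (.l (.k0_7 (nat_lit 7) (nat_lit 4574) (nat_lit 4576) (nat_lit 4568) (nat_lit 4556) (nat_lit 4592) (nat_lit 4520) (nat_lit 4736) (nat_lit 3116)))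
 (.l (.k2_9 (nat_lit 7) (nat_lit 4576) (nat_lit 4574) (nat_lit 4578) (nat_lit 4570) (nat_lit 4582) (nat_lit 4558) (nat_lit 4594) (nat_lit 4522) (nat_lit 4738) (nat_lit 3118) (nat_lit 2390)))))))
 (.n (nat_lit 4592)
 (.n (nat_lit 4582)
 (.n (nat_lit 4578)
 (.l (.k2_7 (nat_lit 5) (nat_lit 4578) (nat_lit 4576) (nat_lit 4584) (nat_lit 4560) (nat_lit 4596) (nat_lit 4524) (nat_lit 4740) (nat_lit 3120) (nat_lit 2392)))
 (.l (.k2_6 (nat_lit 6) (nat_lit 4582) (nat_lit 4584) (nat_lit 4576) (nat_lit 4600) (nat_lit 4528) (nat_lit 4744) (nat_lit 3124) (nat_lit 2396))))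
 (.n (nat_lit 4584)
 (.l (.k2_6 (nat_lit 6) (nat_lit 4584) (nat_lit 4582) (nat_lit 4578) (nat_lit 4602) (nat_lit 4530) (nat_lit 4746) (nat_lit 3126) (nat_lit 2398)))
 (.l (.k0_4 (nat_lit 8) (nat_lit 4592) (nat_lit 4594) (nat_lit 4574) (nat_lit 4754) (nat_lit 3134)))))
 (.n (nat_lit 4596)
 (.n (nat_lit 4594)
 (.l (.k2_6 (nat_lit 7) (nat_lit 4594) (nat_lit 4592) (nat_lit 4596) (nat_lit 4600) (nat_lit 4576) (nat_lit 4756) (nat_lit 3136) (nat_lit 2408)))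
 (.l (.k2_5 (nat_lit 4) (nat_lit 4596) (nat_lit 4594) (nat_lit 4602) (nat_lit 4578) (nat_lit 4758) (nat_lit 3138) (nat_lit 2410))))
 (.n (nat_lit 4600)
 (.l (.k2_5 (nat_lit 8) (nat_lit 4600) (nat_lit 4602) (nat_lit 4594) (nat_lit 4582) (nat_lit 4762) (nat_lit 3142) (nat_lit 2414)))
 (.n (nat_lit 4602)
 (.l (.k2_6 (nat_lit 7) (nat_lit 4602) (nat_lit 4600) (nat_lit 4596) (nat_lit 4608) (nat_lit 4584) (nat_lit 4764) (nat_lit 3144) (nat_lit 2416)))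
 (.l (.k2_3 (nat_lit 8) (nat_lit 4608) (nat_lit 4602) (nat_lit 4770) (nat_lit 3150) (nat_lit 2422)))))))))
 (.n (nat_lit 4706)
 (.n (nat_lit 4666)
 (.n (nat_lit 4652)
 (.n (nat_lit 4640)
 (.n (nat_lit 4634)
 (.l (.k0_5 (nat_lit 10) (nat_lit 4634) (nat_lit 4640) (nat_lit 4652) (nat_lit 4472) (nat_lit 5120) (nat_lit 3176)))
 (.l (.k0_6 (nat_lit 8) (nat_lit 4640) (nat_lit 4642) (nat_lit 4634) (nat_lit 4658) (nat_lit 4478) (nat_lit 5126) (nat_lit 3182))))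
 (.n (nat_lit 4642)
 (.l (.k2_5 (nat_lit 8) (nat_lit 4642) (nat_lit 4640) (nat_lit 4660) (nat_lit 4480) (nat_lit 5128) (nat_lit 3184) (nat_lit 2456)))
 (.l (.k0_6 (nat_lit 8) (nat_lit 4652) (nat_lit 4658) (nat_lit 4634) (nat_lit 4706) (nat_lit 4490) (nat_lit 5138) (nat_lit 3194)))))
 (.n (nat_lit 4660)
 (.n (nat_lit 4658)
 (.l (.k0_9 (nat_lit 8) (nat_lit 4658) (nat_lit 4660) (nat_lit 4652) (nat_lit 4664) (nat_lit 4640) (nat_lit 4676) (nat_lit 4712) (nat_lit 4496) (nat_lit 5144) (nat_lit 3200)))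
 (.l (.k2_8 (nat_lit 7) (nat_lit 4660) (nat_lit 4658) (nat_lit 4666) (nat_lit 4642) (nat_lit 4678) (nat_lit 4714) (nat_lit 4498) (nat_lit 5146) (nat_lit 3202) (nat_lit 2474))))
 (.n (nat_lit 4664)
 (.l (.k0_7 (nat_lit 6) (nat_lit 4664) (nat_lit 4666) (nat_lit 4658) (nat_lit 4682) (nat_lit 4718) (nat_lit 4502) (nat_lit 5150) (nat_lit 3206)))
 (.l (.k2_8 (nat_lit 7) (nat_lit 4666) (nat_lit 4664) (nat_lit 4668) (nat_lit 4660) (nat_lit 4684) (nat_lit 4720) (nat_lit 4504) (nat_lit 5152) (nat_lit 3208) (nat_lit 2480))))))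
 (.n (nat_lit 4682)
 (.n (nat_lit 4676)
 (.n (nat_lit 4668)
 (.l (.k2_6 (nat_lit 6) (nat_lit 4668) (nat_lit 4666) (nat_lit 4686) (nat_lit 4722) (nat_lit 4506) (nat_lit 5154) (nat_lit 3210) (nat_lit 2482)))
 (.l (.k0_7 (nat_lit 6) (nat_lit 4676) (nat_lit 4678) (nat_lit 4682) (nat_lit 4658) (nat_lit 4730) (nat_lit 4514) (nat_lit 5162) (nat_lit 3218))))
 (.n (nat_lit 4678)
 (.l (.k2_7 (nat_lit 4) (nat_lit 4678) (nat_lit 4676) (nat_lit 4684) (nat_lit 4660) (nat_lit 4732) (nat_lit 4516) (nat_lit 5164) (nat_lit 3220) (nat_lit 2492)))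
 (.l (.k0_7 (nat_lit 6) (nat_lit 4682) (nat_lit 4684) (nat_lit 4676) (nat_lit 4664) (nat_lit 4736) (nat_lit 4520) (nat_lit 5168) (nat_lit 3224)))))
 (.n (nat_lit 4686)
 (.n (nat_lit 4684)
 (.l (.k2_9 (nat_lit 6) (nat_lit 4684) (nat_lit 4682) (nat_lit 4686) (nat_lit 4678) (nat_lit 4690) (nat_lit 4666) (nat_lit 4738) (nat_lit 4522) (nat_lit 5170) (nat_lit 3226) (nat_lit 2498)))
 (.l (.k2_7 (nat_lit 4) (nat_lit 4686) (nat_lit 4684) (nat_lit 4692) (nat_lit 4668) (nat_lit 4740) (nat_lit 4524) (nat_lit 5172) (nat_lit 3228) (nat_lit 2500))))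
 (.n (nat_lit 4690)
 (.l (.k2_6 (nat_lit 6) (nat_lit 4690) (nat_lit 4692) (nat_lit 4684) (nat_lit 4744) (nat_lit 4528) (nat_lit 5176) (nat_lit 3232) (nat_lit 2504)))
 (.n (nat_lit 4692)
 (.l (.k2_6 (nat_lit 6) (nat_lit 4692) (nat_lit 4690) (nat_lit 4686) (nat_lit 4746) (nat_lit 4530) (nat_lit 5178) (nat_lit 3234) (nat_lit 2506)))
 (.l (.k0_6 (nat_lit 9) (nat_lit 4706) (nat_lit 4712) (nat_lit 4652) (nat_lit 4544) (nat_lit 4868) (nat_lit 5192) (nat_lit 3248))))))))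
 (.n (nat_lit 4738)
 (.n (nat_lit 4720)
 (.n (nat_lit 4714)
 (.n (nat_lit 4712)
 (.l (.k0_9 (nat_lit 8) (nat_lit 4712) (nat_lit 4714) (nat_lit 4706) (nat_lit 4718) (nat_lit 4730) (nat_lit 4658) (nat_lit 4550) (nat_lit 4874) (nat_lit 5198) (nat_lit 3254)))
 (.l (.k2_8 (nat_lit 7) (nat_lit 4714) (nat_lit 4712) (nat_lit 4720) (nat_lit 4732) (nat_lit 4660) (nat_lit 4552) (nat_lit 4876) (nat_lit 5200) (nat_lit 3256) (nat_lit 2528))))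
 (.n (nat_lit 4718)
 (.l (.k0_8 (nat_lit 5) (nat_lit 4718) (nat_lit 4720) (nat_lit 4712) (nat_lit 4736) (nat_lit 4664) (nat_lit 4556) (nat_lit 4880) (nat_lit 5204) (nat_lit 3260)))
 (.l (.k2_9 (nat_lit 6) (nat_lit 4720) (nat_lit 4718) (nat_lit 4722) (nat_lit 4714) (nat_lit 4738) (nat_lit 4666) (nat_lit 4558) (nat_lit 4882) (nat_lit 5206) (nat_lit 3262) (nat_lit 2534)))))
 (.n (nat_lit 4730)
 (.n (nat_lit 4722)
 (.l (.k2_7 (nat_lit 5) (nat_lit 4722) (nat_lit 4720) (nat_lit 4740) (nat_lit 4668) (nat_lit 4560) (nat_lit 4884) (nat_lit 5208) (nat_lit 3264) (nat_lit 2536)))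
 (.l (.k0_9 (nat_lit 8) (nat_lit 4730) (nat_lit 4732) (nat_lit 4736) (nat_lit 4712) (nat_lit 4676) (nat_lit 4784) (nat_lit 4568) (nat_lit 4892) (nat_lit 5216) (nat_lit 3272))))
 (.n (nat_lit 4732)
 (.l (.k2_9 (nat_lit 6) (nat_lit 4732) (nat_lit 4730) (nat_lit 4738) (nat_lit 4714) (nat_lit 4678) (nat_lit 4786) (nat_lit 4570) (nat_lit 4894) (nat_lit 5218) (nat_lit 3274) (nat_lit 2546)))
 (.n (nat_lit 4736)
 (.l (.k0_10 (nat_lit 7) (nat_lit 4736) (nat_lit 4738) (nat_lit 4730) (nat_lit 4718) (nat_lit 4754) (nat_lit 4682) (nat_lit 4790) (nat_lit 4574) (nat_lit 4898) (nat_lit 5222) (nat_lit 3278)))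
 (.l (.k2_12 (nat_lit 7) (nat_lit 4738) (nat_lit 4736) (nat_lit 4740) (nat_lit 4732) (nat_lit 4744) (nat_lit 4720) (nat_lit 4756) (nat_lit 4684) (nat_lit 4792) (nat_lit 4576) (nat_lit 4900) (nat_lit 5224) (nat_lit 3280) (nat_lit 2552)))))))
 (.n (nat_lit 4754)
 (.n (nat_lit 4744)
 (.n (nat_lit 4740)
 (.l (.k2_10 (nat_lit 5) (nat_lit 4740) (nat_lit 4738) (nat_lit 4746) (nat_lit 4722) (nat_lit 4758) (nat_lit 4686) (nat_lit 4794) (nat_lit 4578) (nat_lit 4902) (nat_lit 5226) (nat_lit 3282) (nat_lit 2554)))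
 (.l (.k2_9 (nat_lit 6) (nat_lit 4744) (nat_lit 4746) (nat_lit 4738) (nat_lit 4762) (nat_lit 4690) (nat_lit 4798) (nat_lit 4582) (nat_lit 4906) (nat_lit 5230) (nat_lit 3286) (nat_lit 2558))))
 (.n (nat_lit 4746)
 (.l (.k2_9 (nat_lit 6) (nat_lit 4746) (nat_lit 4744) (nat_lit 4740) (nat_lit 4764) (nat_lit 4692) (nat_lit 4800) (nat_lit 4584) (nat_lit 4908) (nat_lit 5232) (nat_lit 3288) (nat_lit 2560)))
 (.l (.k0_7 (nat_lit 7) (nat_lit 4754) (nat_lit 4756) (nat_lit 4736) (nat_lit 4808) (nat_lit 4592) (nat_lit 4916) (nat_lit 5240) (nat_lit 3296)))))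
 (.n (nat_lit 4758)
 (.n (nat_lit 4756)
 (.l (.k2_9 (nat_lit 6) (nat_lit 4756) (nat_lit 4754) (nat_lit 4758) (nat_lit 4762) (nat_lit 4738) (nat_lit 4810) (nat_lit 4594) (nat_lit 4918) (nat_lit 5242) (nat_lit 3298) (nat_lit 2570)))
 (.l (.k2_8 (nat_lit 3) (nat_lit 4758) (nat_lit 4756) (nat_lit 4764) (nat_lit 4740) (nat_lit 4812) (nat_lit 4596) (nat_lit 4920) (nat_lit 5244) (nat_lit 3300) (nat_lit 2572))))
 (.n (nat_lit 4762)
 (.l (.k2_8 (nat_lit 7) (nat_lit 4762) (nat_lit 4764) (nat_lit 4756) (nat_lit 4744) (nat_lit 4816) (nat_lit 4600) (nat_lit 4924) (nat_lit 5248) (nat_lit 3304) (nat_lit 2576)))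
 (.n (nat_lit 4764)
 (.l (.k2_9 (nat_lit 6) (nat_lit 4764) (nat_lit 4762) (nat_lit 4758) (nat_lit 4770) (nat_lit 4746) (nat_lit 4818) (nat_lit 4602) (nat_lit 4926) (nat_lit 5250) (nat_lit 3306) (nat_lit 2578)))
 (.l (.k2_6 (nat_lit 7) (nat_lit 4770) (nat_lit 4764) (nat_lit 4824) (nat_lit 4608) (nat_lit 4932) (nat_lit 5256) (nat_lit 3312) (nat_lit 2584))))))))))))
 (.n (nat_lit 5448)
 (.n (nat_lit 5152)
 (.n (nat_lit 4926)
 (.n (nat_lit 4868)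
 (.n (nat_lit 4808)
 (.n (nat_lit 4792)
 (.n (nat_lit 4786)
 (.n (nat_lit 4784)
 (.l (.k0_6 (nat_lit 8) (nat_lit 4784) (nat_lit 4786) (nat_lit 4790) (nat_lit 4730) (nat_lit 4946) (nat_lit 5270) (nat_lit 3326)))
 (.l (.k2_6 (nat_lit 6) (nat_lit 4786) (nat_lit 4784) (nat_lit 4792) (nat_lit 4732) (nat_lit 4948) (nat_lit 5272) (nat_lit 3328) (nat_lit 2600))))
 (.n (nat_lit 4790)
 (.l (.k0_7 (nat_lit 6) (nat_lit 4790) (nat_lit 4792) (nat_lit 4784) (nat_lit 4808) (nat_lit 4736) (nat_lit 4952) (nat_lit 5276) (nat_lit 3332)))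
 (.l (.k2_9 (nat_lit 6) (nat_lit 4792) (nat_lit 4790) (nat_lit 4794) (nat_lit 4786) (nat_lit 4798) (nat_lit 4810) (nat_lit 4738) (nat_lit 4954) (nat_lit 5278) (nat_lit 3334) (nat_lit 2606)))))
 (.n (nat_lit 4798)
 (.n (nat_lit 4794)
 (.l (.k2_7 (nat_lit 4) (nat_lit 4794) (nat_lit 4792) (nat_lit 4800) (nat_lit 4812) (nat_lit 4740) (nat_lit 4956) (nat_lit 5280) (nat_lit 3336) (nat_lit 2608)))
 (.l (.k2_7 (nat_lit 4) (nat_lit 4798) (nat_lit 4800) (nat_lit 4792) (nat_lit 4816) (nat_lit 4744) (nat_lit 4960) (nat_lit 5284) (nat_lit 3340) (nat_lit 2612))))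
 (.n (nat_lit 4800)
 (.l (.k2_7 (nat_lit 4) (nat_lit 4800) (nat_lit 4798) (nat_lit 4794) (nat_lit 4818) (nat_lit 4746) (nat_lit 4962) (nat_lit 5286) (nat_lit 3342) (nat_lit 2614)))
 (.l (.k0_6 (nat_lit 8) (nat_lit 4808) (nat_lit 4810) (nat_lit 4790) (nat_lit 4754) (nat_lit 4970) (nat_lit 5294) (nat_lit 3350))))))
 (.n (nat_lit 4818)
 (.n (nat_lit 4812)
 (.n (nat_lit 4810)
 (.l (.k2_8 (nat_lit 7) (nat_lit 4810) (nat_lit 4808) (nat_lit 4812) (nat_lit 4816) (nat_lit 4792) (nat_lit 4756) (nat_lit 4972) (nat_lit 5296) (nat_lit 3352) (nat_lit 2624)))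
 (.l (.k2_7 (nat_lit 4) (nat_lit 4812) (nat_lit 4810) (nat_lit 4818) (nat_lit 4794) (nat_lit 4758) (nat_lit 4974) (nat_lit 5298) (nat_lit 3354) (nat_lit 2626))))
 (.n (nat_lit 4816)
 (.l (.k2_8 (nat_lit 7) (nat_lit 4816) (nat_lit 4818) (nat_lit 4810) (nat_lit 4798) (nat_lit 4834) (nat_lit 4762) (nat_lit 4978) (nat_lit 5302) (nat_lit 3358) (nat_lit 2630)))
 (.l (.k2_9 (nat_lit 6) (nat_lit 4818) (nat_lit 4816) (nat_lit 4812) (nat_lit 4824) (nat_lit 4800) (nat_lit 4836) (nat_lit 4764) (nat_lit 4980) (nat_lit 5304) (nat_lit 3360) (nat_lit 2632)))))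
 (.n (nat_lit 4834)
 (.n (nat_lit 4824)
 (.l (.k2_6 (nat_lit 6) (nat_lit 4824) (nat_lit 4818) (nat_lit 4842) (nat_lit 4770) (nat_lit 4986) (nat_lit 5310) (nat_lit 3366) (nat_lit 2638)))
 (.l (.k2_5 (nat_lit 8) (nat_lit 4834) (nat_lit 4836) (nat_lit 4816) (nat_lit 4996) (nat_lit 5320) (nat_lit 3376) (nat_lit 2648))))
 (.n (nat_lit 4836)
 (.l (.k2_6 (nat_lit 6) (nat_lit 4836) (nat_lit 4834) (nat_lit 4842) (nat_lit 4818) (nat_lit 4998) (nat_lit 5322) (nat_lit 3378) (nat_lit 2650)))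
 (.n (nat_lit 4842)
 (.l (.k2_5 (nat_lit 8) (nat_lit 4842) (nat_lit 4836) (nat_lit 4824) (nat_lit 5004) (nat_lit 5328) (nat_lit 3384) (nat_lit 2656)))
 (.l (.k0_4 (nat_lit 8) (nat_lit 4868) (nat_lit 4874) (nat_lit 4706) (nat_lit 5354) (nat_lit 3410))))))))
 (.n (nat_lit 4898)
 (.n (nat_lit 4882)
 (.n (nat_lit 4876)
 (.n (nat_lit 4874)
 (.l (.k0_7 (nat_lit 7) (nat_lit 4874) (nat_lit 4876) (nat_lit 4868) (nat_lit 4880) (nat_lit 4892) (nat_lit 4712) (nat_lit 5360) (nat_lit 3416)))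
 (.l (.k2_6 (nat_lit 6) (nat_lit 4876) (nat_lit 4874) (nat_lit 4882) (nat_lit 4894) (nat_lit 4714) (nat_lit 5362) (nat_lit 3418) (nat_lit 2690))))
 (.n (nat_lit 4880)
 (.l (.k0_6 (nat_lit 4) (nat_lit 4880) (nat_lit 4882) (nat_lit 4874) (nat_lit 4898) (nat_lit 4718) (nat_lit 5366) (nat_lit 3422)))
 (.l (.k2_7 (nat_lit 5) (nat_lit 4882) (nat_lit 4880) (nat_lit 4884) (nat_lit 4876) (nat_lit 4900) (nat_lit 4720) (nat_lit 5368) (nat_lit 3424) (nat_lit 2696)))))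
 (.n (nat_lit 4892)
 (.n (nat_lit 4884)
 (.l (.k2_5 (nat_lit 4) (nat_lit 4884) (nat_lit 4882) (nat_lit 4902) (nat_lit 4722) (nat_lit 5370) (nat_lit 3426) (nat_lit 2698)))
 (.l (.k0_7 (nat_lit 6) (nat_lit 4892) (nat_lit 4894) (nat_lit 4898) (nat_lit 4874) (nat_lit 4946) (nat_lit 4730) (nat_lit 5378) (nat_lit 3434))))
 (.n (nat_lit 4894)
 (.l (.k2_7 (nat_lit 4) (nat_lit 4894) (nat_lit 4892) (nat_lit 4900) (nat_lit 4876) (nat_lit 4948) (nat_lit 4732) (nat_lit 5380) (nat_lit 3436) (nat_lit 2708)))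
 (.l (.k0_8 (nat_lit 5) (nat_lit 4898) (nat_lit 4900) (nat_lit 4892) (nat_lit 4880) (nat_lit 4916) (nat_lit 4952) (nat_lit 4736) (nat_lit 5384) (nat_lit 3440))))))
 (.n (nat_lit 4908)
 (.n (nat_lit 4902)
 (.n (nat_lit 4900)
 (.l (.k2_10 (nat_lit 5) (nat_lit 4900) (nat_lit 4898) (nat_lit 4902) (nat_lit 4894) (nat_lit 4906) (nat_lit 4882) (nat_lit 4918) (nat_lit 4954) (nat_lit 4738) (nat_lit 5386) (nat_lit 3442) (nat_lit 2714)))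
 (.l (.k2_8 (nat_lit 3) (nat_lit 4902) (nat_lit 4900) (nat_lit 4908) (nat_lit 4884) (nat_lit 4920) (nat_lit 4956) (nat_lit 4740) (nat_lit 5388) (nat_lit 3444) (nat_lit 2716))))
 (.n (nat_lit 4906)
 (.l (.k2_7 (nat_lit 4) (nat_lit 4906) (nat_lit 4908) (nat_lit 4900) (nat_lit 4924) (nat_lit 4960) (nat_lit 4744) (nat_lit 5392) (nat_lit 3448) (nat_lit 2720)))
 (.l (.k2_7 (nat_lit 4) (nat_lit 4908) (nat_lit 4906) (nat_lit 4902) (nat_lit 4926) (nat_lit 4962) (nat_lit 4746) (nat_lit 5394) (nat_lit 3450) (nat_lit 2722)))))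
 (.n (nat_lit 4918)
 (.n (nat_lit 4916)
 (.l (.k0_6 (nat_lit 4) (nat_lit 4916) (nat_lit 4918) (nat_lit 4898) (nat_lit 4970) (nat_lit 4754) (nat_lit 5402) (nat_lit 3458)))
 (.l (.k2_8 (nat_lit 3) (nat_lit 4918) (nat_lit 4916) (nat_lit 4920) (nat_lit 4924) (nat_lit 4900) (nat_lit 4972) (nat_lit 4756) (nat_lit 5404) (nat_lit 3460) (nat_lit 2732))))
 (.n (nat_lit 4920)
 (.l (.k2_7 (nat_lit 0) (nat_lit 4920) (nat_lit 4918) (nat_lit 4926) (nat_lit 4902) (nat_lit 4974) (nat_lit 4758) (nat_lit 5406) (nat_lit 3462) (nat_lit 2734)))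
 (.n (nat_lit 4924)
 (.l (.k2_7 (nat_lit 4) (nat_lit 4924) (nat_lit 4926) (nat_lit 4918) (nat_lit 4906) (nat_lit 4978) (nat_lit 4762) (nat_lit 5410) (nat_lit 3466) (nat_lit 2738)))
 (.l (.k2_8 (nat_lit 3) (nat_lit 4926) (nat_lit 4924) (nat_lit 4920) (nat_lit 4932) (nat_lit 4908) (nat_lit 4980) (nat_lit 4764) (nat_lit 5412) (nat_lit 3468) (nat_lit 2740)))))))))
 (.n (nat_lit 5004)
 (.n (nat_lit 4962)
 (.n (nat_lit 4952)
 (.n (nat_lit 4946)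
 (.n (nat_lit 4932)
 (.l (.k2_5 (nat_lit 4) (nat_lit 4932) (nat_lit 4926) (nat_lit 4986) (nat_lit 4770) (nat_lit 5418) (nat_lit 3474) (nat_lit 2746)))
 (.l (.k0_6 (nat_lit 8) (nat_lit 4946) (nat_lit 4948) (nat_lit 4952) (nat_lit 4892) (nat_lit 4784) (nat_lit 5432) (nat_lit 3488))))
 (.n (nat_lit 4948)
 (.l (.k2_6 (nat_lit 6) (nat_lit 4948) (nat_lit 4946) (nat_lit 4954) (nat_lit 4894) (nat_lit 4786) (nat_lit 5434) (nat_lit 3490) (nat_lit 2762)))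
 (.l (.k0_7 (nat_lit 6) (nat_lit 4952) (nat_lit 4954) (nat_lit 4946) (nat_lit 4970) (nat_lit 4898) (nat_lit 4790) (nat_lit 5438) (nat_lit 3494)))))
 (.n (nat_lit 4956)
 (.n (nat_lit 4954)
 (.l (.k2_9 (nat_lit 6) (nat_lit 4954) (nat_lit 4952) (nat_lit 4956) (nat_lit 4948) (nat_lit 4960) (nat_lit 4972) (nat_lit 4900) (nat_lit 4792) (nat_lit 5440) (nat_lit 3496) (nat_lit 2768)))
 (.l (.k2_7 (nat_lit 4) (nat_lit 4956) (nat_lit 4954) (nat_lit 4962) (nat_lit 4974) (nat_lit 4902) (nat_lit 4794) (nat_lit 5442) (nat_lit 3498) (nat_lit 2770))))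
 (.n (nat_lit 4960)
 (.l (.k2_7 (nat_lit 4) (nat_lit 4960) (nat_lit 4962) (nat_lit 4954) (nat_lit 4978) (nat_lit 4906) (nat_lit 4798) (nat_lit 5446) (nat_lit 3502) (nat_lit 2774)))
 (.l (.k2_7 (nat_lit 4) (nat_lit 4962) (nat_lit 4960) (nat_lit 4956) (nat_lit 4980) (nat_lit 4908) (nat_lit 4800) (nat_lit 5448) (nat_lit 3504) (nat_lit 2776))))))
 (.n (nat_lit 4978)
 (.n (nat_lit 4972)
 (.n (nat_lit 4970)
 (.l (.k0_7 (nat_lit 7) (nat_lit 4970) (nat_lit 4972) (nat_lit 4952) (nat_lit 4916) (nat_lit 5024) (nat_lit 4808) (nat_lit 5456) (nat_lit 3512)))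
 (.l (.k2_9 (nat_lit 6) (nat_lit 4972) (nat_lit 4970) (nat_lit 4974) (nat_lit 4978) (nat_lit 4954) (nat_lit 4918) (nat_lit 5026) (nat_lit 4810) (nat_lit 5458) (nat_lit 3514) (nat_lit 2786))))
 (.n (nat_lit 4974)
 (.l (.k2_8 (nat_lit 3) (nat_lit 4974) (nat_lit 4972) (nat_lit 4980) (nat_lit 4956) (nat_lit 4920) (nat_lit 5028) (nat_lit 4812) (nat_lit 5460) (nat_lit 3516) (nat_lit 2788)))
 (.l (.k2_9 (nat_lit 6) (nat_lit 4978) (nat_lit 4980) (nat_lit 4972) (nat_lit 4960) (nat_lit 4996) (nat_lit 4924) (nat_lit 5032) (nat_lit 4816) (nat_lit 5464) (nat_lit 3520) (nat_lit 2792)))))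
 (.n (nat_lit 4986)
 (.n (nat_lit 4980)
 (.l (.k2_10 (nat_lit 5) (nat_lit 4980) (nat_lit 4978) (nat_lit 4974) (nat_lit 4986) (nat_lit 4962) (nat_lit 4998) (nat_lit 4926) (nat_lit 5034) (nat_lit 4818) (nat_lit 5466) (nat_lit 3522) (nat_lit 2794)))
 (.l (.k2_7 (nat_lit 5) (nat_lit 4986) (nat_lit 4980) (nat_lit 5004) (nat_lit 4932) (nat_lit 5040) (nat_lit 4824) (nat_lit 5472) (nat_lit 3528) (nat_lit 2800))))
 (.n (nat_lit 4996)
 (.l (.k2_6 (nat_lit 6) (nat_lit 4996) (nat_lit 4998) (nat_lit 4978) (nat_lit 5050) (nat_lit 4834) (nat_lit 5482) (nat_lit 3538) (nat_lit 2810)))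
 (.n (nat_lit 4998)
 (.l (.k2_7 (nat_lit 4) (nat_lit 4998) (nat_lit 4996) (nat_lit 5004) (nat_lit 4980) (nat_lit 5052) (nat_lit 4836) (nat_lit 5484) (nat_lit 3540) (nat_lit 2812)))
 (.l (.k2_6 (nat_lit 6) (nat_lit 5004) (nat_lit 4998) (nat_lit 4986) (nat_lit 5058) (nat_lit 4842) (nat_lit 5490) (nat_lit 3546) (nat_lit 2818))))))))
 (.n (nat_lit 5058)
 (.n (nat_lit 5032)
 (.n (nat_lit 5026)
 (.n (nat_lit 5024)
 (.l (.k0_4 (nat_lit 8) (nat_lit 5024) (nat_lit 5026) (nat_lit 4970) (nat_lit 5510) (nat_lit 3566)))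
 (.l (.k2_6 (nat_lit 7) (nat_lit 5026) (nat_lit 5024) (nat_lit 5028) (nat_lit 5032) (nat_lit 4972) (nat_lit 5512) (nat_lit 3568) (nat_lit 2840))))
 (.n (nat_lit 5028)
 (.l (.k2_5 (nat_lit 4) (nat_lit 5028) (nat_lit 5026) (nat_lit 5034) (nat_lit 4974) (nat_lit 5514) (nat_lit 3570) (nat_lit 2842)))
 (.l (.k2_6 (nat_lit 6) (nat_lit 5032) (nat_lit 5034) (nat_lit 5026) (nat_lit 5050) (nat_lit 4978) (nat_lit 5518) (nat_lit 3574) (nat_lit 2846)))))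
 (.n (nat_lit 5040)
 (.n (nat_lit 5034)
 (.l (.k2_7 (nat_lit 5) (nat_lit 5034) (nat_lit 5032) (nat_lit 5028) (nat_lit 5040) (nat_lit 5052) (nat_lit 4980) (nat_lit 5520) (nat_lit 3576) (nat_lit 2848)))
 (.l (.k2_5 (nat_lit 4) (nat_lit 5040) (nat_lit 5034) (nat_lit 5058) (nat_lit 4986) (nat_lit 5526) (nat_lit 3582) (nat_lit 2854))))
 (.n (nat_lit 5050)
 (.l (.k2_5 (nat_lit 8) (nat_lit 5050) (nat_lit 5052) (nat_lit 5032) (nat_lit 4996) (nat_lit 5536) (nat_lit 3592) (nat_lit 2864)))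
 (.n (nat_lit 5052)
 (.l (.k2_6 (nat_lit 6) (nat_lit 5052) (nat_lit 5050) (nat_lit 5058) (nat_lit 5034) (nat_lit 4998) (nat_lit 5538) (nat_lit 3594) (nat_lit 2866)))
 (.l (.k2_6 (nat_lit 7) (nat_lit 5058) (nat_lit 5052) (nat_lit 5040) (nat_lit 5076) (nat_lit 5004) (nat_lit 5544) (nat_lit 3600) (nat_lit 2872)))))))
 (.n (nat_lit 5128)
 (.n (nat_lit 5120)
 (.n (nat_lit 5076)
 (.l (.k2_3 (nat_lit 8) (nat_lit 5076) (nat_lit 5058) (nat_lit 5562) (nat_lit 3618) (nat_lit 2890)))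
 (.l (.k0_4 (nat_lit 12) (nat_lit 5120) (nat_lit 5126) (nat_lit 5138) (nat_lit 4634) (nat_lit 3662))))
 (.n (nat_lit 5126)
 (.l (.k0_5 (nat_lit 10) (nat_lit 5126) (nat_lit 5128) (nat_lit 5120) (nat_lit 5144) (nat_lit 4640) (nat_lit 3668)))
 (.l (.k2_4 (nat_lit 10) (nat_lit 5128) (nat_lit 5126) (nat_lit 5146) (nat_lit 4642) (nat_lit 3670) (nat_lit 2942)))))
 (.n (nat_lit 5144)
 (.n (nat_lit 5138)
 (.l (.k0_5 (nat_lit 10) (nat_lit 5138) (nat_lit 5144) (nat_lit 5120) (nat_lit 5192) (nat_lit 4652) (nat_lit 3680)))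
 (.l (.k0_8 (nat_lit 10) (nat_lit 5144) (nat_lit 5146) (nat_lit 5138) (nat_lit 5150) (nat_lit 5126) (nat_lit 5162) (nat_lit 5198) (nat_lit 4658) (nat_lit 3686))))
 (.n (nat_lit 5146)
 (.l (.k2_7 (nat_lit 9) (nat_lit 5146) (nat_lit 5144) (nat_lit 5152) (nat_lit 5128) (nat_lit 5164) (nat_lit 5200) (nat_lit 4660) (nat_lit 3688) (nat_lit 2960)))
 (.n (nat_lit 5150)
 (.l (.k0_6 (nat_lit 8) (nat_lit 5150) (nat_lit 5152) (nat_lit 5144) (nat_lit 5168) (nat_lit 5204) (nat_lit 4664) (nat_lit 3692)))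
 (.l (.k2_7 (nat_lit 9) (nat_lit 5152) (nat_lit 5150) (nat_lit 5154) (nat_lit 5146) (nat_lit 5170) (nat_lit 5206) (nat_lit 4666) (nat_lit 3694) (nat_lit 2966))))))))))
 (.n (nat_lit 5286)
 (.n (nat_lit 5222)
 (.n (nat_lit 5178)
 (.n (nat_lit 5168)
 (.n (nat_lit 5162)
 (.n (nat_lit 5154)
 (.l (.k2_5 (nat_lit 8) (nat_lit 5154) (nat_lit 5152) (nat_lit 5172) (nat_lit 5208) (nat_lit 4668) (nat_lit 3696) (nat_lit 2968)))
 (.l (.k0_6 (nat_lit 8) (nat_lit 5162) (nat_lit 5164) (nat_lit 5168) (nat_lit 5144) (nat_lit 5216) (nat_lit 4676) (nat_lit 3704))))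
 (.n (nat_lit 5164)
 (.l (.k2_6 (nat_lit 6) (nat_lit 5164) (nat_lit 5162) (nat_lit 5170) (nat_lit 5146) (nat_lit 5218) (nat_lit 4678) (nat_lit 3706) (nat_lit 2978)))
 (.l (.k0_6 (nat_lit 8) (nat_lit 5168) (nat_lit 5170) (nat_lit 5162) (nat_lit 5150) (nat_lit 5222) (nat_lit 4682) (nat_lit 3710)))))
 (.n (nat_lit 5172)
 (.n (nat_lit 5170)
 (.l (.k2_8 (nat_lit 8) (nat_lit 5170) (nat_lit 5168) (nat_lit 5172) (nat_lit 5164) (nat_lit 5176) (nat_lit 5152) (nat_lit 5224) (nat_lit 4684) (nat_lit 3712) (nat_lit 2984)))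
 (.l (.k2_6 (nat_lit 6) (nat_lit 5172) (nat_lit 5170) (nat_lit 5178) (nat_lit 5154) (nat_lit 5226) (nat_lit 4686) (nat_lit 3714) (nat_lit 2986))))
 (.n (nat_lit 5176)
 (.l (.k2_5 (nat_lit 8) (nat_lit 5176) (nat_lit 5178) (nat_lit 5170) (nat_lit 5230) (nat_lit 4690) (nat_lit 3718) (nat_lit 2990)))
 (.l (.k2_5 (nat_lit 8) (nat_lit 5178) (nat_lit 5176) (nat_lit 5172) (nat_lit 5232) (nat_lit 4692) (nat_lit 3720) (nat_lit 2992))))))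
 (.n (nat_lit 5204)
 (.n (nat_lit 5198)
 (.n (nat_lit 5192)
 (.l (.k0_5 (nat_lit 10) (nat_lit 5192) (nat_lit 5198) (nat_lit 5138) (nat_lit 5354) (nat_lit 4706) (nat_lit 3734)))
 (.l (.k0_8 (nat_lit 9) (nat_lit 5198) (nat_lit 5200) (nat_lit 5192) (nat_lit 5204) (nat_lit 5216) (nat_lit 5144) (nat_lit 5360) (nat_lit 4712) (nat_lit 3740))))
 (.n (nat_lit 5200)
 (.l (.k2_7 (nat_lit 8) (nat_lit 5200) (nat_lit 5198) (nat_lit 5206) (nat_lit 5218) (nat_lit 5146) (nat_lit 5362) (nat_lit 4714) (nat_lit 3742) (nat_lit 3014)))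
 (.l (.k0_7 (nat_lit 6) (nat_lit 5204) (nat_lit 5206) (nat_lit 5198) (nat_lit 5222) (nat_lit 5150) (nat_lit 5366) (nat_lit 4718) (nat_lit 3746)))))
 (.n (nat_lit 5208)
 (.n (nat_lit 5206)
 (.l (.k2_8 (nat_lit 7) (nat_lit 5206) (nat_lit 5204) (nat_lit 5208) (nat_lit 5200) (nat_lit 5224) (nat_lit 5152) (nat_lit 5368) (nat_lit 4720) (nat_lit 3748) (nat_lit 3020)))
 (.l (.k2_6 (nat_lit 6) (nat_lit 5208) (nat_lit 5206) (nat_lit 5226) (nat_lit 5154) (nat_lit 5370) (nat_lit 4722) (nat_lit 3750) (nat_lit 3022))))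
 (.n (nat_lit 5216)
 (.l (.k0_8 (nat_lit 9) (nat_lit 5216) (nat_lit 5218) (nat_lit 5222) (nat_lit 5198) (nat_lit 5162) (nat_lit 5270) (nat_lit 5378) (nat_lit 4730) (nat_lit 3758)))
 (.n (nat_lit 5218)
 (.l (.k2_8 (nat_lit 7) (nat_lit 5218) (nat_lit 5216) (nat_lit 5224) (nat_lit 5200) (nat_lit 5164) (nat_lit 5272) (nat_lit 5380) (nat_lit 4732) (nat_lit 3760) (nat_lit 3032)))
 (.l (.k0_9 (nat_lit 8) (nat_lit 5222) (nat_lit 5224) (nat_lit 5216) (nat_lit 5204) (nat_lit 5240) (nat_lit 5168) (nat_lit 5276) (nat_lit 5384) (nat_lit 4736) (nat_lit 3764))))))))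
 (.n (nat_lit 5248)
 (.n (nat_lit 5232)
 (.n (nat_lit 5226)
 (.n (nat_lit 5224)
 (.l (.k2_11 (nat_lit 8) (nat_lit 5224) (nat_lit 5222) (nat_lit 5226) (nat_lit 5218) (nat_lit 5230) (nat_lit 5206) (nat_lit 5242) (nat_lit 5170) (nat_lit 5278) (nat_lit 5386) (nat_lit 4738) (nat_lit 3766) (nat_lit 3038)))
 (.l (.k2_9 (nat_lit 6) (nat_lit 5226) (nat_lit 5224) (nat_lit 5232) (nat_lit 5208) (nat_lit 5244) (nat_lit 5172) (nat_lit 5280) (nat_lit 5388) (nat_lit 4740) (nat_lit 3768) (nat_lit 3040))))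
 (.n (nat_lit 5230)
 (.l (.k2_8 (nat_lit 7) (nat_lit 5230) (nat_lit 5232) (nat_lit 5224) (nat_lit 5248) (nat_lit 5176) (nat_lit 5284) (nat_lit 5392) (nat_lit 4744) (nat_lit 3772) (nat_lit 3044)))
 (.l (.k2_8 (nat_lit 7) (nat_lit 5232) (nat_lit 5230) (nat_lit 5226) (nat_lit 5250) (nat_lit 5178) (nat_lit 5286) (nat_lit 5394) (nat_lit 4746) (nat_lit 3774) (nat_lit 3046)))))
 (.n (nat_lit 5242)
 (.n (nat_lit 5240)
 (.l (.k0_6 (nat_lit 8) (nat_lit 5240) (nat_lit 5242) (nat_lit 5222) (nat_lit 5294) (nat_lit 5402) (nat_lit 4754) (nat_lit 3782)))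
 (.l (.k2_8 (nat_lit 7) (nat_lit 5242) (nat_lit 5240) (nat_lit 5244) (nat_lit 5248) (nat_lit 5224) (nat_lit 5296) (nat_lit 5404) (nat_lit 4756) (nat_lit 3784) (nat_lit 3056))))
 (.n (nat_lit 5244)
 (.l (.k2_7 (nat_lit 4) (nat_lit 5244) (nat_lit 5242) (nat_lit 5250) (nat_lit 5226) (nat_lit 5298) (nat_lit 5406) (nat_lit 4758) (nat_lit 3786) (nat_lit 3058)))
 (.l (.k2_7 (nat_lit 8) (nat_lit 5248) (nat_lit 5250) (nat_lit 5242) (nat_lit 5230) (nat_lit 5302) (nat_lit 5410) (nat_lit 4762) (nat_lit 3790) (nat_lit 3062))))))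
 (.n (nat_lit 5272)
 (.n (nat_lit 5256)
 (.n (nat_lit 5250)
 (.l (.k2_8 (nat_lit 7) (nat_lit 5250) (nat_lit 5248) (nat_lit 5244) (nat_lit 5256) (nat_lit 5232) (nat_lit 5304) (nat_lit 5412) (nat_lit 4764) (nat_lit 3792) (nat_lit 3064)))
 (.l (.k2_5 (nat_lit 8) (nat_lit 5256) (nat_lit 5250) (nat_lit 5310) (nat_lit 5418) (nat_lit 4770) (nat_lit 3798) (nat_lit 3070))))
 (.n (nat_lit 5270)
 (.l (.k0_6 (nat_lit 8) (nat_lit 5270) (nat_lit 5272) (nat_lit 5276) (nat_lit 5216) (nat_lit 5432) (nat_lit 4784) (nat_lit 3812)))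
 (.l (.k2_6 (nat_lit 6) (nat_lit 5272) (nat_lit 5270) (nat_lit 5278) (nat_lit 5218) (nat_lit 5434) (nat_lit 4786) (nat_lit 3814) (nat_lit 3086)))))
 (.n (nat_lit 5278)
 (.n (nat_lit 5276)
 (.l (.k0_7 (nat_lit 6) (nat_lit 5276) (nat_lit 5278) (nat_lit 5270) (nat_lit 5294) (nat_lit 5222) (nat_lit 5438) (nat_lit 4790) (nat_lit 3818)))
 (.l (.k2_9 (nat_lit 6) (nat_lit 5278) (nat_lit 5276) (nat_lit 5280) (nat_lit 5272) (nat_lit 5284) (nat_lit 5296) (nat_lit 5224) (nat_lit 5440) (nat_lit 4792) (nat_lit 3820) (nat_lit 3092))))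
 (.n (nat_lit 5280)
 (.l (.k2_7 (nat_lit 4) (nat_lit 5280) (nat_lit 5278) (nat_lit 5286) (nat_lit 5298) (nat_lit 5226) (nat_lit 5442) (nat_lit 4794) (nat_lit 3822) (nat_lit 3094)))
 (.n (nat_lit 5284)
 (.l (.k2_7 (nat_lit 4) (nat_lit 5284) (nat_lit 5286) (nat_lit 5278) (nat_lit 5302) (nat_lit 5230) (nat_lit 5446) (nat_lit 4798) (nat_lit 3826) (nat_lit 3098)))
 (.l (.k2_7 (nat_lit 4) (nat_lit 5286) (nat_lit 5284) (nat_lit 5280) (nat_lit 5304) (nat_lit 5232) (nat_lit 5448) (nat_lit 4800) (nat_lit 3828) (nat_lit 3100)))))))))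
 (.n (nat_lit 5380)
 (.n (nat_lit 5322)
 (.n (nat_lit 5302)
 (.n (nat_lit 5296)
 (.n (nat_lit 5294)
 (.l (.k0_6 (nat_lit 8) (nat_lit 5294) (nat_lit 5296) (nat_lit 5276) (nat_lit 5240) (nat_lit 5456) (nat_lit 4808) (nat_lit 3836)))
 (.l (.k2_8 (nat_lit 7) (nat_lit 5296) (nat_lit 5294) (nat_lit 5298) (nat_lit 5302) (nat_lit 5278) (nat_lit 5242) (nat_lit 5458) (nat_lit 4810) (nat_lit 3838) (nat_lit 3110))))
 (.n (nat_lit 5298)
 (.l (.k2_7 (nat_lit 4) (nat_lit 5298) (nat_lit 5296) (nat_lit 5304) (nat_lit 5280) (nat_lit 5244) (nat_lit 5460) (nat_lit 4812) (nat_lit 3840) (nat_lit 3112)))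
 (.l (.k2_8 (nat_lit 7) (nat_lit 5302) (nat_lit 5304) (nat_lit 5296) (nat_lit 5284) (nat_lit 5320) (nat_lit 5248) (nat_lit 5464) (nat_lit 4816) (nat_lit 3844) (nat_lit 3116)))))
 (.n (nat_lit 5310)
 (.n (nat_lit 5304)
 (.l (.k2_9 (nat_lit 6) (nat_lit 5304) (nat_lit 5302) (nat_lit 5298) (nat_lit 5310) (nat_lit 5286) (nat_lit 5322) (nat_lit 5250) (nat_lit 5466) (nat_lit 4818) (nat_lit 3846) (nat_lit 3118)))
 (.l (.k2_6 (nat_lit 6) (nat_lit 5310) (nat_lit 5304) (nat_lit 5328) (nat_lit 5256) (nat_lit 5472) (nat_lit 4824) (nat_lit 3852) (nat_lit 3124))))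
 (.n (nat_lit 5320)
 (.l (.k2_5 (nat_lit 8) (nat_lit 5320) (nat_lit 5322) (nat_lit 5302) (nat_lit 5482) (nat_lit 4834) (nat_lit 3862) (nat_lit 3134)))
 (.l (.k2_6 (nat_lit 6) (nat_lit 5322) (nat_lit 5320) (nat_lit 5328) (nat_lit 5304) (nat_lit 5484) (nat_lit 4836) (nat_lit 3864) (nat_lit 3136))))))
 (.n (nat_lit 5362)
 (.n (nat_lit 5354)
 (.n (nat_lit 5328)
 (.l (.k2_5 (nat_lit 8) (nat_lit 5328) (nat_lit 5322) (nat_lit 5310) (nat_lit 5490) (nat_lit 4842) (nat_lit 3870) (nat_lit 3142)))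
 (.l (.k0_5 (nat_lit 11) (nat_lit 5354) (nat_lit 5360) (nat_lit 5192) (nat_lit 4868) (nat_lit 5840) (nat_lit 3896))))
 (.n (nat_lit 5360)
 (.l (.k0_8 (nat_lit 10) (nat_lit 5360) (nat_lit 5362) (nat_lit 5354) (nat_lit 5366) (nat_lit 5378) (nat_lit 5198) (nat_lit 4874) (nat_lit 5846) (nat_lit 3902)))
 (.l (.k2_7 (nat_lit 9) (nat_lit 5362) (nat_lit 5360) (nat_lit 5368) (nat_lit 5380) (nat_lit 5200) (nat_lit 4876) (nat_lit 5848) (nat_lit 3904) (nat_lit 3176)))))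
 (.n (nat_lit 5368)
 (.n (nat_lit 5366)
 (.l (.k0_7 (nat_lit 7) (nat_lit 5366) (nat_lit 5368) (nat_lit 5360) (nat_lit 5384) (nat_lit 5204) (nat_lit 4880) (nat_lit 5852) (nat_lit 3908)))
 (.l (.k2_8 (nat_lit 8) (nat_lit 5368) (nat_lit 5366) (nat_lit 5370) (nat_lit 5362) (nat_lit 5386) (nat_lit 5206) (nat_lit 4882) (nat_lit 5854) (nat_lit 3910) (nat_lit 3182))))
 (.n (nat_lit 5370)
 (.l (.k2_6 (nat_lit 7) (nat_lit 5370) (nat_lit 5368) (nat_lit 5388) (nat_lit 5208) (nat_lit 4884) (nat_lit 5856) (nat_lit 3912) (nat_lit 3184)))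
 (.n (nat_lit 5378)
 (.l (.k0_8 (nat_lit 9) (nat_lit 5378) (nat_lit 5380) (nat_lit 5384) (nat_lit 5360) (nat_lit 5432) (nat_lit 5216) (nat_lit 4892) (nat_lit 5864) (nat_lit 3920)))
 (.l (.k2_8 (nat_lit 7) (nat_lit 5380) (nat_lit 5378) (nat_lit 5386) (nat_lit 5362) (nat_lit 5434) (nat_lit 5218) (nat_lit 4894) (nat_lit 5866) (nat_lit 3922) (nat_lit 3194))))))))
 (.n (nat_lit 5410)
 (.n (nat_lit 5392)
 (.n (nat_lit 5386)
 (.n (nat_lit 5384)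
 (.l (.k0_9 (nat_lit 8) (nat_lit 5384) (nat_lit 5386) (nat_lit 5378) (nat_lit 5366) (nat_lit 5402) (nat_lit 5438) (nat_lit 5222) (nat_lit 4898) (nat_lit 5870) (nat_lit 3926)))
 (.l (.k2_11 (nat_lit 8) (nat_lit 5386) (nat_lit 5384) (nat_lit 5388) (nat_lit 5380) (nat_lit 5392) (nat_lit 5368) (nat_lit 5404) (nat_lit 5440) (nat_lit 5224) (nat_lit 4900) (nat_lit 5872) (nat_lit 3928) (nat_lit 3200))))
 (.n (nat_lit 5388)
 (.l (.k2_9 (nat_lit 6) (nat_lit 5388) (nat_lit 5386) (nat_lit 5394) (nat_lit 5370) (nat_lit 5406) (nat_lit 5442) (nat_lit 5226) (nat_lit 4902) (nat_lit 5874) (nat_lit 3930) (nat_lit 3202)))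
 (.l (.k2_8 (nat_lit 7) (nat_lit 5392) (nat_lit 5394) (nat_lit 5386) (nat_lit 5410) (nat_lit 5446) (nat_lit 5230) (nat_lit 4906) (nat_lit 5878) (nat_lit 3934) (nat_lit 3206)))))
 (.n (nat_lit 5402)
 (.n (nat_lit 5394)
 (.l (.k2_8 (nat_lit 7) (nat_lit 5394) (nat_lit 5392) (nat_lit 5388) (nat_lit 5412) (nat_lit 5448) (nat_lit 5232) (nat_lit 4908) (nat_lit 5880) (nat_lit 3936) (nat_lit 3208)))
 (.l (.k0_7 (nat_lit 7) (nat_lit 5402) (nat_lit 5404) (nat_lit 5384) (nat_lit 5456) (nat_lit 5240) (nat_lit 4916) (nat_lit 5888) (nat_lit 3944))))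
 (.n (nat_lit 5404)
 (.l (.k2_9 (nat_lit 6) (nat_lit 5404) (nat_lit 5402) (nat_lit 5406) (nat_lit 5410) (nat_lit 5386) (nat_lit 5458) (nat_lit 5242) (nat_lit 4918) (nat_lit 5890) (nat_lit 3946) (nat_lit 3218)))
 (.n (nat_lit 5406)
 (.l (.k2_8 (nat_lit 3) (nat_lit 5406) (nat_lit 5404) (nat_lit 5412) (nat_lit 5388) (nat_lit 5460) (nat_lit 5244) (nat_lit 4920) (nat_lit 5892) (nat_lit 3948) (nat_lit 3220)))
 (.l (.k2_8 (nat_lit 7) (nat_lit 5410) (nat_lit 5412) (nat_lit 5404) (nat_lit 5392) (nat_lit 5464) (nat_lit 5248) (nat_lit 4924) (nat_lit 5896) (nat_lit 3952) (nat_lit 3224)))))))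
 (.n (nat_lit 5434)
 (.n (nat_lit 5418)
 (.n (nat_lit 5412)
 (.l (.k2_9 (nat_lit 6) (nat_lit 5412) (nat_lit 5410) (nat_lit 5406) (nat_lit 5418) (nat_lit 5394) (nat_lit 5466) (nat_lit 5250) (nat_lit 4926) (nat_lit 5898) (nat_lit 3954) (nat_lit 3226)))
 (.l (.k2_6 (nat_lit 7) (nat_lit 5418) (nat_lit 5412) (nat_lit 5472) (nat_lit 5256) (nat_lit 4932) (nat_lit 5904) (nat_lit 3960) (nat_lit 3232))))
 (.n (nat_lit 5432)
 (.l (.k0_8 (nat_lit 10) (nat_lit 5432) (nat_lit 5434) (nat_lit 5438) (nat_lit 5378) (nat_lit 5270) (nat_lit 5594) (nat_lit 4946) (nat_lit 5918) (nat_lit 3974)))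
 (.l (.k2_8 (nat_lit 8) (nat_lit 5434) (nat_lit 5432) (nat_lit 5440) (nat_lit 5380) (nat_lit 5272) (nat_lit 5596) (nat_lit 4948) (nat_lit 5920) (nat_lit 3976) (nat_lit 3248)))))
 (.n (nat_lit 5440)
 (.n (nat_lit 5438)
 (.l (.k0_9 (nat_lit 8) (nat_lit 5438) (nat_lit 5440) (nat_lit 5432) (nat_lit 5456) (nat_lit 5384) (nat_lit 5276) (nat_lit 5600) (nat_lit 4952) (nat_lit 5924) (nat_lit 3980)))
 (.l (.k2_11 (nat_lit 8) (nat_lit 5440) (nat_lit 5438) (nat_lit 5442) (nat_lit 5434) (nat_lit 5446) (nat_lit 5458) (nat_lit 5386) (nat_lit 5278) (nat_lit 5602) (nat_lit 4954) (nat_lit 5926) (nat_lit 3982) (nat_lit 3254))))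
 (.n (nat_lit 5442)
 (.l (.k2_9 (nat_lit 6) (nat_lit 5442) (nat_lit 5440) (nat_lit 5448) (nat_lit 5460) (nat_lit 5388) (nat_lit 5280) (nat_lit 5604) (nat_lit 4956) (nat_lit 5928) (nat_lit 3984) (nat_lit 3256)))
 (.n (nat_lit 5446)
 (.l (.k2_9 (nat_lit 6) (nat_lit 5446) (nat_lit 5448) (nat_lit 5440) (nat_lit 5464) (nat_lit 5392) (nat_lit 5284) (nat_lit 5608) (nat_lit 4960) (nat_lit 5932) (nat_lit 3988) (nat_lit 3260)))
 (.l (.k2_9 (nat_lit 6) (nat_lit 5448) (nat_lit 5446) (nat_lit 5442) (nat_lit 5466) (nat_lit 5394) (nat_lit 5286) (nat_lit 5610) (nat_lit 4962) (nat_lit 5934) (nat_lit 3990) (nat_lit 3262)))))))))))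
 (.n (nat_lit 5918)
 (.n (nat_lit 5646)
 (.n (nat_lit 5538)
 (.n (nat_lit 5484)
 (.n (nat_lit 5464)
 (.n (nat_lit 5458)
 (.n (nat_lit 5456)
 (.l (.k0_9 (nat_lit 9) (nat_lit 5456) (nat_lit 5458) (nat_lit 5438) (nat_lit 5402) (nat_lit 5510) (nat_lit 5294) (nat_lit 5618) (nat_lit 4970) (nat_lit 5942) (nat_lit 3998)))
 (.l (.k2_11 (nat_lit 8) (nat_lit 5458) (nat_lit 5456) (nat_lit 5460) (nat_lit 5464) (nat_lit 5440) (nat_lit 5404) (nat_lit 5512) (nat_lit 5296) (nat_lit 5620) (nat_lit 4972) (nat_lit 5944) (nat_lit 4000) (nat_lit 3272))))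
 (.n (nat_lit 5460)
 (.l (.k2_10 (nat_lit 5) (nat_lit 5460) (nat_lit 5458) (nat_lit 5466) (nat_lit 5442) (nat_lit 5406) (nat_lit 5514) (nat_lit 5298) (nat_lit 5622) (nat_lit 4974) (nat_lit 5946) (nat_lit 4002) (nat_lit 3274)))
 (.l (.k2_11 (nat_lit 8) (nat_lit 5464) (nat_lit 5466) (nat_lit 5458) (nat_lit 5446) (nat_lit 5482) (nat_lit 5410) (nat_lit 5518) (nat_lit 5302) (nat_lit 5626) (nat_lit 4978) (nat_lit 5950) (nat_lit 4006) (nat_lit 3278)))))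
 (.n (nat_lit 5472)
 (.n (nat_lit 5466)
 (.l (.k2_12 (nat_lit 7) (nat_lit 5466) (nat_lit 5464) (nat_lit 5460) (nat_lit 5472) (nat_lit 5448) (nat_lit 5484) (nat_lit 5412) (nat_lit 5520) (nat_lit 5304) (nat_lit 5628) (nat_lit 4980) (nat_lit 5952) (nat_lit 4008) (nat_lit 3280)))
 (.l (.k2_9 (nat_lit 7) (nat_lit 5472) (nat_lit 5466) (nat_lit 5490) (nat_lit 5418) (nat_lit 5526) (nat_lit 5310) (nat_lit 5634) (nat_lit 4986) (nat_lit 5958) (nat_lit 4014) (nat_lit 3286))))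
 (.n (nat_lit 5482)
 (.l (.k2_8 (nat_lit 8) (nat_lit 5482) (nat_lit 5484) (nat_lit 5464) (nat_lit 5536) (nat_lit 5320) (nat_lit 5644) (nat_lit 4996) (nat_lit 5968) (nat_lit 4024) (nat_lit 3296)))
 (.l (.k2_9 (nat_lit 6) (nat_lit 5484) (nat_lit 5482) (nat_lit 5490) (nat_lit 5466) (nat_lit 5538) (nat_lit 5322) (nat_lit 5646) (nat_lit 4998) (nat_lit 5970) (nat_lit 4026) (nat_lit 3298))))))
 (.n (nat_lit 5514)
 (.n (nat_lit 5510)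
 (.n (nat_lit 5490)
 (.l (.k2_8 (nat_lit 8) (nat_lit 5490) (nat_lit 5484) (nat_lit 5472) (nat_lit 5544) (nat_lit 5328) (nat_lit 5652) (nat_lit 5004) (nat_lit 5976) (nat_lit 4032) (nat_lit 3304)))
 (.l (.k0_6 (nat_lit 9) (nat_lit 5510) (nat_lit 5512) (nat_lit 5456) (nat_lit 5672) (nat_lit 5024) (nat_lit 5996) (nat_lit 4052))))
 (.n (nat_lit 5512)
 (.l (.k2_8 (nat_lit 8) (nat_lit 5512) (nat_lit 5510) (nat_lit 5514) (nat_lit 5518) (nat_lit 5458) (nat_lit 5674) (nat_lit 5026) (nat_lit 5998) (nat_lit 4054) (nat_lit 3326)))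
 (.l (.k2_7 (nat_lit 5) (nat_lit 5514) (nat_lit 5512) (nat_lit 5520) (nat_lit 5460) (nat_lit 5676) (nat_lit 5028) (nat_lit 6000) (nat_lit 4056) (nat_lit 3328)))))
 (.n (nat_lit 5520)
 (.n (nat_lit 5518)
 (.l (.k2_8 (nat_lit 7) (nat_lit 5518) (nat_lit 5520) (nat_lit 5512) (nat_lit 5536) (nat_lit 5464) (nat_lit 5680) (nat_lit 5032) (nat_lit 6004) (nat_lit 4060) (nat_lit 3332)))
 (.l (.k2_9 (nat_lit 6) (nat_lit 5520) (nat_lit 5518) (nat_lit 5514) (nat_lit 5526) (nat_lit 5538) (nat_lit 5466) (nat_lit 5682) (nat_lit 5034) (nat_lit 6006) (nat_lit 4062) (nat_lit 3334))))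
 (.n (nat_lit 5526)
 (.l (.k2_7 (nat_lit 5) (nat_lit 5526) (nat_lit 5520) (nat_lit 5544) (nat_lit 5472) (nat_lit 5688) (nat_lit 5040) (nat_lit 6012) (nat_lit 4068) (nat_lit 3340)))
 (.n (nat_lit 5536)
 (.l (.k2_7 (nat_lit 9) (nat_lit 5536) (nat_lit 5538) (nat_lit 5518) (nat_lit 5482) (nat_lit 5698) (nat_lit 5050) (nat_lit 6022) (nat_lit 4078) (nat_lit 3350)))
 (.l (.k2_8 (nat_lit 7) (nat_lit 5538) (nat_lit 5536) (nat_lit 5544) (nat_lit 5520) (nat_lit 5484) (nat_lit 5700) (nat_lit 5052) (nat_lit 6024) (nat_lit 4080) (nat_lit 3352))))))))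
 (.n (nat_lit 5608)
 (.n (nat_lit 5596)
 (.n (nat_lit 5562)
 (.n (nat_lit 5544)
 (.l (.k2_8 (nat_lit 8) (nat_lit 5544) (nat_lit 5538) (nat_lit 5526) (nat_lit 5562) (nat_lit 5490) (nat_lit 5706) (nat_lit 5058) (nat_lit 6030) (nat_lit 4086) (nat_lit 3358)))
 (.l (.k2_5 (nat_lit 9) (nat_lit 5562) (nat_lit 5544) (nat_lit 5724) (nat_lit 5076) (nat_lit 6048) (nat_lit 4104) (nat_lit 3376))))
 (.n (nat_lit 5594)
 (.l (.k0_5 (nat_lit 10) (nat_lit 5594) (nat_lit 5596) (nat_lit 5600) (nat_lit 5432) (nat_lit 6080) (nat_lit 4136)))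
 (.l (.k2_5 (nat_lit 8) (nat_lit 5596) (nat_lit 5594) (nat_lit 5602) (nat_lit 5434) (nat_lit 6082) (nat_lit 4138) (nat_lit 3410)))))
 (.n (nat_lit 5602)
 (.n (nat_lit 5600)
 (.l (.k0_6 (nat_lit 8) (nat_lit 5600) (nat_lit 5602) (nat_lit 5594) (nat_lit 5618) (nat_lit 5438) (nat_lit 6086) (nat_lit 4142)))
 (.l (.k2_8 (nat_lit 8) (nat_lit 5602) (nat_lit 5600) (nat_lit 5604) (nat_lit 5596) (nat_lit 5608) (nat_lit 5620) (nat_lit 5440) (nat_lit 6088) (nat_lit 4144) (nat_lit 3416))))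
 (.n (nat_lit 5604)
 (.l (.k2_6 (nat_lit 6) (nat_lit 5604) (nat_lit 5602) (nat_lit 5610) (nat_lit 5622) (nat_lit 5442) (nat_lit 6090) (nat_lit 4146) (nat_lit 3418)))
 (.l (.k2_6 (nat_lit 6) (nat_lit 5608) (nat_lit 5610) (nat_lit 5602) (nat_lit 5626) (nat_lit 5446) (nat_lit 6094) (nat_lit 4150) (nat_lit 3422))))))
 (.n (nat_lit 5622)
 (.n (nat_lit 5618)
 (.n (nat_lit 5610)
 (.l (.k2_6 (nat_lit 6) (nat_lit 5610) (nat_lit 5608) (nat_lit 5604) (nat_lit 5628) (nat_lit 5448) (nat_lit 6096) (nat_lit 4152) (nat_lit 3424)))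
 (.l (.k0_6 (nat_lit 8) (nat_lit 5618) (nat_lit 5620) (nat_lit 5600) (nat_lit 5672) (nat_lit 5456) (nat_lit 6104) (nat_lit 4160))))
 (.n (nat_lit 5620)
 (.l (.k2_8 (nat_lit 7) (nat_lit 5620) (nat_lit 5618) (nat_lit 5622) (nat_lit 5626) (nat_lit 5602) (nat_lit 5674) (nat_lit 5458) (nat_lit 6106) (nat_lit 4162) (nat_lit 3434)))
 (.l (.k2_7 (nat_lit 4) (nat_lit 5622) (nat_lit 5620) (nat_lit 5628) (nat_lit 5604) (nat_lit 5676) (nat_lit 5460) (nat_lit 6108) (nat_lit 4164) (nat_lit 3436)))))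
 (.n (nat_lit 5628)
 (.n (nat_lit 5626)
 (.l (.k2_8 (nat_lit 7) (nat_lit 5626) (nat_lit 5628) (nat_lit 5620) (nat_lit 5608) (nat_lit 5644) (nat_lit 5680) (nat_lit 5464) (nat_lit 6112) (nat_lit 4168) (nat_lit 3440)))
 (.l (.k2_9 (nat_lit 6) (nat_lit 5628) (nat_lit 5626) (nat_lit 5622) (nat_lit 5634) (nat_lit 5610) (nat_lit 5646) (nat_lit 5682) (nat_lit 5466) (nat_lit 6114) (nat_lit 4170) (nat_lit 3442))))
 (.n (nat_lit 5634)
 (.l (.k2_6 (nat_lit 6) (nat_lit 5634) (nat_lit 5628) (nat_lit 5652) (nat_lit 5688) (nat_lit 5472) (nat_lit 6120) (nat_lit 4176) (nat_lit 3448)))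
 (.n (nat_lit 5644)
 (.l (.k2_6 (nat_lit 6) (nat_lit 5644) (nat_lit 5646) (nat_lit 5626) (nat_lit 5698) (nat_lit 5482) (nat_lit 6130) (nat_lit 4186) (nat_lit 3458)))
 (.l (.k2_7 (nat_lit 4) (nat_lit 5646) (nat_lit 5644) (nat_lit 5652) (nat_lit 5628) (nat_lit 5700) (nat_lit 5484) (nat_lit 6132) (nat_lit 4188) (nat_lit 3460)))))))))
 (.n (nat_lit 5846)
 (.n (nat_lit 5698)
 (.n (nat_lit 5676)
 (.n (nat_lit 5672)
 (.n (nat_lit 5652)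
 (.l (.k2_6 (nat_lit 6) (nat_lit 5652) (nat_lit 5646) (nat_lit 5634) (nat_lit 5706) (nat_lit 5490) (nat_lit 6138) (nat_lit 4194) (nat_lit 3466)))
 (.l (.k0_5 (nat_lit 10) (nat_lit 5672) (nat_lit 5674) (nat_lit 5618) (nat_lit 5510) (nat_lit 6158) (nat_lit 4214))))
 (.n (nat_lit 5674)
 (.l (.k2_7 (nat_lit 9) (nat_lit 5674) (nat_lit 5672) (nat_lit 5676) (nat_lit 5680) (nat_lit 5620) (nat_lit 5512) (nat_lit 6160) (nat_lit 4216) (nat_lit 3488)))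
 (.l (.k2_6 (nat_lit 6) (nat_lit 5676) (nat_lit 5674) (nat_lit 5682) (nat_lit 5622) (nat_lit 5514) (nat_lit 6162) (nat_lit 4218) (nat_lit 3490)))))
 (.n (nat_lit 5682)
 (.n (nat_lit 5680)
 (.l (.k2_7 (nat_lit 8) (nat_lit 5680) (nat_lit 5682) (nat_lit 5674) (nat_lit 5698) (nat_lit 5626) (nat_lit 5518) (nat_lit 6166) (nat_lit 4222) (nat_lit 3494)))
 (.l (.k2_8 (nat_lit 7) (nat_lit 5682) (nat_lit 5680) (nat_lit 5676) (nat_lit 5688) (nat_lit 5700) (nat_lit 5628) (nat_lit 5520) (nat_lit 6168) (nat_lit 4224) (nat_lit 3496))))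
 (.n (nat_lit 5688)
 (.l (.k2_6 (nat_lit 6) (nat_lit 5688) (nat_lit 5682) (nat_lit 5706) (nat_lit 5634) (nat_lit 5526) (nat_lit 6174) (nat_lit 4230) (nat_lit 3502)))
 (.l (.k2_7 (nat_lit 9) (nat_lit 5698) (nat_lit 5700) (nat_lit 5680) (nat_lit 5644) (nat_lit 5752) (nat_lit 5536) (nat_lit 6184) (nat_lit 4240) (nat_lit 3512))))))
 (.n (nat_lit 5752)
 (.n (nat_lit 5706)
 (.n (nat_lit 5700)
 (.l (.k2_8 (nat_lit 7) (nat_lit 5700) (nat_lit 5698) (nat_lit 5706) (nat_lit 5682) (nat_lit 5646) (nat_lit 5754) (nat_lit 5538) (nat_lit 6186) (nat_lit 4242) (nat_lit 3514)))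
 (.l (.k2_8 (nat_lit 8) (nat_lit 5706) (nat_lit 5700) (nat_lit 5688) (nat_lit 5724) (nat_lit 5652) (nat_lit 5760) (nat_lit 5544) (nat_lit 6192) (nat_lit 4248) (nat_lit 3520))))
 (.n (nat_lit 5724)
 (.l (.k2_5 (nat_lit 8) (nat_lit 5724) (nat_lit 5706) (nat_lit 5778) (nat_lit 5562) (nat_lit 6210) (nat_lit 4266) (nat_lit 3538)))
 (.l (.k2_4 (nat_lit 10) (nat_lit 5752) (nat_lit 5754) (nat_lit 5698) (nat_lit 6238) (nat_lit 4294) (nat_lit 3566)))))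
 (.n (nat_lit 5760)
 (.n (nat_lit 5754)
 (.l (.k2_5 (nat_lit 8) (nat_lit 5754) (nat_lit 5752) (nat_lit 5760) (nat_lit 5700) (nat_lit 6240) (nat_lit 4296) (nat_lit 3568)))
 (.l (.k2_5 (nat_lit 8) (nat_lit 5760) (nat_lit 5754) (nat_lit 5778) (nat_lit 5706) (nat_lit 6246) (nat_lit 4302) (nat_lit 3574))))
 (.n (nat_lit 5778)
 (.l (.k2_4 (nat_lit 10) (nat_lit 5778) (nat_lit 5760) (nat_lit 5724) (nat_lit 6264) (nat_lit 4320) (nat_lit 3592)))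
 (.n (nat_lit 5840)
 (.l (.k0_2 (nat_lit 12) (nat_lit 5840) (nat_lit 5846) (nat_lit 5354)))
 (.l (.k0_5 (nat_lit 11) (nat_lit 5846) (nat_lit 5848) (nat_lit 5840) (nat_lit 5852) (nat_lit 5864) (nat_lit 5360))))))))
 (.n (nat_lit 5874)
 (.n (nat_lit 5856)
 (.n (nat_lit 5852)
 (.n (nat_lit 5848)
 (.l (.k2_4 (nat_lit 10) (nat_lit 5848) (nat_lit 5846) (nat_lit 5854) (nat_lit 5866) (nat_lit 5362) (nat_lit 3662)))
 (.l (.k0_4 (nat_lit 8) (nat_lit 5852) (nat_lit 5854) (nat_lit 5846) (nat_lit 5870) (nat_lit 5366))))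
 (.n (nat_lit 5854)
 (.l (.k2_5 (nat_lit 9) (nat_lit 5854) (nat_lit 5852) (nat_lit 5856) (nat_lit 5848) (nat_lit 5872) (nat_lit 5368) (nat_lit 3668)))
 (.l (.k2_3 (nat_lit 8) (nat_lit 5856) (nat_lit 5854) (nat_lit 5874) (nat_lit 5370) (nat_lit 3670)))))
 (.n (nat_lit 5866)
 (.n (nat_lit 5864)
 (.l (.k0_5 (nat_lit 10) (nat_lit 5864) (nat_lit 5866) (nat_lit 5870) (nat_lit 5846) (nat_lit 5918) (nat_lit 5378)))
 (.l (.k2_5 (nat_lit 8) (nat_lit 5866) (nat_lit 5864) (nat_lit 5872) (nat_lit 5848) (nat_lit 5920) (nat_lit 5380) (nat_lit 3680))))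
 (.n (nat_lit 5870)
 (.l (.k0_6 (nat_lit 9) (nat_lit 5870) (nat_lit 5872) (nat_lit 5864) (nat_lit 5852) (nat_lit 5888) (nat_lit 5924) (nat_lit 5384)))
 (.n (nat_lit 5872)
 (.l (.k2_8 (nat_lit 9) (nat_lit 5872) (nat_lit 5870) (nat_lit 5874) (nat_lit 5866) (nat_lit 5878) (nat_lit 5854) (nat_lit 5890) (nat_lit 5926) (nat_lit 5386) (nat_lit 3686)))
 (.l (.k2_6 (nat_lit 7) (nat_lit 5874) (nat_lit 5872) (nat_lit 5880) (nat_lit 5856) (nat_lit 5892) (nat_lit 5928) (nat_lit 5388) (nat_lit 3688)))))))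
 (.n (nat_lit 5890)
 (.n (nat_lit 5880)
 (.n (nat_lit 5878)
 (.l (.k2_5 (nat_lit 8) (nat_lit 5878) (nat_lit 5880) (nat_lit 5872) (nat_lit 5896) (nat_lit 5932) (nat_lit 5392) (nat_lit 3692)))
 (.l (.k2_5 (nat_lit 8) (nat_lit 5880) (nat_lit 5878) (nat_lit 5874) (nat_lit 5898) (nat_lit 5934) (nat_lit 5394) (nat_lit 3694))))
 (.n (nat_lit 5888)
 (.l (.k0_4 (nat_lit 8) (nat_lit 5888) (nat_lit 5890) (nat_lit 5870) (nat_lit 5942) (nat_lit 5402)))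
 (.l (.k2_6 (nat_lit 7) (nat_lit 5890) (nat_lit 5888) (nat_lit 5892) (nat_lit 5896) (nat_lit 5872) (nat_lit 5944) (nat_lit 5404) (nat_lit 3704)))))
 (.n (nat_lit 5896)
 (.n (nat_lit 5892)
 (.l (.k2_5 (nat_lit 4) (nat_lit 5892) (nat_lit 5890) (nat_lit 5898) (nat_lit 5874) (nat_lit 5946) (nat_lit 5406) (nat_lit 3706)))
 (.l (.k2_5 (nat_lit 8) (nat_lit 5896) (nat_lit 5898) (nat_lit 5890) (nat_lit 5878) (nat_lit 5950) (nat_lit 5410) (nat_lit 3710))))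
 (.n (nat_lit 5898)
 (.l (.k2_6 (nat_lit 7) (nat_lit 5898) (nat_lit 5896) (nat_lit 5892) (nat_lit 5904) (nat_lit 5880) (nat_lit 5952) (nat_lit 5412) (nat_lit 3712)))
 (.n (nat_lit 5904)
 (.l (.k2_3 (nat_lit 8) (nat_lit 5904) (nat_lit 5898) (nat_lit 5958) (nat_lit 5418) (nat_lit 3718)))
 (.l (.k0_5 (nat_lit 10) (nat_lit 5918) (nat_lit 5920) (nat_lit 5924) (nat_lit 5864) (nat_lit 6080) (nat_lit 5432))))))))))
 (.n (nat_lit 6108)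
 (.n (nat_lit 5998)
 (.n (nat_lit 5944)
 (.n (nat_lit 5928)
 (.n (nat_lit 5924)
 (.n (nat_lit 5920)
 (.l (.k2_5 (nat_lit 8) (nat_lit 5920) (nat_lit 5918) (nat_lit 5926) (nat_lit 5866) (nat_lit 6082) (nat_lit 5434) (nat_lit 3734)))
 (.l (.k0_6 (nat_lit 8) (nat_lit 5924) (nat_lit 5926) (nat_lit 5918) (nat_lit 5942) (nat_lit 5870) (nat_lit 6086) (nat_lit 5438))))
 (.n (nat_lit 5926)
 (.l (.k2_8 (nat_lit 8) (nat_lit 5926) (nat_lit 5924) (nat_lit 5928) (nat_lit 5920) (nat_lit 5932) (nat_lit 5944) (nat_lit 5872) (nat_lit 6088) (nat_lit 5440) (nat_lit 3740)))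
 (.l (.k2_6 (nat_lit 6) (nat_lit 5928) (nat_lit 5926) (nat_lit 5934) (nat_lit 5946) (nat_lit 5874) (nat_lit 6090) (nat_lit 5442) (nat_lit 3742)))))
 (.n (nat_lit 5934)
 (.n (nat_lit 5932)
 (.l (.k2_6 (nat_lit 6) (nat_lit 5932) (nat_lit 5934) (nat_lit 5926) (nat_lit 5950) (nat_lit 5878) (nat_lit 6094) (nat_lit 5446) (nat_lit 3746)))
 (.l (.k2_6 (nat_lit 6) (nat_lit 5934) (nat_lit 5932) (nat_lit 5928) (nat_lit 5952) (nat_lit 5880) (nat_lit 6096) (nat_lit 5448) (nat_lit 3748))))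
 (.n (nat_lit 5942)
 (.l (.k0_6 (nat_lit 9) (nat_lit 5942) (nat_lit 5944) (nat_lit 5924) (nat_lit 5888) (nat_lit 5996) (nat_lit 6104) (nat_lit 5456)))
 (.l (.k2_8 (nat_lit 8) (nat_lit 5944) (nat_lit 5942) (nat_lit 5946) (nat_lit 5950) (nat_lit 5926) (nat_lit 5890) (nat_lit 5998) (nat_lit 6106) (nat_lit 5458) (nat_lit 3758))))))
 (.n (nat_lit 5958)
 (.n (nat_lit 5950)
 (.n (nat_lit 5946)
 (.l (.k2_7 (nat_lit 5) (nat_lit 5946) (nat_lit 5944) (nat_lit 5952) (nat_lit 5928) (nat_lit 5892) (nat_lit 6000) (nat_lit 6108) (nat_lit 5460) (nat_lit 3760)))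
 (.l (.k2_8 (nat_lit 8) (nat_lit 5950) (nat_lit 5952) (nat_lit 5944) (nat_lit 5932) (nat_lit 5968) (nat_lit 5896) (nat_lit 6004) (nat_lit 6112) (nat_lit 5464) (nat_lit 3764))))
 (.n (nat_lit 5952)
 (.l (.k2_9 (nat_lit 7) (nat_lit 5952) (nat_lit 5950) (nat_lit 5946) (nat_lit 5958) (nat_lit 5934) (nat_lit 5970) (nat_lit 5898) (nat_lit 6006) (nat_lit 6114) (nat_lit 5466) (nat_lit 3766)))
 (.l (.k2_6 (nat_lit 7) (nat_lit 5958) (nat_lit 5952) (nat_lit 5976) (nat_lit 5904) (nat_lit 6012) (nat_lit 6120) (nat_lit 5472) (nat_lit 3772)))))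
 (.n (nat_lit 5970)
 (.n (nat_lit 5968)
 (.l (.k2_5 (nat_lit 8) (nat_lit 5968) (nat_lit 5970) (nat_lit 5950) (nat_lit 6022) (nat_lit 6130) (nat_lit 5482) (nat_lit 3782)))
 (.l (.k2_6 (nat_lit 6) (nat_lit 5970) (nat_lit 5968) (nat_lit 5976) (nat_lit 5952) (nat_lit 6024) (nat_lit 6132) (nat_lit 5484) (nat_lit 3784))))
 (.n (nat_lit 5976)
 (.l (.k2_5 (nat_lit 8) (nat_lit 5976) (nat_lit 5970) (nat_lit 5958) (nat_lit 6030) (nat_lit 6138) (nat_lit 5490) (nat_lit 3790)))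
 (.n (nat_lit 5996)
 (.l (.k0_4 (nat_lit 8) (nat_lit 5996) (nat_lit 5998) (nat_lit 5942) (nat_lit 6158) (nat_lit 5510)))
 (.l (.k2_6 (nat_lit 7) (nat_lit 5998) (nat_lit 5996) (nat_lit 6000) (nat_lit 6004) (nat_lit 5944) (nat_lit 6160) (nat_lit 5512) (nat_lit 3812))))))))
 (.n (nat_lit 6080)
 (.n (nat_lit 6012)
 (.n (nat_lit 6004)
 (.n (nat_lit 6000)
 (.l (.k2_5 (nat_lit 4) (nat_lit 6000) (nat_lit 5998) (nat_lit 6006) (nat_lit 5946) (nat_lit 6162) (nat_lit 5514) (nat_lit 3814)))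
 (.l (.k2_6 (nat_lit 6) (nat_lit 6004) (nat_lit 6006) (nat_lit 5998) (nat_lit 6022) (nat_lit 5950) (nat_lit 6166) (nat_lit 5518) (nat_lit 3818))))
 (.n (nat_lit 6006)
 (.l (.k2_7 (nat_lit 5) (nat_lit 6006) (nat_lit 6004) (nat_lit 6000) (nat_lit 6012) (nat_lit 6024) (nat_lit 5952) (nat_lit 6168) (nat_lit 5520) (nat_lit 3820)))
 (.l (.k2_5 (nat_lit 4) (nat_lit 6012) (nat_lit 6006) (nat_lit 6030) (nat_lit 5958) (nat_lit 6174) (nat_lit 5526) (nat_lit 3826)))))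
 (.n (nat_lit 6024)
 (.n (nat_lit 6022)
 (.l (.k2_5 (nat_lit 8) (nat_lit 6022) (nat_lit 6024) (nat_lit 6004) (nat_lit 5968) (nat_lit 6184) (nat_lit 5536) (nat_lit 3836)))
 (.l (.k2_6 (nat_lit 6) (nat_lit 6024) (nat_lit 6022) (nat_lit 6030) (nat_lit 6006) (nat_lit 5970) (nat_lit 6186) (nat_lit 5538) (nat_lit 3838))))
 (.n (nat_lit 6030)
 (.l (.k2_6 (nat_lit 7) (nat_lit 6030) (nat_lit 6024) (nat_lit 6012) (nat_lit 6048) (nat_lit 5976) (nat_lit 6192) (nat_lit 5544) (nat_lit 3844)))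
 (.n (nat_lit 6048)
 (.l (.k2_3 (nat_lit 8) (nat_lit 6048) (nat_lit 6030) (nat_lit 6210) (nat_lit 5562) (nat_lit 3862)))
 (.l (.k0_4 (nat_lit 12) (nat_lit 6080) (nat_lit 6082) (nat_lit 6086) (nat_lit 5918) (nat_lit 5594)))))))
 (.n (nat_lit 6090)
 (.n (nat_lit 6086)
 (.n (nat_lit 6082)
 (.l (.k2_4 (nat_lit 10) (nat_lit 6082) (nat_lit 6080) (nat_lit 6088) (nat_lit 5920) (nat_lit 5596) (nat_lit 3896)))
 (.l (.k0_5 (nat_lit 10) (nat_lit 6086) (nat_lit 6088) (nat_lit 6080) (nat_lit 6104) (nat_lit 5924) (nat_lit 5600))))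
 (.n (nat_lit 6088)
 (.l (.k2_7 (nat_lit 10) (nat_lit 6088) (nat_lit 6086) (nat_lit 6090) (nat_lit 6082) (nat_lit 6094) (nat_lit 6106) (nat_lit 5926) (nat_lit 5602) (nat_lit 3902)))
 (.l (.k2_5 (nat_lit 8) (nat_lit 6090) (nat_lit 6088) (nat_lit 6096) (nat_lit 6108) (nat_lit 5928) (nat_lit 5604) (nat_lit 3904)))))
 (.n (nat_lit 6096)
 (.n (nat_lit 6094)
 (.l (.k2_5 (nat_lit 8) (nat_lit 6094) (nat_lit 6096) (nat_lit 6088) (nat_lit 6112) (nat_lit 5932) (nat_lit 5608) (nat_lit 3908)))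
 (.l (.k2_5 (nat_lit 8) (nat_lit 6096) (nat_lit 6094) (nat_lit 6090) (nat_lit 6114) (nat_lit 5934) (nat_lit 5610) (nat_lit 3910))))
 (.n (nat_lit 6104)
 (.l (.k0_5 (nat_lit 10) (nat_lit 6104) (nat_lit 6106) (nat_lit 6086) (nat_lit 6158) (nat_lit 5942) (nat_lit 5618)))
 (.n (nat_lit 6106)
 (.l (.k2_7 (nat_lit 9) (nat_lit 6106) (nat_lit 6104) (nat_lit 6108) (nat_lit 6112) (nat_lit 6088) (nat_lit 6160) (nat_lit 5944) (nat_lit 5620) (nat_lit 3920)))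
 (.l (.k2_6 (nat_lit 6) (nat_lit 6108) (nat_lit 6106) (nat_lit 6114) (nat_lit 6090) (nat_lit 6162) (nat_lit 5946) (nat_lit 5622) (nat_lit 3922)))))))))
 (.n (nat_lit 6238)
 (.n (nat_lit 6160)
 (.n (nat_lit 6130)
 (.n (nat_lit 6114)
 (.n (nat_lit 6112)
 (.l (.k2_7 (nat_lit 9) (nat_lit 6112) (nat_lit 6114) (nat_lit 6106) (nat_lit 6094) (nat_lit 6130) (nat_lit 6166) (nat_lit 5950) (nat_lit 5626) (nat_lit 3926)))
 (.l (.k2_8 (nat_lit 8) (nat_lit 6114) (nat_lit 6112) (nat_lit 6108) (nat_lit 6120) (nat_lit 6096) (nat_lit 6132) (nat_lit 6168) (nat_lit 5952) (nat_lit 5628) (nat_lit 3928))))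
 (.n (nat_lit 6120)
 (.l (.k2_5 (nat_lit 8) (nat_lit 6120) (nat_lit 6114) (nat_lit 6138) (nat_lit 6174) (nat_lit 5958) (nat_lit 5634) (nat_lit 3934)))
 (.l (.k2_5 (nat_lit 8) (nat_lit 6130) (nat_lit 6132) (nat_lit 6112) (nat_lit 6184) (nat_lit 5968) (nat_lit 5644) (nat_lit 3944)))))
 (.n (nat_lit 6138)
 (.n (nat_lit 6132)
 (.l (.k2_6 (nat_lit 6) (nat_lit 6132) (nat_lit 6130) (nat_lit 6138) (nat_lit 6114) (nat_lit 6186) (nat_lit 5970) (nat_lit 5646) (nat_lit 3946)))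
 (.l (.k2_5 (nat_lit 8) (nat_lit 6138) (nat_lit 6132) (nat_lit 6120) (nat_lit 6192) (nat_lit 5976) (nat_lit 5652) (nat_lit 3952))))
 (.n (nat_lit 6158)
 (.l (.k0_5 (nat_lit 11) (nat_lit 6158) (nat_lit 6160) (nat_lit 6104) (nat_lit 5996) (nat_lit 6320) (nat_lit 5672)))
 (.l (.k2_7 (nat_lit 10) (nat_lit 6160) (nat_lit 6158) (nat_lit 6162) (nat_lit 6166) (nat_lit 6106) (nat_lit 5998) (nat_lit 6322) (nat_lit 5674) (nat_lit 3974))))))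
 (.n (nat_lit 6174)
 (.n (nat_lit 6166)
 (.n (nat_lit 6162)
 (.l (.k2_6 (nat_lit 7) (nat_lit 6162) (nat_lit 6160) (nat_lit 6168) (nat_lit 6108) (nat_lit 6000) (nat_lit 6324) (nat_lit 5676) (nat_lit 3976)))
 (.l (.k2_7 (nat_lit 9) (nat_lit 6166) (nat_lit 6168) (nat_lit 6160) (nat_lit 6184) (nat_lit 6112) (nat_lit 6004) (nat_lit 6328) (nat_lit 5680) (nat_lit 3980))))
 (.n (nat_lit 6168)
 (.l (.k2_8 (nat_lit 8) (nat_lit 6168) (nat_lit 6166) (nat_lit 6162) (nat_lit 6174) (nat_lit 6186) (nat_lit 6114) (nat_lit 6006) (nat_lit 6330) (nat_lit 5682) (nat_lit 3982)))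
 (.l (.k2_6 (nat_lit 7) (nat_lit 6174) (nat_lit 6168) (nat_lit 6192) (nat_lit 6120) (nat_lit 6012) (nat_lit 6336) (nat_lit 5688) (nat_lit 3988)))))
 (.n (nat_lit 6186)
 (.n (nat_lit 6184)
 (.l (.k2_7 (nat_lit 10) (nat_lit 6184) (nat_lit 6186) (nat_lit 6166) (nat_lit 6130) (nat_lit 6238) (nat_lit 6022) (nat_lit 6346) (nat_lit 5698) (nat_lit 3998)))
 (.l (.k2_8 (nat_lit 8) (nat_lit 6186) (nat_lit 6184) (nat_lit 6192) (nat_lit 6168) (nat_lit 6132) (nat_lit 6240) (nat_lit 6024) (nat_lit 6348) (nat_lit 5700) (nat_lit 4000))))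
 (.n (nat_lit 6192)
 (.l (.k2_8 (nat_lit 9) (nat_lit 6192) (nat_lit 6186) (nat_lit 6174) (nat_lit 6210) (nat_lit 6138) (nat_lit 6246) (nat_lit 6030) (nat_lit 6354) (nat_lit 5706) (nat_lit 4006)))
 (.n (nat_lit 6210)
 (.l (.k2_5 (nat_lit 9) (nat_lit 6210) (nat_lit 6192) (nat_lit 6264) (nat_lit 6048) (nat_lit 6372) (nat_lit 5724) (nat_lit 4024)))
 (.l (.k2_4 (nat_lit 10) (nat_lit 6238) (nat_lit 6240) (nat_lit 6184) (nat_lit 6400) (nat_lit 5752) (nat_lit 4052))))))))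
 (.n (nat_lit 6336)
 (.n (nat_lit 6320)
 (.n (nat_lit 6246)
 (.n (nat_lit 6240)
 (.l (.k2_5 (nat_lit 8) (nat_lit 6240) (nat_lit 6238) (nat_lit 6246) (nat_lit 6186) (nat_lit 6402) (nat_lit 5754) (nat_lit 4054)))
 (.l (.k2_5 (nat_lit 8) (nat_lit 6246) (nat_lit 6240) (nat_lit 6264) (nat_lit 6192) (nat_lit 6408) (nat_lit 5760) (nat_lit 4060))))
 (.n (nat_lit 6264)
 (.l (.k2_4 (nat_lit 10) (nat_lit 6264) (nat_lit 6246) (nat_lit 6210) (nat_lit 6426) (nat_lit 5778) (nat_lit 4078)))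
 (.l (.k0_2 (nat_lit 12) (nat_lit 6320) (nat_lit 6322) (nat_lit 6158)))))
 (.n (nat_lit 6324)
 (.n (nat_lit 6322)
 (.l (.k2_4 (nat_lit 11) (nat_lit 6322) (nat_lit 6320) (nat_lit 6324) (nat_lit 6328) (nat_lit 6160) (nat_lit 4136)))
 (.l (.k2_3 (nat_lit 8) (nat_lit 6324) (nat_lit 6322) (nat_lit 6330) (nat_lit 6162) (nat_lit 4138))))
 (.n (nat_lit 6328)
 (.l (.k2_4 (nat_lit 10) (nat_lit 6328) (nat_lit 6330) (nat_lit 6322) (nat_lit 6346) (nat_lit 6166) (nat_lit 4142)))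
 (.n (nat_lit 6330)
 (.l (.k2_5 (nat_lit 9) (nat_lit 6330) (nat_lit 6328) (nat_lit 6324) (nat_lit 6336) (nat_lit 6348) (nat_lit 6168) (nat_lit 4144)))
 (.l (.k2_3 (nat_lit 8) (nat_lit 6336) (nat_lit 6330) (nat_lit 6354) (nat_lit 6174) (nat_lit 4150)))))))
 (.n (nat_lit 6372)
 (.n (nat_lit 6348)
 (.n (nat_lit 6346)
 (.l (.k2_4 (nat_lit 10) (nat_lit 6346) (nat_lit 6348) (nat_lit 6328) (nat_lit 6400) (nat_lit 6184) (nat_lit 4160)))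
 (.l (.k2_5 (nat_lit 8) (nat_lit 6348) (nat_lit 6346) (nat_lit 6354) (nat_lit 6330) (nat_lit 6402) (nat_lit 6186) (nat_lit 4162))))
 (.n (nat_lit 6354)
 (.l (.k2_5 (nat_lit 9) (nat_lit 6354) (nat_lit 6348) (nat_lit 6336) (nat_lit 6372) (nat_lit 6408) (nat_lit 6192) (nat_lit 4168)))
 (.l (.k2_3 (nat_lit 8) (nat_lit 6372) (nat_lit 6354) (nat_lit 6426) (nat_lit 6210) (nat_lit 4186)))))
 (.n (nat_lit 6402)
 (.n (nat_lit 6400)
 (.l (.k2_3 (nat_lit 12) (nat_lit 6400) (nat_lit 6402) (nat_lit 6346) (nat_lit 6238) (nat_lit 4214)))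
 (.l (.k2_4 (nat_lit 10) (nat_lit 6402) (nat_lit 6400) (nat_lit 6408) (nat_lit 6348) (nat_lit 6240) (nat_lit 4216))))
 (.n (nat_lit 6408)
 (.l (.k2_4 (nat_lit 10) (nat_lit 6408) (nat_lit 6402) (nat_lit 6426) (nat_lit 6354) (nat_lit 6246) (nat_lit 4222)))
 (.n (nat_lit 6426)
 (.l (.k2_4 (nat_lit 11) (nat_lit 6426) (nat_lit 6408) (nat_lit 6372) (nat_lit 6480) (nat_lit 6264) (nat_lit 4240)))
 (.l (.k2_1 (nat_lit 12) (nat_lit 6480) (nat_lit 6426) (nat_lit 4294))))))))))))))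

def tab4_7 : Trie :=
 (.n (nat_lit 2745)
 (.n (nat_lit 1341)
 (.n (nat_lit 755)
 (.n (nat_lit 437)
 (.n (nat_lit 269)
 (.n (nat_lit 179)
 (.n (nat_lit 131)
 (.n (nat_lit 77)
 (.n (nat_lit 53)
 (.l (.k1_2 (nat_lit 12) (nat_lit 53) (nat_lit 71) (nat_lit 107) (nat_lit 2239)))
 (.n (nat_lit 71)
 (.l (.k1_3 (nat_lit 10) (nat_lit 71) (nat_lit 77) (nat_lit 53) (nat_lit 125) (nat_lit 2257)))
 (.l (.k1_3 (nat_lit 10) (nat_lit 77) (nat_lit 79) (nat_lit 71) (nat_lit 131) (nat_lit 2263)))))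
 (.n (nat_lit 107)
 (.n (nat_lit 79)
 (.l (.k1_2 (nat_lit 12) (nat_lit 79) (nat_lit 77) (nat_lit 133) (nat_lit 2265)))
 (.l (.k1_3 (nat_lit 10) (nat_lit 107) (nat_lit 125) (nat_lit 53) (nat_lit 269) (nat_lit 2293))))
 (.n (nat_lit 125)
 (.l (.k1_6 (nat_lit 10) (nat_lit 125) (nat_lit 131) (nat_lit 107) (nat_lit 143) (nat_lit 71) (nat_lit 179) (nat_lit 287) (nat_lit 2311)))
 (.l (.k1_6 (nat_lit 9) (nat_lit 131) (nat_lit 133) (nat_lit 125) (nat_lit 149) (nat_lit 77) (nat_lit 185) (nat_lit 293) (nat_lit 2317))))))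
 (.n (nat_lit 151)
 (.n (nat_lit 143)
 (.n (nat_lit 133)
 (.l (.k1_5 (nat_lit 11) (nat_lit 133) (nat_lit 131) (nat_lit 151) (nat_lit 79) (nat_lit 187) (nat_lit 295) (nat_lit 2319)))
 (.l (.k1_4 (nat_lit 8) (nat_lit 143) (nat_lit 149) (nat_lit 125) (nat_lit 197) (nat_lit 305) (nat_lit 2329))))
 (.n (nat_lit 149)
 (.l (.k1_6 (nat_lit 9) (nat_lit 149) (nat_lit 151) (nat_lit 143) (nat_lit 155) (nat_lit 131) (nat_lit 203) (nat_lit 311) (nat_lit 2335)))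
 (.l (.k1_5 (nat_lit 10) (nat_lit 151) (nat_lit 149) (nat_lit 157) (nat_lit 133) (nat_lit 205) (nat_lit 313) (nat_lit 2337)))))
 (.n (nat_lit 157)
 (.n (nat_lit 155)
 (.l (.k1_4 (nat_lit 8) (nat_lit 155) (nat_lit 157) (nat_lit 149) (nat_lit 209) (nat_lit 317) (nat_lit 2341)))
 (.l (.k1_5 (nat_lit 11) (nat_lit 157) (nat_lit 155) (nat_lit 159) (nat_lit 151) (nat_lit 211) (nat_lit 319) (nat_lit 2343))))
 (.n (nat_lit 159)
 (.l (.k0_3 (nat_lit 12) (nat_lit 159) (nat_lit 157) (nat_lit 213) (nat_lit 321)))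
 (.l (.k1_4 (nat_lit 8) (nat_lit 179) (nat_lit 185) (nat_lit 197) (nat_lit 125) (nat_lit 341) (nat_lit 2365)))))))
 (.n (nat_lit 213)
 (.n (nat_lit 203)
 (.n (nat_lit 187)
 (.n (nat_lit 185)
 (.l (.k1_5 (nat_lit 6) (nat_lit 185) (nat_lit 187) (nat_lit 179) (nat_lit 203) (nat_lit 131) (nat_lit 347) (nat_lit 2371)))
 (.l (.k1_4 (nat_lit 8) (nat_lit 187) (nat_lit 185) (nat_lit 205) (nat_lit 133) (nat_lit 349) (nat_lit 2373))))
 (.n (nat_lit 197)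
 (.l (.k1_4 (nat_lit 8) (nat_lit 197) (nat_lit 203) (nat_lit 179) (nat_lit 143) (nat_lit 359) (nat_lit 2383)))
 (.l (.k1_7 (nat_lit 8) (nat_lit 203) (nat_lit 205) (nat_lit 197) (nat_lit 209) (nat_lit 185) (nat_lit 221) (nat_lit 149) (nat_lit 365) (nat_lit 2389)))))
 (.n (nat_lit 209)
 (.n (nat_lit 205)
 (.l (.k1_6 (nat_lit 9) (nat_lit 205) (nat_lit 203) (nat_lit 211) (nat_lit 187) (nat_lit 223) (nat_lit 151) (nat_lit 367) (nat_lit 2391)))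
 (.l (.k1_5 (nat_lit 6) (nat_lit 209) (nat_lit 211) (nat_lit 203) (nat_lit 227) (nat_lit 155) (nat_lit 371) (nat_lit 2395))))
 (.n (nat_lit 211)
 (.l (.k1_6 (nat_lit 9) (nat_lit 211) (nat_lit 209) (nat_lit 213) (nat_lit 205) (nat_lit 229) (nat_lit 157) (nat_lit 373) (nat_lit 2397)))
 (.l (.k0_4 (nat_lit 10) (nat_lit 213) (nat_lit 211) (nat_lit 231) (nat_lit 159) (nat_lit 375))))))
 (.n (nat_lit 229)
 (.n (nat_lit 223)
 (.n (nat_lit 221)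
 (.l (.k1_4 (nat_lit 8) (nat_lit 221) (nat_lit 223) (nat_lit 227) (nat_lit 203) (nat_lit 383) (nat_lit 2407)))
 (.l (.k1_4 (nat_lit 8) (nat_lit 223) (nat_lit 221) (nat_lit 229) (nat_lit 205) (nat_lit 385) (nat_lit 2409))))
 (.n (nat_lit 227)
 (.l (.k1_4 (nat_lit 8) (nat_lit 227) (nat_lit 229) (nat_lit 221) (nat_lit 209) (nat_lit 389) (nat_lit 2413)))
 (.l (.k1_6 (nat_lit 10) (nat_lit 229) (nat_lit 227) (nat_lit 231) (nat_lit 223) (nat_lit 235) (nat_lit 211) (nat_lit 391) (nat_lit 2415)))))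
 (.n (nat_lit 235)
 (.n (nat_lit 231)
 (.l (.k0_4 (nat_lit 10) (nat_lit 231) (nat_lit 229) (nat_lit 237) (nat_lit 213) (nat_lit 393)))
 (.l (.k1_3 (nat_lit 10) (nat_lit 235) (nat_lit 237) (nat_lit 229) (nat_lit 397) (nat_lit 2421))))
 (.n (nat_lit 237)
 (.l (.k0_3 (nat_lit 12) (nat_lit 237) (nat_lit 235) (nat_lit 231) (nat_lit 399)))
 (.l (.k1_3 (nat_lit 10) (nat_lit 269) (nat_lit 287) (nat_lit 107) (nat_lit 755) (nat_lit 2455))))))))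
 (.n (nat_lit 371)
 (.n (nat_lit 319)
 (.n (nat_lit 305)
 (.n (nat_lit 293)
 (.n (nat_lit 287)
 (.l (.k1_6 (nat_lit 9) (nat_lit 287) (nat_lit 293) (nat_lit 269) (nat_lit 305) (nat_lit 341) (nat_lit 125) (nat_lit 773) (nat_lit 2473)))
 (.l (.k1_6 (nat_lit 8) (nat_lit 293) (nat_lit 295) (nat_lit 287) (nat_lit 311) (nat_lit 347) (nat_lit 131) (nat_lit 779) (nat_lit 2479))))
 (.n (nat_lit 295)
 (.l (.k1_5 (nat_lit 10) (nat_lit 295) (nat_lit 293) (nat_lit 313) (nat_lit 349) (nat_lit 133) (nat_lit 781) (nat_lit 2481)))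
 (.l (.k1_5 (nat_lit 6) (nat_lit 305) (nat_lit 311) (nat_lit 287) (nat_lit 359) (nat_lit 143) (nat_lit 791) (nat_lit 2491)))))
 (.n (nat_lit 313)
 (.n (nat_lit 311)
 (.l (.k1_7 (nat_lit 7) (nat_lit 311) (nat_lit 313) (nat_lit 305) (nat_lit 317) (nat_lit 293) (nat_lit 365) (nat_lit 149) (nat_lit 797) (nat_lit 2497)))
 (.l (.k1_6 (nat_lit 8) (nat_lit 313) (nat_lit 311) (nat_lit 319) (nat_lit 295) (nat_lit 367) (nat_lit 151) (nat_lit 799) (nat_lit 2499))))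
 (.n (nat_lit 317)
 (.l (.k1_5 (nat_lit 6) (nat_lit 317) (nat_lit 319) (nat_lit 311) (nat_lit 371) (nat_lit 155) (nat_lit 803) (nat_lit 2503)))
 (.l (.k1_6 (nat_lit 9) (nat_lit 319) (nat_lit 317) (nat_lit 321) (nat_lit 313) (nat_lit 373) (nat_lit 157) (nat_lit 805) (nat_lit 2505))))))
 (.n (nat_lit 349)
 (.n (nat_lit 341)
 (.n (nat_lit 321)
 (.l (.k0_4 (nat_lit 10) (nat_lit 321) (nat_lit 319) (nat_lit 375) (nat_lit 159) (nat_lit 807)))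
 (.l (.k1_6 (nat_lit 9) (nat_lit 341) (nat_lit 347) (nat_lit 359) (nat_lit 287) (nat_lit 179) (nat_lit 503) (nat_lit 827) (nat_lit 2527))))
 (.n (nat_lit 347)
 (.l (.k1_7 (nat_lit 7) (nat_lit 347) (nat_lit 349) (nat_lit 341) (nat_lit 365) (nat_lit 293) (nat_lit 185) (nat_lit 509) (nat_lit 833) (nat_lit 2533)))
 (.l (.k1_6 (nat_lit 9) (nat_lit 349) (nat_lit 347) (nat_lit 367) (nat_lit 295) (nat_lit 187) (nat_lit 511) (nat_lit 835) (nat_lit 2535)))))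
 (.n (nat_lit 365)
 (.n (nat_lit 359)
 (.l (.k1_7 (nat_lit 8) (nat_lit 359) (nat_lit 365) (nat_lit 341) (nat_lit 305) (nat_lit 413) (nat_lit 197) (nat_lit 521) (nat_lit 845) (nat_lit 2545)))
 (.l (.k1_10 (nat_lit 8) (nat_lit 365) (nat_lit 367) (nat_lit 359) (nat_lit 371) (nat_lit 347) (nat_lit 383) (nat_lit 311) (nat_lit 419) (nat_lit 203) (nat_lit 527) (nat_lit 851) (nat_lit 2551))))
 (.n (nat_lit 367)
 (.l (.k1_9 (nat_lit 9) (nat_lit 367) (nat_lit 365) (nat_lit 373) (nat_lit 349) (nat_lit 385) (nat_lit 313) (nat_lit 421) (nat_lit 205) (nat_lit 529) (nat_lit 853) (nat_lit 2553)))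
 (.l (.k1_8 (nat_lit 6) (nat_lit 371) (nat_lit 373) (nat_lit 365) (nat_lit 389) (nat_lit 317) (nat_lit 425) (nat_lit 209) (nat_lit 533) (nat_lit 857) (nat_lit 2557)))))))
 (.n (nat_lit 397)
 (.n (nat_lit 385)
 (.n (nat_lit 375)
 (.n (nat_lit 373)
 (.l (.k1_9 (nat_lit 9) (nat_lit 373) (nat_lit 371) (nat_lit 375) (nat_lit 367) (nat_lit 391) (nat_lit 319) (nat_lit 427) (nat_lit 211) (nat_lit 535) (nat_lit 859) (nat_lit 2559)))
 (.l (.k0_7 (nat_lit 10) (nat_lit 375) (nat_lit 373) (nat_lit 393) (nat_lit 321) (nat_lit 429) (nat_lit 213) (nat_lit 537) (nat_lit 861))))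
 (.n (nat_lit 383)
 (.l (.k1_7 (nat_lit 7) (nat_lit 383) (nat_lit 385) (nat_lit 389) (nat_lit 365) (nat_lit 437) (nat_lit 221) (nat_lit 545) (nat_lit 869) (nat_lit 2569)))
 (.l (.k1_7 (nat_lit 7) (nat_lit 385) (nat_lit 383) (nat_lit 391) (nat_lit 367) (nat_lit 439) (nat_lit 223) (nat_lit 547) (nat_lit 871) (nat_lit 2571)))))
 (.n (nat_lit 391)
 (.n (nat_lit 389)
 (.l (.k1_7 (nat_lit 7) (nat_lit 389) (nat_lit 391) (nat_lit 383) (nat_lit 371) (nat_lit 443) (nat_lit 227) (nat_lit 551) (nat_lit 875) (nat_lit 2575)))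
 (.l (.k1_9 (nat_lit 9) (nat_lit 391) (nat_lit 389) (nat_lit 393) (nat_lit 385) (nat_lit 397) (nat_lit 373) (nat_lit 445) (nat_lit 229) (nat_lit 553) (nat_lit 877) (nat_lit 2577))))
 (.n (nat_lit 393)
 (.l (.k0_7 (nat_lit 9) (nat_lit 393) (nat_lit 391) (nat_lit 399) (nat_lit 375) (nat_lit 447) (nat_lit 231) (nat_lit 555) (nat_lit 879)))
 (.l (.k1_6 (nat_lit 9) (nat_lit 397) (nat_lit 399) (nat_lit 391) (nat_lit 451) (nat_lit 235) (nat_lit 559) (nat_lit 883) (nat_lit 2583))))))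
 (.n (nat_lit 421)
 (.n (nat_lit 413)
 (.n (nat_lit 399)
 (.l (.k0_6 (nat_lit 11) (nat_lit 399) (nat_lit 397) (nat_lit 393) (nat_lit 453) (nat_lit 237) (nat_lit 561) (nat_lit 885)))
 (.l (.k1_4 (nat_lit 8) (nat_lit 413) (nat_lit 419) (nat_lit 359) (nat_lit 575) (nat_lit 899) (nat_lit 2599))))
 (.n (nat_lit 419)
 (.l (.k1_7 (nat_lit 7) (nat_lit 419) (nat_lit 421) (nat_lit 413) (nat_lit 425) (nat_lit 437) (nat_lit 365) (nat_lit 581) (nat_lit 905) (nat_lit 2605)))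
 (.l (.k1_6 (nat_lit 8) (nat_lit 421) (nat_lit 419) (nat_lit 427) (nat_lit 439) (nat_lit 367) (nat_lit 583) (nat_lit 907) (nat_lit 2607)))))
 (.n (nat_lit 427)
 (.n (nat_lit 425)
 (.l (.k1_6 (nat_lit 4) (nat_lit 425) (nat_lit 427) (nat_lit 419) (nat_lit 443) (nat_lit 371) (nat_lit 587) (nat_lit 911) (nat_lit 2611)))
 (.l (.k1_7 (nat_lit 7) (nat_lit 427) (nat_lit 425) (nat_lit 429) (nat_lit 421) (nat_lit 445) (nat_lit 373) (nat_lit 589) (nat_lit 913) (nat_lit 2613))))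
 (.n (nat_lit 429)
 (.l (.k0_5 (nat_lit 8) (nat_lit 429) (nat_lit 427) (nat_lit 447) (nat_lit 375) (nat_lit 591) (nat_lit 915)))
 (.l (.k1_6 (nat_lit 8) (nat_lit 437) (nat_lit 439) (nat_lit 443) (nat_lit 419) (nat_lit 383) (nat_lit 599) (nat_lit 923) (nat_lit 2623)))))))))
 (.n (nat_lit 587)
 (.n (nat_lit 521)
 (.n (nat_lit 463)
 (.n (nat_lit 447)
 (.n (nat_lit 443)
 (.n (nat_lit 439)
 (.l (.k1_6 (nat_lit 8) (nat_lit 439) (nat_lit 437) (nat_lit 445) (nat_lit 421) (nat_lit 385) (nat_lit 601) (nat_lit 925) (nat_lit 2625)))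
 (.l (.k1_7 (nat_lit 7) (nat_lit 443) (nat_lit 445) (nat_lit 437) (nat_lit 425) (nat_lit 461) (nat_lit 389) (nat_lit 605) (nat_lit 929) (nat_lit 2629))))
 (.n (nat_lit 445)
 (.l (.k1_9 (nat_lit 9) (nat_lit 445) (nat_lit 443) (nat_lit 447) (nat_lit 439) (nat_lit 451) (nat_lit 427) (nat_lit 463) (nat_lit 391) (nat_lit 607) (nat_lit 931) (nat_lit 2631)))
 (.l (.k0_7 (nat_lit 9) (nat_lit 447) (nat_lit 445) (nat_lit 453) (nat_lit 429) (nat_lit 465) (nat_lit 393) (nat_lit 609) (nat_lit 933)))))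
 (.n (nat_lit 453)
 (.n (nat_lit 451)
 (.l (.k1_6 (nat_lit 8) (nat_lit 451) (nat_lit 453) (nat_lit 445) (nat_lit 469) (nat_lit 397) (nat_lit 613) (nat_lit 937) (nat_lit 2637)))
 (.l (.k0_6 (nat_lit 10) (nat_lit 453) (nat_lit 451) (nat_lit 447) (nat_lit 471) (nat_lit 399) (nat_lit 615) (nat_lit 939))))
 (.n (nat_lit 461)
 (.l (.k1_4 (nat_lit 8) (nat_lit 461) (nat_lit 463) (nat_lit 443) (nat_lit 623) (nat_lit 947) (nat_lit 2647)))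
 (.l (.k1_6 (nat_lit 9) (nat_lit 463) (nat_lit 461) (nat_lit 465) (nat_lit 469) (nat_lit 445) (nat_lit 625) (nat_lit 949) (nat_lit 2649))))))
 (.n (nat_lit 477)
 (.n (nat_lit 469)
 (.n (nat_lit 465)
 (.l (.k0_5 (nat_lit 8) (nat_lit 465) (nat_lit 463) (nat_lit 471) (nat_lit 447) (nat_lit 627) (nat_lit 951)))
 (.l (.k1_5 (nat_lit 10) (nat_lit 469) (nat_lit 471) (nat_lit 463) (nat_lit 451) (nat_lit 631) (nat_lit 955) (nat_lit 2655))))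
 (.n (nat_lit 471)
 (.l (.k0_6 (nat_lit 11) (nat_lit 471) (nat_lit 469) (nat_lit 465) (nat_lit 477) (nat_lit 453) (nat_lit 633) (nat_lit 957)))
 (.l (.k0_3 (nat_lit 12) (nat_lit 477) (nat_lit 471) (nat_lit 639) (nat_lit 963)))))
 (.n (nat_lit 509)
 (.n (nat_lit 503)
 (.l (.k1_4 (nat_lit 8) (nat_lit 503) (nat_lit 509) (nat_lit 521) (nat_lit 341) (nat_lit 989) (nat_lit 2689)))
 (.l (.k1_5 (nat_lit 6) (nat_lit 509) (nat_lit 511) (nat_lit 503) (nat_lit 527) (nat_lit 347) (nat_lit 995) (nat_lit 2695))))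
 (.n (nat_lit 511)
 (.l (.k1_4 (nat_lit 8) (nat_lit 511) (nat_lit 509) (nat_lit 529) (nat_lit 349) (nat_lit 997) (nat_lit 2697)))
 (.l (.k1_5 (nat_lit 6) (nat_lit 521) (nat_lit 527) (nat_lit 503) (nat_lit 575) (nat_lit 359) (nat_lit 1007) (nat_lit 2707)))))))
 (.n (nat_lit 551)
 (.n (nat_lit 535)
 (.n (nat_lit 529)
 (.n (nat_lit 527)
 (.l (.k1_8 (nat_lit 6) (nat_lit 527) (nat_lit 529) (nat_lit 521) (nat_lit 533) (nat_lit 509) (nat_lit 545) (nat_lit 581) (nat_lit 365) (nat_lit 1013) (nat_lit 2713)))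
 (.l (.k1_7 (nat_lit 7) (nat_lit 529) (nat_lit 527) (nat_lit 535) (nat_lit 511) (nat_lit 547) (nat_lit 583) (nat_lit 367) (nat_lit 1015) (nat_lit 2715))))
 (.n (nat_lit 533)
 (.l (.k1_6 (nat_lit 4) (nat_lit 533) (nat_lit 535) (nat_lit 527) (nat_lit 551) (nat_lit 587) (nat_lit 371) (nat_lit 1019) (nat_lit 2719)))
 (.l (.k1_7 (nat_lit 7) (nat_lit 535) (nat_lit 533) (nat_lit 537) (nat_lit 529) (nat_lit 553) (nat_lit 589) (nat_lit 373) (nat_lit 1021) (nat_lit 2721)))))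
 (.n (nat_lit 545)
 (.n (nat_lit 537)
 (.l (.k0_5 (nat_lit 8) (nat_lit 537) (nat_lit 535) (nat_lit 555) (nat_lit 591) (nat_lit 375) (nat_lit 1023)))
 (.l (.k1_6 (nat_lit 4) (nat_lit 545) (nat_lit 547) (nat_lit 551) (nat_lit 527) (nat_lit 599) (nat_lit 383) (nat_lit 1031) (nat_lit 2731))))
 (.n (nat_lit 547)
 (.l (.k1_6 (nat_lit 4) (nat_lit 547) (nat_lit 545) (nat_lit 553) (nat_lit 529) (nat_lit 601) (nat_lit 385) (nat_lit 1033) (nat_lit 2733)))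
 (.l (.k1_6 (nat_lit 4) (nat_lit 551) (nat_lit 553) (nat_lit 545) (nat_lit 533) (nat_lit 605) (nat_lit 389) (nat_lit 1037) (nat_lit 2737))))))
 (.n (nat_lit 561)
 (.n (nat_lit 555)
 (.n (nat_lit 553)
 (.l (.k1_8 (nat_lit 6) (nat_lit 553) (nat_lit 551) (nat_lit 555) (nat_lit 547) (nat_lit 559) (nat_lit 535) (nat_lit 607) (nat_lit 391) (nat_lit 1039) (nat_lit 2739)))
 (.l (.k0_6 (nat_lit 6) (nat_lit 555) (nat_lit 553) (nat_lit 561) (nat_lit 537) (nat_lit 609) (nat_lit 393) (nat_lit 1041))))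
 (.n (nat_lit 559)
 (.l (.k1_5 (nat_lit 6) (nat_lit 559) (nat_lit 561) (nat_lit 553) (nat_lit 613) (nat_lit 397) (nat_lit 1045) (nat_lit 2745)))
 (.l (.k0_5 (nat_lit 8) (nat_lit 561) (nat_lit 559) (nat_lit 555) (nat_lit 615) (nat_lit 399) (nat_lit 1047)))))
 (.n (nat_lit 581)
 (.n (nat_lit 575)
 (.l (.k1_4 (nat_lit 8) (nat_lit 575) (nat_lit 581) (nat_lit 521) (nat_lit 413) (nat_lit 1061) (nat_lit 2761)))
 (.l (.k1_7 (nat_lit 7) (nat_lit 581) (nat_lit 583) (nat_lit 575) (nat_lit 587) (nat_lit 599) (nat_lit 527) (nat_lit 419) (nat_lit 1067) (nat_lit 2767))))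
 (.n (nat_lit 583)
 (.l (.k1_6 (nat_lit 8) (nat_lit 583) (nat_lit 581) (nat_lit 589) (nat_lit 601) (nat_lit 529) (nat_lit 421) (nat_lit 1069) (nat_lit 2769)))
 (.l (.k1_6 (nat_lit 4) (nat_lit 587) (nat_lit 589) (nat_lit 581) (nat_lit 605) (nat_lit 533) (nat_lit 425) (nat_lit 1073) (nat_lit 2773))))))))
 (.n (nat_lit 653)
 (.n (nat_lit 613)
 (.n (nat_lit 601)
 (.n (nat_lit 591)
 (.n (nat_lit 589)
 (.l (.k1_7 (nat_lit 7) (nat_lit 589) (nat_lit 587) (nat_lit 591) (nat_lit 583) (nat_lit 607) (nat_lit 535) (nat_lit 427) (nat_lit 1075) (nat_lit 2775)))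
 (.l (.k0_5 (nat_lit 8) (nat_lit 591) (nat_lit 589) (nat_lit 609) (nat_lit 537) (nat_lit 429) (nat_lit 1077))))
 (.n (nat_lit 599)
 (.l (.k1_7 (nat_lit 7) (nat_lit 599) (nat_lit 601) (nat_lit 605) (nat_lit 581) (nat_lit 545) (nat_lit 653) (nat_lit 437) (nat_lit 1085) (nat_lit 2785)))
 (.l (.k1_7 (nat_lit 7) (nat_lit 601) (nat_lit 599) (nat_lit 607) (nat_lit 583) (nat_lit 547) (nat_lit 655) (nat_lit 439) (nat_lit 1087) (nat_lit 2787)))))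
 (.n (nat_lit 607)
 (.n (nat_lit 605)
 (.l (.k1_8 (nat_lit 6) (nat_lit 605) (nat_lit 607) (nat_lit 599) (nat_lit 587) (nat_lit 623) (nat_lit 551) (nat_lit 659) (nat_lit 443) (nat_lit 1091) (nat_lit 2791)))
 (.l (.k1_10 (nat_lit 8) (nat_lit 607) (nat_lit 605) (nat_lit 609) (nat_lit 601) (nat_lit 613) (nat_lit 589) (nat_lit 625) (nat_lit 553) (nat_lit 661) (nat_lit 445) (nat_lit 1093) (nat_lit 2793))))
 (.n (nat_lit 609)
 (.l (.k0_8 (nat_lit 8) (nat_lit 609) (nat_lit 607) (nat_lit 615) (nat_lit 591) (nat_lit 627) (nat_lit 555) (nat_lit 663) (nat_lit 447) (nat_lit 1095)))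
 (.l (.k1_7 (nat_lit 7) (nat_lit 613) (nat_lit 615) (nat_lit 607) (nat_lit 631) (nat_lit 559) (nat_lit 667) (nat_lit 451) (nat_lit 1099) (nat_lit 2799))))))
 (.n (nat_lit 627)
 (.n (nat_lit 623)
 (.n (nat_lit 615)
 (.l (.k0_7 (nat_lit 9) (nat_lit 615) (nat_lit 613) (nat_lit 609) (nat_lit 633) (nat_lit 561) (nat_lit 669) (nat_lit 453) (nat_lit 1101)))
 (.l (.k1_5 (nat_lit 6) (nat_lit 623) (nat_lit 625) (nat_lit 605) (nat_lit 677) (nat_lit 461) (nat_lit 1109) (nat_lit 2809))))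
 (.n (nat_lit 625)
 (.l (.k1_7 (nat_lit 7) (nat_lit 625) (nat_lit 623) (nat_lit 627) (nat_lit 631) (nat_lit 607) (nat_lit 679) (nat_lit 463) (nat_lit 1111) (nat_lit 2811)))
 (.l (.k0_6 (nat_lit 6) (nat_lit 627) (nat_lit 625) (nat_lit 633) (nat_lit 609) (nat_lit 681) (nat_lit 465) (nat_lit 1113)))))
 (.n (nat_lit 633)
 (.n (nat_lit 631)
 (.l (.k1_6 (nat_lit 8) (nat_lit 631) (nat_lit 633) (nat_lit 625) (nat_lit 613) (nat_lit 685) (nat_lit 469) (nat_lit 1117) (nat_lit 2817)))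
 (.l (.k0_7 (nat_lit 9) (nat_lit 633) (nat_lit 631) (nat_lit 627) (nat_lit 639) (nat_lit 615) (nat_lit 687) (nat_lit 471) (nat_lit 1119))))
 (.n (nat_lit 639)
 (.l (.k0_4 (nat_lit 10) (nat_lit 639) (nat_lit 633) (nat_lit 693) (nat_lit 477) (nat_lit 1125)))
 (.l (.k1_4 (nat_lit 8) (nat_lit 653) (nat_lit 655) (nat_lit 659) (nat_lit 599) (nat_lit 1139) (nat_lit 2839)))))))
 (.n (nat_lit 679)
 (.n (nat_lit 663)
 (.n (nat_lit 659)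
 (.n (nat_lit 655)
 (.l (.k1_4 (nat_lit 8) (nat_lit 655) (nat_lit 653) (nat_lit 661) (nat_lit 601) (nat_lit 1141) (nat_lit 2841)))
 (.l (.k1_5 (nat_lit 6) (nat_lit 659) (nat_lit 661) (nat_lit 653) (nat_lit 677) (nat_lit 605) (nat_lit 1145) (nat_lit 2845))))
 (.n (nat_lit 661)
 (.l (.k1_7 (nat_lit 8) (nat_lit 661) (nat_lit 659) (nat_lit 663) (nat_lit 655) (nat_lit 667) (nat_lit 679) (nat_lit 607) (nat_lit 1147) (nat_lit 2847)))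
 (.l (.k0_5 (nat_lit 8) (nat_lit 663) (nat_lit 661) (nat_lit 669) (nat_lit 681) (nat_lit 609) (nat_lit 1149)))))
 (.n (nat_lit 669)
 (.n (nat_lit 667)
 (.l (.k1_5 (nat_lit 6) (nat_lit 667) (nat_lit 669) (nat_lit 661) (nat_lit 685) (nat_lit 613) (nat_lit 1153) (nat_lit 2853)))
 (.l (.k0_5 (nat_lit 8) (nat_lit 669) (nat_lit 667) (nat_lit 663) (nat_lit 687) (nat_lit 615) (nat_lit 1155))))
 (.n (nat_lit 677)
 (.l (.k1_4 (nat_lit 8) (nat_lit 677) (nat_lit 679) (nat_lit 659) (nat_lit 623) (nat_lit 1163) (nat_lit 2863)))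
 (.l (.k1_6 (nat_lit 9) (nat_lit 679) (nat_lit 677) (nat_lit 681) (nat_lit 685) (nat_lit 661) (nat_lit 625) (nat_lit 1165) (nat_lit 2865))))))
 (.n (nat_lit 693)
 (.n (nat_lit 685)
 (.n (nat_lit 681)
 (.l (.k0_5 (nat_lit 8) (nat_lit 681) (nat_lit 679) (nat_lit 687) (nat_lit 663) (nat_lit 627) (nat_lit 1167)))
 (.l (.k1_6 (nat_lit 9) (nat_lit 685) (nat_lit 687) (nat_lit 679) (nat_lit 667) (nat_lit 703) (nat_lit 631) (nat_lit 1171) (nat_lit 2871))))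
 (.n (nat_lit 687)
 (.l (.k0_7 (nat_lit 10) (nat_lit 687) (nat_lit 685) (nat_lit 681) (nat_lit 693) (nat_lit 669) (nat_lit 705) (nat_lit 633) (nat_lit 1173)))
 (.l (.k0_4 (nat_lit 10) (nat_lit 693) (nat_lit 687) (nat_lit 711) (nat_lit 639) (nat_lit 1179)))))
 (.n (nat_lit 705)
 (.n (nat_lit 703)
 (.l (.k1_3 (nat_lit 10) (nat_lit 703) (nat_lit 705) (nat_lit 685) (nat_lit 1189) (nat_lit 2889)))
 (.l (.k0_4 (nat_lit 10) (nat_lit 705) (nat_lit 703) (nat_lit 711) (nat_lit 687) (nat_lit 1191))))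
 (.n (nat_lit 711)
 (.l (.k0_3 (nat_lit 12) (nat_lit 711) (nat_lit 705) (nat_lit 693) (nat_lit 1197)))
 (.l (.k1_3 (nat_lit 10) (nat_lit 755) (nat_lit 773) (nat_lit 269) (nat_lit 2213) (nat_lit 2941))))))))))
 (.n (nat_lit 1069)
 (.n (nat_lit 915)
 (.n (nat_lit 853)
 (.n (nat_lit 803)
 (.n (nat_lit 781)
 (.n (nat_lit 773)
 (.l (.k1_6 (nat_lit 9) (nat_lit 773) (nat_lit 779) (nat_lit 755) (nat_lit 791) (nat_lit 827) (nat_lit 287) (nat_lit 2231) (nat_lit 2959)))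
 (.n (nat_lit 779)
 (.l (.k1_6 (nat_lit 8) (nat_lit 779) (nat_lit 781) (nat_lit 773) (nat_lit 797) (nat_lit 833) (nat_lit 293) (nat_lit 2237) (nat_lit 2965)))
 (.l (.k1_5 (nat_lit 10) (nat_lit 781) (nat_lit 779) (nat_lit 799) (nat_lit 835) (nat_lit 295) (nat_lit 2239) (nat_lit 2967)))))
 (.n (nat_lit 797)
 (.n (nat_lit 791)
 (.l (.k1_5 (nat_lit 6) (nat_lit 791) (nat_lit 797) (nat_lit 773) (nat_lit 845) (nat_lit 305) (nat_lit 2249) (nat_lit 2977)))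
 (.l (.k1_7 (nat_lit 7) (nat_lit 797) (nat_lit 799) (nat_lit 791) (nat_lit 803) (nat_lit 779) (nat_lit 851) (nat_lit 311) (nat_lit 2255) (nat_lit 2983))))
 (.n (nat_lit 799)
 (.l (.k1_6 (nat_lit 8) (nat_lit 799) (nat_lit 797) (nat_lit 805) (nat_lit 781) (nat_lit 853) (nat_lit 313) (nat_lit 2257) (nat_lit 2985)))
 (.l (.k1_5 (nat_lit 6) (nat_lit 803) (nat_lit 805) (nat_lit 797) (nat_lit 857) (nat_lit 317) (nat_lit 2261) (nat_lit 2989))))))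
 (.n (nat_lit 833)
 (.n (nat_lit 807)
 (.n (nat_lit 805)
 (.l (.k1_6 (nat_lit 9) (nat_lit 805) (nat_lit 803) (nat_lit 807) (nat_lit 799) (nat_lit 859) (nat_lit 319) (nat_lit 2263) (nat_lit 2991)))
 (.l (.k0_4 (nat_lit 10) (nat_lit 807) (nat_lit 805) (nat_lit 861) (nat_lit 321) (nat_lit 2265))))
 (.n (nat_lit 827)
 (.l (.k1_6 (nat_lit 8) (nat_lit 827) (nat_lit 833) (nat_lit 845) (nat_lit 773) (nat_lit 989) (nat_lit 341) (nat_lit 2285) (nat_lit 3013)))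
 (.l (.k1_7 (nat_lit 6) (nat_lit 833) (nat_lit 835) (nat_lit 827) (nat_lit 851) (nat_lit 779) (nat_lit 995) (nat_lit 347) (nat_lit 2291) (nat_lit 3019)))))
 (.n (nat_lit 845)
 (.n (nat_lit 835)
 (.l (.k1_6 (nat_lit 8) (nat_lit 835) (nat_lit 833) (nat_lit 853) (nat_lit 781) (nat_lit 997) (nat_lit 349) (nat_lit 2293) (nat_lit 3021)))
 (.l (.k1_7 (nat_lit 7) (nat_lit 845) (nat_lit 851) (nat_lit 827) (nat_lit 791) (nat_lit 899) (nat_lit 1007) (nat_lit 359) (nat_lit 2303) (nat_lit 3031))))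
 (.n (nat_lit 851)
 (.l (.k1_10 (nat_lit 7) (nat_lit 851) (nat_lit 853) (nat_lit 845) (nat_lit 857) (nat_lit 833) (nat_lit 869) (nat_lit 797) (nat_lit 905) (nat_lit 1013) (nat_lit 365) (nat_lit 2309) (nat_lit 3037)))
 (.l (.k1_9 (nat_lit 8) (nat_lit 853) (nat_lit 851) (nat_lit 859) (nat_lit 835) (nat_lit 871) (nat_lit 799) (nat_lit 907) (nat_lit 1015) (nat_lit 367) (nat_lit 2311) (nat_lit 3039)))))))
 (.n (nat_lit 879)
 (.n (nat_lit 869)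
 (.n (nat_lit 859)
 (.n (nat_lit 857)
 (.l (.k1_8 (nat_lit 5) (nat_lit 857) (nat_lit 859) (nat_lit 851) (nat_lit 875) (nat_lit 803) (nat_lit 911) (nat_lit 1019) (nat_lit 371) (nat_lit 2315) (nat_lit 3043)))
 (.l (.k1_9 (nat_lit 8) (nat_lit 859) (nat_lit 857) (nat_lit 861) (nat_lit 853) (nat_lit 877) (nat_lit 805) (nat_lit 913) (nat_lit 1021) (nat_lit 373) (nat_lit 2317) (nat_lit 3045))))
 (.n (nat_lit 861)
 (.l (.k0_7 (nat_lit 9) (nat_lit 861) (nat_lit 859) (nat_lit 879) (nat_lit 807) (nat_lit 915) (nat_lit 1023) (nat_lit 375) (nat_lit 2319)))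
 (.l (.k1_7 (nat_lit 6) (nat_lit 869) (nat_lit 871) (nat_lit 875) (nat_lit 851) (nat_lit 923) (nat_lit 1031) (nat_lit 383) (nat_lit 2327) (nat_lit 3055)))))
 (.n (nat_lit 875)
 (.n (nat_lit 871)
 (.l (.k1_7 (nat_lit 6) (nat_lit 871) (nat_lit 869) (nat_lit 877) (nat_lit 853) (nat_lit 925) (nat_lit 1033) (nat_lit 385) (nat_lit 2329) (nat_lit 3057)))
 (.l (.k1_7 (nat_lit 6) (nat_lit 875) (nat_lit 877) (nat_lit 869) (nat_lit 857) (nat_lit 929) (nat_lit 1037) (nat_lit 389) (nat_lit 2333) (nat_lit 3061))))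
 (.n (nat_lit 877)
 (.l (.k1_9 (nat_lit 8) (nat_lit 877) (nat_lit 875) (nat_lit 879) (nat_lit 871) (nat_lit 883) (nat_lit 859) (nat_lit 931) (nat_lit 1039) (nat_lit 391) (nat_lit 2335) (nat_lit 3063)))
 (.l (.k0_7 (nat_lit 8) (nat_lit 879) (nat_lit 877) (nat_lit 885) (nat_lit 861) (nat_lit 933) (nat_lit 1041) (nat_lit 393) (nat_lit 2337))))))
 (.n (nat_lit 905)
 (.n (nat_lit 885)
 (.n (nat_lit 883)
 (.l (.k1_6 (nat_lit 8) (nat_lit 883) (nat_lit 885) (nat_lit 877) (nat_lit 937) (nat_lit 1045) (nat_lit 397) (nat_lit 2341) (nat_lit 3069)))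
 (.l (.k0_6 (nat_lit 10) (nat_lit 885) (nat_lit 883) (nat_lit 879) (nat_lit 939) (nat_lit 1047) (nat_lit 399) (nat_lit 2343))))
 (.n (nat_lit 899)
 (.l (.k1_5 (nat_lit 6) (nat_lit 899) (nat_lit 905) (nat_lit 845) (nat_lit 1061) (nat_lit 413) (nat_lit 2357) (nat_lit 3085)))
 (.l (.k1_8 (nat_lit 5) (nat_lit 905) (nat_lit 907) (nat_lit 899) (nat_lit 911) (nat_lit 923) (nat_lit 851) (nat_lit 1067) (nat_lit 419) (nat_lit 2363) (nat_lit 3091)))))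
 (.n (nat_lit 911)
 (.n (nat_lit 907)
 (.l (.k1_7 (nat_lit 6) (nat_lit 907) (nat_lit 905) (nat_lit 913) (nat_lit 925) (nat_lit 853) (nat_lit 1069) (nat_lit 421) (nat_lit 2365) (nat_lit 3093)))
 (.l (.k1_7 (nat_lit 2) (nat_lit 911) (nat_lit 913) (nat_lit 905) (nat_lit 929) (nat_lit 857) (nat_lit 1073) (nat_lit 425) (nat_lit 2369) (nat_lit 3097))))
 (.n (nat_lit 913)
 (.l (.k1_8 (nat_lit 5) (nat_lit 913) (nat_lit 911) (nat_lit 915) (nat_lit 907) (nat_lit 931) (nat_lit 859) (nat_lit 1075) (nat_lit 427) (nat_lit 2371) (nat_lit 3099)))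
 (.l (.k0_6 (nat_lit 6) (nat_lit 915) (nat_lit 913) (nat_lit 933) (nat_lit 861) (nat_lit 1077) (nat_lit 429) (nat_lit 2373))))))))
 (.n (nat_lit 997)
 (.n (nat_lit 947)
 (.n (nat_lit 931)
 (.n (nat_lit 925)
 (.n (nat_lit 923)
 (.l (.k1_7 (nat_lit 6) (nat_lit 923) (nat_lit 925) (nat_lit 929) (nat_lit 905) (nat_lit 869) (nat_lit 1085) (nat_lit 437) (nat_lit 2381) (nat_lit 3109)))
 (.l (.k1_7 (nat_lit 6) (nat_lit 925) (nat_lit 923) (nat_lit 931) (nat_lit 907) (nat_lit 871) (nat_lit 1087) (nat_lit 439) (nat_lit 2383) (nat_lit 3111))))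
 (.n (nat_lit 929)
 (.l (.k1_8 (nat_lit 5) (nat_lit 929) (nat_lit 931) (nat_lit 923) (nat_lit 911) (nat_lit 947) (nat_lit 875) (nat_lit 1091) (nat_lit 443) (nat_lit 2387) (nat_lit 3115)))
 (.l (.k1_10 (nat_lit 7) (nat_lit 931) (nat_lit 929) (nat_lit 933) (nat_lit 925) (nat_lit 937) (nat_lit 913) (nat_lit 949) (nat_lit 877) (nat_lit 1093) (nat_lit 445) (nat_lit 2389) (nat_lit 3117)))))
 (.n (nat_lit 937)
 (.n (nat_lit 933)
 (.l (.k0_8 (nat_lit 7) (nat_lit 933) (nat_lit 931) (nat_lit 939) (nat_lit 915) (nat_lit 951) (nat_lit 879) (nat_lit 1095) (nat_lit 447) (nat_lit 2391)))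
 (.l (.k1_7 (nat_lit 6) (nat_lit 937) (nat_lit 939) (nat_lit 931) (nat_lit 955) (nat_lit 883) (nat_lit 1099) (nat_lit 451) (nat_lit 2395) (nat_lit 3123))))
 (.n (nat_lit 939)
 (.l (.k0_7 (nat_lit 8) (nat_lit 939) (nat_lit 937) (nat_lit 933) (nat_lit 957) (nat_lit 885) (nat_lit 1101) (nat_lit 453) (nat_lit 2397)))
 (.l (.k1_5 (nat_lit 6) (nat_lit 947) (nat_lit 949) (nat_lit 929) (nat_lit 1109) (nat_lit 461) (nat_lit 2405) (nat_lit 3133))))))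
 (.n (nat_lit 957)
 (.n (nat_lit 951)
 (.n (nat_lit 949)
 (.l (.k1_7 (nat_lit 7) (nat_lit 949) (nat_lit 947) (nat_lit 951) (nat_lit 955) (nat_lit 931) (nat_lit 1111) (nat_lit 463) (nat_lit 2407) (nat_lit 3135)))
 (.l (.k0_6 (nat_lit 6) (nat_lit 951) (nat_lit 949) (nat_lit 957) (nat_lit 933) (nat_lit 1113) (nat_lit 465) (nat_lit 2409))))
 (.n (nat_lit 955)
 (.l (.k1_6 (nat_lit 8) (nat_lit 955) (nat_lit 957) (nat_lit 949) (nat_lit 937) (nat_lit 1117) (nat_lit 469) (nat_lit 2413) (nat_lit 3141)))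
 (.l (.k0_7 (nat_lit 9) (nat_lit 957) (nat_lit 955) (nat_lit 951) (nat_lit 963) (nat_lit 939) (nat_lit 1119) (nat_lit 471) (nat_lit 2415)))))
 (.n (nat_lit 989)
 (.n (nat_lit 963)
 (.l (.k0_4 (nat_lit 10) (nat_lit 963) (nat_lit 957) (nat_lit 1125) (nat_lit 477) (nat_lit 2421)))
 (.l (.k1_6 (nat_lit 9) (nat_lit 989) (nat_lit 995) (nat_lit 1007) (nat_lit 827) (nat_lit 503) (nat_lit 1475) (nat_lit 2447) (nat_lit 3175))))
 (.n (nat_lit 995)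
 (.l (.k1_7 (nat_lit 7) (nat_lit 995) (nat_lit 997) (nat_lit 989) (nat_lit 1013) (nat_lit 833) (nat_lit 509) (nat_lit 1481) (nat_lit 2453) (nat_lit 3181)))
 (.l (.k1_6 (nat_lit 9) (nat_lit 997) (nat_lit 995) (nat_lit 1015) (nat_lit 835) (nat_lit 511) (nat_lit 1483) (nat_lit 2455) (nat_lit 3183)))))))
 (.n (nat_lit 1033)
 (.n (nat_lit 1019)
 (.n (nat_lit 1013)
 (.n (nat_lit 1007)
 (.l (.k1_7 (nat_lit 7) (nat_lit 1007) (nat_lit 1013) (nat_lit 989) (nat_lit 1061) (nat_lit 845) (nat_lit 521) (nat_lit 1493) (nat_lit 2465) (nat_lit 3193)))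
 (.l (.k1_10 (nat_lit 7) (nat_lit 1013) (nat_lit 1015) (nat_lit 1007) (nat_lit 1019) (nat_lit 995) (nat_lit 1031) (nat_lit 1067) (nat_lit 851) (nat_lit 527) (nat_lit 1499) (nat_lit 2471) (nat_lit 3199))))
 (.n (nat_lit 1015)
 (.l (.k1_9 (nat_lit 8) (nat_lit 1015) (nat_lit 1013) (nat_lit 1021) (nat_lit 997) (nat_lit 1033) (nat_lit 1069) (nat_lit 853) (nat_lit 529) (nat_lit 1501) (nat_lit 2473) (nat_lit 3201)))
 (.l (.k1_8 (nat_lit 5) (nat_lit 1019) (nat_lit 1021) (nat_lit 1013) (nat_lit 1037) (nat_lit 1073) (nat_lit 857) (nat_lit 533) (nat_lit 1505) (nat_lit 2477) (nat_lit 3205)))))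
 (.n (nat_lit 1023)
 (.n (nat_lit 1021)
 (.l (.k1_9 (nat_lit 8) (nat_lit 1021) (nat_lit 1019) (nat_lit 1023) (nat_lit 1015) (nat_lit 1039) (nat_lit 1075) (nat_lit 859) (nat_lit 535) (nat_lit 1507) (nat_lit 2479) (nat_lit 3207)))
 (.l (.k0_7 (nat_lit 9) (nat_lit 1023) (nat_lit 1021) (nat_lit 1041) (nat_lit 1077) (nat_lit 861) (nat_lit 537) (nat_lit 1509) (nat_lit 2481))))
 (.n (nat_lit 1031)
 (.l (.k1_8 (nat_lit 5) (nat_lit 1031) (nat_lit 1033) (nat_lit 1037) (nat_lit 1013) (nat_lit 1085) (nat_lit 869) (nat_lit 545) (nat_lit 1517) (nat_lit 2489) (nat_lit 3217)))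
 (.l (.k1_8 (nat_lit 5) (nat_lit 1033) (nat_lit 1031) (nat_lit 1039) (nat_lit 1015) (nat_lit 1087) (nat_lit 871) (nat_lit 547) (nat_lit 1519) (nat_lit 2491) (nat_lit 3219))))))
 (.n (nat_lit 1045)
 (.n (nat_lit 1039)
 (.n (nat_lit 1037)
 (.l (.k1_8 (nat_lit 5) (nat_lit 1037) (nat_lit 1039) (nat_lit 1031) (nat_lit 1019) (nat_lit 1091) (nat_lit 875) (nat_lit 551) (nat_lit 1523) (nat_lit 2495) (nat_lit 3223)))
 (.l (.k1_10 (nat_lit 7) (nat_lit 1039) (nat_lit 1037) (nat_lit 1041) (nat_lit 1033) (nat_lit 1045) (nat_lit 1021) (nat_lit 1093) (nat_lit 877) (nat_lit 553) (nat_lit 1525) (nat_lit 2497) (nat_lit 3225))))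
 (.n (nat_lit 1041)
 (.l (.k0_8 (nat_lit 7) (nat_lit 1041) (nat_lit 1039) (nat_lit 1047) (nat_lit 1023) (nat_lit 1095) (nat_lit 879) (nat_lit 555) (nat_lit 1527) (nat_lit 2499)))
 (.l (.k1_7 (nat_lit 7) (nat_lit 1045) (nat_lit 1047) (nat_lit 1039) (nat_lit 1099) (nat_lit 883) (nat_lit 559) (nat_lit 1531) (nat_lit 2503) (nat_lit 3231)))))
 (.n (nat_lit 1061)
 (.n (nat_lit 1047)
 (.l (.k0_7 (nat_lit 9) (nat_lit 1047) (nat_lit 1045) (nat_lit 1041) (nat_lit 1101) (nat_lit 885) (nat_lit 561) (nat_lit 1533) (nat_lit 2505)))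
 (.l (.k1_7 (nat_lit 8) (nat_lit 1061) (nat_lit 1067) (nat_lit 1007) (nat_lit 899) (nat_lit 1223) (nat_lit 575) (nat_lit 1547) (nat_lit 2519) (nat_lit 3247))))
 (.n (nat_lit 1067)
 (.l (.k1_10 (nat_lit 7) (nat_lit 1067) (nat_lit 1069) (nat_lit 1061) (nat_lit 1073) (nat_lit 1085) (nat_lit 1013) (nat_lit 905) (nat_lit 1229) (nat_lit 581) (nat_lit 1553) (nat_lit 2525) (nat_lit 3253)))
 (.l (.k1_9 (nat_lit 8) (nat_lit 1069) (nat_lit 1067) (nat_lit 1075) (nat_lit 1087) (nat_lit 1015) (nat_lit 907) (nat_lit 1231) (nat_lit 583) (nat_lit 1555) (nat_lit 2527) (nat_lit 3255)))))))))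
 (.n (nat_lit 1197)
 (.n (nat_lit 1125)
 (.n (nat_lit 1095)
 (.n (nat_lit 1085)
 (.n (nat_lit 1075)
 (.n (nat_lit 1073)
 (.l (.k1_9 (nat_lit 4) (nat_lit 1073) (nat_lit 1075) (nat_lit 1067) (nat_lit 1091) (nat_lit 1019) (nat_lit 911) (nat_lit 1235) (nat_lit 587) (nat_lit 1559) (nat_lit 2531) (nat_lit 3259)))
 (.l (.k1_10 (nat_lit 7) (nat_lit 1075) (nat_lit 1073) (nat_lit 1077) (nat_lit 1069) (nat_lit 1093) (nat_lit 1021) (nat_lit 913) (nat_lit 1237) (nat_lit 589) (nat_lit 1561) (nat_lit 2533) (nat_lit 3261))))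
 (.n (nat_lit 1077)
 (.l (.k0_8 (nat_lit 8) (nat_lit 1077) (nat_lit 1075) (nat_lit 1095) (nat_lit 1023) (nat_lit 915) (nat_lit 1239) (nat_lit 591) (nat_lit 1563) (nat_lit 2535)))
 (.l (.k1_10 (nat_lit 7) (nat_lit 1085) (nat_lit 1087) (nat_lit 1091) (nat_lit 1067) (nat_lit 1031) (nat_lit 1139) (nat_lit 923) (nat_lit 1247) (nat_lit 599) (nat_lit 1571) (nat_lit 2543) (nat_lit 3271)))))
 (.n (nat_lit 1091)
 (.n (nat_lit 1087)
 (.l (.k1_10 (nat_lit 7) (nat_lit 1087) (nat_lit 1085) (nat_lit 1093) (nat_lit 1069) (nat_lit 1033) (nat_lit 1141) (nat_lit 925) (nat_lit 1249) (nat_lit 601) (nat_lit 1573) (nat_lit 2545) (nat_lit 3273)))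
 (.l (.k1_11 (nat_lit 6) (nat_lit 1091) (nat_lit 1093) (nat_lit 1085) (nat_lit 1073) (nat_lit 1109) (nat_lit 1037) (nat_lit 1145) (nat_lit 929) (nat_lit 1253) (nat_lit 605) (nat_lit 1577) (nat_lit 2549) (nat_lit 3277))))
 (.n (nat_lit 1093)
 (.l (.k1_13 (nat_lit 8) (nat_lit 1093) (nat_lit 1091) (nat_lit 1095) (nat_lit 1087) (nat_lit 1099) (nat_lit 1075) (nat_lit 1111) (nat_lit 1039) (nat_lit 1147) (nat_lit 931) (nat_lit 1255) (nat_lit 607) (nat_lit 1579) (nat_lit 2551) (nat_lit 3279)))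
 (.l (.k0_11 (nat_lit 8) (nat_lit 1095) (nat_lit 1093) (nat_lit 1101) (nat_lit 1077) (nat_lit 1113) (nat_lit 1041) (nat_lit 1149) (nat_lit 933) (nat_lit 1257) (nat_lit 609) (nat_lit 1581) (nat_lit 2553))))))
 (.n (nat_lit 1111)
 (.n (nat_lit 1101)
 (.n (nat_lit 1099)
 (.l (.k1_10 (nat_lit 7) (nat_lit 1099) (nat_lit 1101) (nat_lit 1093) (nat_lit 1117) (nat_lit 1045) (nat_lit 1153) (nat_lit 937) (nat_lit 1261) (nat_lit 613) (nat_lit 1585) (nat_lit 2557) (nat_lit 3285)))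
 (.l (.k0_10 (nat_lit 9) (nat_lit 1101) (nat_lit 1099) (nat_lit 1095) (nat_lit 1119) (nat_lit 1047) (nat_lit 1155) (nat_lit 939) (nat_lit 1263) (nat_lit 615) (nat_lit 1587) (nat_lit 2559))))
 (.n (nat_lit 1109)
 (.l (.k1_8 (nat_lit 6) (nat_lit 1109) (nat_lit 1111) (nat_lit 1091) (nat_lit 1163) (nat_lit 947) (nat_lit 1271) (nat_lit 623) (nat_lit 1595) (nat_lit 2567) (nat_lit 3295)))
 (.l (.k1_10 (nat_lit 7) (nat_lit 1111) (nat_lit 1109) (nat_lit 1113) (nat_lit 1117) (nat_lit 1093) (nat_lit 1165) (nat_lit 949) (nat_lit 1273) (nat_lit 625) (nat_lit 1597) (nat_lit 2569) (nat_lit 3297)))))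
 (.n (nat_lit 1117)
 (.n (nat_lit 1113)
 (.l (.k0_9 (nat_lit 6) (nat_lit 1113) (nat_lit 1111) (nat_lit 1119) (nat_lit 1095) (nat_lit 1167) (nat_lit 951) (nat_lit 1275) (nat_lit 627) (nat_lit 1599) (nat_lit 2571)))
 (.l (.k1_9 (nat_lit 8) (nat_lit 1117) (nat_lit 1119) (nat_lit 1111) (nat_lit 1099) (nat_lit 1171) (nat_lit 955) (nat_lit 1279) (nat_lit 631) (nat_lit 1603) (nat_lit 2575) (nat_lit 3303))))
 (.n (nat_lit 1119)
 (.l (.k0_10 (nat_lit 9) (nat_lit 1119) (nat_lit 1117) (nat_lit 1113) (nat_lit 1125) (nat_lit 1101) (nat_lit 1173) (nat_lit 957) (nat_lit 1281) (nat_lit 633) (nat_lit 1605) (nat_lit 2577)))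
 (.l (.k0_7 (nat_lit 10) (nat_lit 1125) (nat_lit 1119) (nat_lit 1179) (nat_lit 963) (nat_lit 1287) (nat_lit 639) (nat_lit 1611) (nat_lit 2583)))))))
 (.n (nat_lit 1163)
 (.n (nat_lit 1147)
 (.n (nat_lit 1141)
 (.n (nat_lit 1139)
 (.l (.k1_7 (nat_lit 7) (nat_lit 1139) (nat_lit 1141) (nat_lit 1145) (nat_lit 1085) (nat_lit 1301) (nat_lit 653) (nat_lit 1625) (nat_lit 2597) (nat_lit 3325)))
 (.l (.k1_7 (nat_lit 7) (nat_lit 1141) (nat_lit 1139) (nat_lit 1147) (nat_lit 1087) (nat_lit 1303) (nat_lit 655) (nat_lit 1627) (nat_lit 2599) (nat_lit 3327))))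
 (.n (nat_lit 1145)
 (.l (.k1_8 (nat_lit 5) (nat_lit 1145) (nat_lit 1147) (nat_lit 1139) (nat_lit 1163) (nat_lit 1091) (nat_lit 1307) (nat_lit 659) (nat_lit 1631) (nat_lit 2603) (nat_lit 3331)))
 (.l (.k1_10 (nat_lit 7) (nat_lit 1147) (nat_lit 1145) (nat_lit 1149) (nat_lit 1141) (nat_lit 1153) (nat_lit 1165) (nat_lit 1093) (nat_lit 1309) (nat_lit 661) (nat_lit 1633) (nat_lit 2605) (nat_lit 3333)))))
 (.n (nat_lit 1153)
 (.n (nat_lit 1149)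
 (.l (.k0_8 (nat_lit 7) (nat_lit 1149) (nat_lit 1147) (nat_lit 1155) (nat_lit 1167) (nat_lit 1095) (nat_lit 1311) (nat_lit 663) (nat_lit 1635) (nat_lit 2607)))
 (.l (.k1_8 (nat_lit 5) (nat_lit 1153) (nat_lit 1155) (nat_lit 1147) (nat_lit 1171) (nat_lit 1099) (nat_lit 1315) (nat_lit 667) (nat_lit 1639) (nat_lit 2611) (nat_lit 3339))))
 (.n (nat_lit 1155)
 (.l (.k0_8 (nat_lit 7) (nat_lit 1155) (nat_lit 1153) (nat_lit 1149) (nat_lit 1173) (nat_lit 1101) (nat_lit 1317) (nat_lit 669) (nat_lit 1641) (nat_lit 2613)))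
 (.l (.k1_7 (nat_lit 7) (nat_lit 1163) (nat_lit 1165) (nat_lit 1145) (nat_lit 1109) (nat_lit 1325) (nat_lit 677) (nat_lit 1649) (nat_lit 2621) (nat_lit 3349))))))
 (.n (nat_lit 1173)
 (.n (nat_lit 1167)
 (.n (nat_lit 1165)
 (.l (.k1_9 (nat_lit 8) (nat_lit 1165) (nat_lit 1163) (nat_lit 1167) (nat_lit 1171) (nat_lit 1147) (nat_lit 1111) (nat_lit 1327) (nat_lit 679) (nat_lit 1651) (nat_lit 2623) (nat_lit 3351)))
 (.l (.k0_8 (nat_lit 7) (nat_lit 1167) (nat_lit 1165) (nat_lit 1173) (nat_lit 1149) (nat_lit 1113) (nat_lit 1329) (nat_lit 681) (nat_lit 1653) (nat_lit 2625))))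
 (.n (nat_lit 1171)
 (.l (.k1_9 (nat_lit 8) (nat_lit 1171) (nat_lit 1173) (nat_lit 1165) (nat_lit 1153) (nat_lit 1189) (nat_lit 1117) (nat_lit 1333) (nat_lit 685) (nat_lit 1657) (nat_lit 2629) (nat_lit 3357)))
 (.l (.k0_10 (nat_lit 9) (nat_lit 1173) (nat_lit 1171) (nat_lit 1167) (nat_lit 1179) (nat_lit 1155) (nat_lit 1191) (nat_lit 1119) (nat_lit 1335) (nat_lit 687) (nat_lit 1659) (nat_lit 2631)))))
 (.n (nat_lit 1189)
 (.n (nat_lit 1179)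
 (.l (.k0_7 (nat_lit 9) (nat_lit 1179) (nat_lit 1173) (nat_lit 1197) (nat_lit 1125) (nat_lit 1341) (nat_lit 693) (nat_lit 1665) (nat_lit 2637)))
 (.l (.k1_6 (nat_lit 9) (nat_lit 1189) (nat_lit 1191) (nat_lit 1171) (nat_lit 1351) (nat_lit 703) (nat_lit 1675) (nat_lit 2647) (nat_lit 3375))))
 (.n (nat_lit 1191)
 (.l (.k0_7 (nat_lit 9) (nat_lit 1191) (nat_lit 1189) (nat_lit 1197) (nat_lit 1173) (nat_lit 1353) (nat_lit 705) (nat_lit 1677) (nat_lit 2649)))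
 (.l (.k0_6 (nat_lit 11) (nat_lit 1197) (nat_lit 1191) (nat_lit 1179) (nat_lit 1359) (nat_lit 711) (nat_lit 1683) (nat_lit 2655))))))))
 (.n (nat_lit 1275)
 (.n (nat_lit 1249)
 (.n (nat_lit 1235)
 (.n (nat_lit 1229)
 (.n (nat_lit 1223)
 (.l (.k1_4 (nat_lit 8) (nat_lit 1223) (nat_lit 1229) (nat_lit 1061) (nat_lit 1709) (nat_lit 2681) (nat_lit 3409)))
 (.l (.k1_7 (nat_lit 7) (nat_lit 1229) (nat_lit 1231) (nat_lit 1223) (nat_lit 1235) (nat_lit 1247) (nat_lit 1067) (nat_lit 1715) (nat_lit 2687) (nat_lit 3415))))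
 (.n (nat_lit 1231)
 (.l (.k1_6 (nat_lit 8) (nat_lit 1231) (nat_lit 1229) (nat_lit 1237) (nat_lit 1249) (nat_lit 1069) (nat_lit 1717) (nat_lit 2689) (nat_lit 3417)))
 (.l (.k1_6 (nat_lit 4) (nat_lit 1235) (nat_lit 1237) (nat_lit 1229) (nat_lit 1253) (nat_lit 1073) (nat_lit 1721) (nat_lit 2693) (nat_lit 3421)))))
 (.n (nat_lit 1239)
 (.n (nat_lit 1237)
 (.l (.k1_7 (nat_lit 7) (nat_lit 1237) (nat_lit 1235) (nat_lit 1239) (nat_lit 1231) (nat_lit 1255) (nat_lit 1075) (nat_lit 1723) (nat_lit 2695) (nat_lit 3423)))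
 (.l (.k0_5 (nat_lit 8) (nat_lit 1239) (nat_lit 1237) (nat_lit 1257) (nat_lit 1077) (nat_lit 1725) (nat_lit 2697))))
 (.n (nat_lit 1247)
 (.l (.k1_7 (nat_lit 6) (nat_lit 1247) (nat_lit 1249) (nat_lit 1253) (nat_lit 1229) (nat_lit 1301) (nat_lit 1085) (nat_lit 1733) (nat_lit 2705) (nat_lit 3433)))
 (.l (.k1_7 (nat_lit 6) (nat_lit 1249) (nat_lit 1247) (nat_lit 1255) (nat_lit 1231) (nat_lit 1303) (nat_lit 1087) (nat_lit 1735) (nat_lit 2707) (nat_lit 3435))))))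
 (.n (nat_lit 1261)
 (.n (nat_lit 1255)
 (.n (nat_lit 1253)
 (.l (.k1_8 (nat_lit 5) (nat_lit 1253) (nat_lit 1255) (nat_lit 1247) (nat_lit 1235) (nat_lit 1271) (nat_lit 1307) (nat_lit 1091) (nat_lit 1739) (nat_lit 2711) (nat_lit 3439)))
 (.l (.k1_10 (nat_lit 7) (nat_lit 1255) (nat_lit 1253) (nat_lit 1257) (nat_lit 1249) (nat_lit 1261) (nat_lit 1237) (nat_lit 1273) (nat_lit 1309) (nat_lit 1093) (nat_lit 1741) (nat_lit 2713) (nat_lit 3441))))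
 (.n (nat_lit 1257)
 (.l (.k0_8 (nat_lit 7) (nat_lit 1257) (nat_lit 1255) (nat_lit 1263) (nat_lit 1239) (nat_lit 1275) (nat_lit 1311) (nat_lit 1095) (nat_lit 1743) (nat_lit 2715)))
 (.l (.k1_7 (nat_lit 6) (nat_lit 1261) (nat_lit 1263) (nat_lit 1255) (nat_lit 1279) (nat_lit 1315) (nat_lit 1099) (nat_lit 1747) (nat_lit 2719) (nat_lit 3447)))))
 (.n (nat_lit 1271)
 (.n (nat_lit 1263)
 (.l (.k0_7 (nat_lit 8) (nat_lit 1263) (nat_lit 1261) (nat_lit 1257) (nat_lit 1281) (nat_lit 1317) (nat_lit 1101) (nat_lit 1749) (nat_lit 2721)))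
 (.l (.k1_6 (nat_lit 4) (nat_lit 1271) (nat_lit 1273) (nat_lit 1253) (nat_lit 1325) (nat_lit 1109) (nat_lit 1757) (nat_lit 2729) (nat_lit 3457))))
 (.n (nat_lit 1273)
 (.l (.k1_8 (nat_lit 5) (nat_lit 1273) (nat_lit 1271) (nat_lit 1275) (nat_lit 1279) (nat_lit 1255) (nat_lit 1327) (nat_lit 1111) (nat_lit 1759) (nat_lit 2731) (nat_lit 3459)))
 (.l (.k0_7 (nat_lit 4) (nat_lit 1275) (nat_lit 1273) (nat_lit 1281) (nat_lit 1257) (nat_lit 1329) (nat_lit 1113) (nat_lit 1761) (nat_lit 2733)))))))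
 (.n (nat_lit 1311)
 (.n (nat_lit 1301)
 (.n (nat_lit 1281)
 (.n (nat_lit 1279)
 (.l (.k1_7 (nat_lit 6) (nat_lit 1279) (nat_lit 1281) (nat_lit 1273) (nat_lit 1261) (nat_lit 1333) (nat_lit 1117) (nat_lit 1765) (nat_lit 2737) (nat_lit 3465)))
 (.l (.k0_8 (nat_lit 7) (nat_lit 1281) (nat_lit 1279) (nat_lit 1275) (nat_lit 1287) (nat_lit 1263) (nat_lit 1335) (nat_lit 1119) (nat_lit 1767) (nat_lit 2739))))
 (.n (nat_lit 1287)
 (.l (.k0_5 (nat_lit 8) (nat_lit 1287) (nat_lit 1281) (nat_lit 1341) (nat_lit 1125) (nat_lit 1773) (nat_lit 2745)))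
 (.l (.k1_6 (nat_lit 8) (nat_lit 1301) (nat_lit 1303) (nat_lit 1307) (nat_lit 1247) (nat_lit 1139) (nat_lit 1787) (nat_lit 2759) (nat_lit 3487)))))
 (.n (nat_lit 1307)
 (.n (nat_lit 1303)
 (.l (.k1_6 (nat_lit 8) (nat_lit 1303) (nat_lit 1301) (nat_lit 1309) (nat_lit 1249) (nat_lit 1141) (nat_lit 1789) (nat_lit 2761) (nat_lit 3489)))
 (.l (.k1_7 (nat_lit 6) (nat_lit 1307) (nat_lit 1309) (nat_lit 1301) (nat_lit 1325) (nat_lit 1253) (nat_lit 1145) (nat_lit 1793) (nat_lit 2765) (nat_lit 3493))))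
 (.n (nat_lit 1309)
 (.l (.k1_9 (nat_lit 8) (nat_lit 1309) (nat_lit 1307) (nat_lit 1311) (nat_lit 1303) (nat_lit 1315) (nat_lit 1327) (nat_lit 1255) (nat_lit 1147) (nat_lit 1795) (nat_lit 2767) (nat_lit 3495)))
 (.l (.k0_7 (nat_lit 8) (nat_lit 1311) (nat_lit 1309) (nat_lit 1317) (nat_lit 1329) (nat_lit 1257) (nat_lit 1149) (nat_lit 1797) (nat_lit 2769))))))
 (.n (nat_lit 1327)
 (.n (nat_lit 1317)
 (.n (nat_lit 1315)
 (.l (.k1_7 (nat_lit 6) (nat_lit 1315) (nat_lit 1317) (nat_lit 1309) (nat_lit 1333) (nat_lit 1261) (nat_lit 1153) (nat_lit 1801) (nat_lit 2773) (nat_lit 3501)))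
 (.l (.k0_7 (nat_lit 8) (nat_lit 1317) (nat_lit 1315) (nat_lit 1311) (nat_lit 1335) (nat_lit 1263) (nat_lit 1155) (nat_lit 1803) (nat_lit 2775))))
 (.n (nat_lit 1325)
 (.l (.k1_7 (nat_lit 7) (nat_lit 1325) (nat_lit 1327) (nat_lit 1307) (nat_lit 1271) (nat_lit 1379) (nat_lit 1163) (nat_lit 1811) (nat_lit 2783) (nat_lit 3511)))
 (.l (.k1_9 (nat_lit 8) (nat_lit 1327) (nat_lit 1325) (nat_lit 1329) (nat_lit 1333) (nat_lit 1309) (nat_lit 1273) (nat_lit 1381) (nat_lit 1165) (nat_lit 1813) (nat_lit 2785) (nat_lit 3513)))))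
 (.n (nat_lit 1333)
 (.n (nat_lit 1329)
 (.l (.k0_8 (nat_lit 7) (nat_lit 1329) (nat_lit 1327) (nat_lit 1335) (nat_lit 1311) (nat_lit 1275) (nat_lit 1383) (nat_lit 1167) (nat_lit 1815) (nat_lit 2787)))
 (.l (.k1_9 (nat_lit 8) (nat_lit 1333) (nat_lit 1335) (nat_lit 1327) (nat_lit 1315) (nat_lit 1351) (nat_lit 1279) (nat_lit 1387) (nat_lit 1171) (nat_lit 1819) (nat_lit 2791) (nat_lit 3519))))
 (.n (nat_lit 1335)
 (.l (.k0_10 (nat_lit 9) (nat_lit 1335) (nat_lit 1333) (nat_lit 1329) (nat_lit 1341) (nat_lit 1317) (nat_lit 1353) (nat_lit 1281) (nat_lit 1389) (nat_lit 1173) (nat_lit 1821) (nat_lit 2793)))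
 (.l (.k0_7 (nat_lit 9) (nat_lit 1341) (nat_lit 1335) (nat_lit 1359) (nat_lit 1287) (nat_lit 1395) (nat_lit 1179) (nat_lit 1827) (nat_lit 2799)))))))))))
 (.n (nat_lit 2029)
 (.n (nat_lit 1677)
 (.n (nat_lit 1553)
 (.n (nat_lit 1481)
 (.n (nat_lit 1387)
 (.n (nat_lit 1359)
 (.n (nat_lit 1351)
 (.l (.k1_6 (nat_lit 8) (nat_lit 1351) (nat_lit 1353) (nat_lit 1333) (nat_lit 1405) (nat_lit 1189) (nat_lit 1837) (nat_lit 2809) (nat_lit 3537)))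
 (.n (nat_lit 1353)
 (.l (.k0_7 (nat_lit 8) (nat_lit 1353) (nat_lit 1351) (nat_lit 1359) (nat_lit 1335) (nat_lit 1407) (nat_lit 1191) (nat_lit 1839) (nat_lit 2811)))
 (.l (.k0_6 (nat_lit 10) (nat_lit 1359) (nat_lit 1353) (nat_lit 1341) (nat_lit 1413) (nat_lit 1197) (nat_lit 1845) (nat_lit 2817)))))
 (.n (nat_lit 1381)
 (.n (nat_lit 1379)
 (.l (.k1_4 (nat_lit 8) (nat_lit 1379) (nat_lit 1381) (nat_lit 1325) (nat_lit 1865) (nat_lit 2837) (nat_lit 3565)))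
 (.l (.k1_6 (nat_lit 9) (nat_lit 1381) (nat_lit 1379) (nat_lit 1383) (nat_lit 1387) (nat_lit 1327) (nat_lit 1867) (nat_lit 2839) (nat_lit 3567))))
 (.n (nat_lit 1383)
 (.l (.k0_5 (nat_lit 8) (nat_lit 1383) (nat_lit 1381) (nat_lit 1389) (nat_lit 1329) (nat_lit 1869) (nat_lit 2841)))
 (.l (.k1_6 (nat_lit 8) (nat_lit 1387) (nat_lit 1389) (nat_lit 1381) (nat_lit 1405) (nat_lit 1333) (nat_lit 1873) (nat_lit 2845) (nat_lit 3573))))))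
 (.n (nat_lit 1407)
 (.n (nat_lit 1395)
 (.n (nat_lit 1389)
 (.l (.k0_7 (nat_lit 9) (nat_lit 1389) (nat_lit 1387) (nat_lit 1383) (nat_lit 1395) (nat_lit 1407) (nat_lit 1335) (nat_lit 1875) (nat_lit 2847)))
 (.l (.k0_5 (nat_lit 8) (nat_lit 1395) (nat_lit 1389) (nat_lit 1413) (nat_lit 1341) (nat_lit 1881) (nat_lit 2853))))
 (.n (nat_lit 1405)
 (.l (.k1_5 (nat_lit 10) (nat_lit 1405) (nat_lit 1407) (nat_lit 1387) (nat_lit 1351) (nat_lit 1891) (nat_lit 2863) (nat_lit 3591)))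
 (.l (.k0_6 (nat_lit 10) (nat_lit 1407) (nat_lit 1405) (nat_lit 1413) (nat_lit 1389) (nat_lit 1353) (nat_lit 1893) (nat_lit 2865)))))
 (.n (nat_lit 1431)
 (.n (nat_lit 1413)
 (.l (.k0_6 (nat_lit 11) (nat_lit 1413) (nat_lit 1407) (nat_lit 1395) (nat_lit 1431) (nat_lit 1359) (nat_lit 1899) (nat_lit 2871)))
 (.l (.k0_3 (nat_lit 12) (nat_lit 1431) (nat_lit 1413) (nat_lit 1917) (nat_lit 2889))))
 (.n (nat_lit 1475)
 (.l (.k1_4 (nat_lit 8) (nat_lit 1475) (nat_lit 1481) (nat_lit 1493) (nat_lit 989) (nat_lit 2933) (nat_lit 3661)))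
 (.l (.k1_5 (nat_lit 6) (nat_lit 1481) (nat_lit 1483) (nat_lit 1475) (nat_lit 1499) (nat_lit 995) (nat_lit 2939) (nat_lit 3667)))))))
 (.n (nat_lit 1517)
 (.n (nat_lit 1501)
 (.n (nat_lit 1493)
 (.n (nat_lit 1483)
 (.l (.k1_4 (nat_lit 8) (nat_lit 1483) (nat_lit 1481) (nat_lit 1501) (nat_lit 997) (nat_lit 2941) (nat_lit 3669)))
 (.l (.k1_5 (nat_lit 6) (nat_lit 1493) (nat_lit 1499) (nat_lit 1475) (nat_lit 1547) (nat_lit 1007) (nat_lit 2951) (nat_lit 3679))))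
 (.n (nat_lit 1499)
 (.l (.k1_8 (nat_lit 6) (nat_lit 1499) (nat_lit 1501) (nat_lit 1493) (nat_lit 1505) (nat_lit 1481) (nat_lit 1517) (nat_lit 1553) (nat_lit 1013) (nat_lit 2957) (nat_lit 3685)))
 (.l (.k1_7 (nat_lit 7) (nat_lit 1501) (nat_lit 1499) (nat_lit 1507) (nat_lit 1483) (nat_lit 1519) (nat_lit 1555) (nat_lit 1015) (nat_lit 2959) (nat_lit 3687)))))
 (.n (nat_lit 1507)
 (.n (nat_lit 1505)
 (.l (.k1_6 (nat_lit 4) (nat_lit 1505) (nat_lit 1507) (nat_lit 1499) (nat_lit 1523) (nat_lit 1559) (nat_lit 1019) (nat_lit 2963) (nat_lit 3691)))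
 (.l (.k1_7 (nat_lit 7) (nat_lit 1507) (nat_lit 1505) (nat_lit 1509) (nat_lit 1501) (nat_lit 1525) (nat_lit 1561) (nat_lit 1021) (nat_lit 2965) (nat_lit 3693))))
 (.n (nat_lit 1509)
 (.l (.k0_5 (nat_lit 8) (nat_lit 1509) (nat_lit 1507) (nat_lit 1527) (nat_lit 1563) (nat_lit 1023) (nat_lit 2967)))
 (.l (.k1_6 (nat_lit 4) (nat_lit 1517) (nat_lit 1519) (nat_lit 1523) (nat_lit 1499) (nat_lit 1571) (nat_lit 1031) (nat_lit 2975) (nat_lit 3703))))))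
 (.n (nat_lit 1527)
 (.n (nat_lit 1523)
 (.n (nat_lit 1519)
 (.l (.k1_6 (nat_lit 4) (nat_lit 1519) (nat_lit 1517) (nat_lit 1525) (nat_lit 1501) (nat_lit 1573) (nat_lit 1033) (nat_lit 2977) (nat_lit 3705)))
 (.l (.k1_6 (nat_lit 4) (nat_lit 1523) (nat_lit 1525) (nat_lit 1517) (nat_lit 1505) (nat_lit 1577) (nat_lit 1037) (nat_lit 2981) (nat_lit 3709))))
 (.n (nat_lit 1525)
 (.l (.k1_8 (nat_lit 6) (nat_lit 1525) (nat_lit 1523) (nat_lit 1527) (nat_lit 1519) (nat_lit 1531) (nat_lit 1507) (nat_lit 1579) (nat_lit 1039) (nat_lit 2983) (nat_lit 3711)))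
 (.l (.k0_6 (nat_lit 6) (nat_lit 1527) (nat_lit 1525) (nat_lit 1533) (nat_lit 1509) (nat_lit 1581) (nat_lit 1041) (nat_lit 2985)))))
 (.n (nat_lit 1533)
 (.n (nat_lit 1531)
 (.l (.k1_5 (nat_lit 6) (nat_lit 1531) (nat_lit 1533) (nat_lit 1525) (nat_lit 1585) (nat_lit 1045) (nat_lit 2989) (nat_lit 3717)))
 (.l (.k0_5 (nat_lit 8) (nat_lit 1533) (nat_lit 1531) (nat_lit 1527) (nat_lit 1587) (nat_lit 1047) (nat_lit 2991))))
 (.n (nat_lit 1547)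
 (.l (.k1_5 (nat_lit 6) (nat_lit 1547) (nat_lit 1553) (nat_lit 1493) (nat_lit 1709) (nat_lit 1061) (nat_lit 3005) (nat_lit 3733)))
 (.l (.k1_8 (nat_lit 5) (nat_lit 1553) (nat_lit 1555) (nat_lit 1547) (nat_lit 1559) (nat_lit 1571) (nat_lit 1499) (nat_lit 1715) (nat_lit 1067) (nat_lit 3011) (nat_lit 3739))))))))
 (.n (nat_lit 1605)
 (.n (nat_lit 1579)
 (.n (nat_lit 1563)
 (.n (nat_lit 1559)
 (.n (nat_lit 1555)
 (.l (.k1_7 (nat_lit 6) (nat_lit 1555) (nat_lit 1553) (nat_lit 1561) (nat_lit 1573) (nat_lit 1501) (nat_lit 1717) (nat_lit 1069) (nat_lit 3013) (nat_lit 3741)))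
 (.l (.k1_7 (nat_lit 2) (nat_lit 1559) (nat_lit 1561) (nat_lit 1553) (nat_lit 1577) (nat_lit 1505) (nat_lit 1721) (nat_lit 1073) (nat_lit 3017) (nat_lit 3745))))
 (.n (nat_lit 1561)
 (.l (.k1_8 (nat_lit 5) (nat_lit 1561) (nat_lit 1559) (nat_lit 1563) (nat_lit 1555) (nat_lit 1579) (nat_lit 1507) (nat_lit 1723) (nat_lit 1075) (nat_lit 3019) (nat_lit 3747)))
 (.l (.k0_6 (nat_lit 6) (nat_lit 1563) (nat_lit 1561) (nat_lit 1581) (nat_lit 1509) (nat_lit 1725) (nat_lit 1077) (nat_lit 3021)))))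
 (.n (nat_lit 1573)
 (.n (nat_lit 1571)
 (.l (.k1_8 (nat_lit 5) (nat_lit 1571) (nat_lit 1573) (nat_lit 1577) (nat_lit 1553) (nat_lit 1517) (nat_lit 1625) (nat_lit 1733) (nat_lit 1085) (nat_lit 3029) (nat_lit 3757)))
 (.l (.k1_8 (nat_lit 5) (nat_lit 1573) (nat_lit 1571) (nat_lit 1579) (nat_lit 1555) (nat_lit 1519) (nat_lit 1627) (nat_lit 1735) (nat_lit 1087) (nat_lit 3031) (nat_lit 3759))))
 (.n (nat_lit 1577)
 (.l (.k1_9 (nat_lit 4) (nat_lit 1577) (nat_lit 1579) (nat_lit 1571) (nat_lit 1559) (nat_lit 1595) (nat_lit 1523) (nat_lit 1631) (nat_lit 1739) (nat_lit 1091) (nat_lit 3035) (nat_lit 3763)))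
 (.l (.k1_11 (nat_lit 6) (nat_lit 1579) (nat_lit 1577) (nat_lit 1581) (nat_lit 1573) (nat_lit 1585) (nat_lit 1561) (nat_lit 1597) (nat_lit 1525) (nat_lit 1633) (nat_lit 1741) (nat_lit 1093) (nat_lit 3037) (nat_lit 3765))))))
 (.n (nat_lit 1595)
 (.n (nat_lit 1585)
 (.n (nat_lit 1581)
 (.l (.k0_9 (nat_lit 6) (nat_lit 1581) (nat_lit 1579) (nat_lit 1587) (nat_lit 1563) (nat_lit 1599) (nat_lit 1527) (nat_lit 1635) (nat_lit 1743) (nat_lit 1095) (nat_lit 3039)))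
 (.l (.k1_8 (nat_lit 5) (nat_lit 1585) (nat_lit 1587) (nat_lit 1579) (nat_lit 1603) (nat_lit 1531) (nat_lit 1639) (nat_lit 1747) (nat_lit 1099) (nat_lit 3043) (nat_lit 3771))))
 (.n (nat_lit 1587)
 (.l (.k0_8 (nat_lit 7) (nat_lit 1587) (nat_lit 1585) (nat_lit 1581) (nat_lit 1605) (nat_lit 1533) (nat_lit 1641) (nat_lit 1749) (nat_lit 1101) (nat_lit 3045)))
 (.l (.k1_6 (nat_lit 4) (nat_lit 1595) (nat_lit 1597) (nat_lit 1577) (nat_lit 1649) (nat_lit 1757) (nat_lit 1109) (nat_lit 3053) (nat_lit 3781)))))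
 (.n (nat_lit 1599)
 (.n (nat_lit 1597)
 (.l (.k1_8 (nat_lit 5) (nat_lit 1597) (nat_lit 1595) (nat_lit 1599) (nat_lit 1603) (nat_lit 1579) (nat_lit 1651) (nat_lit 1759) (nat_lit 1111) (nat_lit 3055) (nat_lit 3783)))
 (.l (.k0_7 (nat_lit 4) (nat_lit 1599) (nat_lit 1597) (nat_lit 1605) (nat_lit 1581) (nat_lit 1653) (nat_lit 1761) (nat_lit 1113) (nat_lit 3057))))
 (.n (nat_lit 1603)
 (.l (.k1_7 (nat_lit 6) (nat_lit 1603) (nat_lit 1605) (nat_lit 1597) (nat_lit 1585) (nat_lit 1657) (nat_lit 1765) (nat_lit 1117) (nat_lit 3061) (nat_lit 3789)))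
 (.l (.k0_8 (nat_lit 7) (nat_lit 1605) (nat_lit 1603) (nat_lit 1599) (nat_lit 1611) (nat_lit 1587) (nat_lit 1659) (nat_lit 1767) (nat_lit 1119) (nat_lit 3063)))))))
 (.n (nat_lit 1641)
 (.n (nat_lit 1631)
 (.n (nat_lit 1625)
 (.n (nat_lit 1611)
 (.l (.k0_5 (nat_lit 8) (nat_lit 1611) (nat_lit 1605) (nat_lit 1665) (nat_lit 1773) (nat_lit 1125) (nat_lit 3069)))
 (.l (.k1_6 (nat_lit 4) (nat_lit 1625) (nat_lit 1627) (nat_lit 1631) (nat_lit 1571) (nat_lit 1787) (nat_lit 1139) (nat_lit 3083) (nat_lit 3811))))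
 (.n (nat_lit 1627)
 (.l (.k1_6 (nat_lit 4) (nat_lit 1627) (nat_lit 1625) (nat_lit 1633) (nat_lit 1573) (nat_lit 1789) (nat_lit 1141) (nat_lit 3085) (nat_lit 3813)))
 (.l (.k1_7 (nat_lit 2) (nat_lit 1631) (nat_lit 1633) (nat_lit 1625) (nat_lit 1649) (nat_lit 1577) (nat_lit 1793) (nat_lit 1145) (nat_lit 3089) (nat_lit 3817)))))
 (.n (nat_lit 1635)
 (.n (nat_lit 1633)
 (.l (.k1_9 (nat_lit 4) (nat_lit 1633) (nat_lit 1631) (nat_lit 1635) (nat_lit 1627) (nat_lit 1639) (nat_lit 1651) (nat_lit 1579) (nat_lit 1795) (nat_lit 1147) (nat_lit 3091) (nat_lit 3819)))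
 (.l (.k0_7 (nat_lit 4) (nat_lit 1635) (nat_lit 1633) (nat_lit 1641) (nat_lit 1653) (nat_lit 1581) (nat_lit 1797) (nat_lit 1149) (nat_lit 3093))))
 (.n (nat_lit 1639)
 (.l (.k1_7 (nat_lit 2) (nat_lit 1639) (nat_lit 1641) (nat_lit 1633) (nat_lit 1657) (nat_lit 1585) (nat_lit 1801) (nat_lit 1153) (nat_lit 3097) (nat_lit 3825)))
 (.l (.k0_7 (nat_lit 4) (nat_lit 1641) (nat_lit 1639) (nat_lit 1635) (nat_lit 1659) (nat_lit 1587) (nat_lit 1803) (nat_lit 1155) (nat_lit 3099))))))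
 (.n (nat_lit 1657)
 (.n (nat_lit 1651)
 (.n (nat_lit 1649)
 (.l (.k1_6 (nat_lit 4) (nat_lit 1649) (nat_lit 1651) (nat_lit 1631) (nat_lit 1595) (nat_lit 1811) (nat_lit 1163) (nat_lit 3107) (nat_lit 3835)))
 (.l (.k1_8 (nat_lit 5) (nat_lit 1651) (nat_lit 1649) (nat_lit 1653) (nat_lit 1657) (nat_lit 1633) (nat_lit 1597) (nat_lit 1813) (nat_lit 1165) (nat_lit 3109) (nat_lit 3837))))
 (.n (nat_lit 1653)
 (.l (.k0_7 (nat_lit 4) (nat_lit 1653) (nat_lit 1651) (nat_lit 1659) (nat_lit 1635) (nat_lit 1599) (nat_lit 1815) (nat_lit 1167) (nat_lit 3111)))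
 (.l (.k1_8 (nat_lit 5) (nat_lit 1657) (nat_lit 1659) (nat_lit 1651) (nat_lit 1639) (nat_lit 1675) (nat_lit 1603) (nat_lit 1819) (nat_lit 1171) (nat_lit 3115) (nat_lit 3843)))))
 (.n (nat_lit 1665)
 (.n (nat_lit 1659)
 (.l (.k0_9 (nat_lit 6) (nat_lit 1659) (nat_lit 1657) (nat_lit 1653) (nat_lit 1665) (nat_lit 1641) (nat_lit 1677) (nat_lit 1605) (nat_lit 1821) (nat_lit 1173) (nat_lit 3117)))
 (.l (.k0_6 (nat_lit 6) (nat_lit 1665) (nat_lit 1659) (nat_lit 1683) (nat_lit 1611) (nat_lit 1827) (nat_lit 1179) (nat_lit 3123))))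
 (.n (nat_lit 1675)
 (.l (.k1_5 (nat_lit 6) (nat_lit 1675) (nat_lit 1677) (nat_lit 1657) (nat_lit 1837) (nat_lit 1189) (nat_lit 3133) (nat_lit 3861)))
 (.l (.k0_6 (nat_lit 6) (nat_lit 1677) (nat_lit 1675) (nat_lit 1683) (nat_lit 1659) (nat_lit 1839) (nat_lit 1191) (nat_lit 3135)))))))))
 (.n (nat_lit 1821)
 (.n (nat_lit 1759)
 (.n (nat_lit 1733)
 (.n (nat_lit 1717)
 (.n (nat_lit 1709)
 (.n (nat_lit 1683)
 (.l (.k0_5 (nat_lit 8) (nat_lit 1683) (nat_lit 1677) (nat_lit 1665) (nat_lit 1845) (nat_lit 1197) (nat_lit 3141)))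
 (.l (.k1_4 (nat_lit 8) (nat_lit 1709) (nat_lit 1715) (nat_lit 1547) (nat_lit 1223) (nat_lit 3167) (nat_lit 3895))))
 (.n (nat_lit 1715)
 (.l (.k1_7 (nat_lit 7) (nat_lit 1715) (nat_lit 1717) (nat_lit 1709) (nat_lit 1721) (nat_lit 1733) (nat_lit 1553) (nat_lit 1229) (nat_lit 3173) (nat_lit 3901)))
 (.l (.k1_6 (nat_lit 8) (nat_lit 1717) (nat_lit 1715) (nat_lit 1723) (nat_lit 1735) (nat_lit 1555) (nat_lit 1231) (nat_lit 3175) (nat_lit 3903)))))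
 (.n (nat_lit 1723)
 (.n (nat_lit 1721)
 (.l (.k1_6 (nat_lit 4) (nat_lit 1721) (nat_lit 1723) (nat_lit 1715) (nat_lit 1739) (nat_lit 1559) (nat_lit 1235) (nat_lit 3179) (nat_lit 3907)))
 (.l (.k1_7 (nat_lit 7) (nat_lit 1723) (nat_lit 1721) (nat_lit 1725) (nat_lit 1717) (nat_lit 1741) (nat_lit 1561) (nat_lit 1237) (nat_lit 3181) (nat_lit 3909))))
 (.n (nat_lit 1725)
 (.l (.k0_5 (nat_lit 8) (nat_lit 1725) (nat_lit 1723) (nat_lit 1743) (nat_lit 1563) (nat_lit 1239) (nat_lit 3183)))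
 (.l (.k1_7 (nat_lit 6) (nat_lit 1733) (nat_lit 1735) (nat_lit 1739) (nat_lit 1715) (nat_lit 1787) (nat_lit 1571) (nat_lit 1247) (nat_lit 3191) (nat_lit 3919))))))
 (.n (nat_lit 1743)
 (.n (nat_lit 1739)
 (.n (nat_lit 1735)
 (.l (.k1_7 (nat_lit 6) (nat_lit 1735) (nat_lit 1733) (nat_lit 1741) (nat_lit 1717) (nat_lit 1789) (nat_lit 1573) (nat_lit 1249) (nat_lit 3193) (nat_lit 3921)))
 (.l (.k1_8 (nat_lit 5) (nat_lit 1739) (nat_lit 1741) (nat_lit 1733) (nat_lit 1721) (nat_lit 1757) (nat_lit 1793) (nat_lit 1577) (nat_lit 1253) (nat_lit 3197) (nat_lit 3925))))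
 (.n (nat_lit 1741)
 (.l (.k1_10 (nat_lit 7) (nat_lit 1741) (nat_lit 1739) (nat_lit 1743) (nat_lit 1735) (nat_lit 1747) (nat_lit 1723) (nat_lit 1759) (nat_lit 1795) (nat_lit 1579) (nat_lit 1255) (nat_lit 3199) (nat_lit 3927)))
 (.l (.k0_8 (nat_lit 7) (nat_lit 1743) (nat_lit 1741) (nat_lit 1749) (nat_lit 1725) (nat_lit 1761) (nat_lit 1797) (nat_lit 1581) (nat_lit 1257) (nat_lit 3201)))))
 (.n (nat_lit 1749)
 (.n (nat_lit 1747)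
 (.l (.k1_7 (nat_lit 6) (nat_lit 1747) (nat_lit 1749) (nat_lit 1741) (nat_lit 1765) (nat_lit 1801) (nat_lit 1585) (nat_lit 1261) (nat_lit 3205) (nat_lit 3933)))
 (.l (.k0_7 (nat_lit 8) (nat_lit 1749) (nat_lit 1747) (nat_lit 1743) (nat_lit 1767) (nat_lit 1803) (nat_lit 1587) (nat_lit 1263) (nat_lit 3207))))
 (.n (nat_lit 1757)
 (.l (.k1_6 (nat_lit 4) (nat_lit 1757) (nat_lit 1759) (nat_lit 1739) (nat_lit 1811) (nat_lit 1595) (nat_lit 1271) (nat_lit 3215) (nat_lit 3943)))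
 (.l (.k1_8 (nat_lit 5) (nat_lit 1759) (nat_lit 1757) (nat_lit 1761) (nat_lit 1765) (nat_lit 1741) (nat_lit 1813) (nat_lit 1597) (nat_lit 1273) (nat_lit 3217) (nat_lit 3945)))))))
 (.n (nat_lit 1795)
 (.n (nat_lit 1773)
 (.n (nat_lit 1765)
 (.n (nat_lit 1761)
 (.l (.k0_7 (nat_lit 4) (nat_lit 1761) (nat_lit 1759) (nat_lit 1767) (nat_lit 1743) (nat_lit 1815) (nat_lit 1599) (nat_lit 1275) (nat_lit 3219)))
 (.l (.k1_7 (nat_lit 6) (nat_lit 1765) (nat_lit 1767) (nat_lit 1759) (nat_lit 1747) (nat_lit 1819) (nat_lit 1603) (nat_lit 1279) (nat_lit 3223) (nat_lit 3951))))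
 (.n (nat_lit 1767)
 (.l (.k0_8 (nat_lit 7) (nat_lit 1767) (nat_lit 1765) (nat_lit 1761) (nat_lit 1773) (nat_lit 1749) (nat_lit 1821) (nat_lit 1605) (nat_lit 1281) (nat_lit 3225)))
 (.l (.k0_5 (nat_lit 8) (nat_lit 1773) (nat_lit 1767) (nat_lit 1827) (nat_lit 1611) (nat_lit 1287) (nat_lit 3231)))))
 (.n (nat_lit 1789)
 (.n (nat_lit 1787)
 (.l (.k1_7 (nat_lit 7) (nat_lit 1787) (nat_lit 1789) (nat_lit 1793) (nat_lit 1733) (nat_lit 1625) (nat_lit 1949) (nat_lit 1301) (nat_lit 3245) (nat_lit 3973)))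
 (.l (.k1_7 (nat_lit 7) (nat_lit 1789) (nat_lit 1787) (nat_lit 1795) (nat_lit 1735) (nat_lit 1627) (nat_lit 1951) (nat_lit 1303) (nat_lit 3247) (nat_lit 3975))))
 (.n (nat_lit 1793)
 (.l (.k1_8 (nat_lit 5) (nat_lit 1793) (nat_lit 1795) (nat_lit 1787) (nat_lit 1811) (nat_lit 1739) (nat_lit 1631) (nat_lit 1955) (nat_lit 1307) (nat_lit 3251) (nat_lit 3979)))
 (.l (.k1_10 (nat_lit 7) (nat_lit 1795) (nat_lit 1793) (nat_lit 1797) (nat_lit 1789) (nat_lit 1801) (nat_lit 1813) (nat_lit 1741) (nat_lit 1633) (nat_lit 1957) (nat_lit 1309) (nat_lit 3253) (nat_lit 3981))))))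
 (.n (nat_lit 1811)
 (.n (nat_lit 1801)
 (.n (nat_lit 1797)
 (.l (.k0_8 (nat_lit 7) (nat_lit 1797) (nat_lit 1795) (nat_lit 1803) (nat_lit 1815) (nat_lit 1743) (nat_lit 1635) (nat_lit 1959) (nat_lit 1311) (nat_lit 3255)))
 (.l (.k1_8 (nat_lit 5) (nat_lit 1801) (nat_lit 1803) (nat_lit 1795) (nat_lit 1819) (nat_lit 1747) (nat_lit 1639) (nat_lit 1963) (nat_lit 1315) (nat_lit 3259) (nat_lit 3987))))
 (.n (nat_lit 1803)
 (.l (.k0_8 (nat_lit 7) (nat_lit 1803) (nat_lit 1801) (nat_lit 1797) (nat_lit 1821) (nat_lit 1749) (nat_lit 1641) (nat_lit 1965) (nat_lit 1317) (nat_lit 3261)))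
 (.l (.k1_8 (nat_lit 6) (nat_lit 1811) (nat_lit 1813) (nat_lit 1793) (nat_lit 1757) (nat_lit 1865) (nat_lit 1649) (nat_lit 1973) (nat_lit 1325) (nat_lit 3269) (nat_lit 3997)))))
 (.n (nat_lit 1815)
 (.n (nat_lit 1813)
 (.l (.k1_10 (nat_lit 7) (nat_lit 1813) (nat_lit 1811) (nat_lit 1815) (nat_lit 1819) (nat_lit 1795) (nat_lit 1759) (nat_lit 1867) (nat_lit 1651) (nat_lit 1975) (nat_lit 1327) (nat_lit 3271) (nat_lit 3999)))
 (.l (.k0_9 (nat_lit 6) (nat_lit 1815) (nat_lit 1813) (nat_lit 1821) (nat_lit 1797) (nat_lit 1761) (nat_lit 1869) (nat_lit 1653) (nat_lit 1977) (nat_lit 1329) (nat_lit 3273))))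
 (.n (nat_lit 1819)
 (.l (.k1_10 (nat_lit 7) (nat_lit 1819) (nat_lit 1821) (nat_lit 1813) (nat_lit 1801) (nat_lit 1837) (nat_lit 1765) (nat_lit 1873) (nat_lit 1657) (nat_lit 1981) (nat_lit 1333) (nat_lit 3277) (nat_lit 4005)))
 (.l (.k0_11 (nat_lit 8) (nat_lit 1821) (nat_lit 1819) (nat_lit 1815) (nat_lit 1827) (nat_lit 1803) (nat_lit 1839) (nat_lit 1767) (nat_lit 1875) (nat_lit 1659) (nat_lit 1983) (nat_lit 1335) (nat_lit 3279))))))))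
 (.n (nat_lit 1951)
 (.n (nat_lit 1873)
 (.n (nat_lit 1845)
 (.n (nat_lit 1837)
 (.n (nat_lit 1827)
 (.l (.k0_8 (nat_lit 8) (nat_lit 1827) (nat_lit 1821) (nat_lit 1845) (nat_lit 1773) (nat_lit 1881) (nat_lit 1665) (nat_lit 1989) (nat_lit 1341) (nat_lit 3285)))
 (.l (.k1_7 (nat_lit 7) (nat_lit 1837) (nat_lit 1839) (nat_lit 1819) (nat_lit 1891) (nat_lit 1675) (nat_lit 1999) (nat_lit 1351) (nat_lit 3295) (nat_lit 4023))))
 (.n (nat_lit 1839)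
 (.l (.k0_8 (nat_lit 7) (nat_lit 1839) (nat_lit 1837) (nat_lit 1845) (nat_lit 1821) (nat_lit 1893) (nat_lit 1677) (nat_lit 2001) (nat_lit 1353) (nat_lit 3297)))
 (.l (.k0_7 (nat_lit 9) (nat_lit 1845) (nat_lit 1839) (nat_lit 1827) (nat_lit 1899) (nat_lit 1683) (nat_lit 2007) (nat_lit 1359) (nat_lit 3303)))))
 (.n (nat_lit 1867)
 (.n (nat_lit 1865)
 (.l (.k1_5 (nat_lit 6) (nat_lit 1865) (nat_lit 1867) (nat_lit 1811) (nat_lit 2027) (nat_lit 1379) (nat_lit 3323) (nat_lit 4051)))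
 (.l (.k1_7 (nat_lit 7) (nat_lit 1867) (nat_lit 1865) (nat_lit 1869) (nat_lit 1873) (nat_lit 1813) (nat_lit 2029) (nat_lit 1381) (nat_lit 3325) (nat_lit 4053))))
 (.n (nat_lit 1869)
 (.l (.k0_6 (nat_lit 6) (nat_lit 1869) (nat_lit 1867) (nat_lit 1875) (nat_lit 1815) (nat_lit 2031) (nat_lit 1383) (nat_lit 3327)))
 (.l (.k1_7 (nat_lit 6) (nat_lit 1873) (nat_lit 1875) (nat_lit 1867) (nat_lit 1891) (nat_lit 1819) (nat_lit 2035) (nat_lit 1387) (nat_lit 3331) (nat_lit 4059))))))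
 (.n (nat_lit 1893)
 (.n (nat_lit 1881)
 (.n (nat_lit 1875)
 (.l (.k0_8 (nat_lit 7) (nat_lit 1875) (nat_lit 1873) (nat_lit 1869) (nat_lit 1881) (nat_lit 1893) (nat_lit 1821) (nat_lit 2037) (nat_lit 1389) (nat_lit 3333)))
 (.l (.k0_6 (nat_lit 6) (nat_lit 1881) (nat_lit 1875) (nat_lit 1899) (nat_lit 1827) (nat_lit 2043) (nat_lit 1395) (nat_lit 3339))))
 (.n (nat_lit 1891)
 (.l (.k1_6 (nat_lit 8) (nat_lit 1891) (nat_lit 1893) (nat_lit 1873) (nat_lit 1837) (nat_lit 2053) (nat_lit 1405) (nat_lit 3349) (nat_lit 4077)))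
 (.l (.k0_7 (nat_lit 8) (nat_lit 1893) (nat_lit 1891) (nat_lit 1899) (nat_lit 1875) (nat_lit 1839) (nat_lit 2055) (nat_lit 1407) (nat_lit 3351)))))
 (.n (nat_lit 1917)
 (.n (nat_lit 1899)
 (.l (.k0_7 (nat_lit 9) (nat_lit 1899) (nat_lit 1893) (nat_lit 1881) (nat_lit 1917) (nat_lit 1845) (nat_lit 2061) (nat_lit 1413) (nat_lit 3357)))
 (.l (.k0_4 (nat_lit 10) (nat_lit 1917) (nat_lit 1899) (nat_lit 2079) (nat_lit 1431) (nat_lit 3375))))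
 (.n (nat_lit 1949)
 (.l (.k1_4 (nat_lit 8) (nat_lit 1949) (nat_lit 1951) (nat_lit 1955) (nat_lit 1787) (nat_lit 3407) (nat_lit 4135)))
 (.l (.k1_4 (nat_lit 8) (nat_lit 1951) (nat_lit 1949) (nat_lit 1957) (nat_lit 1789) (nat_lit 3409) (nat_lit 4137)))))))
 (.n (nat_lit 1977)
 (.n (nat_lit 1963)
 (.n (nat_lit 1957)
 (.n (nat_lit 1955)
 (.l (.k1_5 (nat_lit 6) (nat_lit 1955) (nat_lit 1957) (nat_lit 1949) (nat_lit 1973) (nat_lit 1793) (nat_lit 3413) (nat_lit 4141)))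
 (.l (.k1_7 (nat_lit 8) (nat_lit 1957) (nat_lit 1955) (nat_lit 1959) (nat_lit 1951) (nat_lit 1963) (nat_lit 1975) (nat_lit 1795) (nat_lit 3415) (nat_lit 4143))))
 (.n (nat_lit 1959)
 (.l (.k0_5 (nat_lit 8) (nat_lit 1959) (nat_lit 1957) (nat_lit 1965) (nat_lit 1977) (nat_lit 1797) (nat_lit 3417)))
 (.l (.k1_5 (nat_lit 6) (nat_lit 1963) (nat_lit 1965) (nat_lit 1957) (nat_lit 1981) (nat_lit 1801) (nat_lit 3421) (nat_lit 4149)))))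
 (.n (nat_lit 1973)
 (.n (nat_lit 1965)
 (.l (.k0_5 (nat_lit 8) (nat_lit 1965) (nat_lit 1963) (nat_lit 1959) (nat_lit 1983) (nat_lit 1803) (nat_lit 3423)))
 (.l (.k1_5 (nat_lit 6) (nat_lit 1973) (nat_lit 1975) (nat_lit 1955) (nat_lit 2027) (nat_lit 1811) (nat_lit 3431) (nat_lit 4159))))
 (.n (nat_lit 1975)
 (.l (.k1_7 (nat_lit 7) (nat_lit 1975) (nat_lit 1973) (nat_lit 1977) (nat_lit 1981) (nat_lit 1957) (nat_lit 2029) (nat_lit 1813) (nat_lit 3433) (nat_lit 4161)))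
 (.l (.k0_6 (nat_lit 6) (nat_lit 1977) (nat_lit 1975) (nat_lit 1983) (nat_lit 1959) (nat_lit 2031) (nat_lit 1815) (nat_lit 3435))))))
 (.n (nat_lit 1999)
 (.n (nat_lit 1983)
 (.n (nat_lit 1981)
 (.l (.k1_7 (nat_lit 7) (nat_lit 1981) (nat_lit 1983) (nat_lit 1975) (nat_lit 1963) (nat_lit 1999) (nat_lit 2035) (nat_lit 1819) (nat_lit 3439) (nat_lit 4167)))
 (.l (.k0_8 (nat_lit 8) (nat_lit 1983) (nat_lit 1981) (nat_lit 1977) (nat_lit 1989) (nat_lit 1965) (nat_lit 2001) (nat_lit 2037) (nat_lit 1821) (nat_lit 3441))))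
 (.n (nat_lit 1989)
 (.l (.k0_5 (nat_lit 8) (nat_lit 1989) (nat_lit 1983) (nat_lit 2007) (nat_lit 2043) (nat_lit 1827) (nat_lit 3447)))
 (.l (.k1_5 (nat_lit 6) (nat_lit 1999) (nat_lit 2001) (nat_lit 1981) (nat_lit 2053) (nat_lit 1837) (nat_lit 3457) (nat_lit 4185)))))
 (.n (nat_lit 2007)
 (.n (nat_lit 2001)
 (.l (.k0_6 (nat_lit 6) (nat_lit 2001) (nat_lit 1999) (nat_lit 2007) (nat_lit 1983) (nat_lit 2055) (nat_lit 1839) (nat_lit 3459)))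
 (.l (.k0_5 (nat_lit 8) (nat_lit 2007) (nat_lit 2001) (nat_lit 1989) (nat_lit 2061) (nat_lit 1845) (nat_lit 3465))))
 (.n (nat_lit 2027)
 (.l (.k1_4 (nat_lit 8) (nat_lit 2027) (nat_lit 2029) (nat_lit 1973) (nat_lit 1865) (nat_lit 3485) (nat_lit 4213)))
 (.l (.k1_6 (nat_lit 9) (nat_lit 2029) (nat_lit 2027) (nat_lit 2031) (nat_lit 2035) (nat_lit 1975) (nat_lit 1867) (nat_lit 3487) (nat_lit 4215))))))))))
 (.n (nat_lit 2473)
 (.n (nat_lit 2319)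
 (.n (nat_lit 2237)
 (.n (nat_lit 2061)
 (.n (nat_lit 2037)
 (.n (nat_lit 2031)
 (.l (.k0_5 (nat_lit 8) (nat_lit 2031) (nat_lit 2029) (nat_lit 2037) (nat_lit 1977) (nat_lit 1869) (nat_lit 3489)))
 (.n (nat_lit 2035)
 (.l (.k1_6 (nat_lit 8) (nat_lit 2035) (nat_lit 2037) (nat_lit 2029) (nat_lit 2053) (nat_lit 1981) (nat_lit 1873) (nat_lit 3493) (nat_lit 4221)))
 (.l (.k0_7 (nat_lit 9) (nat_lit 2037) (nat_lit 2035) (nat_lit 2031) (nat_lit 2043) (nat_lit 2055) (nat_lit 1983) (nat_lit 1875) (nat_lit 3495)))))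
 (.n (nat_lit 2053)
 (.n (nat_lit 2043)
 (.l (.k0_5 (nat_lit 8) (nat_lit 2043) (nat_lit 2037) (nat_lit 2061) (nat_lit 1989) (nat_lit 1881) (nat_lit 3501)))
 (.l (.k1_6 (nat_lit 9) (nat_lit 2053) (nat_lit 2055) (nat_lit 2035) (nat_lit 1999) (nat_lit 2107) (nat_lit 1891) (nat_lit 3511) (nat_lit 4239))))
 (.n (nat_lit 2055)
 (.l (.k0_7 (nat_lit 9) (nat_lit 2055) (nat_lit 2053) (nat_lit 2061) (nat_lit 2037) (nat_lit 2001) (nat_lit 2109) (nat_lit 1893) (nat_lit 3513)))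
 (.l (.k0_7 (nat_lit 10) (nat_lit 2061) (nat_lit 2055) (nat_lit 2043) (nat_lit 2079) (nat_lit 2007) (nat_lit 2115) (nat_lit 1899) (nat_lit 3519))))))
 (.n (nat_lit 2115)
 (.n (nat_lit 2107)
 (.n (nat_lit 2079)
 (.l (.k0_4 (nat_lit 10) (nat_lit 2079) (nat_lit 2061) (nat_lit 2133) (nat_lit 1917) (nat_lit 3537)))
 (.l (.k1_3 (nat_lit 10) (nat_lit 2107) (nat_lit 2109) (nat_lit 2053) (nat_lit 3565) (nat_lit 4293))))
 (.n (nat_lit 2109)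
 (.l (.k0_4 (nat_lit 10) (nat_lit 2109) (nat_lit 2107) (nat_lit 2115) (nat_lit 2055) (nat_lit 3567)))
 (.l (.k0_4 (nat_lit 10) (nat_lit 2115) (nat_lit 2109) (nat_lit 2133) (nat_lit 2061) (nat_lit 3573)))))
 (.n (nat_lit 2213)
 (.n (nat_lit 2133)
 (.l (.k0_3 (nat_lit 12) (nat_lit 2133) (nat_lit 2115) (nat_lit 2079) (nat_lit 3591)))
 (.l (.k1_2 (nat_lit 12) (nat_lit 2213) (nat_lit 2231) (nat_lit 755) (nat_lit 4399))))
 (.n (nat_lit 2231)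
 (.l (.k1_5 (nat_lit 11) (nat_lit 2231) (nat_lit 2237) (nat_lit 2213) (nat_lit 2249) (nat_lit 2285) (nat_lit 773) (nat_lit 4417)))
 (.l (.k1_5 (nat_lit 10) (nat_lit 2237) (nat_lit 2239) (nat_lit 2231) (nat_lit 2255) (nat_lit 2291) (nat_lit 779) (nat_lit 4423)))))))
 (.n (nat_lit 2285)
 (.n (nat_lit 2257)
 (.n (nat_lit 2249)
 (.n (nat_lit 2239)
 (.l (.k3_4 (nat_lit 11) (nat_lit 2239) (nat_lit 2237) (nat_lit 2257) (nat_lit 2293) (nat_lit 781) (nat_lit 4425) (nat_lit 53)))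
 (.l (.k1_4 (nat_lit 8) (nat_lit 2249) (nat_lit 2255) (nat_lit 2231) (nat_lit 2303) (nat_lit 791) (nat_lit 4435))))
 (.n (nat_lit 2255)
 (.l (.k1_6 (nat_lit 9) (nat_lit 2255) (nat_lit 2257) (nat_lit 2249) (nat_lit 2261) (nat_lit 2237) (nat_lit 2309) (nat_lit 797) (nat_lit 4441)))
 (.l (.k3_5 (nat_lit 9) (nat_lit 2257) (nat_lit 2255) (nat_lit 2263) (nat_lit 2239) (nat_lit 2311) (nat_lit 799) (nat_lit 4443) (nat_lit 71)))))
 (.n (nat_lit 2263)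
 (.n (nat_lit 2261)
 (.l (.k1_4 (nat_lit 8) (nat_lit 2261) (nat_lit 2263) (nat_lit 2255) (nat_lit 2315) (nat_lit 803) (nat_lit 4447)))
 (.l (.k3_5 (nat_lit 10) (nat_lit 2263) (nat_lit 2261) (nat_lit 2265) (nat_lit 2257) (nat_lit 2317) (nat_lit 805) (nat_lit 4449) (nat_lit 77))))
 (.n (nat_lit 2265)
 (.l (.k2_3 (nat_lit 10) (nat_lit 2265) (nat_lit 2263) (nat_lit 2319) (nat_lit 807) (nat_lit 79)))
 (.l (.k1_5 (nat_lit 10) (nat_lit 2285) (nat_lit 2291) (nat_lit 2303) (nat_lit 2231) (nat_lit 2447) (nat_lit 827) (nat_lit 4471))))))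
 (.n (nat_lit 2309)
 (.n (nat_lit 2293)
 (.n (nat_lit 2291)
 (.l (.k1_6 (nat_lit 8) (nat_lit 2291) (nat_lit 2293) (nat_lit 2285) (nat_lit 2309) (nat_lit 2237) (nat_lit 2453) (nat_lit 833) (nat_lit 4477)))
 (.l (.k3_5 (nat_lit 9) (nat_lit 2293) (nat_lit 2291) (nat_lit 2311) (nat_lit 2239) (nat_lit 2455) (nat_lit 835) (nat_lit 4479) (nat_lit 107))))
 (.n (nat_lit 2303)
 (.l (.k1_6 (nat_lit 9) (nat_lit 2303) (nat_lit 2309) (nat_lit 2285) (nat_lit 2249) (nat_lit 2357) (nat_lit 2465) (nat_lit 845) (nat_lit 4489)))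
 (.l (.k1_9 (nat_lit 9) (nat_lit 2309) (nat_lit 2311) (nat_lit 2303) (nat_lit 2315) (nat_lit 2291) (nat_lit 2327) (nat_lit 2255) (nat_lit 2363) (nat_lit 2471) (nat_lit 851) (nat_lit 4495)))))
 (.n (nat_lit 2315)
 (.n (nat_lit 2311)
 (.l (.k3_8 (nat_lit 9) (nat_lit 2311) (nat_lit 2309) (nat_lit 2317) (nat_lit 2293) (nat_lit 2329) (nat_lit 2257) (nat_lit 2365) (nat_lit 2473) (nat_lit 853) (nat_lit 4497) (nat_lit 125)))
 (.l (.k1_7 (nat_lit 7) (nat_lit 2315) (nat_lit 2317) (nat_lit 2309) (nat_lit 2333) (nat_lit 2261) (nat_lit 2369) (nat_lit 2477) (nat_lit 857) (nat_lit 4501))))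
 (.n (nat_lit 2317)
 (.l (.k3_8 (nat_lit 9) (nat_lit 2317) (nat_lit 2315) (nat_lit 2319) (nat_lit 2311) (nat_lit 2335) (nat_lit 2263) (nat_lit 2371) (nat_lit 2479) (nat_lit 859) (nat_lit 4503) (nat_lit 131)))
 (.l (.k2_6 (nat_lit 9) (nat_lit 2319) (nat_lit 2317) (nat_lit 2337) (nat_lit 2265) (nat_lit 2373) (nat_lit 2481) (nat_lit 861) (nat_lit 133))))))))
 (.n (nat_lit 2387)
 (.n (nat_lit 2357)
 (.n (nat_lit 2335)
 (.n (nat_lit 2329)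
 (.n (nat_lit 2327)
 (.l (.k1_6 (nat_lit 8) (nat_lit 2327) (nat_lit 2329) (nat_lit 2333) (nat_lit 2309) (nat_lit 2381) (nat_lit 2489) (nat_lit 869) (nat_lit 4513)))
 (.l (.k3_6 (nat_lit 7) (nat_lit 2329) (nat_lit 2327) (nat_lit 2335) (nat_lit 2311) (nat_lit 2383) (nat_lit 2491) (nat_lit 871) (nat_lit 4515) (nat_lit 143))))
 (.n (nat_lit 2333)
 (.l (.k1_6 (nat_lit 8) (nat_lit 2333) (nat_lit 2335) (nat_lit 2327) (nat_lit 2315) (nat_lit 2387) (nat_lit 2495) (nat_lit 875) (nat_lit 4519)))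
 (.l (.k3_8 (nat_lit 9) (nat_lit 2335) (nat_lit 2333) (nat_lit 2337) (nat_lit 2329) (nat_lit 2341) (nat_lit 2317) (nat_lit 2389) (nat_lit 2497) (nat_lit 877) (nat_lit 4521) (nat_lit 149)))))
 (.n (nat_lit 2341)
 (.n (nat_lit 2337)
 (.l (.k2_6 (nat_lit 8) (nat_lit 2337) (nat_lit 2335) (nat_lit 2343) (nat_lit 2319) (nat_lit 2391) (nat_lit 2499) (nat_lit 879) (nat_lit 151)))
 (.l (.k3_5 (nat_lit 9) (nat_lit 2341) (nat_lit 2343) (nat_lit 2335) (nat_lit 2395) (nat_lit 2503) (nat_lit 883) (nat_lit 4527) (nat_lit 155))))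
 (.n (nat_lit 2343)
 (.l (.k2_5 (nat_lit 10) (nat_lit 2343) (nat_lit 2341) (nat_lit 2337) (nat_lit 2397) (nat_lit 2505) (nat_lit 885) (nat_lit 157)))
 (.l (.k1_4 (nat_lit 8) (nat_lit 2357) (nat_lit 2363) (nat_lit 2303) (nat_lit 2519) (nat_lit 899) (nat_lit 4543))))))
 (.n (nat_lit 2371)
 (.n (nat_lit 2365)
 (.n (nat_lit 2363)
 (.l (.k1_7 (nat_lit 7) (nat_lit 2363) (nat_lit 2365) (nat_lit 2357) (nat_lit 2369) (nat_lit 2381) (nat_lit 2309) (nat_lit 2525) (nat_lit 905) (nat_lit 4549)))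
 (.l (.k3_6 (nat_lit 7) (nat_lit 2365) (nat_lit 2363) (nat_lit 2371) (nat_lit 2383) (nat_lit 2311) (nat_lit 2527) (nat_lit 907) (nat_lit 4551) (nat_lit 179))))
 (.n (nat_lit 2369)
 (.l (.k1_6 (nat_lit 4) (nat_lit 2369) (nat_lit 2371) (nat_lit 2363) (nat_lit 2387) (nat_lit 2315) (nat_lit 2531) (nat_lit 911) (nat_lit 4555)))
 (.l (.k3_7 (nat_lit 6) (nat_lit 2371) (nat_lit 2369) (nat_lit 2373) (nat_lit 2365) (nat_lit 2389) (nat_lit 2317) (nat_lit 2533) (nat_lit 913) (nat_lit 4557) (nat_lit 185)))))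
 (.n (nat_lit 2381)
 (.n (nat_lit 2373)
 (.l (.k2_5 (nat_lit 6) (nat_lit 2373) (nat_lit 2371) (nat_lit 2391) (nat_lit 2319) (nat_lit 2535) (nat_lit 915) (nat_lit 187)))
 (.l (.k1_6 (nat_lit 8) (nat_lit 2381) (nat_lit 2383) (nat_lit 2387) (nat_lit 2363) (nat_lit 2327) (nat_lit 2543) (nat_lit 923) (nat_lit 4567))))
 (.n (nat_lit 2383)
 (.l (.k3_6 (nat_lit 7) (nat_lit 2383) (nat_lit 2381) (nat_lit 2389) (nat_lit 2365) (nat_lit 2329) (nat_lit 2545) (nat_lit 925) (nat_lit 4569) (nat_lit 197)))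
 (.l (.k1_7 (nat_lit 7) (nat_lit 2387) (nat_lit 2389) (nat_lit 2381) (nat_lit 2369) (nat_lit 2405) (nat_lit 2333) (nat_lit 2549) (nat_lit 929) (nat_lit 4573)))))))
 (.n (nat_lit 2413)
 (.n (nat_lit 2397)
 (.n (nat_lit 2391)
 (.n (nat_lit 2389)
 (.l (.k3_9 (nat_lit 8) (nat_lit 2389) (nat_lit 2387) (nat_lit 2391) (nat_lit 2383) (nat_lit 2395) (nat_lit 2371) (nat_lit 2407) (nat_lit 2335) (nat_lit 2551) (nat_lit 931) (nat_lit 4575) (nat_lit 203)))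
 (.l (.k2_7 (nat_lit 7) (nat_lit 2391) (nat_lit 2389) (nat_lit 2397) (nat_lit 2373) (nat_lit 2409) (nat_lit 2337) (nat_lit 2553) (nat_lit 933) (nat_lit 205))))
 (.n (nat_lit 2395)
 (.l (.k3_6 (nat_lit 7) (nat_lit 2395) (nat_lit 2397) (nat_lit 2389) (nat_lit 2413) (nat_lit 2341) (nat_lit 2557) (nat_lit 937) (nat_lit 4581) (nat_lit 209)))
 (.l (.k2_6 (nat_lit 8) (nat_lit 2397) (nat_lit 2395) (nat_lit 2391) (nat_lit 2415) (nat_lit 2343) (nat_lit 2559) (nat_lit 939) (nat_lit 211)))))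
 (.n (nat_lit 2407)
 (.n (nat_lit 2405)
 (.l (.k1_4 (nat_lit 8) (nat_lit 2405) (nat_lit 2407) (nat_lit 2387) (nat_lit 2567) (nat_lit 947) (nat_lit 4591)))
 (.l (.k3_6 (nat_lit 8) (nat_lit 2407) (nat_lit 2405) (nat_lit 2409) (nat_lit 2413) (nat_lit 2389) (nat_lit 2569) (nat_lit 949) (nat_lit 4593) (nat_lit 221))))
 (.n (nat_lit 2409)
 (.l (.k2_5 (nat_lit 6) (nat_lit 2409) (nat_lit 2407) (nat_lit 2415) (nat_lit 2391) (nat_lit 2571) (nat_lit 951) (nat_lit 223)))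
 (.l (.k3_5 (nat_lit 9) (nat_lit 2413) (nat_lit 2415) (nat_lit 2407) (nat_lit 2395) (nat_lit 2575) (nat_lit 955) (nat_lit 4599) (nat_lit 227))))))
 (.n (nat_lit 2453)
 (.n (nat_lit 2421)
 (.n (nat_lit 2415)
 (.l (.k2_6 (nat_lit 9) (nat_lit 2415) (nat_lit 2413) (nat_lit 2409) (nat_lit 2421) (nat_lit 2397) (nat_lit 2577) (nat_lit 957) (nat_lit 229)))
 (.l (.k2_3 (nat_lit 10) (nat_lit 2421) (nat_lit 2415) (nat_lit 2583) (nat_lit 963) (nat_lit 235))))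
 (.n (nat_lit 2447)
 (.l (.k1_5 (nat_lit 10) (nat_lit 2447) (nat_lit 2453) (nat_lit 2465) (nat_lit 2285) (nat_lit 2933) (nat_lit 989) (nat_lit 4633)))
 (.l (.k1_6 (nat_lit 8) (nat_lit 2453) (nat_lit 2455) (nat_lit 2447) (nat_lit 2471) (nat_lit 2291) (nat_lit 2939) (nat_lit 995) (nat_lit 4639)))))
 (.n (nat_lit 2465)
 (.n (nat_lit 2455)
 (.l (.k3_5 (nat_lit 9) (nat_lit 2455) (nat_lit 2453) (nat_lit 2473) (nat_lit 2293) (nat_lit 2941) (nat_lit 997) (nat_lit 4641) (nat_lit 269)))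
 (.l (.k1_6 (nat_lit 8) (nat_lit 2465) (nat_lit 2471) (nat_lit 2447) (nat_lit 2519) (nat_lit 2303) (nat_lit 2951) (nat_lit 1007) (nat_lit 4651))))
 (.n (nat_lit 2471)
 (.l (.k1_9 (nat_lit 8) (nat_lit 2471) (nat_lit 2473) (nat_lit 2465) (nat_lit 2477) (nat_lit 2453) (nat_lit 2489) (nat_lit 2525) (nat_lit 2309) (nat_lit 2957) (nat_lit 1013) (nat_lit 4657)))
 (.l (.k3_8 (nat_lit 8) (nat_lit 2473) (nat_lit 2471) (nat_lit 2479) (nat_lit 2455) (nat_lit 2491) (nat_lit 2527) (nat_lit 2311) (nat_lit 2959) (nat_lit 1015) (nat_lit 4659) (nat_lit 287)))))))))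
 (.n (nat_lit 2603)
 (.n (nat_lit 2535)
 (.n (nat_lit 2499)
 (.n (nat_lit 2489)
 (.n (nat_lit 2479)
 (.n (nat_lit 2477)
 (.l (.k1_7 (nat_lit 6) (nat_lit 2477) (nat_lit 2479) (nat_lit 2471) (nat_lit 2495) (nat_lit 2531) (nat_lit 2315) (nat_lit 2963) (nat_lit 1019) (nat_lit 4663)))
 (.l (.k3_8 (nat_lit 8) (nat_lit 2479) (nat_lit 2477) (nat_lit 2481) (nat_lit 2473) (nat_lit 2497) (nat_lit 2533) (nat_lit 2317) (nat_lit 2965) (nat_lit 1021) (nat_lit 4665) (nat_lit 293))))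
 (.n (nat_lit 2481)
 (.l (.k2_6 (nat_lit 8) (nat_lit 2481) (nat_lit 2479) (nat_lit 2499) (nat_lit 2535) (nat_lit 2319) (nat_lit 2967) (nat_lit 1023) (nat_lit 295)))
 (.l (.k1_7 (nat_lit 6) (nat_lit 2489) (nat_lit 2491) (nat_lit 2495) (nat_lit 2471) (nat_lit 2543) (nat_lit 2327) (nat_lit 2975) (nat_lit 1031) (nat_lit 4675)))))
 (.n (nat_lit 2495)
 (.n (nat_lit 2491)
 (.l (.k3_7 (nat_lit 5) (nat_lit 2491) (nat_lit 2489) (nat_lit 2497) (nat_lit 2473) (nat_lit 2545) (nat_lit 2329) (nat_lit 2977) (nat_lit 1033) (nat_lit 4677) (nat_lit 305)))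
 (.l (.k1_7 (nat_lit 6) (nat_lit 2495) (nat_lit 2497) (nat_lit 2489) (nat_lit 2477) (nat_lit 2549) (nat_lit 2333) (nat_lit 2981) (nat_lit 1037) (nat_lit 4681))))
 (.n (nat_lit 2497)
 (.l (.k3_9 (nat_lit 7) (nat_lit 2497) (nat_lit 2495) (nat_lit 2499) (nat_lit 2491) (nat_lit 2503) (nat_lit 2479) (nat_lit 2551) (nat_lit 2335) (nat_lit 2983) (nat_lit 1039) (nat_lit 4683) (nat_lit 311)))
 (.l (.k2_7 (nat_lit 6) (nat_lit 2499) (nat_lit 2497) (nat_lit 2505) (nat_lit 2481) (nat_lit 2553) (nat_lit 2337) (nat_lit 2985) (nat_lit 1041) (nat_lit 313))))))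
 (.n (nat_lit 2525)
 (.n (nat_lit 2505)
 (.n (nat_lit 2503)
 (.l (.k3_6 (nat_lit 7) (nat_lit 2503) (nat_lit 2505) (nat_lit 2497) (nat_lit 2557) (nat_lit 2341) (nat_lit 2989) (nat_lit 1045) (nat_lit 4689) (nat_lit 317)))
 (.l (.k2_6 (nat_lit 8) (nat_lit 2505) (nat_lit 2503) (nat_lit 2499) (nat_lit 2559) (nat_lit 2343) (nat_lit 2991) (nat_lit 1047) (nat_lit 319))))
 (.n (nat_lit 2519)
 (.l (.k1_6 (nat_lit 9) (nat_lit 2519) (nat_lit 2525) (nat_lit 2465) (nat_lit 2357) (nat_lit 2681) (nat_lit 3005) (nat_lit 1061) (nat_lit 4705)))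
 (.l (.k1_9 (nat_lit 8) (nat_lit 2525) (nat_lit 2527) (nat_lit 2519) (nat_lit 2531) (nat_lit 2543) (nat_lit 2471) (nat_lit 2363) (nat_lit 2687) (nat_lit 3011) (nat_lit 1067) (nat_lit 4711)))))
 (.n (nat_lit 2531)
 (.n (nat_lit 2527)
 (.l (.k3_8 (nat_lit 8) (nat_lit 2527) (nat_lit 2525) (nat_lit 2533) (nat_lit 2545) (nat_lit 2473) (nat_lit 2365) (nat_lit 2689) (nat_lit 3013) (nat_lit 1069) (nat_lit 4713) (nat_lit 341)))
 (.l (.k1_8 (nat_lit 5) (nat_lit 2531) (nat_lit 2533) (nat_lit 2525) (nat_lit 2549) (nat_lit 2477) (nat_lit 2369) (nat_lit 2693) (nat_lit 3017) (nat_lit 1073) (nat_lit 4717))))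
 (.n (nat_lit 2533)
 (.l (.k3_9 (nat_lit 7) (nat_lit 2533) (nat_lit 2531) (nat_lit 2535) (nat_lit 2527) (nat_lit 2551) (nat_lit 2479) (nat_lit 2371) (nat_lit 2695) (nat_lit 3019) (nat_lit 1075) (nat_lit 4719) (nat_lit 347)))
 (.l (.k2_7 (nat_lit 7) (nat_lit 2535) (nat_lit 2533) (nat_lit 2553) (nat_lit 2481) (nat_lit 2373) (nat_lit 2697) (nat_lit 3021) (nat_lit 1077) (nat_lit 349)))))))
 (.n (nat_lit 2567)
 (.n (nat_lit 2551)
 (.n (nat_lit 2545)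
 (.n (nat_lit 2543)
 (.l (.k1_9 (nat_lit 8) (nat_lit 2543) (nat_lit 2545) (nat_lit 2549) (nat_lit 2525) (nat_lit 2489) (nat_lit 2597) (nat_lit 2381) (nat_lit 2705) (nat_lit 3029) (nat_lit 1085) (nat_lit 4729)))
 (.l (.k3_9 (nat_lit 7) (nat_lit 2545) (nat_lit 2543) (nat_lit 2551) (nat_lit 2527) (nat_lit 2491) (nat_lit 2599) (nat_lit 2383) (nat_lit 2707) (nat_lit 3031) (nat_lit 1087) (nat_lit 4731) (nat_lit 359))))
 (.n (nat_lit 2549)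
 (.l (.k1_10 (nat_lit 7) (nat_lit 2549) (nat_lit 2551) (nat_lit 2543) (nat_lit 2531) (nat_lit 2567) (nat_lit 2495) (nat_lit 2603) (nat_lit 2387) (nat_lit 2711) (nat_lit 3035) (nat_lit 1091) (nat_lit 4735)))
 (.l (.k3_12 (nat_lit 8) (nat_lit 2551) (nat_lit 2549) (nat_lit 2553) (nat_lit 2545) (nat_lit 2557) (nat_lit 2533) (nat_lit 2569) (nat_lit 2497) (nat_lit 2605) (nat_lit 2389) (nat_lit 2713) (nat_lit 3037) (nat_lit 1093) (nat_lit 4737) (nat_lit 365)))))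
 (.n (nat_lit 2557)
 (.n (nat_lit 2553)
 (.l (.k2_10 (nat_lit 7) (nat_lit 2553) (nat_lit 2551) (nat_lit 2559) (nat_lit 2535) (nat_lit 2571) (nat_lit 2499) (nat_lit 2607) (nat_lit 2391) (nat_lit 2715) (nat_lit 3039) (nat_lit 1095) (nat_lit 367)))
 (.l (.k3_9 (nat_lit 7) (nat_lit 2557) (nat_lit 2559) (nat_lit 2551) (nat_lit 2575) (nat_lit 2503) (nat_lit 2611) (nat_lit 2395) (nat_lit 2719) (nat_lit 3043) (nat_lit 1099) (nat_lit 4743) (nat_lit 371))))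
 (.n (nat_lit 2559)
 (.l (.k2_9 (nat_lit 8) (nat_lit 2559) (nat_lit 2557) (nat_lit 2553) (nat_lit 2577) (nat_lit 2505) (nat_lit 2613) (nat_lit 2397) (nat_lit 2721) (nat_lit 3045) (nat_lit 1101) (nat_lit 373)))
 (.l (.k1_7 (nat_lit 7) (nat_lit 2567) (nat_lit 2569) (nat_lit 2549) (nat_lit 2621) (nat_lit 2405) (nat_lit 2729) (nat_lit 3053) (nat_lit 1109) (nat_lit 4753))))))
 (.n (nat_lit 2577)
 (.n (nat_lit 2571)
 (.n (nat_lit 2569)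
 (.l (.k3_9 (nat_lit 7) (nat_lit 2569) (nat_lit 2567) (nat_lit 2571) (nat_lit 2575) (nat_lit 2551) (nat_lit 2623) (nat_lit 2407) (nat_lit 2731) (nat_lit 3055) (nat_lit 1111) (nat_lit 4755) (nat_lit 383)))
 (.l (.k2_8 (nat_lit 5) (nat_lit 2571) (nat_lit 2569) (nat_lit 2577) (nat_lit 2553) (nat_lit 2625) (nat_lit 2409) (nat_lit 2733) (nat_lit 3057) (nat_lit 1113) (nat_lit 385))))
 (.n (nat_lit 2575)
 (.l (.k3_8 (nat_lit 8) (nat_lit 2575) (nat_lit 2577) (nat_lit 2569) (nat_lit 2557) (nat_lit 2629) (nat_lit 2413) (nat_lit 2737) (nat_lit 3061) (nat_lit 1117) (nat_lit 4761) (nat_lit 389)))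
 (.l (.k2_9 (nat_lit 8) (nat_lit 2577) (nat_lit 2575) (nat_lit 2571) (nat_lit 2583) (nat_lit 2559) (nat_lit 2631) (nat_lit 2415) (nat_lit 2739) (nat_lit 3063) (nat_lit 1119) (nat_lit 391)))))
 (.n (nat_lit 2597)
 (.n (nat_lit 2583)
 (.l (.k2_6 (nat_lit 9) (nat_lit 2583) (nat_lit 2577) (nat_lit 2637) (nat_lit 2421) (nat_lit 2745) (nat_lit 3069) (nat_lit 1125) (nat_lit 397)))
 (.l (.k1_6 (nat_lit 8) (nat_lit 2597) (nat_lit 2599) (nat_lit 2603) (nat_lit 2543) (nat_lit 2759) (nat_lit 3083) (nat_lit 1139) (nat_lit 4783))))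
 (.n (nat_lit 2599)
 (.l (.k3_6 (nat_lit 7) (nat_lit 2599) (nat_lit 2597) (nat_lit 2605) (nat_lit 2545) (nat_lit 2761) (nat_lit 3085) (nat_lit 1141) (nat_lit 4785) (nat_lit 413)))
 (.l (.k1_7 (nat_lit 6) (nat_lit 2603) (nat_lit 2605) (nat_lit 2597) (nat_lit 2621) (nat_lit 2549) (nat_lit 2765) (nat_lit 3089) (nat_lit 1145) (nat_lit 4789))))))))
 (.n (nat_lit 2689)
 (.n (nat_lit 2629)
 (.n (nat_lit 2613)
 (.n (nat_lit 2607)
 (.n (nat_lit 2605)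
 (.l (.k3_9 (nat_lit 7) (nat_lit 2605) (nat_lit 2603) (nat_lit 2607) (nat_lit 2599) (nat_lit 2611) (nat_lit 2623) (nat_lit 2551) (nat_lit 2767) (nat_lit 3091) (nat_lit 1147) (nat_lit 4791) (nat_lit 419)))
 (.l (.k2_7 (nat_lit 6) (nat_lit 2607) (nat_lit 2605) (nat_lit 2613) (nat_lit 2625) (nat_lit 2553) (nat_lit 2769) (nat_lit 3093) (nat_lit 1149) (nat_lit 421))))
 (.n (nat_lit 2611)
 (.l (.k3_7 (nat_lit 5) (nat_lit 2611) (nat_lit 2613) (nat_lit 2605) (nat_lit 2629) (nat_lit 2557) (nat_lit 2773) (nat_lit 3097) (nat_lit 1153) (nat_lit 4797) (nat_lit 425)))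
 (.l (.k2_7 (nat_lit 6) (nat_lit 2613) (nat_lit 2611) (nat_lit 2607) (nat_lit 2631) (nat_lit 2559) (nat_lit 2775) (nat_lit 3099) (nat_lit 1155) (nat_lit 427)))))
 (.n (nat_lit 2623)
 (.n (nat_lit 2621)
 (.l (.k1_6 (nat_lit 8) (nat_lit 2621) (nat_lit 2623) (nat_lit 2603) (nat_lit 2567) (nat_lit 2783) (nat_lit 3107) (nat_lit 1163) (nat_lit 4807)))
 (.l (.k3_8 (nat_lit 8) (nat_lit 2623) (nat_lit 2621) (nat_lit 2625) (nat_lit 2629) (nat_lit 2605) (nat_lit 2569) (nat_lit 2785) (nat_lit 3109) (nat_lit 1165) (nat_lit 4809) (nat_lit 437))))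
 (.n (nat_lit 2625)
 (.l (.k2_7 (nat_lit 6) (nat_lit 2625) (nat_lit 2623) (nat_lit 2631) (nat_lit 2607) (nat_lit 2571) (nat_lit 2787) (nat_lit 3111) (nat_lit 1167) (nat_lit 439)))
 (.l (.k3_8 (nat_lit 8) (nat_lit 2629) (nat_lit 2631) (nat_lit 2623) (nat_lit 2611) (nat_lit 2647) (nat_lit 2575) (nat_lit 2791) (nat_lit 3115) (nat_lit 1171) (nat_lit 4815) (nat_lit 443))))))
 (.n (nat_lit 2649)
 (.n (nat_lit 2637)
 (.n (nat_lit 2631)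
 (.l (.k2_9 (nat_lit 8) (nat_lit 2631) (nat_lit 2629) (nat_lit 2625) (nat_lit 2637) (nat_lit 2613) (nat_lit 2649) (nat_lit 2577) (nat_lit 2793) (nat_lit 3117) (nat_lit 1173) (nat_lit 445)))
 (.l (.k2_6 (nat_lit 8) (nat_lit 2637) (nat_lit 2631) (nat_lit 2655) (nat_lit 2583) (nat_lit 2799) (nat_lit 3123) (nat_lit 1179) (nat_lit 451))))
 (.n (nat_lit 2647)
 (.l (.k3_5 (nat_lit 9) (nat_lit 2647) (nat_lit 2649) (nat_lit 2629) (nat_lit 2809) (nat_lit 3133) (nat_lit 1189) (nat_lit 4833) (nat_lit 461)))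
 (.l (.k2_6 (nat_lit 8) (nat_lit 2649) (nat_lit 2647) (nat_lit 2655) (nat_lit 2631) (nat_lit 2811) (nat_lit 3135) (nat_lit 1191) (nat_lit 463)))))
 (.n (nat_lit 2681)
 (.n (nat_lit 2655)
 (.l (.k2_5 (nat_lit 10) (nat_lit 2655) (nat_lit 2649) (nat_lit 2637) (nat_lit 2817) (nat_lit 3141) (nat_lit 1197) (nat_lit 469)))
 (.l (.k1_4 (nat_lit 8) (nat_lit 2681) (nat_lit 2687) (nat_lit 2519) (nat_lit 3167) (nat_lit 1223) (nat_lit 4867))))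
 (.n (nat_lit 2687)
 (.l (.k1_7 (nat_lit 7) (nat_lit 2687) (nat_lit 2689) (nat_lit 2681) (nat_lit 2693) (nat_lit 2705) (nat_lit 2525) (nat_lit 3173) (nat_lit 1229) (nat_lit 4873)))
 (.l (.k3_6 (nat_lit 7) (nat_lit 2689) (nat_lit 2687) (nat_lit 2695) (nat_lit 2707) (nat_lit 2527) (nat_lit 3175) (nat_lit 1231) (nat_lit 4875) (nat_lit 503)))))))
 (.n (nat_lit 2715)
 (.n (nat_lit 2705)
 (.n (nat_lit 2695)
 (.n (nat_lit 2693)
 (.l (.k1_6 (nat_lit 4) (nat_lit 2693) (nat_lit 2695) (nat_lit 2687) (nat_lit 2711) (nat_lit 2531) (nat_lit 3179) (nat_lit 1235) (nat_lit 4879)))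
 (.l (.k3_7 (nat_lit 6) (nat_lit 2695) (nat_lit 2693) (nat_lit 2697) (nat_lit 2689) (nat_lit 2713) (nat_lit 2533) (nat_lit 3181) (nat_lit 1237) (nat_lit 4881) (nat_lit 509))))
 (.n (nat_lit 2697)
 (.l (.k2_5 (nat_lit 6) (nat_lit 2697) (nat_lit 2695) (nat_lit 2715) (nat_lit 2535) (nat_lit 3183) (nat_lit 1239) (nat_lit 511)))
 (.l (.k1_7 (nat_lit 6) (nat_lit 2705) (nat_lit 2707) (nat_lit 2711) (nat_lit 2687) (nat_lit 2759) (nat_lit 2543) (nat_lit 3191) (nat_lit 1247) (nat_lit 4891)))))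
 (.n (nat_lit 2711)
 (.n (nat_lit 2707)
 (.l (.k3_7 (nat_lit 5) (nat_lit 2707) (nat_lit 2705) (nat_lit 2713) (nat_lit 2689) (nat_lit 2761) (nat_lit 2545) (nat_lit 3193) (nat_lit 1249) (nat_lit 4893) (nat_lit 521)))
 (.l (.k1_8 (nat_lit 5) (nat_lit 2711) (nat_lit 2713) (nat_lit 2705) (nat_lit 2693) (nat_lit 2729) (nat_lit 2765) (nat_lit 2549) (nat_lit 3197) (nat_lit 1253) (nat_lit 4897))))
 (.n (nat_lit 2713)
 (.l (.k3_10 (nat_lit 6) (nat_lit 2713) (nat_lit 2711) (nat_lit 2715) (nat_lit 2707) (nat_lit 2719) (nat_lit 2695) (nat_lit 2731) (nat_lit 2767) (nat_lit 2551) (nat_lit 3199) (nat_lit 1255) (nat_lit 4899) (nat_lit 527)))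
 (.l (.k2_8 (nat_lit 5) (nat_lit 2715) (nat_lit 2713) (nat_lit 2721) (nat_lit 2697) (nat_lit 2733) (nat_lit 2769) (nat_lit 2553) (nat_lit 3201) (nat_lit 1257) (nat_lit 529))))))
 (.n (nat_lit 2731)
 (.n (nat_lit 2721)
 (.n (nat_lit 2719)
 (.l (.k3_7 (nat_lit 5) (nat_lit 2719) (nat_lit 2721) (nat_lit 2713) (nat_lit 2737) (nat_lit 2773) (nat_lit 2557) (nat_lit 3205) (nat_lit 1261) (nat_lit 4905) (nat_lit 533)))
 (.l (.k2_7 (nat_lit 6) (nat_lit 2721) (nat_lit 2719) (nat_lit 2715) (nat_lit 2739) (nat_lit 2775) (nat_lit 2559) (nat_lit 3207) (nat_lit 1263) (nat_lit 535))))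
 (.n (nat_lit 2729)
 (.l (.k1_6 (nat_lit 4) (nat_lit 2729) (nat_lit 2731) (nat_lit 2711) (nat_lit 2783) (nat_lit 2567) (nat_lit 3215) (nat_lit 1271) (nat_lit 4915)))
 (.l (.k3_8 (nat_lit 4) (nat_lit 2731) (nat_lit 2729) (nat_lit 2733) (nat_lit 2737) (nat_lit 2713) (nat_lit 2785) (nat_lit 2569) (nat_lit 3217) (nat_lit 1273) (nat_lit 4917) (nat_lit 545)))))
 (.n (nat_lit 2737)
 (.n (nat_lit 2733)
 (.l (.k2_7 (nat_lit 2) (nat_lit 2733) (nat_lit 2731) (nat_lit 2739) (nat_lit 2715) (nat_lit 2787) (nat_lit 2571) (nat_lit 3219) (nat_lit 1275) (nat_lit 547)))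
 (.l (.k3_7 (nat_lit 5) (nat_lit 2737) (nat_lit 2739) (nat_lit 2731) (nat_lit 2719) (nat_lit 2791) (nat_lit 2575) (nat_lit 3223) (nat_lit 1279) (nat_lit 4923) (nat_lit 551))))
 (.n (nat_lit 2739)
 (.l (.k2_8 (nat_lit 5) (nat_lit 2739) (nat_lit 2737) (nat_lit 2733) (nat_lit 2745) (nat_lit 2721) (nat_lit 2793) (nat_lit 2577) (nat_lit 3225) (nat_lit 1281) (nat_lit 553)))
 (.l (.k2_5 (nat_lit 6) (nat_lit 2745) (nat_lit 2739) (nat_lit 2799) (nat_lit 2583) (nat_lit 3231) (nat_lit 1287) (nat_lit 559))))))))))))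
 (.n (nat_lit 4439)
 (.n (nat_lit 3417)
 (.n (nat_lit 3085)
 (.n (nat_lit 2957)
 (.n (nat_lit 2811)
 (.n (nat_lit 2775)
 (.n (nat_lit 2765)
 (.n (nat_lit 2759)
 (.l (.k1_6 (nat_lit 8) (nat_lit 2759) (nat_lit 2761) (nat_lit 2765) (nat_lit 2705) (nat_lit 2597) (nat_lit 3245) (nat_lit 1301) (nat_lit 4945)))
 (.n (nat_lit 2761)
 (.l (.k3_6 (nat_lit 7) (nat_lit 2761) (nat_lit 2759) (nat_lit 2767) (nat_lit 2707) (nat_lit 2599) (nat_lit 3247) (nat_lit 1303) (nat_lit 4947) (nat_lit 575)))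
 (.l (.k1_7 (nat_lit 6) (nat_lit 2765) (nat_lit 2767) (nat_lit 2759) (nat_lit 2783) (nat_lit 2711) (nat_lit 2603) (nat_lit 3251) (nat_lit 1307) (nat_lit 4951)))))
 (.n (nat_lit 2769)
 (.n (nat_lit 2767)
 (.l (.k3_9 (nat_lit 7) (nat_lit 2767) (nat_lit 2765) (nat_lit 2769) (nat_lit 2761) (nat_lit 2773) (nat_lit 2785) (nat_lit 2713) (nat_lit 2605) (nat_lit 3253) (nat_lit 1309) (nat_lit 4953) (nat_lit 581)))
 (.l (.k2_7 (nat_lit 6) (nat_lit 2769) (nat_lit 2767) (nat_lit 2775) (nat_lit 2787) (nat_lit 2715) (nat_lit 2607) (nat_lit 3255) (nat_lit 1311) (nat_lit 583))))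
 (.n (nat_lit 2773)
 (.l (.k3_7 (nat_lit 5) (nat_lit 2773) (nat_lit 2775) (nat_lit 2767) (nat_lit 2791) (nat_lit 2719) (nat_lit 2611) (nat_lit 3259) (nat_lit 1315) (nat_lit 4959) (nat_lit 587)))
 (.l (.k2_7 (nat_lit 6) (nat_lit 2775) (nat_lit 2773) (nat_lit 2769) (nat_lit 2793) (nat_lit 2721) (nat_lit 2613) (nat_lit 3261) (nat_lit 1317) (nat_lit 589))))))
 (.n (nat_lit 2791)
 (.n (nat_lit 2785)
 (.n (nat_lit 2783)
 (.l (.k1_7 (nat_lit 7) (nat_lit 2783) (nat_lit 2785) (nat_lit 2765) (nat_lit 2729) (nat_lit 2837) (nat_lit 2621) (nat_lit 3269) (nat_lit 1325) (nat_lit 4969)))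
 (.l (.k3_9 (nat_lit 7) (nat_lit 2785) (nat_lit 2783) (nat_lit 2787) (nat_lit 2791) (nat_lit 2767) (nat_lit 2731) (nat_lit 2839) (nat_lit 2623) (nat_lit 3271) (nat_lit 1327) (nat_lit 4971) (nat_lit 599))))
 (.n (nat_lit 2787)
 (.l (.k2_8 (nat_lit 5) (nat_lit 2787) (nat_lit 2785) (nat_lit 2793) (nat_lit 2769) (nat_lit 2733) (nat_lit 2841) (nat_lit 2625) (nat_lit 3273) (nat_lit 1329) (nat_lit 601)))
 (.l (.k3_9 (nat_lit 7) (nat_lit 2791) (nat_lit 2793) (nat_lit 2785) (nat_lit 2773) (nat_lit 2809) (nat_lit 2737) (nat_lit 2845) (nat_lit 2629) (nat_lit 3277) (nat_lit 1333) (nat_lit 4977) (nat_lit 605)))))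
 (.n (nat_lit 2799)
 (.n (nat_lit 2793)
 (.l (.k2_10 (nat_lit 7) (nat_lit 2793) (nat_lit 2791) (nat_lit 2787) (nat_lit 2799) (nat_lit 2775) (nat_lit 2811) (nat_lit 2739) (nat_lit 2847) (nat_lit 2631) (nat_lit 3279) (nat_lit 1335) (nat_lit 607)))
 (.l (.k2_7 (nat_lit 7) (nat_lit 2799) (nat_lit 2793) (nat_lit 2817) (nat_lit 2745) (nat_lit 2853) (nat_lit 2637) (nat_lit 3285) (nat_lit 1341) (nat_lit 613))))
 (.n (nat_lit 2809)
 (.l (.k3_6 (nat_lit 7) (nat_lit 2809) (nat_lit 2811) (nat_lit 2791) (nat_lit 2863) (nat_lit 2647) (nat_lit 3295) (nat_lit 1351) (nat_lit 4995) (nat_lit 623)))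
 (.l (.k2_7 (nat_lit 6) (nat_lit 2811) (nat_lit 2809) (nat_lit 2817) (nat_lit 2793) (nat_lit 2865) (nat_lit 2649) (nat_lit 3297) (nat_lit 1353) (nat_lit 625)))))))
 (.n (nat_lit 2863)
 (.n (nat_lit 2841)
 (.n (nat_lit 2837)
 (.n (nat_lit 2817)
 (.l (.k2_6 (nat_lit 8) (nat_lit 2817) (nat_lit 2811) (nat_lit 2799) (nat_lit 2871) (nat_lit 2655) (nat_lit 3303) (nat_lit 1359) (nat_lit 631)))
 (.l (.k1_4 (nat_lit 8) (nat_lit 2837) (nat_lit 2839) (nat_lit 2783) (nat_lit 3323) (nat_lit 1379) (nat_lit 5023))))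
 (.n (nat_lit 2839)
 (.l (.k3_6 (nat_lit 8) (nat_lit 2839) (nat_lit 2837) (nat_lit 2841) (nat_lit 2845) (nat_lit 2785) (nat_lit 3325) (nat_lit 1381) (nat_lit 5025) (nat_lit 653)))
 (.l (.k2_5 (nat_lit 6) (nat_lit 2841) (nat_lit 2839) (nat_lit 2847) (nat_lit 2787) (nat_lit 3327) (nat_lit 1383) (nat_lit 655)))))
 (.n (nat_lit 2847)
 (.n (nat_lit 2845)
 (.l (.k3_6 (nat_lit 7) (nat_lit 2845) (nat_lit 2847) (nat_lit 2839) (nat_lit 2863) (nat_lit 2791) (nat_lit 3331) (nat_lit 1387) (nat_lit 5031) (nat_lit 659)))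
 (.l (.k2_7 (nat_lit 7) (nat_lit 2847) (nat_lit 2845) (nat_lit 2841) (nat_lit 2853) (nat_lit 2865) (nat_lit 2793) (nat_lit 3333) (nat_lit 1389) (nat_lit 661))))
 (.n (nat_lit 2853)
 (.l (.k2_5 (nat_lit 6) (nat_lit 2853) (nat_lit 2847) (nat_lit 2871) (nat_lit 2799) (nat_lit 3339) (nat_lit 1395) (nat_lit 667)))
 (.l (.k3_5 (nat_lit 9) (nat_lit 2863) (nat_lit 2865) (nat_lit 2845) (nat_lit 2809) (nat_lit 3349) (nat_lit 1405) (nat_lit 5049) (nat_lit 677))))))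
 (.n (nat_lit 2933)
 (.n (nat_lit 2871)
 (.n (nat_lit 2865)
 (.l (.k2_6 (nat_lit 8) (nat_lit 2865) (nat_lit 2863) (nat_lit 2871) (nat_lit 2847) (nat_lit 2811) (nat_lit 3351) (nat_lit 1407) (nat_lit 679)))
 (.l (.k2_6 (nat_lit 9) (nat_lit 2871) (nat_lit 2865) (nat_lit 2853) (nat_lit 2889) (nat_lit 2817) (nat_lit 3357) (nat_lit 1413) (nat_lit 685))))
 (.n (nat_lit 2889)
 (.l (.k2_3 (nat_lit 10) (nat_lit 2889) (nat_lit 2871) (nat_lit 3375) (nat_lit 1431) (nat_lit 703)))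
 (.l (.k1_5 (nat_lit 11) (nat_lit 2933) (nat_lit 2939) (nat_lit 2951) (nat_lit 2447) (nat_lit 1475) (nat_lit 4391) (nat_lit 5119)))))
 (.n (nat_lit 2941)
 (.n (nat_lit 2939)
 (.l (.k1_6 (nat_lit 9) (nat_lit 2939) (nat_lit 2941) (nat_lit 2933) (nat_lit 2957) (nat_lit 2453) (nat_lit 1481) (nat_lit 4397) (nat_lit 5125)))
 (.l (.k3_5 (nat_lit 10) (nat_lit 2941) (nat_lit 2939) (nat_lit 2959) (nat_lit 2455) (nat_lit 1483) (nat_lit 4399) (nat_lit 5127) (nat_lit 755))))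
 (.n (nat_lit 2951)
 (.l (.k1_6 (nat_lit 9) (nat_lit 2951) (nat_lit 2957) (nat_lit 2933) (nat_lit 3005) (nat_lit 2465) (nat_lit 1493) (nat_lit 4409) (nat_lit 5137)))
 (.l (.k1_9 (nat_lit 9) (nat_lit 2957) (nat_lit 2959) (nat_lit 2951) (nat_lit 2963) (nat_lit 2939) (nat_lit 2975) (nat_lit 3011) (nat_lit 2471) (nat_lit 1499) (nat_lit 4415) (nat_lit 5143))))))))
 (.n (nat_lit 3019)
 (.n (nat_lit 2983)
 (.n (nat_lit 2967)
 (.n (nat_lit 2963)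
 (.n (nat_lit 2959)
 (.l (.k3_8 (nat_lit 9) (nat_lit 2959) (nat_lit 2957) (nat_lit 2965) (nat_lit 2941) (nat_lit 2977) (nat_lit 3013) (nat_lit 2473) (nat_lit 1501) (nat_lit 4417) (nat_lit 5145) (nat_lit 773)))
 (.l (.k1_7 (nat_lit 7) (nat_lit 2963) (nat_lit 2965) (nat_lit 2957) (nat_lit 2981) (nat_lit 3017) (nat_lit 2477) (nat_lit 1505) (nat_lit 4421) (nat_lit 5149))))
 (.n (nat_lit 2965)
 (.l (.k3_8 (nat_lit 9) (nat_lit 2965) (nat_lit 2963) (nat_lit 2967) (nat_lit 2959) (nat_lit 2983) (nat_lit 3019) (nat_lit 2479) (nat_lit 1507) (nat_lit 4423) (nat_lit 5151) (nat_lit 779)))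
 (.l (.k2_6 (nat_lit 9) (nat_lit 2967) (nat_lit 2965) (nat_lit 2985) (nat_lit 3021) (nat_lit 2481) (nat_lit 1509) (nat_lit 4425) (nat_lit 781)))))
 (.n (nat_lit 2977)
 (.n (nat_lit 2975)
 (.l (.k1_7 (nat_lit 7) (nat_lit 2975) (nat_lit 2977) (nat_lit 2981) (nat_lit 2957) (nat_lit 3029) (nat_lit 2489) (nat_lit 1517) (nat_lit 4433) (nat_lit 5161)))
 (.l (.k3_7 (nat_lit 6) (nat_lit 2977) (nat_lit 2975) (nat_lit 2983) (nat_lit 2959) (nat_lit 3031) (nat_lit 2491) (nat_lit 1519) (nat_lit 4435) (nat_lit 5163) (nat_lit 791))))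
 (.n (nat_lit 2981)
 (.l (.k1_7 (nat_lit 7) (nat_lit 2981) (nat_lit 2983) (nat_lit 2975) (nat_lit 2963) (nat_lit 3035) (nat_lit 2495) (nat_lit 1523) (nat_lit 4439) (nat_lit 5167)))
 (.l (.k3_9 (nat_lit 8) (nat_lit 2983) (nat_lit 2981) (nat_lit 2985) (nat_lit 2977) (nat_lit 2989) (nat_lit 2965) (nat_lit 3037) (nat_lit 2497) (nat_lit 1525) (nat_lit 4441) (nat_lit 5169) (nat_lit 797))))))
 (.n (nat_lit 3005)
 (.n (nat_lit 2989)
 (.n (nat_lit 2985)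
 (.l (.k2_7 (nat_lit 7) (nat_lit 2985) (nat_lit 2983) (nat_lit 2991) (nat_lit 2967) (nat_lit 3039) (nat_lit 2499) (nat_lit 1527) (nat_lit 4443) (nat_lit 799)))
 (.l (.k3_6 (nat_lit 8) (nat_lit 2989) (nat_lit 2991) (nat_lit 2983) (nat_lit 3043) (nat_lit 2503) (nat_lit 1531) (nat_lit 4447) (nat_lit 5175) (nat_lit 803))))
 (.n (nat_lit 2991)
 (.l (.k2_6 (nat_lit 9) (nat_lit 2991) (nat_lit 2989) (nat_lit 2985) (nat_lit 3045) (nat_lit 2505) (nat_lit 1533) (nat_lit 4449) (nat_lit 805)))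
 (.l (.k1_6 (nat_lit 9) (nat_lit 3005) (nat_lit 3011) (nat_lit 2951) (nat_lit 3167) (nat_lit 2519) (nat_lit 1547) (nat_lit 4463) (nat_lit 5191)))))
 (.n (nat_lit 3013)
 (.n (nat_lit 3011)
 (.l (.k1_9 (nat_lit 8) (nat_lit 3011) (nat_lit 3013) (nat_lit 3005) (nat_lit 3017) (nat_lit 3029) (nat_lit 2957) (nat_lit 3173) (nat_lit 2525) (nat_lit 1553) (nat_lit 4469) (nat_lit 5197)))
 (.l (.k3_8 (nat_lit 8) (nat_lit 3013) (nat_lit 3011) (nat_lit 3019) (nat_lit 3031) (nat_lit 2959) (nat_lit 3175) (nat_lit 2527) (nat_lit 1555) (nat_lit 4471) (nat_lit 5199) (nat_lit 827))))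
 (.n (nat_lit 3017)
 (.l (.k1_8 (nat_lit 5) (nat_lit 3017) (nat_lit 3019) (nat_lit 3011) (nat_lit 3035) (nat_lit 2963) (nat_lit 3179) (nat_lit 2531) (nat_lit 1559) (nat_lit 4475) (nat_lit 5203)))
 (.l (.k3_9 (nat_lit 7) (nat_lit 3019) (nat_lit 3017) (nat_lit 3021) (nat_lit 3013) (nat_lit 3037) (nat_lit 2965) (nat_lit 3181) (nat_lit 2533) (nat_lit 1561) (nat_lit 4477) (nat_lit 5205) (nat_lit 833)))))))
 (.n (nat_lit 3045)
 (.n (nat_lit 3035)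
 (.n (nat_lit 3029)
 (.n (nat_lit 3021)
 (.l (.k2_7 (nat_lit 7) (nat_lit 3021) (nat_lit 3019) (nat_lit 3039) (nat_lit 2967) (nat_lit 3183) (nat_lit 2535) (nat_lit 1563) (nat_lit 4479) (nat_lit 835)))
 (.l (.k1_9 (nat_lit 8) (nat_lit 3029) (nat_lit 3031) (nat_lit 3035) (nat_lit 3011) (nat_lit 2975) (nat_lit 3083) (nat_lit 3191) (nat_lit 2543) (nat_lit 1571) (nat_lit 4487) (nat_lit 5215))))
 (.n (nat_lit 3031)
 (.l (.k3_9 (nat_lit 7) (nat_lit 3031) (nat_lit 3029) (nat_lit 3037) (nat_lit 3013) (nat_lit 2977) (nat_lit 3085) (nat_lit 3193) (nat_lit 2545) (nat_lit 1573) (nat_lit 4489) (nat_lit 5217) (nat_lit 845)))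
 (.l (.k1_10 (nat_lit 7) (nat_lit 3035) (nat_lit 3037) (nat_lit 3029) (nat_lit 3017) (nat_lit 3053) (nat_lit 2981) (nat_lit 3089) (nat_lit 3197) (nat_lit 2549) (nat_lit 1577) (nat_lit 4493) (nat_lit 5221)))))
 (.n (nat_lit 3039)
 (.n (nat_lit 3037)
 (.l (.k3_12 (nat_lit 8) (nat_lit 3037) (nat_lit 3035) (nat_lit 3039) (nat_lit 3031) (nat_lit 3043) (nat_lit 3019) (nat_lit 3055) (nat_lit 2983) (nat_lit 3091) (nat_lit 3199) (nat_lit 2551) (nat_lit 1579) (nat_lit 4495) (nat_lit 5223) (nat_lit 851)))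
 (.l (.k2_10 (nat_lit 7) (nat_lit 3039) (nat_lit 3037) (nat_lit 3045) (nat_lit 3021) (nat_lit 3057) (nat_lit 2985) (nat_lit 3093) (nat_lit 3201) (nat_lit 2553) (nat_lit 1581) (nat_lit 4497) (nat_lit 853))))
 (.n (nat_lit 3043)
 (.l (.k3_9 (nat_lit 7) (nat_lit 3043) (nat_lit 3045) (nat_lit 3037) (nat_lit 3061) (nat_lit 2989) (nat_lit 3097) (nat_lit 3205) (nat_lit 2557) (nat_lit 1585) (nat_lit 4501) (nat_lit 5229) (nat_lit 857)))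
 (.l (.k2_9 (nat_lit 8) (nat_lit 3045) (nat_lit 3043) (nat_lit 3039) (nat_lit 3063) (nat_lit 2991) (nat_lit 3099) (nat_lit 3207) (nat_lit 2559) (nat_lit 1587) (nat_lit 4503) (nat_lit 859))))))
 (.n (nat_lit 3061)
 (.n (nat_lit 3055)
 (.n (nat_lit 3053)
 (.l (.k1_7 (nat_lit 7) (nat_lit 3053) (nat_lit 3055) (nat_lit 3035) (nat_lit 3107) (nat_lit 3215) (nat_lit 2567) (nat_lit 1595) (nat_lit 4511) (nat_lit 5239)))
 (.l (.k3_9 (nat_lit 7) (nat_lit 3055) (nat_lit 3053) (nat_lit 3057) (nat_lit 3061) (nat_lit 3037) (nat_lit 3109) (nat_lit 3217) (nat_lit 2569) (nat_lit 1597) (nat_lit 4513) (nat_lit 5241) (nat_lit 869))))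
 (.n (nat_lit 3057)
 (.l (.k2_8 (nat_lit 5) (nat_lit 3057) (nat_lit 3055) (nat_lit 3063) (nat_lit 3039) (nat_lit 3111) (nat_lit 3219) (nat_lit 2571) (nat_lit 1599) (nat_lit 4515) (nat_lit 871)))
 (.l (.k3_8 (nat_lit 8) (nat_lit 3061) (nat_lit 3063) (nat_lit 3055) (nat_lit 3043) (nat_lit 3115) (nat_lit 3223) (nat_lit 2575) (nat_lit 1603) (nat_lit 4519) (nat_lit 5247) (nat_lit 875)))))
 (.n (nat_lit 3069)
 (.n (nat_lit 3063)
 (.l (.k2_9 (nat_lit 8) (nat_lit 3063) (nat_lit 3061) (nat_lit 3057) (nat_lit 3069) (nat_lit 3045) (nat_lit 3117) (nat_lit 3225) (nat_lit 2577) (nat_lit 1605) (nat_lit 4521) (nat_lit 877)))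
 (.l (.k2_6 (nat_lit 9) (nat_lit 3069) (nat_lit 3063) (nat_lit 3123) (nat_lit 3231) (nat_lit 2583) (nat_lit 1611) (nat_lit 4527) (nat_lit 883))))
 (.n (nat_lit 3083)
 (.l (.k1_7 (nat_lit 7) (nat_lit 3083) (nat_lit 3085) (nat_lit 3089) (nat_lit 3029) (nat_lit 3245) (nat_lit 2597) (nat_lit 1625) (nat_lit 4541) (nat_lit 5269)))
 (.l (.k3_7 (nat_lit 6) (nat_lit 3085) (nat_lit 3083) (nat_lit 3091) (nat_lit 3031) (nat_lit 3247) (nat_lit 2599) (nat_lit 1627) (nat_lit 4543) (nat_lit 5271) (nat_lit 899)))))))))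
 (.n (nat_lit 3225)
 (.n (nat_lit 3173)
 (.n (nat_lit 3111)
 (.n (nat_lit 3097)
 (.n (nat_lit 3091)
 (.n (nat_lit 3089)
 (.l (.k1_8 (nat_lit 5) (nat_lit 3089) (nat_lit 3091) (nat_lit 3083) (nat_lit 3107) (nat_lit 3035) (nat_lit 3251) (nat_lit 2603) (nat_lit 1631) (nat_lit 4547) (nat_lit 5275)))
 (.l (.k3_10 (nat_lit 6) (nat_lit 3091) (nat_lit 3089) (nat_lit 3093) (nat_lit 3085) (nat_lit 3097) (nat_lit 3109) (nat_lit 3037) (nat_lit 3253) (nat_lit 2605) (nat_lit 1633) (nat_lit 4549) (nat_lit 5277) (nat_lit 905))))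
 (.n (nat_lit 3093)
 (.l (.k2_8 (nat_lit 5) (nat_lit 3093) (nat_lit 3091) (nat_lit 3099) (nat_lit 3111) (nat_lit 3039) (nat_lit 3255) (nat_lit 2607) (nat_lit 1635) (nat_lit 4551) (nat_lit 907)))
 (.l (.k3_8 (nat_lit 4) (nat_lit 3097) (nat_lit 3099) (nat_lit 3091) (nat_lit 3115) (nat_lit 3043) (nat_lit 3259) (nat_lit 2611) (nat_lit 1639) (nat_lit 4555) (nat_lit 5283) (nat_lit 911)))))
 (.n (nat_lit 3107)
 (.n (nat_lit 3099)
 (.l (.k2_8 (nat_lit 5) (nat_lit 3099) (nat_lit 3097) (nat_lit 3093) (nat_lit 3117) (nat_lit 3045) (nat_lit 3261) (nat_lit 2613) (nat_lit 1641) (nat_lit 4557) (nat_lit 913)))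
 (.l (.k1_7 (nat_lit 7) (nat_lit 3107) (nat_lit 3109) (nat_lit 3089) (nat_lit 3053) (nat_lit 3269) (nat_lit 2621) (nat_lit 1649) (nat_lit 4565) (nat_lit 5293))))
 (.n (nat_lit 3109)
 (.l (.k3_9 (nat_lit 7) (nat_lit 3109) (nat_lit 3107) (nat_lit 3111) (nat_lit 3115) (nat_lit 3091) (nat_lit 3055) (nat_lit 3271) (nat_lit 2623) (nat_lit 1651) (nat_lit 4567) (nat_lit 5295) (nat_lit 923)))
 (.l (.k2_8 (nat_lit 5) (nat_lit 3111) (nat_lit 3109) (nat_lit 3117) (nat_lit 3093) (nat_lit 3057) (nat_lit 3273) (nat_lit 2625) (nat_lit 1653) (nat_lit 4569) (nat_lit 925))))))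
 (.n (nat_lit 3133)
 (.n (nat_lit 3117)
 (.n (nat_lit 3115)
 (.l (.k3_9 (nat_lit 7) (nat_lit 3115) (nat_lit 3117) (nat_lit 3109) (nat_lit 3097) (nat_lit 3133) (nat_lit 3061) (nat_lit 3277) (nat_lit 2629) (nat_lit 1657) (nat_lit 4573) (nat_lit 5301) (nat_lit 929)))
 (.l (.k2_10 (nat_lit 7) (nat_lit 3117) (nat_lit 3115) (nat_lit 3111) (nat_lit 3123) (nat_lit 3099) (nat_lit 3135) (nat_lit 3063) (nat_lit 3279) (nat_lit 2631) (nat_lit 1659) (nat_lit 4575) (nat_lit 931))))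
 (.n (nat_lit 3123)
 (.l (.k2_7 (nat_lit 7) (nat_lit 3123) (nat_lit 3117) (nat_lit 3141) (nat_lit 3069) (nat_lit 3285) (nat_lit 2637) (nat_lit 1665) (nat_lit 4581) (nat_lit 937)))
 (.l (.k3_6 (nat_lit 8) (nat_lit 3133) (nat_lit 3135) (nat_lit 3115) (nat_lit 3295) (nat_lit 2647) (nat_lit 1675) (nat_lit 4591) (nat_lit 5319) (nat_lit 947)))))
 (.n (nat_lit 3141)
 (.n (nat_lit 3135)
 (.l (.k2_7 (nat_lit 7) (nat_lit 3135) (nat_lit 3133) (nat_lit 3141) (nat_lit 3117) (nat_lit 3297) (nat_lit 2649) (nat_lit 1677) (nat_lit 4593) (nat_lit 949)))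
 (.l (.k2_6 (nat_lit 9) (nat_lit 3141) (nat_lit 3135) (nat_lit 3123) (nat_lit 3303) (nat_lit 2655) (nat_lit 1683) (nat_lit 4599) (nat_lit 955))))
 (.n (nat_lit 3167)
 (.l (.k1_6 (nat_lit 10) (nat_lit 3167) (nat_lit 3173) (nat_lit 3005) (nat_lit 2681) (nat_lit 3653) (nat_lit 1709) (nat_lit 4625) (nat_lit 5353)))
 (.l (.k1_9 (nat_lit 9) (nat_lit 3173) (nat_lit 3175) (nat_lit 3167) (nat_lit 3179) (nat_lit 3191) (nat_lit 3011) (nat_lit 2687) (nat_lit 3659) (nat_lit 1715) (nat_lit 4631) (nat_lit 5359)))))))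
 (.n (nat_lit 3199)
 (.n (nat_lit 3183)
 (.n (nat_lit 3179)
 (.n (nat_lit 3175)
 (.l (.k3_8 (nat_lit 9) (nat_lit 3175) (nat_lit 3173) (nat_lit 3181) (nat_lit 3193) (nat_lit 3013) (nat_lit 2689) (nat_lit 3661) (nat_lit 1717) (nat_lit 4633) (nat_lit 5361) (nat_lit 989)))
 (.l (.k1_8 (nat_lit 6) (nat_lit 3179) (nat_lit 3181) (nat_lit 3173) (nat_lit 3197) (nat_lit 3017) (nat_lit 2693) (nat_lit 3665) (nat_lit 1721) (nat_lit 4637) (nat_lit 5365))))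
 (.n (nat_lit 3181)
 (.l (.k3_9 (nat_lit 8) (nat_lit 3181) (nat_lit 3179) (nat_lit 3183) (nat_lit 3175) (nat_lit 3199) (nat_lit 3019) (nat_lit 2695) (nat_lit 3667) (nat_lit 1723) (nat_lit 4639) (nat_lit 5367) (nat_lit 995)))
 (.l (.k2_7 (nat_lit 8) (nat_lit 3183) (nat_lit 3181) (nat_lit 3201) (nat_lit 3021) (nat_lit 2697) (nat_lit 3669) (nat_lit 1725) (nat_lit 4641) (nat_lit 997)))))
 (.n (nat_lit 3193)
 (.n (nat_lit 3191)
 (.l (.k1_9 (nat_lit 8) (nat_lit 3191) (nat_lit 3193) (nat_lit 3197) (nat_lit 3173) (nat_lit 3245) (nat_lit 3029) (nat_lit 2705) (nat_lit 3677) (nat_lit 1733) (nat_lit 4649) (nat_lit 5377)))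
 (.l (.k3_9 (nat_lit 7) (nat_lit 3193) (nat_lit 3191) (nat_lit 3199) (nat_lit 3175) (nat_lit 3247) (nat_lit 3031) (nat_lit 2707) (nat_lit 3679) (nat_lit 1735) (nat_lit 4651) (nat_lit 5379) (nat_lit 1007))))
 (.n (nat_lit 3197)
 (.l (.k1_10 (nat_lit 7) (nat_lit 3197) (nat_lit 3199) (nat_lit 3191) (nat_lit 3179) (nat_lit 3215) (nat_lit 3251) (nat_lit 3035) (nat_lit 2711) (nat_lit 3683) (nat_lit 1739) (nat_lit 4655) (nat_lit 5383)))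
 (.l (.k3_12 (nat_lit 8) (nat_lit 3199) (nat_lit 3197) (nat_lit 3201) (nat_lit 3193) (nat_lit 3205) (nat_lit 3181) (nat_lit 3217) (nat_lit 3253) (nat_lit 3037) (nat_lit 2713) (nat_lit 3685) (nat_lit 1741) (nat_lit 4657) (nat_lit 5385) (nat_lit 1013))))))
 (.n (nat_lit 3215)
 (.n (nat_lit 3205)
 (.n (nat_lit 3201)
 (.l (.k2_10 (nat_lit 7) (nat_lit 3201) (nat_lit 3199) (nat_lit 3207) (nat_lit 3183) (nat_lit 3219) (nat_lit 3255) (nat_lit 3039) (nat_lit 2715) (nat_lit 3687) (nat_lit 1743) (nat_lit 4659) (nat_lit 1015)))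
 (.l (.k3_9 (nat_lit 7) (nat_lit 3205) (nat_lit 3207) (nat_lit 3199) (nat_lit 3223) (nat_lit 3259) (nat_lit 3043) (nat_lit 2719) (nat_lit 3691) (nat_lit 1747) (nat_lit 4663) (nat_lit 5391) (nat_lit 1019))))
 (.n (nat_lit 3207)
 (.l (.k2_9 (nat_lit 8) (nat_lit 3207) (nat_lit 3205) (nat_lit 3201) (nat_lit 3225) (nat_lit 3261) (nat_lit 3045) (nat_lit 2721) (nat_lit 3693) (nat_lit 1749) (nat_lit 4665) (nat_lit 1021)))
 (.l (.k1_8 (nat_lit 6) (nat_lit 3215) (nat_lit 3217) (nat_lit 3197) (nat_lit 3269) (nat_lit 3053) (nat_lit 2729) (nat_lit 3701) (nat_lit 1757) (nat_lit 4673) (nat_lit 5401)))))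
 (.n (nat_lit 3219)
 (.n (nat_lit 3217)
 (.l (.k3_10 (nat_lit 6) (nat_lit 3217) (nat_lit 3215) (nat_lit 3219) (nat_lit 3223) (nat_lit 3199) (nat_lit 3271) (nat_lit 3055) (nat_lit 2731) (nat_lit 3703) (nat_lit 1759) (nat_lit 4675) (nat_lit 5403) (nat_lit 1031)))
 (.l (.k2_9 (nat_lit 4) (nat_lit 3219) (nat_lit 3217) (nat_lit 3225) (nat_lit 3201) (nat_lit 3273) (nat_lit 3057) (nat_lit 2733) (nat_lit 3705) (nat_lit 1761) (nat_lit 4677) (nat_lit 1033))))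
 (.n (nat_lit 3223)
 (.l (.k3_9 (nat_lit 7) (nat_lit 3223) (nat_lit 3225) (nat_lit 3217) (nat_lit 3205) (nat_lit 3277) (nat_lit 3061) (nat_lit 2737) (nat_lit 3709) (nat_lit 1765) (nat_lit 4681) (nat_lit 5409) (nat_lit 1037)))
 (.l (.k2_10 (nat_lit 7) (nat_lit 3225) (nat_lit 3223) (nat_lit 3219) (nat_lit 3231) (nat_lit 3207) (nat_lit 3279) (nat_lit 3063) (nat_lit 2739) (nat_lit 3711) (nat_lit 1767) (nat_lit 4683) (nat_lit 1039))))))))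
 (.n (nat_lit 3297)
 (.n (nat_lit 3261)
 (.n (nat_lit 3251)
 (.n (nat_lit 3245)
 (.n (nat_lit 3231)
 (.l (.k2_7 (nat_lit 8) (nat_lit 3231) (nat_lit 3225) (nat_lit 3285) (nat_lit 3069) (nat_lit 2745) (nat_lit 3717) (nat_lit 1773) (nat_lit 4689) (nat_lit 1045)))
 (.l (.k1_9 (nat_lit 9) (nat_lit 3245) (nat_lit 3247) (nat_lit 3251) (nat_lit 3191) (nat_lit 3083) (nat_lit 3407) (nat_lit 2759) (nat_lit 3731) (nat_lit 1787) (nat_lit 4703) (nat_lit 5431))))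
 (.n (nat_lit 3247)
 (.l (.k3_9 (nat_lit 8) (nat_lit 3247) (nat_lit 3245) (nat_lit 3253) (nat_lit 3193) (nat_lit 3085) (nat_lit 3409) (nat_lit 2761) (nat_lit 3733) (nat_lit 1789) (nat_lit 4705) (nat_lit 5433) (nat_lit 1061)))
 (.l (.k1_10 (nat_lit 7) (nat_lit 3251) (nat_lit 3253) (nat_lit 3245) (nat_lit 3269) (nat_lit 3197) (nat_lit 3089) (nat_lit 3413) (nat_lit 2765) (nat_lit 3737) (nat_lit 1793) (nat_lit 4709) (nat_lit 5437)))))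
 (.n (nat_lit 3255)
 (.n (nat_lit 3253)
 (.l (.k3_12 (nat_lit 8) (nat_lit 3253) (nat_lit 3251) (nat_lit 3255) (nat_lit 3247) (nat_lit 3259) (nat_lit 3271) (nat_lit 3199) (nat_lit 3091) (nat_lit 3415) (nat_lit 2767) (nat_lit 3739) (nat_lit 1795) (nat_lit 4711) (nat_lit 5439) (nat_lit 1067)))
 (.l (.k2_10 (nat_lit 7) (nat_lit 3255) (nat_lit 3253) (nat_lit 3261) (nat_lit 3273) (nat_lit 3201) (nat_lit 3093) (nat_lit 3417) (nat_lit 2769) (nat_lit 3741) (nat_lit 1797) (nat_lit 4713) (nat_lit 1069))))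
 (.n (nat_lit 3259)
 (.l (.k3_10 (nat_lit 6) (nat_lit 3259) (nat_lit 3261) (nat_lit 3253) (nat_lit 3277) (nat_lit 3205) (nat_lit 3097) (nat_lit 3421) (nat_lit 2773) (nat_lit 3745) (nat_lit 1801) (nat_lit 4717) (nat_lit 5445) (nat_lit 1073)))
 (.l (.k2_10 (nat_lit 7) (nat_lit 3261) (nat_lit 3259) (nat_lit 3255) (nat_lit 3279) (nat_lit 3207) (nat_lit 3099) (nat_lit 3423) (nat_lit 2775) (nat_lit 3747) (nat_lit 1803) (nat_lit 4719) (nat_lit 1075))))))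
 (.n (nat_lit 3277)
 (.n (nat_lit 3271)
 (.n (nat_lit 3269)
 (.l (.k1_10 (nat_lit 8) (nat_lit 3269) (nat_lit 3271) (nat_lit 3251) (nat_lit 3215) (nat_lit 3323) (nat_lit 3107) (nat_lit 3431) (nat_lit 2783) (nat_lit 3755) (nat_lit 1811) (nat_lit 4727) (nat_lit 5455)))
 (.l (.k3_12 (nat_lit 8) (nat_lit 3271) (nat_lit 3269) (nat_lit 3273) (nat_lit 3277) (nat_lit 3253) (nat_lit 3217) (nat_lit 3325) (nat_lit 3109) (nat_lit 3433) (nat_lit 2785) (nat_lit 3757) (nat_lit 1813) (nat_lit 4729) (nat_lit 5457) (nat_lit 1085))))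
 (.n (nat_lit 3273)
 (.l (.k2_11 (nat_lit 6) (nat_lit 3273) (nat_lit 3271) (nat_lit 3279) (nat_lit 3255) (nat_lit 3219) (nat_lit 3327) (nat_lit 3111) (nat_lit 3435) (nat_lit 2787) (nat_lit 3759) (nat_lit 1815) (nat_lit 4731) (nat_lit 1087)))
 (.l (.k3_12 (nat_lit 8) (nat_lit 3277) (nat_lit 3279) (nat_lit 3271) (nat_lit 3259) (nat_lit 3295) (nat_lit 3223) (nat_lit 3331) (nat_lit 3115) (nat_lit 3439) (nat_lit 2791) (nat_lit 3763) (nat_lit 1819) (nat_lit 4735) (nat_lit 5463) (nat_lit 1091)))))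
 (.n (nat_lit 3285)
 (.n (nat_lit 3279)
 (.l (.k2_13 (nat_lit 8) (nat_lit 3279) (nat_lit 3277) (nat_lit 3273) (nat_lit 3285) (nat_lit 3261) (nat_lit 3297) (nat_lit 3225) (nat_lit 3333) (nat_lit 3117) (nat_lit 3441) (nat_lit 2793) (nat_lit 3765) (nat_lit 1821) (nat_lit 4737) (nat_lit 1093)))
 (.l (.k2_10 (nat_lit 8) (nat_lit 3285) (nat_lit 3279) (nat_lit 3303) (nat_lit 3231) (nat_lit 3339) (nat_lit 3123) (nat_lit 3447) (nat_lit 2799) (nat_lit 3771) (nat_lit 1827) (nat_lit 4743) (nat_lit 1099))))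
 (.n (nat_lit 3295)
 (.l (.k3_9 (nat_lit 8) (nat_lit 3295) (nat_lit 3297) (nat_lit 3277) (nat_lit 3349) (nat_lit 3133) (nat_lit 3457) (nat_lit 2809) (nat_lit 3781) (nat_lit 1837) (nat_lit 4753) (nat_lit 5481) (nat_lit 1109)))
 (.l (.k2_10 (nat_lit 7) (nat_lit 3297) (nat_lit 3295) (nat_lit 3303) (nat_lit 3279) (nat_lit 3351) (nat_lit 3135) (nat_lit 3459) (nat_lit 2811) (nat_lit 3783) (nat_lit 1839) (nat_lit 4755) (nat_lit 1111)))))))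
 (.n (nat_lit 3349)
 (.n (nat_lit 3327)
 (.n (nat_lit 3323)
 (.n (nat_lit 3303)
 (.l (.k2_9 (nat_lit 9) (nat_lit 3303) (nat_lit 3297) (nat_lit 3285) (nat_lit 3357) (nat_lit 3141) (nat_lit 3465) (nat_lit 2817) (nat_lit 3789) (nat_lit 1845) (nat_lit 4761) (nat_lit 1117)))
 (.l (.k1_7 (nat_lit 8) (nat_lit 3323) (nat_lit 3325) (nat_lit 3269) (nat_lit 3485) (nat_lit 2837) (nat_lit 3809) (nat_lit 1865) (nat_lit 4781) (nat_lit 5509))))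
 (.n (nat_lit 3325)
 (.l (.k3_9 (nat_lit 8) (nat_lit 3325) (nat_lit 3323) (nat_lit 3327) (nat_lit 3331) (nat_lit 3271) (nat_lit 3487) (nat_lit 2839) (nat_lit 3811) (nat_lit 1867) (nat_lit 4783) (nat_lit 5511) (nat_lit 1139)))
 (.l (.k2_8 (nat_lit 6) (nat_lit 3327) (nat_lit 3325) (nat_lit 3333) (nat_lit 3273) (nat_lit 3489) (nat_lit 2841) (nat_lit 3813) (nat_lit 1869) (nat_lit 4785) (nat_lit 1141)))))
 (.n (nat_lit 3333)
 (.n (nat_lit 3331)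
 (.l (.k3_9 (nat_lit 7) (nat_lit 3331) (nat_lit 3333) (nat_lit 3325) (nat_lit 3349) (nat_lit 3277) (nat_lit 3493) (nat_lit 2845) (nat_lit 3817) (nat_lit 1873) (nat_lit 4789) (nat_lit 5517) (nat_lit 1145)))
 (.l (.k2_10 (nat_lit 7) (nat_lit 3333) (nat_lit 3331) (nat_lit 3327) (nat_lit 3339) (nat_lit 3351) (nat_lit 3279) (nat_lit 3495) (nat_lit 2847) (nat_lit 3819) (nat_lit 1875) (nat_lit 4791) (nat_lit 1147))))
 (.n (nat_lit 3339)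
 (.l (.k2_8 (nat_lit 6) (nat_lit 3339) (nat_lit 3333) (nat_lit 3357) (nat_lit 3285) (nat_lit 3501) (nat_lit 2853) (nat_lit 3825) (nat_lit 1881) (nat_lit 4797) (nat_lit 1153)))
 (.l (.k3_8 (nat_lit 9) (nat_lit 3349) (nat_lit 3351) (nat_lit 3331) (nat_lit 3295) (nat_lit 3511) (nat_lit 2863) (nat_lit 3835) (nat_lit 1891) (nat_lit 4807) (nat_lit 5535) (nat_lit 1163))))))
 (.n (nat_lit 3407)
 (.n (nat_lit 3357)
 (.n (nat_lit 3351)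
 (.l (.k2_9 (nat_lit 8) (nat_lit 3351) (nat_lit 3349) (nat_lit 3357) (nat_lit 3333) (nat_lit 3297) (nat_lit 3513) (nat_lit 2865) (nat_lit 3837) (nat_lit 1893) (nat_lit 4809) (nat_lit 1165)))
 (.l (.k2_9 (nat_lit 9) (nat_lit 3357) (nat_lit 3351) (nat_lit 3339) (nat_lit 3375) (nat_lit 3303) (nat_lit 3519) (nat_lit 2871) (nat_lit 3843) (nat_lit 1899) (nat_lit 4815) (nat_lit 1171))))
 (.n (nat_lit 3375)
 (.l (.k2_6 (nat_lit 10) (nat_lit 3375) (nat_lit 3357) (nat_lit 3537) (nat_lit 2889) (nat_lit 3861) (nat_lit 1917) (nat_lit 4833) (nat_lit 1189)))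
 (.l (.k1_6 (nat_lit 9) (nat_lit 3407) (nat_lit 3409) (nat_lit 3413) (nat_lit 3245) (nat_lit 3893) (nat_lit 1949) (nat_lit 4865) (nat_lit 5593)))))
 (.n (nat_lit 3413)
 (.n (nat_lit 3409)
 (.l (.k3_6 (nat_lit 8) (nat_lit 3409) (nat_lit 3407) (nat_lit 3415) (nat_lit 3247) (nat_lit 3895) (nat_lit 1951) (nat_lit 4867) (nat_lit 5595) (nat_lit 1223)))
 (.l (.k1_7 (nat_lit 7) (nat_lit 3413) (nat_lit 3415) (nat_lit 3407) (nat_lit 3431) (nat_lit 3251) (nat_lit 3899) (nat_lit 1955) (nat_lit 4871) (nat_lit 5599))))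
 (.n (nat_lit 3415)
 (.l (.k3_9 (nat_lit 8) (nat_lit 3415) (nat_lit 3413) (nat_lit 3417) (nat_lit 3409) (nat_lit 3421) (nat_lit 3433) (nat_lit 3253) (nat_lit 3901) (nat_lit 1957) (nat_lit 4873) (nat_lit 5601) (nat_lit 1229)))
 (.l (.k2_7 (nat_lit 7) (nat_lit 3417) (nat_lit 3415) (nat_lit 3423) (nat_lit 3435) (nat_lit 3255) (nat_lit 3903) (nat_lit 1959) (nat_lit 4875) (nat_lit 1231))))))))))
 (.n (nat_lit 3813)
 (.n (nat_lit 3669)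
 (.n (nat_lit 3493)
 (.n (nat_lit 3441)
 (.n (nat_lit 3431)
 (.n (nat_lit 3421)
 (.l (.k3_7 (nat_lit 6) (nat_lit 3421) (nat_lit 3423) (nat_lit 3415) (nat_lit 3439) (nat_lit 3259) (nat_lit 3907) (nat_lit 1963) (nat_lit 4879) (nat_lit 5607) (nat_lit 1235)))
 (.n (nat_lit 3423)
 (.l (.k2_7 (nat_lit 7) (nat_lit 3423) (nat_lit 3421) (nat_lit 3417) (nat_lit 3441) (nat_lit 3261) (nat_lit 3909) (nat_lit 1965) (nat_lit 4881) (nat_lit 1237)))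
 (.l (.k1_7 (nat_lit 7) (nat_lit 3431) (nat_lit 3433) (nat_lit 3413) (nat_lit 3485) (nat_lit 3269) (nat_lit 3917) (nat_lit 1973) (nat_lit 4889) (nat_lit 5617)))))
 (.n (nat_lit 3435)
 (.n (nat_lit 3433)
 (.l (.k3_9 (nat_lit 7) (nat_lit 3433) (nat_lit 3431) (nat_lit 3435) (nat_lit 3439) (nat_lit 3415) (nat_lit 3487) (nat_lit 3271) (nat_lit 3919) (nat_lit 1975) (nat_lit 4891) (nat_lit 5619) (nat_lit 1247)))
 (.l (.k2_8 (nat_lit 5) (nat_lit 3435) (nat_lit 3433) (nat_lit 3441) (nat_lit 3417) (nat_lit 3489) (nat_lit 3273) (nat_lit 3921) (nat_lit 1977) (nat_lit 4893) (nat_lit 1249))))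
 (.n (nat_lit 3439)
 (.l (.k3_9 (nat_lit 7) (nat_lit 3439) (nat_lit 3441) (nat_lit 3433) (nat_lit 3421) (nat_lit 3457) (nat_lit 3493) (nat_lit 3277) (nat_lit 3925) (nat_lit 1981) (nat_lit 4897) (nat_lit 5625) (nat_lit 1253)))
 (.l (.k2_10 (nat_lit 7) (nat_lit 3441) (nat_lit 3439) (nat_lit 3435) (nat_lit 3447) (nat_lit 3423) (nat_lit 3459) (nat_lit 3495) (nat_lit 3279) (nat_lit 3927) (nat_lit 1983) (nat_lit 4899) (nat_lit 1255))))))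
 (.n (nat_lit 3465)
 (.n (nat_lit 3457)
 (.n (nat_lit 3447)
 (.l (.k2_7 (nat_lit 7) (nat_lit 3447) (nat_lit 3441) (nat_lit 3465) (nat_lit 3501) (nat_lit 3285) (nat_lit 3933) (nat_lit 1989) (nat_lit 4905) (nat_lit 1261)))
 (.l (.k3_7 (nat_lit 6) (nat_lit 3457) (nat_lit 3459) (nat_lit 3439) (nat_lit 3511) (nat_lit 3295) (nat_lit 3943) (nat_lit 1999) (nat_lit 4915) (nat_lit 5643) (nat_lit 1271))))
 (.n (nat_lit 3459)
 (.l (.k2_8 (nat_lit 5) (nat_lit 3459) (nat_lit 3457) (nat_lit 3465) (nat_lit 3441) (nat_lit 3513) (nat_lit 3297) (nat_lit 3945) (nat_lit 2001) (nat_lit 4917) (nat_lit 1273)))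
 (.l (.k2_7 (nat_lit 7) (nat_lit 3465) (nat_lit 3459) (nat_lit 3447) (nat_lit 3519) (nat_lit 3303) (nat_lit 3951) (nat_lit 2007) (nat_lit 4923) (nat_lit 1279)))))
 (.n (nat_lit 3487)
 (.n (nat_lit 3485)
 (.l (.k1_6 (nat_lit 9) (nat_lit 3485) (nat_lit 3487) (nat_lit 3431) (nat_lit 3323) (nat_lit 3971) (nat_lit 2027) (nat_lit 4943) (nat_lit 5671)))
 (.l (.k3_8 (nat_lit 9) (nat_lit 3487) (nat_lit 3485) (nat_lit 3489) (nat_lit 3493) (nat_lit 3433) (nat_lit 3325) (nat_lit 3973) (nat_lit 2029) (nat_lit 4945) (nat_lit 5673) (nat_lit 1301))))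
 (.n (nat_lit 3489)
 (.l (.k2_7 (nat_lit 7) (nat_lit 3489) (nat_lit 3487) (nat_lit 3495) (nat_lit 3435) (nat_lit 3327) (nat_lit 3975) (nat_lit 2031) (nat_lit 4947) (nat_lit 1303)))
 (.l (.k3_8 (nat_lit 8) (nat_lit 3493) (nat_lit 3495) (nat_lit 3487) (nat_lit 3511) (nat_lit 3439) (nat_lit 3331) (nat_lit 3979) (nat_lit 2035) (nat_lit 4951) (nat_lit 5679) (nat_lit 1307)))))))
 (.n (nat_lit 3567)
 (.n (nat_lit 3513)
 (.n (nat_lit 3501)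
 (.n (nat_lit 3495)
 (.l (.k2_9 (nat_lit 8) (nat_lit 3495) (nat_lit 3493) (nat_lit 3489) (nat_lit 3501) (nat_lit 3513) (nat_lit 3441) (nat_lit 3333) (nat_lit 3981) (nat_lit 2037) (nat_lit 4953) (nat_lit 1309)))
 (.l (.k2_7 (nat_lit 7) (nat_lit 3501) (nat_lit 3495) (nat_lit 3519) (nat_lit 3447) (nat_lit 3339) (nat_lit 3987) (nat_lit 2043) (nat_lit 4959) (nat_lit 1315))))
 (.n (nat_lit 3511)
 (.l (.k3_8 (nat_lit 9) (nat_lit 3511) (nat_lit 3513) (nat_lit 3493) (nat_lit 3457) (nat_lit 3565) (nat_lit 3349) (nat_lit 3997) (nat_lit 2053) (nat_lit 4969) (nat_lit 5697) (nat_lit 1325)))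
 (.l (.k2_9 (nat_lit 8) (nat_lit 3513) (nat_lit 3511) (nat_lit 3519) (nat_lit 3495) (nat_lit 3459) (nat_lit 3567) (nat_lit 3351) (nat_lit 3999) (nat_lit 2055) (nat_lit 4971) (nat_lit 1327)))))
 (.n (nat_lit 3537)
 (.n (nat_lit 3519)
 (.l (.k2_9 (nat_lit 9) (nat_lit 3519) (nat_lit 3513) (nat_lit 3501) (nat_lit 3537) (nat_lit 3465) (nat_lit 3573) (nat_lit 3357) (nat_lit 4005) (nat_lit 2061) (nat_lit 4977) (nat_lit 1333)))
 (.l (.k2_6 (nat_lit 9) (nat_lit 3537) (nat_lit 3519) (nat_lit 3591) (nat_lit 3375) (nat_lit 4023) (nat_lit 2079) (nat_lit 4995) (nat_lit 1351))))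
 (.n (nat_lit 3565)
 (.l (.k3_5 (nat_lit 10) (nat_lit 3565) (nat_lit 3567) (nat_lit 3511) (nat_lit 4051) (nat_lit 2107) (nat_lit 5023) (nat_lit 5751) (nat_lit 1379)))
 (.l (.k2_6 (nat_lit 9) (nat_lit 3567) (nat_lit 3565) (nat_lit 3573) (nat_lit 3513) (nat_lit 4053) (nat_lit 2109) (nat_lit 5025) (nat_lit 1381))))))
 (.n (nat_lit 3659)
 (.n (nat_lit 3591)
 (.n (nat_lit 3573)
 (.l (.k2_6 (nat_lit 9) (nat_lit 3573) (nat_lit 3567) (nat_lit 3591) (nat_lit 3519) (nat_lit 4059) (nat_lit 2115) (nat_lit 5031) (nat_lit 1387)))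
 (.l (.k2_5 (nat_lit 11) (nat_lit 3591) (nat_lit 3573) (nat_lit 3537) (nat_lit 4077) (nat_lit 2133) (nat_lit 5049) (nat_lit 1405))))
 (.n (nat_lit 3653)
 (.l (.k1_3 (nat_lit 10) (nat_lit 3653) (nat_lit 3659) (nat_lit 3167) (nat_lit 5111) (nat_lit 5839)))
 (.l (.k1_6 (nat_lit 9) (nat_lit 3659) (nat_lit 3661) (nat_lit 3653) (nat_lit 3665) (nat_lit 3677) (nat_lit 3173) (nat_lit 5117) (nat_lit 5845)))))
 (.n (nat_lit 3665)
 (.n (nat_lit 3661)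
 (.l (.k3_5 (nat_lit 9) (nat_lit 3661) (nat_lit 3659) (nat_lit 3667) (nat_lit 3679) (nat_lit 3175) (nat_lit 5119) (nat_lit 5847) (nat_lit 1475)))
 (.l (.k1_5 (nat_lit 6) (nat_lit 3665) (nat_lit 3667) (nat_lit 3659) (nat_lit 3683) (nat_lit 3179) (nat_lit 5123) (nat_lit 5851))))
 (.n (nat_lit 3667)
 (.l (.k3_6 (nat_lit 8) (nat_lit 3667) (nat_lit 3665) (nat_lit 3669) (nat_lit 3661) (nat_lit 3685) (nat_lit 3181) (nat_lit 5125) (nat_lit 5853) (nat_lit 1481)))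
 (.l (.k2_4 (nat_lit 8) (nat_lit 3669) (nat_lit 3667) (nat_lit 3687) (nat_lit 3183) (nat_lit 5127) (nat_lit 1483))))))))
 (.n (nat_lit 3737)
 (.n (nat_lit 3701)
 (.n (nat_lit 3685)
 (.n (nat_lit 3679)
 (.n (nat_lit 3677)
 (.l (.k1_6 (nat_lit 8) (nat_lit 3677) (nat_lit 3679) (nat_lit 3683) (nat_lit 3659) (nat_lit 3731) (nat_lit 3191) (nat_lit 5135) (nat_lit 5863)))
 (.l (.k3_6 (nat_lit 7) (nat_lit 3679) (nat_lit 3677) (nat_lit 3685) (nat_lit 3661) (nat_lit 3733) (nat_lit 3193) (nat_lit 5137) (nat_lit 5865) (nat_lit 1493))))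
 (.n (nat_lit 3683)
 (.l (.k1_7 (nat_lit 7) (nat_lit 3683) (nat_lit 3685) (nat_lit 3677) (nat_lit 3665) (nat_lit 3701) (nat_lit 3737) (nat_lit 3197) (nat_lit 5141) (nat_lit 5869)))
 (.l (.k3_9 (nat_lit 8) (nat_lit 3685) (nat_lit 3683) (nat_lit 3687) (nat_lit 3679) (nat_lit 3691) (nat_lit 3667) (nat_lit 3703) (nat_lit 3739) (nat_lit 3199) (nat_lit 5143) (nat_lit 5871) (nat_lit 1499)))))
 (.n (nat_lit 3691)
 (.n (nat_lit 3687)
 (.l (.k2_7 (nat_lit 7) (nat_lit 3687) (nat_lit 3685) (nat_lit 3693) (nat_lit 3669) (nat_lit 3705) (nat_lit 3741) (nat_lit 3201) (nat_lit 5145) (nat_lit 1501)))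
 (.l (.k3_6 (nat_lit 7) (nat_lit 3691) (nat_lit 3693) (nat_lit 3685) (nat_lit 3709) (nat_lit 3745) (nat_lit 3205) (nat_lit 5149) (nat_lit 5877) (nat_lit 1505))))
 (.n (nat_lit 3693)
 (.l (.k2_6 (nat_lit 8) (nat_lit 3693) (nat_lit 3691) (nat_lit 3687) (nat_lit 3711) (nat_lit 3747) (nat_lit 3207) (nat_lit 5151) (nat_lit 1507)))
 (.l (.k1_5 (nat_lit 6) (nat_lit 3701) (nat_lit 3703) (nat_lit 3683) (nat_lit 3755) (nat_lit 3215) (nat_lit 5159) (nat_lit 5887))))))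
 (.n (nat_lit 3711)
 (.n (nat_lit 3705)
 (.n (nat_lit 3703)
 (.l (.k3_7 (nat_lit 6) (nat_lit 3703) (nat_lit 3701) (nat_lit 3705) (nat_lit 3709) (nat_lit 3685) (nat_lit 3757) (nat_lit 3217) (nat_lit 5161) (nat_lit 5889) (nat_lit 1517)))
 (.l (.k2_6 (nat_lit 4) (nat_lit 3705) (nat_lit 3703) (nat_lit 3711) (nat_lit 3687) (nat_lit 3759) (nat_lit 3219) (nat_lit 5163) (nat_lit 1519))))
 (.n (nat_lit 3709)
 (.l (.k3_6 (nat_lit 7) (nat_lit 3709) (nat_lit 3711) (nat_lit 3703) (nat_lit 3691) (nat_lit 3763) (nat_lit 3223) (nat_lit 5167) (nat_lit 5895) (nat_lit 1523)))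
 (.l (.k2_7 (nat_lit 7) (nat_lit 3711) (nat_lit 3709) (nat_lit 3705) (nat_lit 3717) (nat_lit 3693) (nat_lit 3765) (nat_lit 3225) (nat_lit 5169) (nat_lit 1525)))))
 (.n (nat_lit 3731)
 (.n (nat_lit 3717)
 (.l (.k2_4 (nat_lit 8) (nat_lit 3717) (nat_lit 3711) (nat_lit 3771) (nat_lit 3231) (nat_lit 5175) (nat_lit 1531)))
 (.l (.k1_6 (nat_lit 8) (nat_lit 3731) (nat_lit 3733) (nat_lit 3737) (nat_lit 3677) (nat_lit 3893) (nat_lit 3245) (nat_lit 5189) (nat_lit 5917))))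
 (.n (nat_lit 3733)
 (.l (.k3_6 (nat_lit 7) (nat_lit 3733) (nat_lit 3731) (nat_lit 3739) (nat_lit 3679) (nat_lit 3895) (nat_lit 3247) (nat_lit 5191) (nat_lit 5919) (nat_lit 1547)))
 (.l (.k1_7 (nat_lit 6) (nat_lit 3737) (nat_lit 3739) (nat_lit 3731) (nat_lit 3755) (nat_lit 3683) (nat_lit 3899) (nat_lit 3251) (nat_lit 5195) (nat_lit 5923)))))))
 (.n (nat_lit 3763)
 (.n (nat_lit 3747)
 (.n (nat_lit 3741)
 (.n (nat_lit 3739)
 (.l (.k3_9 (nat_lit 7) (nat_lit 3739) (nat_lit 3737) (nat_lit 3741) (nat_lit 3733) (nat_lit 3745) (nat_lit 3757) (nat_lit 3685) (nat_lit 3901) (nat_lit 3253) (nat_lit 5197) (nat_lit 5925) (nat_lit 1553)))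
 (.l (.k2_7 (nat_lit 6) (nat_lit 3741) (nat_lit 3739) (nat_lit 3747) (nat_lit 3759) (nat_lit 3687) (nat_lit 3903) (nat_lit 3255) (nat_lit 5199) (nat_lit 1555))))
 (.n (nat_lit 3745)
 (.l (.k3_7 (nat_lit 5) (nat_lit 3745) (nat_lit 3747) (nat_lit 3739) (nat_lit 3763) (nat_lit 3691) (nat_lit 3907) (nat_lit 3259) (nat_lit 5203) (nat_lit 5931) (nat_lit 1559)))
 (.l (.k2_7 (nat_lit 6) (nat_lit 3747) (nat_lit 3745) (nat_lit 3741) (nat_lit 3765) (nat_lit 3693) (nat_lit 3909) (nat_lit 3261) (nat_lit 5205) (nat_lit 1561)))))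
 (.n (nat_lit 3757)
 (.n (nat_lit 3755)
 (.l (.k1_7 (nat_lit 7) (nat_lit 3755) (nat_lit 3757) (nat_lit 3737) (nat_lit 3701) (nat_lit 3809) (nat_lit 3917) (nat_lit 3269) (nat_lit 5213) (nat_lit 5941)))
 (.l (.k3_9 (nat_lit 7) (nat_lit 3757) (nat_lit 3755) (nat_lit 3759) (nat_lit 3763) (nat_lit 3739) (nat_lit 3703) (nat_lit 3811) (nat_lit 3919) (nat_lit 3271) (nat_lit 5215) (nat_lit 5943) (nat_lit 1571))))
 (.n (nat_lit 3759)
 (.l (.k2_8 (nat_lit 5) (nat_lit 3759) (nat_lit 3757) (nat_lit 3765) (nat_lit 3741) (nat_lit 3705) (nat_lit 3813) (nat_lit 3921) (nat_lit 3273) (nat_lit 5217) (nat_lit 1573)))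
 (.l (.k3_9 (nat_lit 7) (nat_lit 3763) (nat_lit 3765) (nat_lit 3757) (nat_lit 3745) (nat_lit 3781) (nat_lit 3709) (nat_lit 3817) (nat_lit 3925) (nat_lit 3277) (nat_lit 5221) (nat_lit 5949) (nat_lit 1577))))))
 (.n (nat_lit 3783)
 (.n (nat_lit 3771)
 (.n (nat_lit 3765)
 (.l (.k2_10 (nat_lit 7) (nat_lit 3765) (nat_lit 3763) (nat_lit 3759) (nat_lit 3771) (nat_lit 3747) (nat_lit 3783) (nat_lit 3711) (nat_lit 3819) (nat_lit 3927) (nat_lit 3279) (nat_lit 5223) (nat_lit 1579)))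
 (.l (.k2_7 (nat_lit 7) (nat_lit 3771) (nat_lit 3765) (nat_lit 3789) (nat_lit 3717) (nat_lit 3825) (nat_lit 3933) (nat_lit 3285) (nat_lit 5229) (nat_lit 1585))))
 (.n (nat_lit 3781)
 (.l (.k3_6 (nat_lit 7) (nat_lit 3781) (nat_lit 3783) (nat_lit 3763) (nat_lit 3835) (nat_lit 3943) (nat_lit 3295) (nat_lit 5239) (nat_lit 5967) (nat_lit 1595)))
 (.l (.k2_7 (nat_lit 6) (nat_lit 3783) (nat_lit 3781) (nat_lit 3789) (nat_lit 3765) (nat_lit 3837) (nat_lit 3945) (nat_lit 3297) (nat_lit 5241) (nat_lit 1597)))))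
 (.n (nat_lit 3809)
 (.n (nat_lit 3789)
 (.l (.k2_6 (nat_lit 8) (nat_lit 3789) (nat_lit 3783) (nat_lit 3771) (nat_lit 3843) (nat_lit 3951) (nat_lit 3303) (nat_lit 5247) (nat_lit 1603)))
 (.l (.k1_5 (nat_lit 6) (nat_lit 3809) (nat_lit 3811) (nat_lit 3755) (nat_lit 3971) (nat_lit 3323) (nat_lit 5267) (nat_lit 5995))))
 (.n (nat_lit 3811)
 (.l (.k3_7 (nat_lit 6) (nat_lit 3811) (nat_lit 3809) (nat_lit 3813) (nat_lit 3817) (nat_lit 3757) (nat_lit 3973) (nat_lit 3325) (nat_lit 5269) (nat_lit 5997) (nat_lit 1625)))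
 (.l (.k2_6 (nat_lit 4) (nat_lit 3813) (nat_lit 3811) (nat_lit 3819) (nat_lit 3759) (nat_lit 3975) (nat_lit 3327) (nat_lit 5271) (nat_lit 1627)))))))))
 (.n (nat_lit 4005)
 (.n (nat_lit 3919)
 (.n (nat_lit 3893)
 (.n (nat_lit 3835)
 (.n (nat_lit 3819)
 (.n (nat_lit 3817)
 (.l (.k3_7 (nat_lit 5) (nat_lit 3817) (nat_lit 3819) (nat_lit 3811) (nat_lit 3835) (nat_lit 3763) (nat_lit 3979) (nat_lit 3331) (nat_lit 5275) (nat_lit 6003) (nat_lit 1631)))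
 (.l (.k2_8 (nat_lit 5) (nat_lit 3819) (nat_lit 3817) (nat_lit 3813) (nat_lit 3825) (nat_lit 3837) (nat_lit 3765) (nat_lit 3981) (nat_lit 3333) (nat_lit 5277) (nat_lit 1633))))
 (.n (nat_lit 3825)
 (.l (.k2_6 (nat_lit 4) (nat_lit 3825) (nat_lit 3819) (nat_lit 3843) (nat_lit 3771) (nat_lit 3987) (nat_lit 3339) (nat_lit 5283) (nat_lit 1639)))
 (.l (.k3_6 (nat_lit 7) (nat_lit 3835) (nat_lit 3837) (nat_lit 3817) (nat_lit 3781) (nat_lit 3997) (nat_lit 3349) (nat_lit 5293) (nat_lit 6021) (nat_lit 1649)))))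
 (.n (nat_lit 3843)
 (.n (nat_lit 3837)
 (.l (.k2_7 (nat_lit 6) (nat_lit 3837) (nat_lit 3835) (nat_lit 3843) (nat_lit 3819) (nat_lit 3783) (nat_lit 3999) (nat_lit 3351) (nat_lit 5295) (nat_lit 1651)))
 (.l (.k2_7 (nat_lit 7) (nat_lit 3843) (nat_lit 3837) (nat_lit 3825) (nat_lit 3861) (nat_lit 3789) (nat_lit 4005) (nat_lit 3357) (nat_lit 5301) (nat_lit 1657))))
 (.n (nat_lit 3861)
 (.l (.k2_4 (nat_lit 8) (nat_lit 3861) (nat_lit 3843) (nat_lit 4023) (nat_lit 3375) (nat_lit 5319) (nat_lit 1675)))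
 (.l (.k1_5 (nat_lit 10) (nat_lit 3893) (nat_lit 3895) (nat_lit 3899) (nat_lit 3731) (nat_lit 3407) (nat_lit 5351) (nat_lit 6079))))))
 (.n (nat_lit 3903)
 (.n (nat_lit 3899)
 (.n (nat_lit 3895)
 (.l (.k3_5 (nat_lit 9) (nat_lit 3895) (nat_lit 3893) (nat_lit 3901) (nat_lit 3733) (nat_lit 3409) (nat_lit 5353) (nat_lit 6081) (nat_lit 1709)))
 (.l (.k1_6 (nat_lit 8) (nat_lit 3899) (nat_lit 3901) (nat_lit 3893) (nat_lit 3917) (nat_lit 3737) (nat_lit 3413) (nat_lit 5357) (nat_lit 6085))))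
 (.n (nat_lit 3901)
 (.l (.k3_8 (nat_lit 9) (nat_lit 3901) (nat_lit 3899) (nat_lit 3903) (nat_lit 3895) (nat_lit 3907) (nat_lit 3919) (nat_lit 3739) (nat_lit 3415) (nat_lit 5359) (nat_lit 6087) (nat_lit 1715)))
 (.l (.k2_6 (nat_lit 8) (nat_lit 3903) (nat_lit 3901) (nat_lit 3909) (nat_lit 3921) (nat_lit 3741) (nat_lit 3417) (nat_lit 5361) (nat_lit 1717)))))
 (.n (nat_lit 3909)
 (.n (nat_lit 3907)
 (.l (.k3_6 (nat_lit 7) (nat_lit 3907) (nat_lit 3909) (nat_lit 3901) (nat_lit 3925) (nat_lit 3745) (nat_lit 3421) (nat_lit 5365) (nat_lit 6093) (nat_lit 1721)))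
 (.l (.k2_6 (nat_lit 8) (nat_lit 3909) (nat_lit 3907) (nat_lit 3903) (nat_lit 3927) (nat_lit 3747) (nat_lit 3423) (nat_lit 5367) (nat_lit 1723))))
 (.n (nat_lit 3917)
 (.l (.k1_6 (nat_lit 8) (nat_lit 3917) (nat_lit 3919) (nat_lit 3899) (nat_lit 3971) (nat_lit 3755) (nat_lit 3431) (nat_lit 5375) (nat_lit 6103)))
 (.l (.k3_8 (nat_lit 8) (nat_lit 3919) (nat_lit 3917) (nat_lit 3921) (nat_lit 3925) (nat_lit 3901) (nat_lit 3973) (nat_lit 3757) (nat_lit 3433) (nat_lit 5377) (nat_lit 6105) (nat_lit 1733)))))))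
 (.n (nat_lit 3971)
 (.n (nat_lit 3933)
 (.n (nat_lit 3925)
 (.n (nat_lit 3921)
 (.l (.k2_7 (nat_lit 6) (nat_lit 3921) (nat_lit 3919) (nat_lit 3927) (nat_lit 3903) (nat_lit 3975) (nat_lit 3759) (nat_lit 3435) (nat_lit 5379) (nat_lit 1735)))
 (.l (.k3_8 (nat_lit 8) (nat_lit 3925) (nat_lit 3927) (nat_lit 3919) (nat_lit 3907) (nat_lit 3943) (nat_lit 3979) (nat_lit 3763) (nat_lit 3439) (nat_lit 5383) (nat_lit 6111) (nat_lit 1739))))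
 (.n (nat_lit 3927)
 (.l (.k2_9 (nat_lit 8) (nat_lit 3927) (nat_lit 3925) (nat_lit 3921) (nat_lit 3933) (nat_lit 3909) (nat_lit 3945) (nat_lit 3981) (nat_lit 3765) (nat_lit 3441) (nat_lit 5385) (nat_lit 1741)))
 (.l (.k2_6 (nat_lit 8) (nat_lit 3933) (nat_lit 3927) (nat_lit 3951) (nat_lit 3987) (nat_lit 3771) (nat_lit 3447) (nat_lit 5391) (nat_lit 1747)))))
 (.n (nat_lit 3945)
 (.n (nat_lit 3943)
 (.l (.k3_6 (nat_lit 7) (nat_lit 3943) (nat_lit 3945) (nat_lit 3925) (nat_lit 3997) (nat_lit 3781) (nat_lit 3457) (nat_lit 5401) (nat_lit 6129) (nat_lit 1757)))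
 (.l (.k2_7 (nat_lit 6) (nat_lit 3945) (nat_lit 3943) (nat_lit 3951) (nat_lit 3927) (nat_lit 3999) (nat_lit 3783) (nat_lit 3459) (nat_lit 5403) (nat_lit 1759))))
 (.n (nat_lit 3951)
 (.l (.k2_6 (nat_lit 8) (nat_lit 3951) (nat_lit 3945) (nat_lit 3933) (nat_lit 4005) (nat_lit 3789) (nat_lit 3465) (nat_lit 5409) (nat_lit 1765)))
 (.l (.k1_6 (nat_lit 9) (nat_lit 3971) (nat_lit 3973) (nat_lit 3917) (nat_lit 3809) (nat_lit 4133) (nat_lit 3485) (nat_lit 5429) (nat_lit 6157))))))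
 (.n (nat_lit 3981)
 (.n (nat_lit 3975)
 (.n (nat_lit 3973)
 (.l (.k3_8 (nat_lit 9) (nat_lit 3973) (nat_lit 3971) (nat_lit 3975) (nat_lit 3979) (nat_lit 3919) (nat_lit 3811) (nat_lit 4135) (nat_lit 3487) (nat_lit 5431) (nat_lit 6159) (nat_lit 1787)))
 (.l (.k2_7 (nat_lit 7) (nat_lit 3975) (nat_lit 3973) (nat_lit 3981) (nat_lit 3921) (nat_lit 3813) (nat_lit 4137) (nat_lit 3489) (nat_lit 5433) (nat_lit 1789))))
 (.n (nat_lit 3979)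
 (.l (.k3_8 (nat_lit 8) (nat_lit 3979) (nat_lit 3981) (nat_lit 3973) (nat_lit 3997) (nat_lit 3925) (nat_lit 3817) (nat_lit 4141) (nat_lit 3493) (nat_lit 5437) (nat_lit 6165) (nat_lit 1793)))
 (.l (.k2_9 (nat_lit 8) (nat_lit 3981) (nat_lit 3979) (nat_lit 3975) (nat_lit 3987) (nat_lit 3999) (nat_lit 3927) (nat_lit 3819) (nat_lit 4143) (nat_lit 3495) (nat_lit 5439) (nat_lit 1795)))))
 (.n (nat_lit 3997)
 (.n (nat_lit 3987)
 (.l (.k2_7 (nat_lit 7) (nat_lit 3987) (nat_lit 3981) (nat_lit 4005) (nat_lit 3933) (nat_lit 3825) (nat_lit 4149) (nat_lit 3501) (nat_lit 5445) (nat_lit 1801)))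
 (.l (.k3_8 (nat_lit 9) (nat_lit 3997) (nat_lit 3999) (nat_lit 3979) (nat_lit 3943) (nat_lit 4051) (nat_lit 3835) (nat_lit 4159) (nat_lit 3511) (nat_lit 5455) (nat_lit 6183) (nat_lit 1811))))
 (.n (nat_lit 3999)
 (.l (.k2_9 (nat_lit 8) (nat_lit 3999) (nat_lit 3997) (nat_lit 4005) (nat_lit 3981) (nat_lit 3945) (nat_lit 4053) (nat_lit 3837) (nat_lit 4161) (nat_lit 3513) (nat_lit 5457) (nat_lit 1813)))
 (.l (.k2_9 (nat_lit 9) (nat_lit 4005) (nat_lit 3999) (nat_lit 3987) (nat_lit 4023) (nat_lit 3951) (nat_lit 4059) (nat_lit 3843) (nat_lit 4167) (nat_lit 3519) (nat_lit 5463) (nat_lit 1819))))))))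
 (.n (nat_lit 4213)
 (.n (nat_lit 4137)
 (.n (nat_lit 4059)
 (.n (nat_lit 4051)
 (.n (nat_lit 4023)
 (.l (.k2_6 (nat_lit 9) (nat_lit 4023) (nat_lit 4005) (nat_lit 4077) (nat_lit 3861) (nat_lit 4185) (nat_lit 3537) (nat_lit 5481) (nat_lit 1837)))
 (.l (.k3_5 (nat_lit 9) (nat_lit 4051) (nat_lit 4053) (nat_lit 3997) (nat_lit 4213) (nat_lit 3565) (nat_lit 5509) (nat_lit 6237) (nat_lit 1865))))
 (.n (nat_lit 4053)
 (.l (.k2_6 (nat_lit 8) (nat_lit 4053) (nat_lit 4051) (nat_lit 4059) (nat_lit 3999) (nat_lit 4215) (nat_lit 3567) (nat_lit 5511) (nat_lit 1867)))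
 (.l (.k2_6 (nat_lit 8) (nat_lit 4059) (nat_lit 4053) (nat_lit 4077) (nat_lit 4005) (nat_lit 4221) (nat_lit 3573) (nat_lit 5517) (nat_lit 1873)))))
 (.n (nat_lit 4133)
 (.n (nat_lit 4077)
 (.l (.k2_5 (nat_lit 10) (nat_lit 4077) (nat_lit 4059) (nat_lit 4023) (nat_lit 4239) (nat_lit 3591) (nat_lit 5535) (nat_lit 1891)))
 (.l (.k1_3 (nat_lit 10) (nat_lit 4133) (nat_lit 4135) (nat_lit 3971) (nat_lit 5591) (nat_lit 6319))))
 (.n (nat_lit 4135)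
 (.l (.k3_5 (nat_lit 10) (nat_lit 4135) (nat_lit 4133) (nat_lit 4137) (nat_lit 4141) (nat_lit 3973) (nat_lit 5593) (nat_lit 6321) (nat_lit 1949)))
 (.l (.k2_4 (nat_lit 8) (nat_lit 4137) (nat_lit 4135) (nat_lit 4143) (nat_lit 3975) (nat_lit 5595) (nat_lit 1951))))))
 (.n (nat_lit 4159)
 (.n (nat_lit 4143)
 (.n (nat_lit 4141)
 (.l (.k3_5 (nat_lit 9) (nat_lit 4141) (nat_lit 4143) (nat_lit 4135) (nat_lit 4159) (nat_lit 3979) (nat_lit 5599) (nat_lit 6327) (nat_lit 1955)))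
 (.l (.k2_6 (nat_lit 9) (nat_lit 4143) (nat_lit 4141) (nat_lit 4137) (nat_lit 4149) (nat_lit 4161) (nat_lit 3981) (nat_lit 5601) (nat_lit 1957))))
 (.n (nat_lit 4149)
 (.l (.k2_4 (nat_lit 8) (nat_lit 4149) (nat_lit 4143) (nat_lit 4167) (nat_lit 3987) (nat_lit 5607) (nat_lit 1963)))
 (.l (.k3_5 (nat_lit 9) (nat_lit 4159) (nat_lit 4161) (nat_lit 4141) (nat_lit 4213) (nat_lit 3997) (nat_lit 5617) (nat_lit 6345) (nat_lit 1973)))))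
 (.n (nat_lit 4167)
 (.n (nat_lit 4161)
 (.l (.k2_6 (nat_lit 8) (nat_lit 4161) (nat_lit 4159) (nat_lit 4167) (nat_lit 4143) (nat_lit 4215) (nat_lit 3999) (nat_lit 5619) (nat_lit 1975)))
 (.l (.k2_6 (nat_lit 9) (nat_lit 4167) (nat_lit 4161) (nat_lit 4149) (nat_lit 4185) (nat_lit 4221) (nat_lit 4005) (nat_lit 5625) (nat_lit 1981))))
 (.n (nat_lit 4185)
 (.l (.k2_4 (nat_lit 8) (nat_lit 4185) (nat_lit 4167) (nat_lit 4239) (nat_lit 4023) (nat_lit 5643) (nat_lit 1999)))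
 (.l (.k3_4 (nat_lit 11) (nat_lit 4213) (nat_lit 4215) (nat_lit 4159) (nat_lit 4051) (nat_lit 5671) (nat_lit 6399) (nat_lit 2027)))))))
 (.n (nat_lit 4409)
 (.n (nat_lit 4293)
 (.n (nat_lit 4221)
 (.n (nat_lit 4215)
 (.l (.k2_5 (nat_lit 10) (nat_lit 4215) (nat_lit 4213) (nat_lit 4221) (nat_lit 4161) (nat_lit 4053) (nat_lit 5673) (nat_lit 2029)))
 (.l (.k2_5 (nat_lit 10) (nat_lit 4221) (nat_lit 4215) (nat_lit 4239) (nat_lit 4167) (nat_lit 4059) (nat_lit 5679) (nat_lit 2035))))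
 (.n (nat_lit 4239)
 (.l (.k2_5 (nat_lit 11) (nat_lit 4239) (nat_lit 4221) (nat_lit 4185) (nat_lit 4293) (nat_lit 4077) (nat_lit 5697) (nat_lit 2053)))
 (.l (.k2_2 (nat_lit 12) (nat_lit 4293) (nat_lit 4239) (nat_lit 5751) (nat_lit 2107)))))
 (.n (nat_lit 4397)
 (.n (nat_lit 4391)
 (.l (.k0_3 (nat_lit 12) (nat_lit 4391) (nat_lit 4397) (nat_lit 4409) (nat_lit 2933)))
 (.l (.k0_4 (nat_lit 10) (nat_lit 4397) (nat_lit 4399) (nat_lit 4391) (nat_lit 4415) (nat_lit 2939))))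
 (.n (nat_lit 4399)
 (.l (.k2_3 (nat_lit 10) (nat_lit 4399) (nat_lit 4397) (nat_lit 4417) (nat_lit 2941) (nat_lit 2213)))
 (.l (.k0_4 (nat_lit 10) (nat_lit 4409) (nat_lit 4415) (nat_lit 4391) (nat_lit 4463) (nat_lit 2951))))))
 (.n (nat_lit 4423)
 (.n (nat_lit 4417)
 (.n (nat_lit 4415)
 (.l (.k0_7 (nat_lit 10) (nat_lit 4415) (nat_lit 4417) (nat_lit 4409) (nat_lit 4421) (nat_lit 4397) (nat_lit 4433) (nat_lit 4469) (nat_lit 2957)))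
 (.l (.k2_6 (nat_lit 9) (nat_lit 4417) (nat_lit 4415) (nat_lit 4423) (nat_lit 4399) (nat_lit 4435) (nat_lit 4471) (nat_lit 2959) (nat_lit 2231))))
 (.n (nat_lit 4421)
 (.l (.k0_5 (nat_lit 8) (nat_lit 4421) (nat_lit 4423) (nat_lit 4415) (nat_lit 4439) (nat_lit 4475) (nat_lit 2963)))
 (.l (.k2_6 (nat_lit 9) (nat_lit 4423) (nat_lit 4421) (nat_lit 4425) (nat_lit 4417) (nat_lit 4441) (nat_lit 4477) (nat_lit 2965) (nat_lit 2237)))))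
 (.n (nat_lit 4433)
 (.n (nat_lit 4425)
 (.l (.k2_4 (nat_lit 8) (nat_lit 4425) (nat_lit 4423) (nat_lit 4443) (nat_lit 4479) (nat_lit 2967) (nat_lit 2239)))
 (.l (.k0_5 (nat_lit 8) (nat_lit 4433) (nat_lit 4435) (nat_lit 4439) (nat_lit 4415) (nat_lit 4487) (nat_lit 2975))))
 (.n (nat_lit 4435)
 (.l (.k2_5 (nat_lit 6) (nat_lit 4435) (nat_lit 4433) (nat_lit 4441) (nat_lit 4417) (nat_lit 4489) (nat_lit 2977) (nat_lit 2249)))
 (.l (.k0_5 (nat_lit 8) (nat_lit 4439) (nat_lit 4441) (nat_lit 4433) (nat_lit 4421) (nat_lit 4493) (nat_lit 2981)))))))))))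
 (.n (nat_lit 5151)
 (.n (nat_lit 4713)
 (.n (nat_lit 4565)
 (.n (nat_lit 4497)
 (.n (nat_lit 4471)
 (.n (nat_lit 4447)
 (.n (nat_lit 4441)
 (.l (.k2_7 (nat_lit 8) (nat_lit 4441) (nat_lit 4439) (nat_lit 4443) (nat_lit 4435) (nat_lit 4447) (nat_lit 4423) (nat_lit 4495) (nat_lit 2983) (nat_lit 2255)))
 (.n (nat_lit 4443)
 (.l (.k2_5 (nat_lit 6) (nat_lit 4443) (nat_lit 4441) (nat_lit 4449) (nat_lit 4425) (nat_lit 4497) (nat_lit 2985) (nat_lit 2257)))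
 (.l (.k2_4 (nat_lit 8) (nat_lit 4447) (nat_lit 4449) (nat_lit 4441) (nat_lit 4501) (nat_lit 2989) (nat_lit 2261)))))
 (.n (nat_lit 4463)
 (.n (nat_lit 4449)
 (.l (.k2_4 (nat_lit 8) (nat_lit 4449) (nat_lit 4447) (nat_lit 4443) (nat_lit 4503) (nat_lit 2991) (nat_lit 2263)))
 (.l (.k0_4 (nat_lit 10) (nat_lit 4463) (nat_lit 4469) (nat_lit 4409) (nat_lit 4625) (nat_lit 3005))))
 (.n (nat_lit 4469)
 (.l (.k0_7 (nat_lit 9) (nat_lit 4469) (nat_lit 4471) (nat_lit 4463) (nat_lit 4475) (nat_lit 4487) (nat_lit 4415) (nat_lit 4631) (nat_lit 3011)))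
 (.l (.k2_6 (nat_lit 8) (nat_lit 4471) (nat_lit 4469) (nat_lit 4477) (nat_lit 4489) (nat_lit 4417) (nat_lit 4633) (nat_lit 3013) (nat_lit 2285))))))
 (.n (nat_lit 4487)
 (.n (nat_lit 4477)
 (.n (nat_lit 4475)
 (.l (.k0_6 (nat_lit 6) (nat_lit 4475) (nat_lit 4477) (nat_lit 4469) (nat_lit 4493) (nat_lit 4421) (nat_lit 4637) (nat_lit 3017)))
 (.l (.k2_7 (nat_lit 7) (nat_lit 4477) (nat_lit 4475) (nat_lit 4479) (nat_lit 4471) (nat_lit 4495) (nat_lit 4423) (nat_lit 4639) (nat_lit 3019) (nat_lit 2291))))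
 (.n (nat_lit 4479)
 (.l (.k2_5 (nat_lit 6) (nat_lit 4479) (nat_lit 4477) (nat_lit 4497) (nat_lit 4425) (nat_lit 4641) (nat_lit 3021) (nat_lit 2293)))
 (.l (.k0_7 (nat_lit 9) (nat_lit 4487) (nat_lit 4489) (nat_lit 4493) (nat_lit 4469) (nat_lit 4433) (nat_lit 4541) (nat_lit 4649) (nat_lit 3029)))))
 (.n (nat_lit 4493)
 (.n (nat_lit 4489)
 (.l (.k2_7 (nat_lit 7) (nat_lit 4489) (nat_lit 4487) (nat_lit 4495) (nat_lit 4471) (nat_lit 4435) (nat_lit 4543) (nat_lit 4651) (nat_lit 3031) (nat_lit 2303)))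
 (.l (.k0_8 (nat_lit 8) (nat_lit 4493) (nat_lit 4495) (nat_lit 4487) (nat_lit 4475) (nat_lit 4511) (nat_lit 4439) (nat_lit 4547) (nat_lit 4655) (nat_lit 3035))))
 (.n (nat_lit 4495)
 (.l (.k2_10 (nat_lit 8) (nat_lit 4495) (nat_lit 4493) (nat_lit 4497) (nat_lit 4489) (nat_lit 4501) (nat_lit 4477) (nat_lit 4513) (nat_lit 4441) (nat_lit 4549) (nat_lit 4657) (nat_lit 3037) (nat_lit 2309)))
 (.l (.k2_8 (nat_lit 6) (nat_lit 4497) (nat_lit 4495) (nat_lit 4503) (nat_lit 4479) (nat_lit 4515) (nat_lit 4443) (nat_lit 4551) (nat_lit 4659) (nat_lit 3039) (nat_lit 2311)))))))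
 (.n (nat_lit 4527)
 (.n (nat_lit 4513)
 (.n (nat_lit 4503)
 (.n (nat_lit 4501)
 (.l (.k2_7 (nat_lit 7) (nat_lit 4501) (nat_lit 4503) (nat_lit 4495) (nat_lit 4519) (nat_lit 4447) (nat_lit 4555) (nat_lit 4663) (nat_lit 3043) (nat_lit 2315)))
 (.l (.k2_7 (nat_lit 7) (nat_lit 4503) (nat_lit 4501) (nat_lit 4497) (nat_lit 4521) (nat_lit 4449) (nat_lit 4557) (nat_lit 4665) (nat_lit 3045) (nat_lit 2317))))
 (.n (nat_lit 4511)
 (.l (.k0_5 (nat_lit 8) (nat_lit 4511) (nat_lit 4513) (nat_lit 4493) (nat_lit 4565) (nat_lit 4673) (nat_lit 3053)))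
 (.l (.k2_7 (nat_lit 7) (nat_lit 4513) (nat_lit 4511) (nat_lit 4515) (nat_lit 4519) (nat_lit 4495) (nat_lit 4567) (nat_lit 4675) (nat_lit 3055) (nat_lit 2327)))))
 (.n (nat_lit 4519)
 (.n (nat_lit 4515)
 (.l (.k2_6 (nat_lit 4) (nat_lit 4515) (nat_lit 4513) (nat_lit 4521) (nat_lit 4497) (nat_lit 4569) (nat_lit 4677) (nat_lit 3057) (nat_lit 2329)))
 (.l (.k2_6 (nat_lit 8) (nat_lit 4519) (nat_lit 4521) (nat_lit 4513) (nat_lit 4501) (nat_lit 4573) (nat_lit 4681) (nat_lit 3061) (nat_lit 2333))))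
 (.n (nat_lit 4521)
 (.l (.k2_7 (nat_lit 7) (nat_lit 4521) (nat_lit 4519) (nat_lit 4515) (nat_lit 4527) (nat_lit 4503) (nat_lit 4575) (nat_lit 4683) (nat_lit 3063) (nat_lit 2335)))
 (.l (.k2_4 (nat_lit 8) (nat_lit 4527) (nat_lit 4521) (nat_lit 4581) (nat_lit 4689) (nat_lit 3069) (nat_lit 2341))))))
 (.n (nat_lit 4549)
 (.n (nat_lit 4543)
 (.n (nat_lit 4541)
 (.l (.k0_5 (nat_lit 8) (nat_lit 4541) (nat_lit 4543) (nat_lit 4547) (nat_lit 4487) (nat_lit 4703) (nat_lit 3083)))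
 (.l (.k2_5 (nat_lit 6) (nat_lit 4543) (nat_lit 4541) (nat_lit 4549) (nat_lit 4489) (nat_lit 4705) (nat_lit 3085) (nat_lit 2357))))
 (.n (nat_lit 4547)
 (.l (.k0_6 (nat_lit 6) (nat_lit 4547) (nat_lit 4549) (nat_lit 4541) (nat_lit 4565) (nat_lit 4493) (nat_lit 4709) (nat_lit 3089)))
 (.l (.k2_8 (nat_lit 6) (nat_lit 4549) (nat_lit 4547) (nat_lit 4551) (nat_lit 4543) (nat_lit 4555) (nat_lit 4567) (nat_lit 4495) (nat_lit 4711) (nat_lit 3091) (nat_lit 2363)))))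
 (.n (nat_lit 4555)
 (.n (nat_lit 4551)
 (.l (.k2_6 (nat_lit 4) (nat_lit 4551) (nat_lit 4549) (nat_lit 4557) (nat_lit 4569) (nat_lit 4497) (nat_lit 4713) (nat_lit 3093) (nat_lit 2365)))
 (.l (.k2_6 (nat_lit 4) (nat_lit 4555) (nat_lit 4557) (nat_lit 4549) (nat_lit 4573) (nat_lit 4501) (nat_lit 4717) (nat_lit 3097) (nat_lit 2369))))
 (.n (nat_lit 4557)
 (.l (.k2_6 (nat_lit 4) (nat_lit 4557) (nat_lit 4555) (nat_lit 4551) (nat_lit 4575) (nat_lit 4503) (nat_lit 4719) (nat_lit 3099) (nat_lit 2371)))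
 (.l (.k0_5 (nat_lit 8) (nat_lit 4565) (nat_lit 4567) (nat_lit 4547) (nat_lit 4511) (nat_lit 4727) (nat_lit 3107))))))))
 (.n (nat_lit 4651)
 (.n (nat_lit 4599)
 (.n (nat_lit 4575)
 (.n (nat_lit 4569)
 (.n (nat_lit 4567)
 (.l (.k2_7 (nat_lit 7) (nat_lit 4567) (nat_lit 4565) (nat_lit 4569) (nat_lit 4573) (nat_lit 4549) (nat_lit 4513) (nat_lit 4729) (nat_lit 3109) (nat_lit 2381)))
 (.l (.k2_6 (nat_lit 4) (nat_lit 4569) (nat_lit 4567) (nat_lit 4575) (nat_lit 4551) (nat_lit 4515) (nat_lit 4731) (nat_lit 3111) (nat_lit 2383))))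
 (.n (nat_lit 4573)
 (.l (.k2_7 (nat_lit 7) (nat_lit 4573) (nat_lit 4575) (nat_lit 4567) (nat_lit 4555) (nat_lit 4591) (nat_lit 4519) (nat_lit 4735) (nat_lit 3115) (nat_lit 2387)))
 (.l (.k2_8 (nat_lit 6) (nat_lit 4575) (nat_lit 4573) (nat_lit 4569) (nat_lit 4581) (nat_lit 4557) (nat_lit 4593) (nat_lit 4521) (nat_lit 4737) (nat_lit 3117) (nat_lit 2389)))))
 (.n (nat_lit 4591)
 (.n (nat_lit 4581)
 (.l (.k2_5 (nat_lit 6) (nat_lit 4581) (nat_lit 4575) (nat_lit 4599) (nat_lit 4527) (nat_lit 4743) (nat_lit 3123) (nat_lit 2395)))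
 (.l (.k2_4 (nat_lit 8) (nat_lit 4591) (nat_lit 4593) (nat_lit 4573) (nat_lit 4753) (nat_lit 3133) (nat_lit 2405))))
 (.n (nat_lit 4593)
 (.l (.k2_5 (nat_lit 6) (nat_lit 4593) (nat_lit 4591) (nat_lit 4599) (nat_lit 4575) (nat_lit 4755) (nat_lit 3135) (nat_lit 2407)))
 (.l (.k2_4 (nat_lit 8) (nat_lit 4599) (nat_lit 4593) (nat_lit 4581) (nat_lit 4761) (nat_lit 3141) (nat_lit 2413))))))
 (.n (nat_lit 4637)
 (.n (nat_lit 4631)
 (.n (nat_lit 4625)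
 (.l (.k0_4 (nat_lit 10) (nat_lit 4625) (nat_lit 4631) (nat_lit 4463) (nat_lit 5111) (nat_lit 3167)))
 (.l (.k0_7 (nat_lit 9) (nat_lit 4631) (nat_lit 4633) (nat_lit 4625) (nat_lit 4637) (nat_lit 4649) (nat_lit 4469) (nat_lit 5117) (nat_lit 3173))))
 (.n (nat_lit 4633)
 (.l (.k2_6 (nat_lit 8) (nat_lit 4633) (nat_lit 4631) (nat_lit 4639) (nat_lit 4651) (nat_lit 4471) (nat_lit 5119) (nat_lit 3175) (nat_lit 2447)))
 (.l (.k0_6 (nat_lit 6) (nat_lit 4637) (nat_lit 4639) (nat_lit 4631) (nat_lit 4655) (nat_lit 4475) (nat_lit 5123) (nat_lit 3179)))))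
 (.n (nat_lit 4641)
 (.n (nat_lit 4639)
 (.l (.k2_7 (nat_lit 7) (nat_lit 4639) (nat_lit 4637) (nat_lit 4641) (nat_lit 4633) (nat_lit 4657) (nat_lit 4477) (nat_lit 5125) (nat_lit 3181) (nat_lit 2453)))
 (.l (.k2_5 (nat_lit 6) (nat_lit 4641) (nat_lit 4639) (nat_lit 4659) (nat_lit 4479) (nat_lit 5127) (nat_lit 3183) (nat_lit 2455))))
 (.n (nat_lit 4649)
 (.l (.k0_7 (nat_lit 8) (nat_lit 4649) (nat_lit 4651) (nat_lit 4655) (nat_lit 4631) (nat_lit 4703) (nat_lit 4487) (nat_lit 5135) (nat_lit 3191)))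
 (.l (.k2_7 (nat_lit 6) (nat_lit 4651) (nat_lit 4649) (nat_lit 4657) (nat_lit 4633) (nat_lit 4705) (nat_lit 4489) (nat_lit 5137) (nat_lit 3193) (nat_lit 2465)))))))
 (.n (nat_lit 4677)
 (.n (nat_lit 4663)
 (.n (nat_lit 4657)
 (.n (nat_lit 4655)
 (.l (.k0_8 (nat_lit 7) (nat_lit 4655) (nat_lit 4657) (nat_lit 4649) (nat_lit 4637) (nat_lit 4673) (nat_lit 4709) (nat_lit 4493) (nat_lit 5141) (nat_lit 3197)))
 (.l (.k2_10 (nat_lit 7) (nat_lit 4657) (nat_lit 4655) (nat_lit 4659) (nat_lit 4651) (nat_lit 4663) (nat_lit 4639) (nat_lit 4675) (nat_lit 4711) (nat_lit 4495) (nat_lit 5143) (nat_lit 3199) (nat_lit 2471))))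
 (.n (nat_lit 4659)
 (.l (.k2_8 (nat_lit 5) (nat_lit 4659) (nat_lit 4657) (nat_lit 4665) (nat_lit 4641) (nat_lit 4677) (nat_lit 4713) (nat_lit 4497) (nat_lit 5145) (nat_lit 3201) (nat_lit 2473)))
 (.l (.k2_7 (nat_lit 6) (nat_lit 4663) (nat_lit 4665) (nat_lit 4657) (nat_lit 4681) (nat_lit 4717) (nat_lit 4501) (nat_lit 5149) (nat_lit 3205) (nat_lit 2477)))))
 (.n (nat_lit 4673)
 (.n (nat_lit 4665)
 (.l (.k2_7 (nat_lit 6) (nat_lit 4665) (nat_lit 4663) (nat_lit 4659) (nat_lit 4683) (nat_lit 4719) (nat_lit 4503) (nat_lit 5151) (nat_lit 3207) (nat_lit 2479)))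
 (.l (.k0_6 (nat_lit 6) (nat_lit 4673) (nat_lit 4675) (nat_lit 4655) (nat_lit 4727) (nat_lit 4511) (nat_lit 5159) (nat_lit 3215))))
 (.n (nat_lit 4675)
 (.l (.k2_8 (nat_lit 5) (nat_lit 4675) (nat_lit 4673) (nat_lit 4677) (nat_lit 4681) (nat_lit 4657) (nat_lit 4729) (nat_lit 4513) (nat_lit 5161) (nat_lit 3217) (nat_lit 2489)))
 (.l (.k2_7 (nat_lit 2) (nat_lit 4677) (nat_lit 4675) (nat_lit 4683) (nat_lit 4659) (nat_lit 4731) (nat_lit 4515) (nat_lit 5163) (nat_lit 3219) (nat_lit 2491))))))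
 (.n (nat_lit 4703)
 (.n (nat_lit 4683)
 (.n (nat_lit 4681)
 (.l (.k2_7 (nat_lit 6) (nat_lit 4681) (nat_lit 4683) (nat_lit 4675) (nat_lit 4663) (nat_lit 4735) (nat_lit 4519) (nat_lit 5167) (nat_lit 3223) (nat_lit 2495)))
 (.l (.k2_8 (nat_lit 5) (nat_lit 4683) (nat_lit 4681) (nat_lit 4677) (nat_lit 4689) (nat_lit 4665) (nat_lit 4737) (nat_lit 4521) (nat_lit 5169) (nat_lit 3225) (nat_lit 2497))))
 (.n (nat_lit 4689)
 (.l (.k2_5 (nat_lit 6) (nat_lit 4689) (nat_lit 4683) (nat_lit 4743) (nat_lit 4527) (nat_lit 5175) (nat_lit 3231) (nat_lit 2503)))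
 (.l (.k0_7 (nat_lit 9) (nat_lit 4703) (nat_lit 4705) (nat_lit 4709) (nat_lit 4649) (nat_lit 4541) (nat_lit 4865) (nat_lit 5189) (nat_lit 3245)))))
 (.n (nat_lit 4709)
 (.n (nat_lit 4705)
 (.l (.k2_7 (nat_lit 7) (nat_lit 4705) (nat_lit 4703) (nat_lit 4711) (nat_lit 4651) (nat_lit 4543) (nat_lit 4867) (nat_lit 5191) (nat_lit 3247) (nat_lit 2519)))
 (.l (.k0_8 (nat_lit 7) (nat_lit 4709) (nat_lit 4711) (nat_lit 4703) (nat_lit 4727) (nat_lit 4655) (nat_lit 4547) (nat_lit 4871) (nat_lit 5195) (nat_lit 3251))))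
 (.n (nat_lit 4711)
 (.l (.k2_10 (nat_lit 7) (nat_lit 4711) (nat_lit 4709) (nat_lit 4713) (nat_lit 4705) (nat_lit 4717) (nat_lit 4729) (nat_lit 4657) (nat_lit 4549) (nat_lit 4873) (nat_lit 5197) (nat_lit 3253) (nat_lit 2525)))
 (.l (.k2_8 (nat_lit 5) (nat_lit 4713) (nat_lit 4711) (nat_lit 4719) (nat_lit 4731) (nat_lit 4659) (nat_lit 4551) (nat_lit 4875) (nat_lit 5199) (nat_lit 3255) (nat_lit 2527)))))))))
 (.n (nat_lit 4897)
 (.n (nat_lit 4791)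
 (.n (nat_lit 4743)
 (.n (nat_lit 4729)
 (.n (nat_lit 4719)
 (.n (nat_lit 4717)
 (.l (.k2_8 (nat_lit 5) (nat_lit 4717) (nat_lit 4719) (nat_lit 4711) (nat_lit 4735) (nat_lit 4663) (nat_lit 4555) (nat_lit 4879) (nat_lit 5203) (nat_lit 3259) (nat_lit 2531)))
 (.l (.k2_8 (nat_lit 5) (nat_lit 4719) (nat_lit 4717) (nat_lit 4713) (nat_lit 4737) (nat_lit 4665) (nat_lit 4557) (nat_lit 4881) (nat_lit 5205) (nat_lit 3261) (nat_lit 2533))))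
 (.n (nat_lit 4727)
 (.l (.k0_8 (nat_lit 8) (nat_lit 4727) (nat_lit 4729) (nat_lit 4709) (nat_lit 4673) (nat_lit 4781) (nat_lit 4565) (nat_lit 4889) (nat_lit 5213) (nat_lit 3269)))
 (.l (.k2_10 (nat_lit 7) (nat_lit 4729) (nat_lit 4727) (nat_lit 4731) (nat_lit 4735) (nat_lit 4711) (nat_lit 4675) (nat_lit 4783) (nat_lit 4567) (nat_lit 4891) (nat_lit 5215) (nat_lit 3271) (nat_lit 2543)))))
 (.n (nat_lit 4735)
 (.n (nat_lit 4731)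
 (.l (.k2_9 (nat_lit 4) (nat_lit 4731) (nat_lit 4729) (nat_lit 4737) (nat_lit 4713) (nat_lit 4677) (nat_lit 4785) (nat_lit 4569) (nat_lit 4893) (nat_lit 5217) (nat_lit 3273) (nat_lit 2545)))
 (.l (.k2_10 (nat_lit 7) (nat_lit 4735) (nat_lit 4737) (nat_lit 4729) (nat_lit 4717) (nat_lit 4753) (nat_lit 4681) (nat_lit 4789) (nat_lit 4573) (nat_lit 4897) (nat_lit 5221) (nat_lit 3277) (nat_lit 2549))))
 (.n (nat_lit 4737)
 (.l (.k2_11 (nat_lit 6) (nat_lit 4737) (nat_lit 4735) (nat_lit 4731) (nat_lit 4743) (nat_lit 4719) (nat_lit 4755) (nat_lit 4683) (nat_lit 4791) (nat_lit 4575) (nat_lit 4899) (nat_lit 5223) (nat_lit 3279) (nat_lit 2551)))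
 (.l (.k2_8 (nat_lit 6) (nat_lit 4743) (nat_lit 4737) (nat_lit 4761) (nat_lit 4689) (nat_lit 4797) (nat_lit 4581) (nat_lit 4905) (nat_lit 5229) (nat_lit 3285) (nat_lit 2557))))))
 (.n (nat_lit 4781)
 (.n (nat_lit 4755)
 (.n (nat_lit 4753)
 (.l (.k2_7 (nat_lit 7) (nat_lit 4753) (nat_lit 4755) (nat_lit 4735) (nat_lit 4807) (nat_lit 4591) (nat_lit 4915) (nat_lit 5239) (nat_lit 3295) (nat_lit 2567)))
 (.l (.k2_8 (nat_lit 5) (nat_lit 4755) (nat_lit 4753) (nat_lit 4761) (nat_lit 4737) (nat_lit 4809) (nat_lit 4593) (nat_lit 4917) (nat_lit 5241) (nat_lit 3297) (nat_lit 2569))))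
 (.n (nat_lit 4761)
 (.l (.k2_7 (nat_lit 7) (nat_lit 4761) (nat_lit 4755) (nat_lit 4743) (nat_lit 4815) (nat_lit 4599) (nat_lit 4923) (nat_lit 5247) (nat_lit 3303) (nat_lit 2575)))
 (.l (.k0_5 (nat_lit 8) (nat_lit 4781) (nat_lit 4783) (nat_lit 4727) (nat_lit 4943) (nat_lit 5267) (nat_lit 3323)))))
 (.n (nat_lit 4785)
 (.n (nat_lit 4783)
 (.l (.k2_7 (nat_lit 7) (nat_lit 4783) (nat_lit 4781) (nat_lit 4785) (nat_lit 4789) (nat_lit 4729) (nat_lit 4945) (nat_lit 5269) (nat_lit 3325) (nat_lit 2597)))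
 (.l (.k2_6 (nat_lit 4) (nat_lit 4785) (nat_lit 4783) (nat_lit 4791) (nat_lit 4731) (nat_lit 4947) (nat_lit 5271) (nat_lit 3327) (nat_lit 2599))))
 (.n (nat_lit 4789)
 (.l (.k2_7 (nat_lit 6) (nat_lit 4789) (nat_lit 4791) (nat_lit 4783) (nat_lit 4807) (nat_lit 4735) (nat_lit 4951) (nat_lit 5275) (nat_lit 3331) (nat_lit 2603)))
 (.l (.k2_8 (nat_lit 5) (nat_lit 4791) (nat_lit 4789) (nat_lit 4785) (nat_lit 4797) (nat_lit 4809) (nat_lit 4737) (nat_lit 4953) (nat_lit 5277) (nat_lit 3333) (nat_lit 2605)))))))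
 (.n (nat_lit 4871)
 (.n (nat_lit 4815)
 (.n (nat_lit 4807)
 (.n (nat_lit 4797)
 (.l (.k2_6 (nat_lit 4) (nat_lit 4797) (nat_lit 4791) (nat_lit 4815) (nat_lit 4743) (nat_lit 4959) (nat_lit 5283) (nat_lit 3339) (nat_lit 2611)))
 (.l (.k2_6 (nat_lit 8) (nat_lit 4807) (nat_lit 4809) (nat_lit 4789) (nat_lit 4753) (nat_lit 4969) (nat_lit 5293) (nat_lit 3349) (nat_lit 2621))))
 (.n (nat_lit 4809)
 (.l (.k2_7 (nat_lit 6) (nat_lit 4809) (nat_lit 4807) (nat_lit 4815) (nat_lit 4791) (nat_lit 4755) (nat_lit 4971) (nat_lit 5295) (nat_lit 3351) (nat_lit 2623)))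
 (.l (.k2_7 (nat_lit 7) (nat_lit 4815) (nat_lit 4809) (nat_lit 4797) (nat_lit 4833) (nat_lit 4761) (nat_lit 4977) (nat_lit 5301) (nat_lit 3357) (nat_lit 2629)))))
 (.n (nat_lit 4865)
 (.n (nat_lit 4833)
 (.l (.k2_4 (nat_lit 8) (nat_lit 4833) (nat_lit 4815) (nat_lit 4995) (nat_lit 5319) (nat_lit 3375) (nat_lit 2647)))
 (.l (.k0_5 (nat_lit 8) (nat_lit 4865) (nat_lit 4867) (nat_lit 4871) (nat_lit 4703) (nat_lit 5351) (nat_lit 3407))))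
 (.n (nat_lit 4867)
 (.l (.k2_5 (nat_lit 6) (nat_lit 4867) (nat_lit 4865) (nat_lit 4873) (nat_lit 4705) (nat_lit 5353) (nat_lit 3409) (nat_lit 2681)))
 (.l (.k0_6 (nat_lit 6) (nat_lit 4871) (nat_lit 4873) (nat_lit 4865) (nat_lit 4889) (nat_lit 4709) (nat_lit 5357) (nat_lit 3413))))))
 (.n (nat_lit 4881)
 (.n (nat_lit 4875)
 (.n (nat_lit 4873)
 (.l (.k2_8 (nat_lit 6) (nat_lit 4873) (nat_lit 4871) (nat_lit 4875) (nat_lit 4867) (nat_lit 4879) (nat_lit 4891) (nat_lit 4711) (nat_lit 5359) (nat_lit 3415) (nat_lit 2687)))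
 (.l (.k2_6 (nat_lit 4) (nat_lit 4875) (nat_lit 4873) (nat_lit 4881) (nat_lit 4893) (nat_lit 4713) (nat_lit 5361) (nat_lit 3417) (nat_lit 2689))))
 (.n (nat_lit 4879)
 (.l (.k2_6 (nat_lit 4) (nat_lit 4879) (nat_lit 4881) (nat_lit 4873) (nat_lit 4897) (nat_lit 4717) (nat_lit 5365) (nat_lit 3421) (nat_lit 2693)))
 (.l (.k2_6 (nat_lit 4) (nat_lit 4881) (nat_lit 4879) (nat_lit 4875) (nat_lit 4899) (nat_lit 4719) (nat_lit 5367) (nat_lit 3423) (nat_lit 2695)))))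
 (.n (nat_lit 4891)
 (.n (nat_lit 4889)
 (.l (.k0_6 (nat_lit 6) (nat_lit 4889) (nat_lit 4891) (nat_lit 4871) (nat_lit 4943) (nat_lit 4727) (nat_lit 5375) (nat_lit 3431)))
 (.l (.k2_8 (nat_lit 5) (nat_lit 4891) (nat_lit 4889) (nat_lit 4893) (nat_lit 4897) (nat_lit 4873) (nat_lit 4945) (nat_lit 4729) (nat_lit 5377) (nat_lit 3433) (nat_lit 2705))))
 (.n (nat_lit 4893)
 (.l (.k2_7 (nat_lit 2) (nat_lit 4893) (nat_lit 4891) (nat_lit 4899) (nat_lit 4875) (nat_lit 4947) (nat_lit 4731) (nat_lit 5379) (nat_lit 3435) (nat_lit 2707)))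
 (.l (.k2_8 (nat_lit 5) (nat_lit 4897) (nat_lit 4899) (nat_lit 4891) (nat_lit 4879) (nat_lit 4915) (nat_lit 4951) (nat_lit 4735) (nat_lit 5383) (nat_lit 3439) (nat_lit 2711))))))))
 (.n (nat_lit 5023)
 (.n (nat_lit 4947)
 (.n (nat_lit 4917)
 (.n (nat_lit 4905)
 (.n (nat_lit 4899)
 (.l (.k2_9 (nat_lit 4) (nat_lit 4899) (nat_lit 4897) (nat_lit 4893) (nat_lit 4905) (nat_lit 4881) (nat_lit 4917) (nat_lit 4953) (nat_lit 4737) (nat_lit 5385) (nat_lit 3441) (nat_lit 2713)))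
 (.l (.k2_6 (nat_lit 4) (nat_lit 4905) (nat_lit 4899) (nat_lit 4923) (nat_lit 4959) (nat_lit 4743) (nat_lit 5391) (nat_lit 3447) (nat_lit 2719))))
 (.n (nat_lit 4915)
 (.l (.k2_6 (nat_lit 4) (nat_lit 4915) (nat_lit 4917) (nat_lit 4897) (nat_lit 4969) (nat_lit 4753) (nat_lit 5401) (nat_lit 3457) (nat_lit 2729)))
 (.l (.k2_7 (nat_lit 2) (nat_lit 4917) (nat_lit 4915) (nat_lit 4923) (nat_lit 4899) (nat_lit 4971) (nat_lit 4755) (nat_lit 5403) (nat_lit 3459) (nat_lit 2731)))))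
 (.n (nat_lit 4943)
 (.n (nat_lit 4923)
 (.l (.k2_6 (nat_lit 4) (nat_lit 4923) (nat_lit 4917) (nat_lit 4905) (nat_lit 4977) (nat_lit 4761) (nat_lit 5409) (nat_lit 3465) (nat_lit 2737)))
 (.l (.k0_5 (nat_lit 8) (nat_lit 4943) (nat_lit 4945) (nat_lit 4889) (nat_lit 4781) (nat_lit 5429) (nat_lit 3485))))
 (.n (nat_lit 4945)
 (.l (.k2_7 (nat_lit 7) (nat_lit 4945) (nat_lit 4943) (nat_lit 4947) (nat_lit 4951) (nat_lit 4891) (nat_lit 4783) (nat_lit 5431) (nat_lit 3487) (nat_lit 2759)))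
 (.l (.k2_6 (nat_lit 4) (nat_lit 4947) (nat_lit 4945) (nat_lit 4953) (nat_lit 4893) (nat_lit 4785) (nat_lit 5433) (nat_lit 3489) (nat_lit 2761))))))
 (.n (nat_lit 4969)
 (.n (nat_lit 4953)
 (.n (nat_lit 4951)
 (.l (.k2_7 (nat_lit 6) (nat_lit 4951) (nat_lit 4953) (nat_lit 4945) (nat_lit 4969) (nat_lit 4897) (nat_lit 4789) (nat_lit 5437) (nat_lit 3493) (nat_lit 2765)))
 (.l (.k2_8 (nat_lit 5) (nat_lit 4953) (nat_lit 4951) (nat_lit 4947) (nat_lit 4959) (nat_lit 4971) (nat_lit 4899) (nat_lit 4791) (nat_lit 5439) (nat_lit 3495) (nat_lit 2767))))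
 (.n (nat_lit 4959)
 (.l (.k2_6 (nat_lit 4) (nat_lit 4959) (nat_lit 4953) (nat_lit 4977) (nat_lit 4905) (nat_lit 4797) (nat_lit 5445) (nat_lit 3501) (nat_lit 2773)))
 (.l (.k2_7 (nat_lit 7) (nat_lit 4969) (nat_lit 4971) (nat_lit 4951) (nat_lit 4915) (nat_lit 5023) (nat_lit 4807) (nat_lit 5455) (nat_lit 3511) (nat_lit 2783)))))
 (.n (nat_lit 4977)
 (.n (nat_lit 4971)
 (.l (.k2_8 (nat_lit 5) (nat_lit 4971) (nat_lit 4969) (nat_lit 4977) (nat_lit 4953) (nat_lit 4917) (nat_lit 5025) (nat_lit 4809) (nat_lit 5457) (nat_lit 3513) (nat_lit 2785)))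
 (.l (.k2_8 (nat_lit 6) (nat_lit 4977) (nat_lit 4971) (nat_lit 4959) (nat_lit 4995) (nat_lit 4923) (nat_lit 5031) (nat_lit 4815) (nat_lit 5463) (nat_lit 3519) (nat_lit 2791))))
 (.n (nat_lit 4995)
 (.l (.k2_5 (nat_lit 6) (nat_lit 4995) (nat_lit 4977) (nat_lit 5049) (nat_lit 4833) (nat_lit 5481) (nat_lit 3537) (nat_lit 2809)))
 (.l (.k2_4 (nat_lit 8) (nat_lit 5023) (nat_lit 5025) (nat_lit 4969) (nat_lit 5509) (nat_lit 3565) (nat_lit 2837)))))))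
 (.n (nat_lit 5125)
 (.n (nat_lit 5111)
 (.n (nat_lit 5031)
 (.n (nat_lit 5025)
 (.l (.k2_5 (nat_lit 6) (nat_lit 5025) (nat_lit 5023) (nat_lit 5031) (nat_lit 4971) (nat_lit 5511) (nat_lit 3567) (nat_lit 2839)))
 (.l (.k2_5 (nat_lit 6) (nat_lit 5031) (nat_lit 5025) (nat_lit 5049) (nat_lit 4977) (nat_lit 5517) (nat_lit 3573) (nat_lit 2845))))
 (.n (nat_lit 5049)
 (.l (.k2_4 (nat_lit 8) (nat_lit 5049) (nat_lit 5031) (nat_lit 4995) (nat_lit 5535) (nat_lit 3591) (nat_lit 2863)))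
 (.l (.k0_3 (nat_lit 12) (nat_lit 5111) (nat_lit 5117) (nat_lit 4625) (nat_lit 3653)))))
 (.n (nat_lit 5119)
 (.n (nat_lit 5117)
 (.l (.k0_6 (nat_lit 11) (nat_lit 5117) (nat_lit 5119) (nat_lit 5111) (nat_lit 5123) (nat_lit 5135) (nat_lit 4631) (nat_lit 3659)))
 (.l (.k2_5 (nat_lit 10) (nat_lit 5119) (nat_lit 5117) (nat_lit 5125) (nat_lit 5137) (nat_lit 4633) (nat_lit 3661) (nat_lit 2933))))
 (.n (nat_lit 5123)
 (.l (.k0_5 (nat_lit 8) (nat_lit 5123) (nat_lit 5125) (nat_lit 5117) (nat_lit 5141) (nat_lit 4637) (nat_lit 3665)))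
 (.l (.k2_6 (nat_lit 9) (nat_lit 5125) (nat_lit 5123) (nat_lit 5127) (nat_lit 5119) (nat_lit 5143) (nat_lit 4639) (nat_lit 3667) (nat_lit 2939))))))
 (.n (nat_lit 5141)
 (.n (nat_lit 5135)
 (.n (nat_lit 5127)
 (.l (.k2_4 (nat_lit 8) (nat_lit 5127) (nat_lit 5125) (nat_lit 5145) (nat_lit 4641) (nat_lit 3669) (nat_lit 2941)))
 (.l (.k0_6 (nat_lit 10) (nat_lit 5135) (nat_lit 5137) (nat_lit 5141) (nat_lit 5117) (nat_lit 5189) (nat_lit 4649) (nat_lit 3677))))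
 (.n (nat_lit 5137)
 (.l (.k2_6 (nat_lit 8) (nat_lit 5137) (nat_lit 5135) (nat_lit 5143) (nat_lit 5119) (nat_lit 5191) (nat_lit 4651) (nat_lit 3679) (nat_lit 2951)))
 (.l (.k0_7 (nat_lit 9) (nat_lit 5141) (nat_lit 5143) (nat_lit 5135) (nat_lit 5123) (nat_lit 5159) (nat_lit 5195) (nat_lit 4655) (nat_lit 3683)))))
 (.n (nat_lit 5145)
 (.n (nat_lit 5143)
 (.l (.k2_9 (nat_lit 9) (nat_lit 5143) (nat_lit 5141) (nat_lit 5145) (nat_lit 5137) (nat_lit 5149) (nat_lit 5125) (nat_lit 5161) (nat_lit 5197) (nat_lit 4657) (nat_lit 3685) (nat_lit 2957)))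
 (.l (.k2_7 (nat_lit 7) (nat_lit 5145) (nat_lit 5143) (nat_lit 5151) (nat_lit 5127) (nat_lit 5163) (nat_lit 5199) (nat_lit 4659) (nat_lit 3687) (nat_lit 2959))))
 (.n (nat_lit 5149)
 (.l (.k2_6 (nat_lit 8) (nat_lit 5149) (nat_lit 5151) (nat_lit 5143) (nat_lit 5167) (nat_lit 5203) (nat_lit 4663) (nat_lit 3691) (nat_lit 2963)))
 (.l (.k2_6 (nat_lit 8) (nat_lit 5151) (nat_lit 5149) (nat_lit 5145) (nat_lit 5169) (nat_lit 5205) (nat_lit 4665) (nat_lit 3693) (nat_lit 2965))))))))))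
 (.n (nat_lit 5591)
 (.n (nat_lit 5301)
 (.n (nat_lit 5215)
 (.n (nat_lit 5189)
 (.n (nat_lit 5163)
 (.n (nat_lit 5159)
 (.l (.k0_5 (nat_lit 8) (nat_lit 5159) (nat_lit 5161) (nat_lit 5141) (nat_lit 5213) (nat_lit 4673) (nat_lit 3701)))
 (.n (nat_lit 5161)
 (.l (.k2_7 (nat_lit 7) (nat_lit 5161) (nat_lit 5159) (nat_lit 5163) (nat_lit 5167) (nat_lit 5143) (nat_lit 5215) (nat_lit 4675) (nat_lit 3703) (nat_lit 2975)))
 (.l (.k2_6 (nat_lit 4) (nat_lit 5163) (nat_lit 5161) (nat_lit 5169) (nat_lit 5145) (nat_lit 5217) (nat_lit 4677) (nat_lit 3705) (nat_lit 2977)))))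
 (.n (nat_lit 5169)
 (.n (nat_lit 5167)
 (.l (.k2_6 (nat_lit 8) (nat_lit 5167) (nat_lit 5169) (nat_lit 5161) (nat_lit 5149) (nat_lit 5221) (nat_lit 4681) (nat_lit 3709) (nat_lit 2981)))
 (.l (.k2_7 (nat_lit 7) (nat_lit 5169) (nat_lit 5167) (nat_lit 5163) (nat_lit 5175) (nat_lit 5151) (nat_lit 5223) (nat_lit 4683) (nat_lit 3711) (nat_lit 2983))))
 (.n (nat_lit 5175)
 (.l (.k2_4 (nat_lit 8) (nat_lit 5175) (nat_lit 5169) (nat_lit 5229) (nat_lit 4689) (nat_lit 3717) (nat_lit 2989)))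
 (.l (.k0_6 (nat_lit 10) (nat_lit 5189) (nat_lit 5191) (nat_lit 5195) (nat_lit 5135) (nat_lit 5351) (nat_lit 4703) (nat_lit 3731))))))
 (.n (nat_lit 5199)
 (.n (nat_lit 5195)
 (.n (nat_lit 5191)
 (.l (.k2_6 (nat_lit 8) (nat_lit 5191) (nat_lit 5189) (nat_lit 5197) (nat_lit 5137) (nat_lit 5353) (nat_lit 4705) (nat_lit 3733) (nat_lit 3005)))
 (.l (.k0_7 (nat_lit 8) (nat_lit 5195) (nat_lit 5197) (nat_lit 5189) (nat_lit 5213) (nat_lit 5141) (nat_lit 5357) (nat_lit 4709) (nat_lit 3737))))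
 (.n (nat_lit 5197)
 (.l (.k2_9 (nat_lit 8) (nat_lit 5197) (nat_lit 5195) (nat_lit 5199) (nat_lit 5191) (nat_lit 5203) (nat_lit 5215) (nat_lit 5143) (nat_lit 5359) (nat_lit 4711) (nat_lit 3739) (nat_lit 3011)))
 (.l (.k2_7 (nat_lit 6) (nat_lit 5199) (nat_lit 5197) (nat_lit 5205) (nat_lit 5217) (nat_lit 5145) (nat_lit 5361) (nat_lit 4713) (nat_lit 3741) (nat_lit 3013)))))
 (.n (nat_lit 5205)
 (.n (nat_lit 5203)
 (.l (.k2_7 (nat_lit 6) (nat_lit 5203) (nat_lit 5205) (nat_lit 5197) (nat_lit 5221) (nat_lit 5149) (nat_lit 5365) (nat_lit 4717) (nat_lit 3745) (nat_lit 3017)))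
 (.l (.k2_7 (nat_lit 6) (nat_lit 5205) (nat_lit 5203) (nat_lit 5199) (nat_lit 5223) (nat_lit 5151) (nat_lit 5367) (nat_lit 4719) (nat_lit 3747) (nat_lit 3019))))
 (.n (nat_lit 5213)
 (.l (.k0_7 (nat_lit 9) (nat_lit 5213) (nat_lit 5215) (nat_lit 5195) (nat_lit 5159) (nat_lit 5267) (nat_lit 5375) (nat_lit 4727) (nat_lit 3755)))
 (.l (.k2_9 (nat_lit 8) (nat_lit 5215) (nat_lit 5213) (nat_lit 5217) (nat_lit 5221) (nat_lit 5197) (nat_lit 5161) (nat_lit 5269) (nat_lit 5377) (nat_lit 4729) (nat_lit 3757) (nat_lit 3029)))))))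
 (.n (nat_lit 5267)
 (.n (nat_lit 5229)
 (.n (nat_lit 5221)
 (.n (nat_lit 5217)
 (.l (.k2_8 (nat_lit 5) (nat_lit 5217) (nat_lit 5215) (nat_lit 5223) (nat_lit 5199) (nat_lit 5163) (nat_lit 5271) (nat_lit 5379) (nat_lit 4731) (nat_lit 3759) (nat_lit 3031)))
 (.l (.k2_9 (nat_lit 8) (nat_lit 5221) (nat_lit 5223) (nat_lit 5215) (nat_lit 5203) (nat_lit 5239) (nat_lit 5167) (nat_lit 5275) (nat_lit 5383) (nat_lit 4735) (nat_lit 3763) (nat_lit 3035))))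
 (.n (nat_lit 5223)
 (.l (.k2_10 (nat_lit 7) (nat_lit 5223) (nat_lit 5221) (nat_lit 5217) (nat_lit 5229) (nat_lit 5205) (nat_lit 5241) (nat_lit 5169) (nat_lit 5277) (nat_lit 5385) (nat_lit 4737) (nat_lit 3765) (nat_lit 3037)))
 (.l (.k2_7 (nat_lit 7) (nat_lit 5229) (nat_lit 5223) (nat_lit 5247) (nat_lit 5175) (nat_lit 5283) (nat_lit 5391) (nat_lit 4743) (nat_lit 3771) (nat_lit 3043)))))
 (.n (nat_lit 5241)
 (.n (nat_lit 5239)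
 (.l (.k2_6 (nat_lit 8) (nat_lit 5239) (nat_lit 5241) (nat_lit 5221) (nat_lit 5293) (nat_lit 5401) (nat_lit 4753) (nat_lit 3781) (nat_lit 3053)))
 (.l (.k2_7 (nat_lit 6) (nat_lit 5241) (nat_lit 5239) (nat_lit 5247) (nat_lit 5223) (nat_lit 5295) (nat_lit 5403) (nat_lit 4755) (nat_lit 3783) (nat_lit 3055))))
 (.n (nat_lit 5247)
 (.l (.k2_6 (nat_lit 8) (nat_lit 5247) (nat_lit 5241) (nat_lit 5229) (nat_lit 5301) (nat_lit 5409) (nat_lit 4761) (nat_lit 3789) (nat_lit 3061)))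
 (.l (.k0_5 (nat_lit 8) (nat_lit 5267) (nat_lit 5269) (nat_lit 5213) (nat_lit 5429) (nat_lit 4781) (nat_lit 3809))))))
 (.n (nat_lit 5277)
 (.n (nat_lit 5271)
 (.n (nat_lit 5269)
 (.l (.k2_7 (nat_lit 7) (nat_lit 5269) (nat_lit 5267) (nat_lit 5271) (nat_lit 5275) (nat_lit 5215) (nat_lit 5431) (nat_lit 4783) (nat_lit 3811) (nat_lit 3083)))
 (.l (.k2_6 (nat_lit 4) (nat_lit 5271) (nat_lit 5269) (nat_lit 5277) (nat_lit 5217) (nat_lit 5433) (nat_lit 4785) (nat_lit 3813) (nat_lit 3085))))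
 (.n (nat_lit 5275)
 (.l (.k2_7 (nat_lit 6) (nat_lit 5275) (nat_lit 5277) (nat_lit 5269) (nat_lit 5293) (nat_lit 5221) (nat_lit 5437) (nat_lit 4789) (nat_lit 3817) (nat_lit 3089)))
 (.l (.k2_8 (nat_lit 5) (nat_lit 5277) (nat_lit 5275) (nat_lit 5271) (nat_lit 5283) (nat_lit 5295) (nat_lit 5223) (nat_lit 5439) (nat_lit 4791) (nat_lit 3819) (nat_lit 3091)))))
 (.n (nat_lit 5293)
 (.n (nat_lit 5283)
 (.l (.k2_6 (nat_lit 4) (nat_lit 5283) (nat_lit 5277) (nat_lit 5301) (nat_lit 5229) (nat_lit 5445) (nat_lit 4797) (nat_lit 3825) (nat_lit 3097)))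
 (.l (.k2_6 (nat_lit 8) (nat_lit 5293) (nat_lit 5295) (nat_lit 5275) (nat_lit 5239) (nat_lit 5455) (nat_lit 4807) (nat_lit 3835) (nat_lit 3107))))
 (.n (nat_lit 5295)
 (.l (.k2_7 (nat_lit 6) (nat_lit 5295) (nat_lit 5293) (nat_lit 5301) (nat_lit 5277) (nat_lit 5241) (nat_lit 5457) (nat_lit 4809) (nat_lit 3837) (nat_lit 3109)))
 (.l (.k2_7 (nat_lit 7) (nat_lit 5301) (nat_lit 5295) (nat_lit 5283) (nat_lit 5319) (nat_lit 5247) (nat_lit 5463) (nat_lit 4815) (nat_lit 3843) (nat_lit 3115))))))))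
 (.n (nat_lit 5403)
 (.n (nat_lit 5367)
 (.n (nat_lit 5357)
 (.n (nat_lit 5351)
 (.n (nat_lit 5319)
 (.l (.k2_4 (nat_lit 8) (nat_lit 5319) (nat_lit 5301) (nat_lit 5481) (nat_lit 4833) (nat_lit 3861) (nat_lit 3133)))
 (.l (.k0_6 (nat_lit 11) (nat_lit 5351) (nat_lit 5353) (nat_lit 5357) (nat_lit 5189) (nat_lit 4865) (nat_lit 5837) (nat_lit 3893))))
 (.n (nat_lit 5353)
 (.l (.k2_6 (nat_lit 9) (nat_lit 5353) (nat_lit 5351) (nat_lit 5359) (nat_lit 5191) (nat_lit 4867) (nat_lit 5839) (nat_lit 3895) (nat_lit 3167)))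
 (.l (.k0_7 (nat_lit 9) (nat_lit 5357) (nat_lit 5359) (nat_lit 5351) (nat_lit 5375) (nat_lit 5195) (nat_lit 4871) (nat_lit 5843) (nat_lit 3899)))))
 (.n (nat_lit 5361)
 (.n (nat_lit 5359)
 (.l (.k2_9 (nat_lit 9) (nat_lit 5359) (nat_lit 5357) (nat_lit 5361) (nat_lit 5353) (nat_lit 5365) (nat_lit 5377) (nat_lit 5197) (nat_lit 4873) (nat_lit 5845) (nat_lit 3901) (nat_lit 3173)))
 (.l (.k2_7 (nat_lit 7) (nat_lit 5361) (nat_lit 5359) (nat_lit 5367) (nat_lit 5379) (nat_lit 5199) (nat_lit 4875) (nat_lit 5847) (nat_lit 3903) (nat_lit 3175))))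
 (.n (nat_lit 5365)
 (.l (.k2_7 (nat_lit 7) (nat_lit 5365) (nat_lit 5367) (nat_lit 5359) (nat_lit 5383) (nat_lit 5203) (nat_lit 4879) (nat_lit 5851) (nat_lit 3907) (nat_lit 3179)))
 (.l (.k2_7 (nat_lit 7) (nat_lit 5367) (nat_lit 5365) (nat_lit 5361) (nat_lit 5385) (nat_lit 5205) (nat_lit 4881) (nat_lit 5853) (nat_lit 3909) (nat_lit 3181))))))
 (.n (nat_lit 5383)
 (.n (nat_lit 5377)
 (.n (nat_lit 5375)
 (.l (.k0_7 (nat_lit 9) (nat_lit 5375) (nat_lit 5377) (nat_lit 5357) (nat_lit 5429) (nat_lit 5213) (nat_lit 4889) (nat_lit 5861) (nat_lit 3917)))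
 (.l (.k2_9 (nat_lit 8) (nat_lit 5377) (nat_lit 5375) (nat_lit 5379) (nat_lit 5383) (nat_lit 5359) (nat_lit 5431) (nat_lit 5215) (nat_lit 4891) (nat_lit 5863) (nat_lit 3919) (nat_lit 3191))))
 (.n (nat_lit 5379)
 (.l (.k2_8 (nat_lit 5) (nat_lit 5379) (nat_lit 5377) (nat_lit 5385) (nat_lit 5361) (nat_lit 5433) (nat_lit 5217) (nat_lit 4893) (nat_lit 5865) (nat_lit 3921) (nat_lit 3193)))
 (.l (.k2_9 (nat_lit 8) (nat_lit 5383) (nat_lit 5385) (nat_lit 5377) (nat_lit 5365) (nat_lit 5401) (nat_lit 5437) (nat_lit 5221) (nat_lit 4897) (nat_lit 5869) (nat_lit 3925) (nat_lit 3197)))))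
 (.n (nat_lit 5391)
 (.n (nat_lit 5385)
 (.l (.k2_10 (nat_lit 7) (nat_lit 5385) (nat_lit 5383) (nat_lit 5379) (nat_lit 5391) (nat_lit 5367) (nat_lit 5403) (nat_lit 5439) (nat_lit 5223) (nat_lit 4899) (nat_lit 5871) (nat_lit 3927) (nat_lit 3199)))
 (.l (.k2_7 (nat_lit 7) (nat_lit 5391) (nat_lit 5385) (nat_lit 5409) (nat_lit 5445) (nat_lit 5229) (nat_lit 4905) (nat_lit 5877) (nat_lit 3933) (nat_lit 3205))))
 (.n (nat_lit 5401)
 (.l (.k2_7 (nat_lit 7) (nat_lit 5401) (nat_lit 5403) (nat_lit 5383) (nat_lit 5455) (nat_lit 5239) (nat_lit 4915) (nat_lit 5887) (nat_lit 3943) (nat_lit 3215)))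
 (.l (.k2_8 (nat_lit 5) (nat_lit 5403) (nat_lit 5401) (nat_lit 5409) (nat_lit 5385) (nat_lit 5457) (nat_lit 5241) (nat_lit 4917) (nat_lit 5889) (nat_lit 3945) (nat_lit 3217)))))))
 (.n (nat_lit 5455)
 (.n (nat_lit 5433)
 (.n (nat_lit 5429)
 (.n (nat_lit 5409)
 (.l (.k2_7 (nat_lit 7) (nat_lit 5409) (nat_lit 5403) (nat_lit 5391) (nat_lit 5463) (nat_lit 5247) (nat_lit 4923) (nat_lit 5895) (nat_lit 3951) (nat_lit 3223)))
 (.l (.k0_7 (nat_lit 10) (nat_lit 5429) (nat_lit 5431) (nat_lit 5375) (nat_lit 5267) (nat_lit 5591) (nat_lit 4943) (nat_lit 5915) (nat_lit 3971))))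
 (.n (nat_lit 5431)
 (.l (.k2_9 (nat_lit 9) (nat_lit 5431) (nat_lit 5429) (nat_lit 5433) (nat_lit 5437) (nat_lit 5377) (nat_lit 5269) (nat_lit 5593) (nat_lit 4945) (nat_lit 5917) (nat_lit 3973) (nat_lit 3245)))
 (.l (.k2_8 (nat_lit 6) (nat_lit 5433) (nat_lit 5431) (nat_lit 5439) (nat_lit 5379) (nat_lit 5271) (nat_lit 5595) (nat_lit 4947) (nat_lit 5919) (nat_lit 3975) (nat_lit 3247)))))
 (.n (nat_lit 5439)
 (.n (nat_lit 5437)
 (.l (.k2_9 (nat_lit 8) (nat_lit 5437) (nat_lit 5439) (nat_lit 5431) (nat_lit 5455) (nat_lit 5383) (nat_lit 5275) (nat_lit 5599) (nat_lit 4951) (nat_lit 5923) (nat_lit 3979) (nat_lit 3251)))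
 (.l (.k2_10 (nat_lit 7) (nat_lit 5439) (nat_lit 5437) (nat_lit 5433) (nat_lit 5445) (nat_lit 5457) (nat_lit 5385) (nat_lit 5277) (nat_lit 5601) (nat_lit 4953) (nat_lit 5925) (nat_lit 3981) (nat_lit 3253))))
 (.n (nat_lit 5445)
 (.l (.k2_8 (nat_lit 6) (nat_lit 5445) (nat_lit 5439) (nat_lit 5463) (nat_lit 5391) (nat_lit 5283) (nat_lit 5607) (nat_lit 4959) (nat_lit 5931) (nat_lit 3987) (nat_lit 3259)))
 (.l (.k2_9 (nat_lit 9) (nat_lit 5455) (nat_lit 5457) (nat_lit 5437) (nat_lit 5401) (nat_lit 5509) (nat_lit 5293) (nat_lit 5617) (nat_lit 4969) (nat_lit 5941) (nat_lit 3997) (nat_lit 3269))))))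
 (.n (nat_lit 5509)
 (.n (nat_lit 5463)
 (.n (nat_lit 5457)
 (.l (.k2_10 (nat_lit 7) (nat_lit 5457) (nat_lit 5455) (nat_lit 5463) (nat_lit 5439) (nat_lit 5403) (nat_lit 5511) (nat_lit 5295) (nat_lit 5619) (nat_lit 4971) (nat_lit 5943) (nat_lit 3999) (nat_lit 3271)))
 (.l (.k2_10 (nat_lit 8) (nat_lit 5463) (nat_lit 5457) (nat_lit 5445) (nat_lit 5481) (nat_lit 5409) (nat_lit 5517) (nat_lit 5301) (nat_lit 5625) (nat_lit 4977) (nat_lit 5949) (nat_lit 4005) (nat_lit 3277))))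
 (.n (nat_lit 5481)
 (.l (.k2_7 (nat_lit 8) (nat_lit 5481) (nat_lit 5463) (nat_lit 5535) (nat_lit 5319) (nat_lit 5643) (nat_lit 4995) (nat_lit 5967) (nat_lit 4023) (nat_lit 3295)))
 (.l (.k2_6 (nat_lit 9) (nat_lit 5509) (nat_lit 5511) (nat_lit 5455) (nat_lit 5671) (nat_lit 5023) (nat_lit 5995) (nat_lit 4051) (nat_lit 3323)))))
 (.n (nat_lit 5517)
 (.n (nat_lit 5511)
 (.l (.k2_7 (nat_lit 7) (nat_lit 5511) (nat_lit 5509) (nat_lit 5517) (nat_lit 5457) (nat_lit 5673) (nat_lit 5025) (nat_lit 5997) (nat_lit 4053) (nat_lit 3325)))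
 (.l (.k2_7 (nat_lit 7) (nat_lit 5517) (nat_lit 5511) (nat_lit 5535) (nat_lit 5463) (nat_lit 5679) (nat_lit 5031) (nat_lit 6003) (nat_lit 4059) (nat_lit 3331))))
 (.n (nat_lit 5535)
 (.l (.k2_6 (nat_lit 9) (nat_lit 5535) (nat_lit 5517) (nat_lit 5481) (nat_lit 5697) (nat_lit 5049) (nat_lit 6021) (nat_lit 4077) (nat_lit 3349)))
 (.l (.k0_4 (nat_lit 10) (nat_lit 5591) (nat_lit 5593) (nat_lit 5429) (nat_lit 6077) (nat_lit 4133)))))))))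
 (.n (nat_lit 5917)
 (.n (nat_lit 5839)
 (.n (nat_lit 5625)
 (.n (nat_lit 5601)
 (.n (nat_lit 5595)
 (.n (nat_lit 5593)
 (.l (.k2_6 (nat_lit 9) (nat_lit 5593) (nat_lit 5591) (nat_lit 5595) (nat_lit 5599) (nat_lit 5431) (nat_lit 6079) (nat_lit 4135) (nat_lit 3407)))
 (.l (.k2_5 (nat_lit 6) (nat_lit 5595) (nat_lit 5593) (nat_lit 5601) (nat_lit 5433) (nat_lit 6081) (nat_lit 4137) (nat_lit 3409))))
 (.n (nat_lit 5599)
 (.l (.k2_6 (nat_lit 8) (nat_lit 5599) (nat_lit 5601) (nat_lit 5593) (nat_lit 5617) (nat_lit 5437) (nat_lit 6085) (nat_lit 4141) (nat_lit 3413)))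
 (.l (.k2_7 (nat_lit 7) (nat_lit 5601) (nat_lit 5599) (nat_lit 5595) (nat_lit 5607) (nat_lit 5619) (nat_lit 5439) (nat_lit 6087) (nat_lit 4143) (nat_lit 3415)))))
 (.n (nat_lit 5617)
 (.n (nat_lit 5607)
 (.l (.k2_5 (nat_lit 6) (nat_lit 5607) (nat_lit 5601) (nat_lit 5625) (nat_lit 5445) (nat_lit 6093) (nat_lit 4149) (nat_lit 3421)))
 (.l (.k2_6 (nat_lit 8) (nat_lit 5617) (nat_lit 5619) (nat_lit 5599) (nat_lit 5671) (nat_lit 5455) (nat_lit 6103) (nat_lit 4159) (nat_lit 3431))))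
 (.n (nat_lit 5619)
 (.l (.k2_7 (nat_lit 6) (nat_lit 5619) (nat_lit 5617) (nat_lit 5625) (nat_lit 5601) (nat_lit 5673) (nat_lit 5457) (nat_lit 6105) (nat_lit 4161) (nat_lit 3433)))
 (.l (.k2_7 (nat_lit 7) (nat_lit 5625) (nat_lit 5619) (nat_lit 5607) (nat_lit 5643) (nat_lit 5679) (nat_lit 5463) (nat_lit 6111) (nat_lit 4167) (nat_lit 3439))))))
 (.n (nat_lit 5679)
 (.n (nat_lit 5671)
 (.n (nat_lit 5643)
 (.l (.k2_5 (nat_lit 6) (nat_lit 5643) (nat_lit 5625) (nat_lit 5697) (nat_lit 5481) (nat_lit 6129) (nat_lit 4185) (nat_lit 3457)))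
 (.l (.k2_5 (nat_lit 10) (nat_lit 5671) (nat_lit 5673) (nat_lit 5617) (nat_lit 5509) (nat_lit 6157) (nat_lit 4213) (nat_lit 3485))))
 (.n (nat_lit 5673)
 (.l (.k2_6 (nat_lit 8) (nat_lit 5673) (nat_lit 5671) (nat_lit 5679) (nat_lit 5619) (nat_lit 5511) (nat_lit 6159) (nat_lit 4215) (nat_lit 3487)))
 (.l (.k2_6 (nat_lit 8) (nat_lit 5679) (nat_lit 5673) (nat_lit 5697) (nat_lit 5625) (nat_lit 5517) (nat_lit 6165) (nat_lit 4221) (nat_lit 3493)))))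
 (.n (nat_lit 5751)
 (.n (nat_lit 5697)
 (.l (.k2_6 (nat_lit 9) (nat_lit 5697) (nat_lit 5679) (nat_lit 5643) (nat_lit 5751) (nat_lit 5535) (nat_lit 6183) (nat_lit 4239) (nat_lit 3511)))
 (.l (.k2_3 (nat_lit 10) (nat_lit 5751) (nat_lit 5697) (nat_lit 6237) (nat_lit 4293) (nat_lit 3565))))
 (.n (nat_lit 5837)
 (.l (.k0_3 (nat_lit 12) (nat_lit 5837) (nat_lit 5839) (nat_lit 5843) (nat_lit 5351)))
 (.l (.k2_3 (nat_lit 10) (nat_lit 5839) (nat_lit 5837) (nat_lit 5845) (nat_lit 5353) (nat_lit 3653)))))))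
 (.n (nat_lit 5865)
 (.n (nat_lit 5851)
 (.n (nat_lit 5845)
 (.n (nat_lit 5843)
 (.l (.k0_4 (nat_lit 10) (nat_lit 5843) (nat_lit 5845) (nat_lit 5837) (nat_lit 5861) (nat_lit 5357)))
 (.l (.k2_6 (nat_lit 10) (nat_lit 5845) (nat_lit 5843) (nat_lit 5847) (nat_lit 5839) (nat_lit 5851) (nat_lit 5863) (nat_lit 5359) (nat_lit 3659))))
 (.n (nat_lit 5847)
 (.l (.k2_4 (nat_lit 8) (nat_lit 5847) (nat_lit 5845) (nat_lit 5853) (nat_lit 5865) (nat_lit 5361) (nat_lit 3661)))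
 (.l (.k2_4 (nat_lit 8) (nat_lit 5851) (nat_lit 5853) (nat_lit 5845) (nat_lit 5869) (nat_lit 5365) (nat_lit 3665)))))
 (.n (nat_lit 5861)
 (.n (nat_lit 5853)
 (.l (.k2_4 (nat_lit 8) (nat_lit 5853) (nat_lit 5851) (nat_lit 5847) (nat_lit 5871) (nat_lit 5367) (nat_lit 3667)))
 (.l (.k0_4 (nat_lit 10) (nat_lit 5861) (nat_lit 5863) (nat_lit 5843) (nat_lit 5915) (nat_lit 5375))))
 (.n (nat_lit 5863)
 (.l (.k2_6 (nat_lit 9) (nat_lit 5863) (nat_lit 5861) (nat_lit 5865) (nat_lit 5869) (nat_lit 5845) (nat_lit 5917) (nat_lit 5377) (nat_lit 3677)))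
 (.l (.k2_5 (nat_lit 6) (nat_lit 5865) (nat_lit 5863) (nat_lit 5871) (nat_lit 5847) (nat_lit 5919) (nat_lit 5379) (nat_lit 3679))))))
 (.n (nat_lit 5887)
 (.n (nat_lit 5871)
 (.n (nat_lit 5869)
 (.l (.k2_6 (nat_lit 9) (nat_lit 5869) (nat_lit 5871) (nat_lit 5863) (nat_lit 5851) (nat_lit 5887) (nat_lit 5923) (nat_lit 5383) (nat_lit 3683)))
 (.l (.k2_7 (nat_lit 8) (nat_lit 5871) (nat_lit 5869) (nat_lit 5865) (nat_lit 5877) (nat_lit 5853) (nat_lit 5889) (nat_lit 5925) (nat_lit 5385) (nat_lit 3685))))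
 (.n (nat_lit 5877)
 (.l (.k2_4 (nat_lit 8) (nat_lit 5877) (nat_lit 5871) (nat_lit 5895) (nat_lit 5931) (nat_lit 5391) (nat_lit 3691)))
 (.l (.k2_4 (nat_lit 8) (nat_lit 5887) (nat_lit 5889) (nat_lit 5869) (nat_lit 5941) (nat_lit 5401) (nat_lit 3701)))))
 (.n (nat_lit 5895)
 (.n (nat_lit 5889)
 (.l (.k2_5 (nat_lit 6) (nat_lit 5889) (nat_lit 5887) (nat_lit 5895) (nat_lit 5871) (nat_lit 5943) (nat_lit 5403) (nat_lit 3703)))
 (.l (.k2_4 (nat_lit 8) (nat_lit 5895) (nat_lit 5889) (nat_lit 5877) (nat_lit 5949) (nat_lit 5409) (nat_lit 3709))))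
 (.n (nat_lit 5915)
 (.l (.k0_4 (nat_lit 10) (nat_lit 5915) (nat_lit 5917) (nat_lit 5861) (nat_lit 6077) (nat_lit 5429)))
 (.l (.k2_6 (nat_lit 9) (nat_lit 5917) (nat_lit 5915) (nat_lit 5919) (nat_lit 5923) (nat_lit 5863) (nat_lit 6079) (nat_lit 5431) (nat_lit 3731))))))))
 (.n (nat_lit 6085)
 (.n (nat_lit 5967)
 (.n (nat_lit 5931)
 (.n (nat_lit 5923)
 (.n (nat_lit 5919)
 (.l (.k2_5 (nat_lit 6) (nat_lit 5919) (nat_lit 5917) (nat_lit 5925) (nat_lit 5865) (nat_lit 6081) (nat_lit 5433) (nat_lit 3733)))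
 (.l (.k2_6 (nat_lit 8) (nat_lit 5923) (nat_lit 5925) (nat_lit 5917) (nat_lit 5941) (nat_lit 5869) (nat_lit 6085) (nat_lit 5437) (nat_lit 3737))))
 (.n (nat_lit 5925)
 (.l (.k2_7 (nat_lit 7) (nat_lit 5925) (nat_lit 5923) (nat_lit 5919) (nat_lit 5931) (nat_lit 5943) (nat_lit 5871) (nat_lit 6087) (nat_lit 5439) (nat_lit 3739)))
 (.l (.k2_5 (nat_lit 6) (nat_lit 5931) (nat_lit 5925) (nat_lit 5949) (nat_lit 5877) (nat_lit 6093) (nat_lit 5445) (nat_lit 3745)))))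
 (.n (nat_lit 5943)
 (.n (nat_lit 5941)
 (.l (.k2_6 (nat_lit 9) (nat_lit 5941) (nat_lit 5943) (nat_lit 5923) (nat_lit 5887) (nat_lit 5995) (nat_lit 6103) (nat_lit 5455) (nat_lit 3755)))
 (.l (.k2_7 (nat_lit 7) (nat_lit 5943) (nat_lit 5941) (nat_lit 5949) (nat_lit 5925) (nat_lit 5889) (nat_lit 5997) (nat_lit 6105) (nat_lit 5457) (nat_lit 3757))))
 (.n (nat_lit 5949)
 (.l (.k2_7 (nat_lit 8) (nat_lit 5949) (nat_lit 5943) (nat_lit 5931) (nat_lit 5967) (nat_lit 5895) (nat_lit 6003) (nat_lit 6111) (nat_lit 5463) (nat_lit 3763)))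
 (.l (.k2_4 (nat_lit 8) (nat_lit 5967) (nat_lit 5949) (nat_lit 6021) (nat_lit 6129) (nat_lit 5481) (nat_lit 3781))))))
 (.n (nat_lit 6021)
 (.n (nat_lit 5997)
 (.n (nat_lit 5995)
 (.l (.k2_4 (nat_lit 8) (nat_lit 5995) (nat_lit 5997) (nat_lit 5941) (nat_lit 6157) (nat_lit 5509) (nat_lit 3809)))
 (.l (.k2_5 (nat_lit 6) (nat_lit 5997) (nat_lit 5995) (nat_lit 6003) (nat_lit 5943) (nat_lit 6159) (nat_lit 5511) (nat_lit 3811))))
 (.n (nat_lit 6003)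
 (.l (.k2_5 (nat_lit 6) (nat_lit 6003) (nat_lit 5997) (nat_lit 6021) (nat_lit 5949) (nat_lit 6165) (nat_lit 5517) (nat_lit 3817)))
 (.l (.k2_4 (nat_lit 8) (nat_lit 6021) (nat_lit 6003) (nat_lit 5967) (nat_lit 6183) (nat_lit 5535) (nat_lit 3835)))))
 (.n (nat_lit 6079)
 (.n (nat_lit 6077)
 (.l (.k0_3 (nat_lit 12) (nat_lit 6077) (nat_lit 6079) (nat_lit 5915) (nat_lit 5591)))
 (.l (.k2_5 (nat_lit 11) (nat_lit 6079) (nat_lit 6077) (nat_lit 6081) (nat_lit 6085) (nat_lit 5917) (nat_lit 5593) (nat_lit 3893))))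
 (.n (nat_lit 6081)
 (.l (.k2_4 (nat_lit 8) (nat_lit 6081) (nat_lit 6079) (nat_lit 6087) (nat_lit 5919) (nat_lit 5595) (nat_lit 3895)))
 (.l (.k2_5 (nat_lit 10) (nat_lit 6085) (nat_lit 6087) (nat_lit 6079) (nat_lit 6103) (nat_lit 5923) (nat_lit 5599) (nat_lit 3899)))))))
 (.n (nat_lit 6159)
 (.n (nat_lit 6105)
 (.n (nat_lit 6093)
 (.n (nat_lit 6087)
 (.l (.k2_6 (nat_lit 9) (nat_lit 6087) (nat_lit 6085) (nat_lit 6081) (nat_lit 6093) (nat_lit 6105) (nat_lit 5925) (nat_lit 5601) (nat_lit 3901)))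
 (.l (.k2_4 (nat_lit 8) (nat_lit 6093) (nat_lit 6087) (nat_lit 6111) (nat_lit 5931) (nat_lit 5607) (nat_lit 3907))))
 (.n (nat_lit 6103)
 (.l (.k2_5 (nat_lit 10) (nat_lit 6103) (nat_lit 6105) (nat_lit 6085) (nat_lit 6157) (nat_lit 5941) (nat_lit 5617) (nat_lit 3917)))
 (.l (.k2_6 (nat_lit 8) (nat_lit 6105) (nat_lit 6103) (nat_lit 6111) (nat_lit 6087) (nat_lit 6159) (nat_lit 5943) (nat_lit 5619) (nat_lit 3919)))))
 (.n (nat_lit 6129)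
 (.n (nat_lit 6111)
 (.l (.k2_6 (nat_lit 9) (nat_lit 6111) (nat_lit 6105) (nat_lit 6093) (nat_lit 6129) (nat_lit 6165) (nat_lit 5949) (nat_lit 5625) (nat_lit 3925)))
 (.l (.k2_4 (nat_lit 8) (nat_lit 6129) (nat_lit 6111) (nat_lit 6183) (nat_lit 5967) (nat_lit 5643) (nat_lit 3943))))
 (.n (nat_lit 6157)
 (.l (.k2_5 (nat_lit 11) (nat_lit 6157) (nat_lit 6159) (nat_lit 6103) (nat_lit 5995) (nat_lit 6319) (nat_lit 5671) (nat_lit 3971)))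
 (.l (.k2_6 (nat_lit 9) (nat_lit 6159) (nat_lit 6157) (nat_lit 6165) (nat_lit 6105) (nat_lit 5997) (nat_lit 6321) (nat_lit 5673) (nat_lit 3973))))))
 (.n (nat_lit 6319)
 (.n (nat_lit 6183)
 (.n (nat_lit 6165)
 (.l (.k2_6 (nat_lit 9) (nat_lit 6165) (nat_lit 6159) (nat_lit 6183) (nat_lit 6111) (nat_lit 6003) (nat_lit 6327) (nat_lit 5679) (nat_lit 3979)))
 (.l (.k2_6 (nat_lit 10) (nat_lit 6183) (nat_lit 6165) (nat_lit 6129) (nat_lit 6237) (nat_lit 6021) (nat_lit 6345) (nat_lit 5697) (nat_lit 3997))))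
 (.n (nat_lit 6237)
 (.l (.k2_3 (nat_lit 10) (nat_lit 6237) (nat_lit 6183) (nat_lit 6399) (nat_lit 5751) (nat_lit 4051)))
 (.l (.k2_2 (nat_lit 12) (nat_lit 6319) (nat_lit 6321) (nat_lit 6157) (nat_lit 4133)))))
 (.n (nat_lit 6327)
 (.n (nat_lit 6321)
 (.l (.k2_3 (nat_lit 10) (nat_lit 6321) (nat_lit 6319) (nat_lit 6327) (nat_lit 6159) (nat_lit 4135)))
 (.l (.k2_3 (nat_lit 10) (nat_lit 6327) (nat_lit 6321) (nat_lit 6345) (nat_lit 6165) (nat_lit 4141))))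
 (.n (nat_lit 6345)
 (.l (.k2_3 (nat_lit 10) (nat_lit 6345) (nat_lit 6327) (nat_lit 6399) (nat_lit 6183) (nat_lit 4159)))
 (.l (.k2_2 (nat_lit 12) (nat_lit 6399) (nat_lit 6345) (nat_lit 6237) (nat_lit 4213)))))))))))))

def tab4_6 : Trie :=
 (.n (nat_lit 2340)
 (.n (nat_lit 992)
 (.n (nat_lit 500)
 (.n (nat_lit 278)
 (.n (nat_lit 150)
 (.n (nat_lit 104)
 (.n (nat_lit 68)
 (.n (nat_lit 50)
 (.n (nat_lit 26)
 (.l (.k1_1 (nat_lit 12) (nat_lit 26) (nat_lit 44) (nat_lit 2212)))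
 (.n (nat_lit 44)
 (.l (.k1_4 (nat_lit 11) (nat_lit 44) (nat_lit 50) (nat_lit 26) (nat_lit 62) (nat_lit 98) (nat_lit 2230)))
 (.l (.k1_4 (nat_lit 10) (nat_lit 50) (nat_lit 52) (nat_lit 44) (nat_lit 68) (nat_lit 104) (nat_lit 2236)))))
 (.n (nat_lit 52)
 (.l (.k1_3 (nat_lit 12) (nat_lit 52) (nat_lit 50) (nat_lit 70) (nat_lit 106) (nat_lit 2238)))
 (.n (nat_lit 62)
 (.l (.k1_3 (nat_lit 8) (nat_lit 62) (nat_lit 68) (nat_lit 44) (nat_lit 116) (nat_lit 2248)))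
 (.l (.k1_5 (nat_lit 9) (nat_lit 68) (nat_lit 70) (nat_lit 62) (nat_lit 74) (nat_lit 50) (nat_lit 122) (nat_lit 2254))))))
 (.n (nat_lit 76)
 (.n (nat_lit 70)
 (.l (.k1_4 (nat_lit 10) (nat_lit 70) (nat_lit 68) (nat_lit 76) (nat_lit 52) (nat_lit 124) (nat_lit 2256)))
 (.n (nat_lit 74)
 (.l (.k1_3 (nat_lit 8) (nat_lit 74) (nat_lit 76) (nat_lit 68) (nat_lit 128) (nat_lit 2260)))
 (.l (.k1_4 (nat_lit 11) (nat_lit 76) (nat_lit 74) (nat_lit 78) (nat_lit 70) (nat_lit 130) (nat_lit 2262)))))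
 (.n (nat_lit 78)
 (.l (.k0_2 (nat_lit 12) (nat_lit 78) (nat_lit 76) (nat_lit 132)))
 (.n (nat_lit 98)
 (.l (.k1_4 (nat_lit 10) (nat_lit 98) (nat_lit 104) (nat_lit 116) (nat_lit 44) (nat_lit 260) (nat_lit 2284)))
 (.l (.k1_5 (nat_lit 8) (nat_lit 104) (nat_lit 106) (nat_lit 98) (nat_lit 122) (nat_lit 50) (nat_lit 266) (nat_lit 2290)))))))
 (.n (nat_lit 130)
 (.n (nat_lit 122)
 (.n (nat_lit 106)
 (.l (.k1_4 (nat_lit 10) (nat_lit 106) (nat_lit 104) (nat_lit 124) (nat_lit 52) (nat_lit 268) (nat_lit 2292)))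
 (.n (nat_lit 116)
 (.l (.k1_5 (nat_lit 9) (nat_lit 116) (nat_lit 122) (nat_lit 98) (nat_lit 62) (nat_lit 170) (nat_lit 278) (nat_lit 2302)))
 (.l (.k1_8 (nat_lit 9) (nat_lit 122) (nat_lit 124) (nat_lit 116) (nat_lit 128) (nat_lit 104) (nat_lit 140) (nat_lit 68) (nat_lit 176) (nat_lit 284) (nat_lit 2308)))))
 (.n (nat_lit 124)
 (.l (.k1_7 (nat_lit 10) (nat_lit 124) (nat_lit 122) (nat_lit 130) (nat_lit 106) (nat_lit 142) (nat_lit 70) (nat_lit 178) (nat_lit 286) (nat_lit 2310)))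
 (.n (nat_lit 128)
 (.l (.k1_6 (nat_lit 7) (nat_lit 128) (nat_lit 130) (nat_lit 122) (nat_lit 146) (nat_lit 74) (nat_lit 182) (nat_lit 290) (nat_lit 2314)))
 (.l (.k1_7 (nat_lit 10) (nat_lit 130) (nat_lit 128) (nat_lit 132) (nat_lit 124) (nat_lit 148) (nat_lit 76) (nat_lit 184) (nat_lit 292) (nat_lit 2316))))))
 (.n (nat_lit 142)
 (.n (nat_lit 132)
 (.l (.k0_5 (nat_lit 11) (nat_lit 132) (nat_lit 130) (nat_lit 150) (nat_lit 78) (nat_lit 186) (nat_lit 294)))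
 (.n (nat_lit 140)
 (.l (.k1_5 (nat_lit 8) (nat_lit 140) (nat_lit 142) (nat_lit 146) (nat_lit 122) (nat_lit 194) (nat_lit 302) (nat_lit 2326)))
 (.l (.k1_5 (nat_lit 8) (nat_lit 142) (nat_lit 140) (nat_lit 148) (nat_lit 124) (nat_lit 196) (nat_lit 304) (nat_lit 2328)))))
 (.n (nat_lit 146)
 (.l (.k1_5 (nat_lit 8) (nat_lit 146) (nat_lit 148) (nat_lit 140) (nat_lit 128) (nat_lit 200) (nat_lit 308) (nat_lit 2332)))
 (.n (nat_lit 148)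
 (.l (.k1_7 (nat_lit 10) (nat_lit 148) (nat_lit 146) (nat_lit 150) (nat_lit 142) (nat_lit 154) (nat_lit 130) (nat_lit 202) (nat_lit 310) (nat_lit 2334)))
 (.l (.k0_5 (nat_lit 10) (nat_lit 150) (nat_lit 148) (nat_lit 156) (nat_lit 132) (nat_lit 204) (nat_lit 312))))))))
 (.n (nat_lit 202)
 (.n (nat_lit 182)
 (.n (nat_lit 170)
 (.n (nat_lit 154)
 (.l (.k1_4 (nat_lit 10) (nat_lit 154) (nat_lit 156) (nat_lit 148) (nat_lit 208) (nat_lit 316) (nat_lit 2340)))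
 (.n (nat_lit 156)
 (.l (.k0_4 (nat_lit 12) (nat_lit 156) (nat_lit 154) (nat_lit 150) (nat_lit 210) (nat_lit 318)))
 (.l (.k1_3 (nat_lit 8) (nat_lit 170) (nat_lit 176) (nat_lit 116) (nat_lit 332) (nat_lit 2356)))))
 (.n (nat_lit 176)
 (.l (.k1_6 (nat_lit 7) (nat_lit 176) (nat_lit 178) (nat_lit 170) (nat_lit 182) (nat_lit 194) (nat_lit 122) (nat_lit 338) (nat_lit 2362)))
 (.n (nat_lit 178)
 (.l (.k1_5 (nat_lit 8) (nat_lit 178) (nat_lit 176) (nat_lit 184) (nat_lit 196) (nat_lit 124) (nat_lit 340) (nat_lit 2364)))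
 (.l (.k1_5 (nat_lit 4) (nat_lit 182) (nat_lit 184) (nat_lit 176) (nat_lit 200) (nat_lit 128) (nat_lit 344) (nat_lit 2368))))))
 (.n (nat_lit 194)
 (.n (nat_lit 184)
 (.l (.k1_6 (nat_lit 7) (nat_lit 184) (nat_lit 182) (nat_lit 186) (nat_lit 178) (nat_lit 202) (nat_lit 130) (nat_lit 346) (nat_lit 2370)))
 (.n (nat_lit 186)
 (.l (.k0_4 (nat_lit 8) (nat_lit 186) (nat_lit 184) (nat_lit 204) (nat_lit 132) (nat_lit 348)))
 (.l (.k1_5 (nat_lit 8) (nat_lit 194) (nat_lit 196) (nat_lit 200) (nat_lit 176) (nat_lit 140) (nat_lit 356) (nat_lit 2380)))))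
 (.n (nat_lit 196)
 (.l (.k1_5 (nat_lit 8) (nat_lit 196) (nat_lit 194) (nat_lit 202) (nat_lit 178) (nat_lit 142) (nat_lit 358) (nat_lit 2382)))
 (.n (nat_lit 200)
 (.l (.k1_6 (nat_lit 7) (nat_lit 200) (nat_lit 202) (nat_lit 194) (nat_lit 182) (nat_lit 218) (nat_lit 146) (nat_lit 362) (nat_lit 2386)))
 (.l (.k1_8 (nat_lit 9) (nat_lit 202) (nat_lit 200) (nat_lit 204) (nat_lit 196) (nat_lit 208) (nat_lit 184) (nat_lit 220) (nat_lit 148) (nat_lit 364) (nat_lit 2388)))))))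
 (.n (nat_lit 222)
 (.n (nat_lit 210)
 (.n (nat_lit 204)
 (.l (.k0_6 (nat_lit 9) (nat_lit 204) (nat_lit 202) (nat_lit 210) (nat_lit 186) (nat_lit 222) (nat_lit 150) (nat_lit 366)))
 (.n (nat_lit 208)
 (.l (.k1_5 (nat_lit 8) (nat_lit 208) (nat_lit 210) (nat_lit 202) (nat_lit 226) (nat_lit 154) (nat_lit 370) (nat_lit 2394)))
 (.l (.k0_5 (nat_lit 10) (nat_lit 210) (nat_lit 208) (nat_lit 204) (nat_lit 228) (nat_lit 156) (nat_lit 372)))))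
 (.n (nat_lit 218)
 (.l (.k1_3 (nat_lit 8) (nat_lit 218) (nat_lit 220) (nat_lit 200) (nat_lit 380) (nat_lit 2404)))
 (.n (nat_lit 220)
 (.l (.k1_5 (nat_lit 9) (nat_lit 220) (nat_lit 218) (nat_lit 222) (nat_lit 226) (nat_lit 202) (nat_lit 382) (nat_lit 2406)))
 (.l (.k0_4 (nat_lit 8) (nat_lit 222) (nat_lit 220) (nat_lit 228) (nat_lit 204) (nat_lit 384))))))
 (.n (nat_lit 234)
 (.n (nat_lit 226)
 (.l (.k1_4 (nat_lit 10) (nat_lit 226) (nat_lit 228) (nat_lit 220) (nat_lit 208) (nat_lit 388) (nat_lit 2412)))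
 (.n (nat_lit 228)
 (.l (.k0_5 (nat_lit 11) (nat_lit 228) (nat_lit 226) (nat_lit 222) (nat_lit 234) (nat_lit 210) (nat_lit 390)))
 (.l (.k0_2 (nat_lit 12) (nat_lit 234) (nat_lit 228) (nat_lit 396)))))
 (.n (nat_lit 266)
 (.n (nat_lit 260)
 (.l (.k1_4 (nat_lit 10) (nat_lit 260) (nat_lit 266) (nat_lit 278) (nat_lit 98) (nat_lit 746) (nat_lit 2446)))
 (.l (.k1_5 (nat_lit 8) (nat_lit 266) (nat_lit 268) (nat_lit 260) (nat_lit 284) (nat_lit 104) (nat_lit 752) (nat_lit 2452))))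
 (.n (nat_lit 268)
 (.l (.k1_4 (nat_lit 10) (nat_lit 268) (nat_lit 266) (nat_lit 286) (nat_lit 106) (nat_lit 754) (nat_lit 2454)))
 (.l (.k1_5 (nat_lit 8) (nat_lit 278) (nat_lit 284) (nat_lit 260) (nat_lit 332) (nat_lit 116) (nat_lit 764) (nat_lit 2464)))))))))
 (.n (nat_lit 370)
 (.n (nat_lit 318)
 (.n (nat_lit 302)
 (.n (nat_lit 290)
 (.n (nat_lit 284)
 (.l (.k1_8 (nat_lit 8) (nat_lit 284) (nat_lit 286) (nat_lit 278) (nat_lit 290) (nat_lit 266) (nat_lit 302) (nat_lit 338) (nat_lit 122) (nat_lit 770) (nat_lit 2470)))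
 (.n (nat_lit 286)
 (.l (.k1_7 (nat_lit 9) (nat_lit 286) (nat_lit 284) (nat_lit 292) (nat_lit 268) (nat_lit 304) (nat_lit 340) (nat_lit 124) (nat_lit 772) (nat_lit 2472)))
 (.l (.k1_6 (nat_lit 6) (nat_lit 290) (nat_lit 292) (nat_lit 284) (nat_lit 308) (nat_lit 344) (nat_lit 128) (nat_lit 776) (nat_lit 2476)))))
 (.n (nat_lit 292)
 (.l (.k1_7 (nat_lit 9) (nat_lit 292) (nat_lit 290) (nat_lit 294) (nat_lit 286) (nat_lit 310) (nat_lit 346) (nat_lit 130) (nat_lit 778) (nat_lit 2478)))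
 (.n (nat_lit 294)
 (.l (.k0_5 (nat_lit 10) (nat_lit 294) (nat_lit 292) (nat_lit 312) (nat_lit 348) (nat_lit 132) (nat_lit 780)))
 (.l (.k1_6 (nat_lit 6) (nat_lit 302) (nat_lit 304) (nat_lit 308) (nat_lit 284) (nat_lit 356) (nat_lit 140) (nat_lit 788) (nat_lit 2488))))))
 (.n (nat_lit 310)
 (.n (nat_lit 304)
 (.l (.k1_6 (nat_lit 6) (nat_lit 304) (nat_lit 302) (nat_lit 310) (nat_lit 286) (nat_lit 358) (nat_lit 142) (nat_lit 790) (nat_lit 2490)))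
 (.n (nat_lit 308)
 (.l (.k1_6 (nat_lit 6) (nat_lit 308) (nat_lit 310) (nat_lit 302) (nat_lit 290) (nat_lit 362) (nat_lit 146) (nat_lit 794) (nat_lit 2494)))
 (.l (.k1_8 (nat_lit 8) (nat_lit 310) (nat_lit 308) (nat_lit 312) (nat_lit 304) (nat_lit 316) (nat_lit 292) (nat_lit 364) (nat_lit 148) (nat_lit 796) (nat_lit 2496)))))
 (.n (nat_lit 312)
 (.l (.k0_6 (nat_lit 8) (nat_lit 312) (nat_lit 310) (nat_lit 318) (nat_lit 294) (nat_lit 366) (nat_lit 150) (nat_lit 798)))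
 (.n (nat_lit 316)
 (.l (.k1_5 (nat_lit 8) (nat_lit 316) (nat_lit 318) (nat_lit 310) (nat_lit 370) (nat_lit 154) (nat_lit 802) (nat_lit 2502)))
 (.l (.k0_5 (nat_lit 10) (nat_lit 318) (nat_lit 316) (nat_lit 312) (nat_lit 372) (nat_lit 156) (nat_lit 804)))))))
 (.n (nat_lit 348)
 (.n (nat_lit 340)
 (.n (nat_lit 332)
 (.l (.k1_5 (nat_lit 9) (nat_lit 332) (nat_lit 338) (nat_lit 278) (nat_lit 170) (nat_lit 494) (nat_lit 818) (nat_lit 2518)))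
 (.n (nat_lit 338)
 (.l (.k1_8 (nat_lit 8) (nat_lit 338) (nat_lit 340) (nat_lit 332) (nat_lit 344) (nat_lit 356) (nat_lit 284) (nat_lit 176) (nat_lit 500) (nat_lit 824) (nat_lit 2524)))
 (.l (.k1_7 (nat_lit 9) (nat_lit 340) (nat_lit 338) (nat_lit 346) (nat_lit 358) (nat_lit 286) (nat_lit 178) (nat_lit 502) (nat_lit 826) (nat_lit 2526)))))
 (.n (nat_lit 344)
 (.l (.k1_7 (nat_lit 5) (nat_lit 344) (nat_lit 346) (nat_lit 338) (nat_lit 362) (nat_lit 290) (nat_lit 182) (nat_lit 506) (nat_lit 830) (nat_lit 2530)))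
 (.n (nat_lit 346)
 (.l (.k1_8 (nat_lit 8) (nat_lit 346) (nat_lit 344) (nat_lit 348) (nat_lit 340) (nat_lit 364) (nat_lit 292) (nat_lit 184) (nat_lit 508) (nat_lit 832) (nat_lit 2532)))
 (.l (.k0_6 (nat_lit 9) (nat_lit 348) (nat_lit 346) (nat_lit 366) (nat_lit 294) (nat_lit 186) (nat_lit 510) (nat_lit 834))))))
 (.n (nat_lit 362)
 (.n (nat_lit 356)
 (.l (.k1_8 (nat_lit 8) (nat_lit 356) (nat_lit 358) (nat_lit 362) (nat_lit 338) (nat_lit 302) (nat_lit 410) (nat_lit 194) (nat_lit 518) (nat_lit 842) (nat_lit 2542)))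
 (.n (nat_lit 358)
 (.l (.k1_8 (nat_lit 8) (nat_lit 358) (nat_lit 356) (nat_lit 364) (nat_lit 340) (nat_lit 304) (nat_lit 412) (nat_lit 196) (nat_lit 520) (nat_lit 844) (nat_lit 2544)))
 (.l (.k1_9 (nat_lit 7) (nat_lit 362) (nat_lit 364) (nat_lit 356) (nat_lit 344) (nat_lit 380) (nat_lit 308) (nat_lit 416) (nat_lit 200) (nat_lit 524) (nat_lit 848) (nat_lit 2548)))))
 (.n (nat_lit 364)
 (.l (.k1_11 (nat_lit 9) (nat_lit 364) (nat_lit 362) (nat_lit 366) (nat_lit 358) (nat_lit 370) (nat_lit 346) (nat_lit 382) (nat_lit 310) (nat_lit 418) (nat_lit 202) (nat_lit 526) (nat_lit 850) (nat_lit 2550)))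
 (.n (nat_lit 366)
 (.l (.k0_9 (nat_lit 9) (nat_lit 366) (nat_lit 364) (nat_lit 372) (nat_lit 348) (nat_lit 384) (nat_lit 312) (nat_lit 420) (nat_lit 204) (nat_lit 528) (nat_lit 852)))
 (.l (.k1_8 (nat_lit 8) (nat_lit 370) (nat_lit 372) (nat_lit 364) (nat_lit 388) (nat_lit 316) (nat_lit 424) (nat_lit 208) (nat_lit 532) (nat_lit 856) (nat_lit 2556))))))))
 (.n (nat_lit 420)
 (.n (nat_lit 390)
 (.n (nat_lit 382)
 (.n (nat_lit 372)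
 (.l (.k0_8 (nat_lit 10) (nat_lit 372) (nat_lit 370) (nat_lit 366) (nat_lit 390) (nat_lit 318) (nat_lit 426) (nat_lit 210) (nat_lit 534) (nat_lit 858)))
 (.n (nat_lit 380)
 (.l (.k1_6 (nat_lit 7) (nat_lit 380) (nat_lit 382) (nat_lit 362) (nat_lit 434) (nat_lit 218) (nat_lit 542) (nat_lit 866) (nat_lit 2566)))
 (.l (.k1_8 (nat_lit 8) (nat_lit 382) (nat_lit 380) (nat_lit 384) (nat_lit 388) (nat_lit 364) (nat_lit 436) (nat_lit 220) (nat_lit 544) (nat_lit 868) (nat_lit 2568)))))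
 (.n (nat_lit 384)
 (.l (.k0_7 (nat_lit 7) (nat_lit 384) (nat_lit 382) (nat_lit 390) (nat_lit 366) (nat_lit 438) (nat_lit 222) (nat_lit 546) (nat_lit 870)))
 (.n (nat_lit 388)
 (.l (.k1_7 (nat_lit 9) (nat_lit 388) (nat_lit 390) (nat_lit 382) (nat_lit 370) (nat_lit 442) (nat_lit 226) (nat_lit 550) (nat_lit 874) (nat_lit 2574)))
 (.l (.k0_8 (nat_lit 10) (nat_lit 390) (nat_lit 388) (nat_lit 384) (nat_lit 396) (nat_lit 372) (nat_lit 444) (nat_lit 228) (nat_lit 552) (nat_lit 876))))))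
 (.n (nat_lit 412)
 (.n (nat_lit 396)
 (.l (.k0_5 (nat_lit 11) (nat_lit 396) (nat_lit 390) (nat_lit 450) (nat_lit 234) (nat_lit 558) (nat_lit 882)))
 (.n (nat_lit 410)
 (.l (.k1_5 (nat_lit 8) (nat_lit 410) (nat_lit 412) (nat_lit 416) (nat_lit 356) (nat_lit 572) (nat_lit 896) (nat_lit 2596)))
 (.l (.k1_5 (nat_lit 8) (nat_lit 412) (nat_lit 410) (nat_lit 418) (nat_lit 358) (nat_lit 574) (nat_lit 898) (nat_lit 2598)))))
 (.n (nat_lit 416)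
 (.l (.k1_6 (nat_lit 6) (nat_lit 416) (nat_lit 418) (nat_lit 410) (nat_lit 434) (nat_lit 362) (nat_lit 578) (nat_lit 902) (nat_lit 2602)))
 (.n (nat_lit 418)
 (.l (.k1_8 (nat_lit 8) (nat_lit 418) (nat_lit 416) (nat_lit 420) (nat_lit 412) (nat_lit 424) (nat_lit 436) (nat_lit 364) (nat_lit 580) (nat_lit 904) (nat_lit 2604)))
 (.l (.k0_6 (nat_lit 8) (nat_lit 420) (nat_lit 418) (nat_lit 426) (nat_lit 438) (nat_lit 366) (nat_lit 582) (nat_lit 906)))))))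
 (.n (nat_lit 442)
 (.n (nat_lit 434)
 (.n (nat_lit 424)
 (.l (.k1_6 (nat_lit 6) (nat_lit 424) (nat_lit 426) (nat_lit 418) (nat_lit 442) (nat_lit 370) (nat_lit 586) (nat_lit 910) (nat_lit 2610)))
 (.n (nat_lit 426)
 (.l (.k0_6 (nat_lit 8) (nat_lit 426) (nat_lit 424) (nat_lit 420) (nat_lit 444) (nat_lit 372) (nat_lit 588) (nat_lit 912)))
 (.l (.k1_5 (nat_lit 8) (nat_lit 434) (nat_lit 436) (nat_lit 416) (nat_lit 380) (nat_lit 596) (nat_lit 920) (nat_lit 2620)))))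
 (.n (nat_lit 436)
 (.l (.k1_7 (nat_lit 9) (nat_lit 436) (nat_lit 434) (nat_lit 438) (nat_lit 442) (nat_lit 418) (nat_lit 382) (nat_lit 598) (nat_lit 922) (nat_lit 2622)))
 (.n (nat_lit 438)
 (.l (.k0_6 (nat_lit 8) (nat_lit 438) (nat_lit 436) (nat_lit 444) (nat_lit 420) (nat_lit 384) (nat_lit 600) (nat_lit 924)))
 (.l (.k1_7 (nat_lit 9) (nat_lit 442) (nat_lit 444) (nat_lit 436) (nat_lit 424) (nat_lit 460) (nat_lit 388) (nat_lit 604) (nat_lit 928) (nat_lit 2628))))))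
 (.n (nat_lit 460)
 (.n (nat_lit 444)
 (.l (.k0_8 (nat_lit 10) (nat_lit 444) (nat_lit 442) (nat_lit 438) (nat_lit 450) (nat_lit 426) (nat_lit 462) (nat_lit 390) (nat_lit 606) (nat_lit 930)))
 (.n (nat_lit 450)
 (.l (.k0_5 (nat_lit 10) (nat_lit 450) (nat_lit 444) (nat_lit 468) (nat_lit 396) (nat_lit 612) (nat_lit 936)))
 (.l (.k1_4 (nat_lit 10) (nat_lit 460) (nat_lit 462) (nat_lit 442) (nat_lit 622) (nat_lit 946) (nat_lit 2646)))))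
 (.n (nat_lit 468)
 (.n (nat_lit 462)
 (.l (.k0_5 (nat_lit 10) (nat_lit 462) (nat_lit 460) (nat_lit 468) (nat_lit 444) (nat_lit 624) (nat_lit 948)))
 (.l (.k0_4 (nat_lit 12) (nat_lit 468) (nat_lit 462) (nat_lit 450) (nat_lit 630) (nat_lit 954))))
 (.n (nat_lit 494)
 (.l (.k1_3 (nat_lit 8) (nat_lit 494) (nat_lit 500) (nat_lit 332) (nat_lit 980) (nat_lit 2680)))
 (.l (.k1_6 (nat_lit 7) (nat_lit 500) (nat_lit 502) (nat_lit 494) (nat_lit 506) (nat_lit 518) (nat_lit 338) (nat_lit 986) (nat_lit 2686))))))))))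
 (.n (nat_lit 772)
 (.n (nat_lit 588)
 (.n (nat_lit 542)
 (.n (nat_lit 520)
 (.n (nat_lit 508)
 (.n (nat_lit 502)
 (.l (.k1_5 (nat_lit 8) (nat_lit 502) (nat_lit 500) (nat_lit 508) (nat_lit 520) (nat_lit 340) (nat_lit 988) (nat_lit 2688)))
 (.n (nat_lit 506)
 (.l (.k1_5 (nat_lit 4) (nat_lit 506) (nat_lit 508) (nat_lit 500) (nat_lit 524) (nat_lit 344) (nat_lit 992) (nat_lit 2692)))
 (.l (.k1_6 (nat_lit 7) (nat_lit 508) (nat_lit 506) (nat_lit 510) (nat_lit 502) (nat_lit 526) (nat_lit 346) (nat_lit 994) (nat_lit 2694)))))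
 (.n (nat_lit 510)
 (.l (.k0_4 (nat_lit 8) (nat_lit 510) (nat_lit 508) (nat_lit 528) (nat_lit 348) (nat_lit 996)))
 (.n (nat_lit 518)
 (.l (.k1_6 (nat_lit 6) (nat_lit 518) (nat_lit 520) (nat_lit 524) (nat_lit 500) (nat_lit 572) (nat_lit 356) (nat_lit 1004) (nat_lit 2704)))
 (.l (.k1_6 (nat_lit 6) (nat_lit 520) (nat_lit 518) (nat_lit 526) (nat_lit 502) (nat_lit 574) (nat_lit 358) (nat_lit 1006) (nat_lit 2706))))))
 (.n (nat_lit 528)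
 (.n (nat_lit 524)
 (.l (.k1_7 (nat_lit 5) (nat_lit 524) (nat_lit 526) (nat_lit 518) (nat_lit 506) (nat_lit 542) (nat_lit 578) (nat_lit 362) (nat_lit 1010) (nat_lit 2710)))
 (.n (nat_lit 526)
 (.l (.k1_9 (nat_lit 7) (nat_lit 526) (nat_lit 524) (nat_lit 528) (nat_lit 520) (nat_lit 532) (nat_lit 508) (nat_lit 544) (nat_lit 580) (nat_lit 364) (nat_lit 1012) (nat_lit 2712)))
 (.l (.k0_7 (nat_lit 7) (nat_lit 528) (nat_lit 526) (nat_lit 534) (nat_lit 510) (nat_lit 546) (nat_lit 582) (nat_lit 366) (nat_lit 1014)))))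
 (.n (nat_lit 532)
 (.l (.k1_6 (nat_lit 6) (nat_lit 532) (nat_lit 534) (nat_lit 526) (nat_lit 550) (nat_lit 586) (nat_lit 370) (nat_lit 1018) (nat_lit 2718)))
 (.n (nat_lit 534)
 (.l (.k0_6 (nat_lit 8) (nat_lit 534) (nat_lit 532) (nat_lit 528) (nat_lit 552) (nat_lit 588) (nat_lit 372) (nat_lit 1020)))
 (.l (.k1_5 (nat_lit 4) (nat_lit 542) (nat_lit 544) (nat_lit 524) (nat_lit 596) (nat_lit 380) (nat_lit 1028) (nat_lit 2728)))))))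
 (.n (nat_lit 572)
 (.n (nat_lit 550)
 (.n (nat_lit 544)
 (.l (.k1_7 (nat_lit 5) (nat_lit 544) (nat_lit 542) (nat_lit 546) (nat_lit 550) (nat_lit 526) (nat_lit 598) (nat_lit 382) (nat_lit 1030) (nat_lit 2730)))
 (.n (nat_lit 546)
 (.l (.k0_6 (nat_lit 4) (nat_lit 546) (nat_lit 544) (nat_lit 552) (nat_lit 528) (nat_lit 600) (nat_lit 384) (nat_lit 1032)))
 (.l (.k1_6 (nat_lit 6) (nat_lit 550) (nat_lit 552) (nat_lit 544) (nat_lit 532) (nat_lit 604) (nat_lit 388) (nat_lit 1036) (nat_lit 2736)))))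
 (.n (nat_lit 552)
 (.l (.k0_7 (nat_lit 7) (nat_lit 552) (nat_lit 550) (nat_lit 546) (nat_lit 558) (nat_lit 534) (nat_lit 606) (nat_lit 390) (nat_lit 1038)))
 (.n (nat_lit 558)
 (.l (.k0_4 (nat_lit 8) (nat_lit 558) (nat_lit 552) (nat_lit 612) (nat_lit 396) (nat_lit 1044)))
 (.l (.k1_5 (nat_lit 8) (nat_lit 572) (nat_lit 574) (nat_lit 578) (nat_lit 518) (nat_lit 410) (nat_lit 1058) (nat_lit 2758))))))
 (.n (nat_lit 580)
 (.n (nat_lit 574)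
 (.l (.k1_5 (nat_lit 8) (nat_lit 574) (nat_lit 572) (nat_lit 580) (nat_lit 520) (nat_lit 412) (nat_lit 1060) (nat_lit 2760)))
 (.n (nat_lit 578)
 (.l (.k1_6 (nat_lit 6) (nat_lit 578) (nat_lit 580) (nat_lit 572) (nat_lit 596) (nat_lit 524) (nat_lit 416) (nat_lit 1064) (nat_lit 2764)))
 (.l (.k1_8 (nat_lit 8) (nat_lit 580) (nat_lit 578) (nat_lit 582) (nat_lit 574) (nat_lit 586) (nat_lit 598) (nat_lit 526) (nat_lit 418) (nat_lit 1066) (nat_lit 2766)))))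
 (.n (nat_lit 582)
 (.l (.k0_6 (nat_lit 8) (nat_lit 582) (nat_lit 580) (nat_lit 588) (nat_lit 600) (nat_lit 528) (nat_lit 420) (nat_lit 1068)))
 (.n (nat_lit 586)
 (.l (.k1_6 (nat_lit 6) (nat_lit 586) (nat_lit 588) (nat_lit 580) (nat_lit 604) (nat_lit 532) (nat_lit 424) (nat_lit 1072) (nat_lit 2772)))
 (.l (.k0_6 (nat_lit 8) (nat_lit 588) (nat_lit 586) (nat_lit 582) (nat_lit 606) (nat_lit 534) (nat_lit 426) (nat_lit 1074))))))))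
 (.n (nat_lit 654)
 (.n (nat_lit 612)
 (.n (nat_lit 600)
 (.n (nat_lit 596)
 (.l (.k1_6 (nat_lit 7) (nat_lit 596) (nat_lit 598) (nat_lit 578) (nat_lit 542) (nat_lit 650) (nat_lit 434) (nat_lit 1082) (nat_lit 2782)))
 (.n (nat_lit 598)
 (.l (.k1_8 (nat_lit 8) (nat_lit 598) (nat_lit 596) (nat_lit 600) (nat_lit 604) (nat_lit 580) (nat_lit 544) (nat_lit 652) (nat_lit 436) (nat_lit 1084) (nat_lit 2784)))
 (.l (.k0_7 (nat_lit 7) (nat_lit 600) (nat_lit 598) (nat_lit 606) (nat_lit 582) (nat_lit 546) (nat_lit 654) (nat_lit 438) (nat_lit 1086)))))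
 (.n (nat_lit 604)
 (.l (.k1_8 (nat_lit 8) (nat_lit 604) (nat_lit 606) (nat_lit 598) (nat_lit 586) (nat_lit 622) (nat_lit 550) (nat_lit 658) (nat_lit 442) (nat_lit 1090) (nat_lit 2790)))
 (.n (nat_lit 606)
 (.l (.k0_9 (nat_lit 9) (nat_lit 606) (nat_lit 604) (nat_lit 600) (nat_lit 612) (nat_lit 588) (nat_lit 624) (nat_lit 552) (nat_lit 660) (nat_lit 444) (nat_lit 1092)))
 (.l (.k0_6 (nat_lit 9) (nat_lit 612) (nat_lit 606) (nat_lit 630) (nat_lit 558) (nat_lit 666) (nat_lit 450) (nat_lit 1098))))))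
 (.n (nat_lit 630)
 (.n (nat_lit 622)
 (.l (.k1_5 (nat_lit 8) (nat_lit 622) (nat_lit 624) (nat_lit 604) (nat_lit 676) (nat_lit 460) (nat_lit 1108) (nat_lit 2808)))
 (.n (nat_lit 624)
 (.l (.k0_6 (nat_lit 8) (nat_lit 624) (nat_lit 622) (nat_lit 630) (nat_lit 606) (nat_lit 678) (nat_lit 462) (nat_lit 1110)))
 (.l (.k0_5 (nat_lit 10) (nat_lit 630) (nat_lit 624) (nat_lit 612) (nat_lit 684) (nat_lit 468) (nat_lit 1116)))))
 (.n (nat_lit 650)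
 (.l (.k1_3 (nat_lit 8) (nat_lit 650) (nat_lit 652) (nat_lit 596) (nat_lit 1136) (nat_lit 2836)))
 (.n (nat_lit 652)
 (.l (.k1_5 (nat_lit 9) (nat_lit 652) (nat_lit 650) (nat_lit 654) (nat_lit 658) (nat_lit 598) (nat_lit 1138) (nat_lit 2838)))
 (.l (.k0_4 (nat_lit 8) (nat_lit 654) (nat_lit 652) (nat_lit 660) (nat_lit 600) (nat_lit 1140)))))))
 (.n (nat_lit 684)
 (.n (nat_lit 666)
 (.n (nat_lit 658)
 (.l (.k1_5 (nat_lit 8) (nat_lit 658) (nat_lit 660) (nat_lit 652) (nat_lit 676) (nat_lit 604) (nat_lit 1144) (nat_lit 2844)))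
 (.n (nat_lit 660)
 (.l (.k0_6 (nat_lit 9) (nat_lit 660) (nat_lit 658) (nat_lit 654) (nat_lit 666) (nat_lit 678) (nat_lit 606) (nat_lit 1146)))
 (.l (.k0_4 (nat_lit 8) (nat_lit 666) (nat_lit 660) (nat_lit 684) (nat_lit 612) (nat_lit 1152)))))
 (.n (nat_lit 676)
 (.l (.k1_4 (nat_lit 10) (nat_lit 676) (nat_lit 678) (nat_lit 658) (nat_lit 622) (nat_lit 1162) (nat_lit 2862)))
 (.n (nat_lit 678)
 (.l (.k0_5 (nat_lit 10) (nat_lit 678) (nat_lit 676) (nat_lit 684) (nat_lit 660) (nat_lit 624) (nat_lit 1164)))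
 (.l (.k0_5 (nat_lit 11) (nat_lit 684) (nat_lit 678) (nat_lit 666) (nat_lit 702) (nat_lit 630) (nat_lit 1170))))))
 (.n (nat_lit 752)
 (.n (nat_lit 702)
 (.l (.k0_2 (nat_lit 12) (nat_lit 702) (nat_lit 684) (nat_lit 1188)))
 (.n (nat_lit 746)
 (.l (.k1_4 (nat_lit 10) (nat_lit 746) (nat_lit 752) (nat_lit 764) (nat_lit 260) (nat_lit 2204) (nat_lit 2932)))
 (.l (.k1_5 (nat_lit 8) (nat_lit 752) (nat_lit 754) (nat_lit 746) (nat_lit 770) (nat_lit 266) (nat_lit 2210) (nat_lit 2938)))))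
 (.n (nat_lit 764)
 (.n (nat_lit 754)
 (.l (.k1_4 (nat_lit 10) (nat_lit 754) (nat_lit 752) (nat_lit 772) (nat_lit 268) (nat_lit 2212) (nat_lit 2940)))
 (.l (.k1_5 (nat_lit 8) (nat_lit 764) (nat_lit 770) (nat_lit 746) (nat_lit 818) (nat_lit 278) (nat_lit 2222) (nat_lit 2950))))
 (.n (nat_lit 770)
 (.l (.k1_8 (nat_lit 8) (nat_lit 770) (nat_lit 772) (nat_lit 764) (nat_lit 776) (nat_lit 752) (nat_lit 788) (nat_lit 824) (nat_lit 284) (nat_lit 2228) (nat_lit 2956)))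
 (.l (.k1_7 (nat_lit 9) (nat_lit 772) (nat_lit 770) (nat_lit 778) (nat_lit 754) (nat_lit 790) (nat_lit 826) (nat_lit 286) (nat_lit 2230) (nat_lit 2958)))))))))
 (.n (nat_lit 866)
 (.n (nat_lit 824)
 (.n (nat_lit 794)
 (.n (nat_lit 780)
 (.n (nat_lit 776)
 (.l (.k1_6 (nat_lit 6) (nat_lit 776) (nat_lit 778) (nat_lit 770) (nat_lit 794) (nat_lit 830) (nat_lit 290) (nat_lit 2234) (nat_lit 2962)))
 (.n (nat_lit 778)
 (.l (.k1_7 (nat_lit 9) (nat_lit 778) (nat_lit 776) (nat_lit 780) (nat_lit 772) (nat_lit 796) (nat_lit 832) (nat_lit 292) (nat_lit 2236) (nat_lit 2964)))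
 (.l (.k0_5 (nat_lit 10) (nat_lit 780) (nat_lit 778) (nat_lit 798) (nat_lit 834) (nat_lit 294) (nat_lit 2238)))))
 (.n (nat_lit 788)
 (.l (.k1_6 (nat_lit 6) (nat_lit 788) (nat_lit 790) (nat_lit 794) (nat_lit 770) (nat_lit 842) (nat_lit 302) (nat_lit 2246) (nat_lit 2974)))
 (.n (nat_lit 790)
 (.l (.k1_6 (nat_lit 6) (nat_lit 790) (nat_lit 788) (nat_lit 796) (nat_lit 772) (nat_lit 844) (nat_lit 304) (nat_lit 2248) (nat_lit 2976)))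
 (.l (.k1_6 (nat_lit 6) (nat_lit 794) (nat_lit 796) (nat_lit 788) (nat_lit 776) (nat_lit 848) (nat_lit 308) (nat_lit 2252) (nat_lit 2980))))))
 (.n (nat_lit 802)
 (.n (nat_lit 796)
 (.l (.k1_8 (nat_lit 8) (nat_lit 796) (nat_lit 794) (nat_lit 798) (nat_lit 790) (nat_lit 802) (nat_lit 778) (nat_lit 850) (nat_lit 310) (nat_lit 2254) (nat_lit 2982)))
 (.n (nat_lit 798)
 (.l (.k0_6 (nat_lit 8) (nat_lit 798) (nat_lit 796) (nat_lit 804) (nat_lit 780) (nat_lit 852) (nat_lit 312) (nat_lit 2256)))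
 (.l (.k1_5 (nat_lit 8) (nat_lit 802) (nat_lit 804) (nat_lit 796) (nat_lit 856) (nat_lit 316) (nat_lit 2260) (nat_lit 2988)))))
 (.n (nat_lit 804)
 (.l (.k0_5 (nat_lit 10) (nat_lit 804) (nat_lit 802) (nat_lit 798) (nat_lit 858) (nat_lit 318) (nat_lit 2262)))
 (.n (nat_lit 818)
 (.l (.k1_5 (nat_lit 8) (nat_lit 818) (nat_lit 824) (nat_lit 764) (nat_lit 980) (nat_lit 332) (nat_lit 2276) (nat_lit 3004)))
 (.l (.k1_8 (nat_lit 7) (nat_lit 824) (nat_lit 826) (nat_lit 818) (nat_lit 830) (nat_lit 842) (nat_lit 770) (nat_lit 986) (nat_lit 338) (nat_lit 2282) (nat_lit 3010)))))))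
 (.n (nat_lit 844)
 (.n (nat_lit 832)
 (.n (nat_lit 826)
 (.l (.k1_7 (nat_lit 8) (nat_lit 826) (nat_lit 824) (nat_lit 832) (nat_lit 844) (nat_lit 772) (nat_lit 988) (nat_lit 340) (nat_lit 2284) (nat_lit 3012)))
 (.n (nat_lit 830)
 (.l (.k1_7 (nat_lit 4) (nat_lit 830) (nat_lit 832) (nat_lit 824) (nat_lit 848) (nat_lit 776) (nat_lit 992) (nat_lit 344) (nat_lit 2288) (nat_lit 3016)))
 (.l (.k1_8 (nat_lit 7) (nat_lit 832) (nat_lit 830) (nat_lit 834) (nat_lit 826) (nat_lit 850) (nat_lit 778) (nat_lit 994) (nat_lit 346) (nat_lit 2290) (nat_lit 3018)))))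
 (.n (nat_lit 834)
 (.l (.k0_6 (nat_lit 8) (nat_lit 834) (nat_lit 832) (nat_lit 852) (nat_lit 780) (nat_lit 996) (nat_lit 348) (nat_lit 2292)))
 (.n (nat_lit 842)
 (.l (.k1_8 (nat_lit 7) (nat_lit 842) (nat_lit 844) (nat_lit 848) (nat_lit 824) (nat_lit 788) (nat_lit 896) (nat_lit 1004) (nat_lit 356) (nat_lit 2300) (nat_lit 3028)))
 (.l (.k1_8 (nat_lit 7) (nat_lit 844) (nat_lit 842) (nat_lit 850) (nat_lit 826) (nat_lit 790) (nat_lit 898) (nat_lit 1006) (nat_lit 358) (nat_lit 2302) (nat_lit 3030))))))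
 (.n (nat_lit 852)
 (.n (nat_lit 848)
 (.l (.k1_9 (nat_lit 6) (nat_lit 848) (nat_lit 850) (nat_lit 842) (nat_lit 830) (nat_lit 866) (nat_lit 794) (nat_lit 902) (nat_lit 1010) (nat_lit 362) (nat_lit 2306) (nat_lit 3034)))
 (.n (nat_lit 850)
 (.l (.k1_11 (nat_lit 8) (nat_lit 850) (nat_lit 848) (nat_lit 852) (nat_lit 844) (nat_lit 856) (nat_lit 832) (nat_lit 868) (nat_lit 796) (nat_lit 904) (nat_lit 1012) (nat_lit 364) (nat_lit 2308) (nat_lit 3036)))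
 (.l (.k0_9 (nat_lit 8) (nat_lit 852) (nat_lit 850) (nat_lit 858) (nat_lit 834) (nat_lit 870) (nat_lit 798) (nat_lit 906) (nat_lit 1014) (nat_lit 366) (nat_lit 2310)))))
 (.n (nat_lit 856)
 (.l (.k1_8 (nat_lit 7) (nat_lit 856) (nat_lit 858) (nat_lit 850) (nat_lit 874) (nat_lit 802) (nat_lit 910) (nat_lit 1018) (nat_lit 370) (nat_lit 2314) (nat_lit 3042)))
 (.n (nat_lit 858)
 (.l (.k0_8 (nat_lit 9) (nat_lit 858) (nat_lit 856) (nat_lit 852) (nat_lit 876) (nat_lit 804) (nat_lit 912) (nat_lit 1020) (nat_lit 372) (nat_lit 2316)))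
 (.l (.k1_6 (nat_lit 6) (nat_lit 866) (nat_lit 868) (nat_lit 848) (nat_lit 920) (nat_lit 1028) (nat_lit 380) (nat_lit 2324) (nat_lit 3052))))))))
 (.n (nat_lit 912)
 (.n (nat_lit 896)
 (.n (nat_lit 874)
 (.n (nat_lit 868)
 (.l (.k1_8 (nat_lit 7) (nat_lit 868) (nat_lit 866) (nat_lit 870) (nat_lit 874) (nat_lit 850) (nat_lit 922) (nat_lit 1030) (nat_lit 382) (nat_lit 2326) (nat_lit 3054)))
 (.n (nat_lit 870)
 (.l (.k0_7 (nat_lit 6) (nat_lit 870) (nat_lit 868) (nat_lit 876) (nat_lit 852) (nat_lit 924) (nat_lit 1032) (nat_lit 384) (nat_lit 2328)))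
 (.l (.k1_7 (nat_lit 8) (nat_lit 874) (nat_lit 876) (nat_lit 868) (nat_lit 856) (nat_lit 928) (nat_lit 1036) (nat_lit 388) (nat_lit 2332) (nat_lit 3060)))))
 (.n (nat_lit 876)
 (.l (.k0_8 (nat_lit 9) (nat_lit 876) (nat_lit 874) (nat_lit 870) (nat_lit 882) (nat_lit 858) (nat_lit 930) (nat_lit 1038) (nat_lit 390) (nat_lit 2334)))
 (.n (nat_lit 882)
 (.l (.k0_5 (nat_lit 10) (nat_lit 882) (nat_lit 876) (nat_lit 936) (nat_lit 1044) (nat_lit 396) (nat_lit 2340)))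
 (.l (.k1_6 (nat_lit 6) (nat_lit 896) (nat_lit 898) (nat_lit 902) (nat_lit 842) (nat_lit 1058) (nat_lit 410) (nat_lit 2354) (nat_lit 3082))))))
 (.n (nat_lit 904)
 (.n (nat_lit 898)
 (.l (.k1_6 (nat_lit 6) (nat_lit 898) (nat_lit 896) (nat_lit 904) (nat_lit 844) (nat_lit 1060) (nat_lit 412) (nat_lit 2356) (nat_lit 3084)))
 (.n (nat_lit 902)
 (.l (.k1_7 (nat_lit 4) (nat_lit 902) (nat_lit 904) (nat_lit 896) (nat_lit 920) (nat_lit 848) (nat_lit 1064) (nat_lit 416) (nat_lit 2360) (nat_lit 3088)))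
 (.l (.k1_9 (nat_lit 6) (nat_lit 904) (nat_lit 902) (nat_lit 906) (nat_lit 898) (nat_lit 910) (nat_lit 922) (nat_lit 850) (nat_lit 1066) (nat_lit 418) (nat_lit 2362) (nat_lit 3090)))))
 (.n (nat_lit 906)
 (.l (.k0_7 (nat_lit 6) (nat_lit 906) (nat_lit 904) (nat_lit 912) (nat_lit 924) (nat_lit 852) (nat_lit 1068) (nat_lit 420) (nat_lit 2364)))
 (.n (nat_lit 910)
 (.l (.k1_7 (nat_lit 4) (nat_lit 910) (nat_lit 912) (nat_lit 904) (nat_lit 928) (nat_lit 856) (nat_lit 1072) (nat_lit 424) (nat_lit 2368) (nat_lit 3096)))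
 (.l (.k0_7 (nat_lit 6) (nat_lit 912) (nat_lit 910) (nat_lit 906) (nat_lit 930) (nat_lit 858) (nat_lit 1074) (nat_lit 426) (nat_lit 2370)))))))
 (.n (nat_lit 936)
 (.n (nat_lit 924)
 (.n (nat_lit 920)
 (.l (.k1_6 (nat_lit 6) (nat_lit 920) (nat_lit 922) (nat_lit 902) (nat_lit 866) (nat_lit 1082) (nat_lit 434) (nat_lit 2378) (nat_lit 3106)))
 (.n (nat_lit 922)
 (.l (.k1_8 (nat_lit 7) (nat_lit 922) (nat_lit 920) (nat_lit 924) (nat_lit 928) (nat_lit 904) (nat_lit 868) (nat_lit 1084) (nat_lit 436) (nat_lit 2380) (nat_lit 3108)))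
 (.l (.k0_7 (nat_lit 6) (nat_lit 924) (nat_lit 922) (nat_lit 930) (nat_lit 906) (nat_lit 870) (nat_lit 1086) (nat_lit 438) (nat_lit 2382)))))
 (.n (nat_lit 928)
 (.l (.k1_8 (nat_lit 7) (nat_lit 928) (nat_lit 930) (nat_lit 922) (nat_lit 910) (nat_lit 946) (nat_lit 874) (nat_lit 1090) (nat_lit 442) (nat_lit 2386) (nat_lit 3114)))
 (.n (nat_lit 930)
 (.l (.k0_9 (nat_lit 8) (nat_lit 930) (nat_lit 928) (nat_lit 924) (nat_lit 936) (nat_lit 912) (nat_lit 948) (nat_lit 876) (nat_lit 1092) (nat_lit 444) (nat_lit 2388)))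
 (.l (.k0_6 (nat_lit 8) (nat_lit 936) (nat_lit 930) (nat_lit 954) (nat_lit 882) (nat_lit 1098) (nat_lit 450) (nat_lit 2394))))))
 (.n (nat_lit 954)
 (.n (nat_lit 946)
 (.l (.k1_5 (nat_lit 8) (nat_lit 946) (nat_lit 948) (nat_lit 928) (nat_lit 1108) (nat_lit 460) (nat_lit 2404) (nat_lit 3132)))
 (.n (nat_lit 948)
 (.l (.k0_6 (nat_lit 8) (nat_lit 948) (nat_lit 946) (nat_lit 954) (nat_lit 930) (nat_lit 1110) (nat_lit 462) (nat_lit 2406)))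
 (.l (.k0_5 (nat_lit 10) (nat_lit 954) (nat_lit 948) (nat_lit 936) (nat_lit 1116) (nat_lit 468) (nat_lit 2412)))))
 (.n (nat_lit 986)
 (.n (nat_lit 980)
 (.l (.k1_5 (nat_lit 9) (nat_lit 980) (nat_lit 986) (nat_lit 818) (nat_lit 494) (nat_lit 1466) (nat_lit 2438) (nat_lit 3166)))
 (.l (.k1_8 (nat_lit 8) (nat_lit 986) (nat_lit 988) (nat_lit 980) (nat_lit 992) (nat_lit 1004) (nat_lit 824) (nat_lit 500) (nat_lit 1472) (nat_lit 2444) (nat_lit 3172))))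
 (.n (nat_lit 988)
 (.l (.k1_7 (nat_lit 9) (nat_lit 988) (nat_lit 986) (nat_lit 994) (nat_lit 1006) (nat_lit 826) (nat_lit 502) (nat_lit 1474) (nat_lit 2446) (nat_lit 3174)))
 (.l (.k1_7 (nat_lit 5) (nat_lit 992) (nat_lit 994) (nat_lit 986) (nat_lit 1010) (nat_lit 830) (nat_lit 506) (nat_lit 1478) (nat_lit 2450) (nat_lit 3178)))))))))))
 (.n (nat_lit 1568)
 (.n (nat_lit 1244)
 (.n (nat_lit 1084)
 (.n (nat_lit 1032)
 (.n (nat_lit 1012)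
 (.n (nat_lit 1004)
 (.n (nat_lit 994)
 (.l (.k1_8 (nat_lit 8) (nat_lit 994) (nat_lit 992) (nat_lit 996) (nat_lit 988) (nat_lit 1012) (nat_lit 832) (nat_lit 508) (nat_lit 1480) (nat_lit 2452) (nat_lit 3180)))
 (.n (nat_lit 996)
 (.l (.k0_6 (nat_lit 9) (nat_lit 996) (nat_lit 994) (nat_lit 1014) (nat_lit 834) (nat_lit 510) (nat_lit 1482) (nat_lit 2454)))
 (.l (.k1_8 (nat_lit 7) (nat_lit 1004) (nat_lit 1006) (nat_lit 1010) (nat_lit 986) (nat_lit 1058) (nat_lit 842) (nat_lit 518) (nat_lit 1490) (nat_lit 2462) (nat_lit 3190)))))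
 (.n (nat_lit 1006)
 (.l (.k1_8 (nat_lit 7) (nat_lit 1006) (nat_lit 1004) (nat_lit 1012) (nat_lit 988) (nat_lit 1060) (nat_lit 844) (nat_lit 520) (nat_lit 1492) (nat_lit 2464) (nat_lit 3192)))
 (.n (nat_lit 1010)
 (.l (.k1_9 (nat_lit 6) (nat_lit 1010) (nat_lit 1012) (nat_lit 1004) (nat_lit 992) (nat_lit 1028) (nat_lit 1064) (nat_lit 848) (nat_lit 524) (nat_lit 1496) (nat_lit 2468) (nat_lit 3196)))
 (.l (.k1_11 (nat_lit 8) (nat_lit 1012) (nat_lit 1010) (nat_lit 1014) (nat_lit 1006) (nat_lit 1018) (nat_lit 994) (nat_lit 1030) (nat_lit 1066) (nat_lit 850) (nat_lit 526) (nat_lit 1498) (nat_lit 2470) (nat_lit 3198))))))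
 (.n (nat_lit 1020)
 (.n (nat_lit 1014)
 (.l (.k0_9 (nat_lit 8) (nat_lit 1014) (nat_lit 1012) (nat_lit 1020) (nat_lit 996) (nat_lit 1032) (nat_lit 1068) (nat_lit 852) (nat_lit 528) (nat_lit 1500) (nat_lit 2472)))
 (.n (nat_lit 1018)
 (.l (.k1_8 (nat_lit 7) (nat_lit 1018) (nat_lit 1020) (nat_lit 1012) (nat_lit 1036) (nat_lit 1072) (nat_lit 856) (nat_lit 532) (nat_lit 1504) (nat_lit 2476) (nat_lit 3204)))
 (.l (.k0_8 (nat_lit 9) (nat_lit 1020) (nat_lit 1018) (nat_lit 1014) (nat_lit 1038) (nat_lit 1074) (nat_lit 858) (nat_lit 534) (nat_lit 1506) (nat_lit 2478)))))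
 (.n (nat_lit 1028)
 (.l (.k1_7 (nat_lit 5) (nat_lit 1028) (nat_lit 1030) (nat_lit 1010) (nat_lit 1082) (nat_lit 866) (nat_lit 542) (nat_lit 1514) (nat_lit 2486) (nat_lit 3214)))
 (.n (nat_lit 1030)
 (.l (.k1_9 (nat_lit 6) (nat_lit 1030) (nat_lit 1028) (nat_lit 1032) (nat_lit 1036) (nat_lit 1012) (nat_lit 1084) (nat_lit 868) (nat_lit 544) (nat_lit 1516) (nat_lit 2488) (nat_lit 3216)))
 (.l (.k0_8 (nat_lit 5) (nat_lit 1032) (nat_lit 1030) (nat_lit 1038) (nat_lit 1014) (nat_lit 1086) (nat_lit 870) (nat_lit 546) (nat_lit 1518) (nat_lit 2490)))))))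
 (.n (nat_lit 1064)
 (.n (nat_lit 1044)
 (.n (nat_lit 1036)
 (.l (.k1_8 (nat_lit 7) (nat_lit 1036) (nat_lit 1038) (nat_lit 1030) (nat_lit 1018) (nat_lit 1090) (nat_lit 874) (nat_lit 550) (nat_lit 1522) (nat_lit 2494) (nat_lit 3222)))
 (.n (nat_lit 1038)
 (.l (.k0_9 (nat_lit 8) (nat_lit 1038) (nat_lit 1036) (nat_lit 1032) (nat_lit 1044) (nat_lit 1020) (nat_lit 1092) (nat_lit 876) (nat_lit 552) (nat_lit 1524) (nat_lit 2496)))
 (.l (.k0_6 (nat_lit 9) (nat_lit 1044) (nat_lit 1038) (nat_lit 1098) (nat_lit 882) (nat_lit 558) (nat_lit 1530) (nat_lit 2502)))))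
 (.n (nat_lit 1058)
 (.l (.k1_8 (nat_lit 8) (nat_lit 1058) (nat_lit 1060) (nat_lit 1064) (nat_lit 1004) (nat_lit 896) (nat_lit 1220) (nat_lit 572) (nat_lit 1544) (nat_lit 2516) (nat_lit 3244)))
 (.n (nat_lit 1060)
 (.l (.k1_8 (nat_lit 8) (nat_lit 1060) (nat_lit 1058) (nat_lit 1066) (nat_lit 1006) (nat_lit 898) (nat_lit 1222) (nat_lit 574) (nat_lit 1546) (nat_lit 2518) (nat_lit 3246)))
 (.l (.k1_9 (nat_lit 6) (nat_lit 1064) (nat_lit 1066) (nat_lit 1058) (nat_lit 1082) (nat_lit 1010) (nat_lit 902) (nat_lit 1226) (nat_lit 578) (nat_lit 1550) (nat_lit 2522) (nat_lit 3250))))))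
 (.n (nat_lit 1072)
 (.n (nat_lit 1066)
 (.l (.k1_11 (nat_lit 8) (nat_lit 1066) (nat_lit 1064) (nat_lit 1068) (nat_lit 1060) (nat_lit 1072) (nat_lit 1084) (nat_lit 1012) (nat_lit 904) (nat_lit 1228) (nat_lit 580) (nat_lit 1552) (nat_lit 2524) (nat_lit 3252)))
 (.n (nat_lit 1068)
 (.l (.k0_9 (nat_lit 8) (nat_lit 1068) (nat_lit 1066) (nat_lit 1074) (nat_lit 1086) (nat_lit 1014) (nat_lit 906) (nat_lit 1230) (nat_lit 582) (nat_lit 1554) (nat_lit 2526)))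
 (.l (.k1_9 (nat_lit 6) (nat_lit 1072) (nat_lit 1074) (nat_lit 1066) (nat_lit 1090) (nat_lit 1018) (nat_lit 910) (nat_lit 1234) (nat_lit 586) (nat_lit 1558) (nat_lit 2530) (nat_lit 3258)))))
 (.n (nat_lit 1074)
 (.l (.k0_9 (nat_lit 8) (nat_lit 1074) (nat_lit 1072) (nat_lit 1068) (nat_lit 1092) (nat_lit 1020) (nat_lit 912) (nat_lit 1236) (nat_lit 588) (nat_lit 1560) (nat_lit 2532)))
 (.n (nat_lit 1082)
 (.l (.k1_9 (nat_lit 7) (nat_lit 1082) (nat_lit 1084) (nat_lit 1064) (nat_lit 1028) (nat_lit 1136) (nat_lit 920) (nat_lit 1244) (nat_lit 596) (nat_lit 1568) (nat_lit 2540) (nat_lit 3268)))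
 (.l (.k1_11 (nat_lit 8) (nat_lit 1084) (nat_lit 1082) (nat_lit 1086) (nat_lit 1090) (nat_lit 1066) (nat_lit 1030) (nat_lit 1138) (nat_lit 922) (nat_lit 1246) (nat_lit 598) (nat_lit 1570) (nat_lit 2542) (nat_lit 3270))))))))
 (.n (nat_lit 1146)
 (.n (nat_lit 1110)
 (.n (nat_lit 1092)
 (.n (nat_lit 1086)
 (.l (.k0_10 (nat_lit 7) (nat_lit 1086) (nat_lit 1084) (nat_lit 1092) (nat_lit 1068) (nat_lit 1032) (nat_lit 1140) (nat_lit 924) (nat_lit 1248) (nat_lit 600) (nat_lit 1572) (nat_lit 2544)))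
 (.n (nat_lit 1090)
 (.l (.k1_11 (nat_lit 8) (nat_lit 1090) (nat_lit 1092) (nat_lit 1084) (nat_lit 1072) (nat_lit 1108) (nat_lit 1036) (nat_lit 1144) (nat_lit 928) (nat_lit 1252) (nat_lit 604) (nat_lit 1576) (nat_lit 2548) (nat_lit 3276)))
 (.l (.k0_12 (nat_lit 9) (nat_lit 1092) (nat_lit 1090) (nat_lit 1086) (nat_lit 1098) (nat_lit 1074) (nat_lit 1110) (nat_lit 1038) (nat_lit 1146) (nat_lit 930) (nat_lit 1254) (nat_lit 606) (nat_lit 1578) (nat_lit 2550)))))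
 (.n (nat_lit 1098)
 (.l (.k0_9 (nat_lit 9) (nat_lit 1098) (nat_lit 1092) (nat_lit 1116) (nat_lit 1044) (nat_lit 1152) (nat_lit 936) (nat_lit 1260) (nat_lit 612) (nat_lit 1584) (nat_lit 2556)))
 (.n (nat_lit 1108)
 (.l (.k1_8 (nat_lit 8) (nat_lit 1108) (nat_lit 1110) (nat_lit 1090) (nat_lit 1162) (nat_lit 946) (nat_lit 1270) (nat_lit 622) (nat_lit 1594) (nat_lit 2566) (nat_lit 3294)))
 (.l (.k0_9 (nat_lit 8) (nat_lit 1110) (nat_lit 1108) (nat_lit 1116) (nat_lit 1092) (nat_lit 1164) (nat_lit 948) (nat_lit 1272) (nat_lit 624) (nat_lit 1596) (nat_lit 2568))))))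
 (.n (nat_lit 1138)
 (.n (nat_lit 1116)
 (.l (.k0_8 (nat_lit 10) (nat_lit 1116) (nat_lit 1110) (nat_lit 1098) (nat_lit 1170) (nat_lit 954) (nat_lit 1278) (nat_lit 630) (nat_lit 1602) (nat_lit 2574)))
 (.n (nat_lit 1136)
 (.l (.k1_6 (nat_lit 7) (nat_lit 1136) (nat_lit 1138) (nat_lit 1082) (nat_lit 1298) (nat_lit 650) (nat_lit 1622) (nat_lit 2594) (nat_lit 3322)))
 (.l (.k1_8 (nat_lit 8) (nat_lit 1138) (nat_lit 1136) (nat_lit 1140) (nat_lit 1144) (nat_lit 1084) (nat_lit 1300) (nat_lit 652) (nat_lit 1624) (nat_lit 2596) (nat_lit 3324)))))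
 (.n (nat_lit 1140)
 (.l (.k0_7 (nat_lit 7) (nat_lit 1140) (nat_lit 1138) (nat_lit 1146) (nat_lit 1086) (nat_lit 1302) (nat_lit 654) (nat_lit 1626) (nat_lit 2598)))
 (.n (nat_lit 1144)
 (.l (.k1_8 (nat_lit 7) (nat_lit 1144) (nat_lit 1146) (nat_lit 1138) (nat_lit 1162) (nat_lit 1090) (nat_lit 1306) (nat_lit 658) (nat_lit 1630) (nat_lit 2602) (nat_lit 3330)))
 (.l (.k0_9 (nat_lit 8) (nat_lit 1146) (nat_lit 1144) (nat_lit 1140) (nat_lit 1152) (nat_lit 1164) (nat_lit 1092) (nat_lit 1308) (nat_lit 660) (nat_lit 1632) (nat_lit 2604)))))))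
 (.n (nat_lit 1220)
 (.n (nat_lit 1164)
 (.n (nat_lit 1152)
 (.l (.k0_7 (nat_lit 7) (nat_lit 1152) (nat_lit 1146) (nat_lit 1170) (nat_lit 1098) (nat_lit 1314) (nat_lit 666) (nat_lit 1638) (nat_lit 2610)))
 (.n (nat_lit 1162)
 (.l (.k1_7 (nat_lit 9) (nat_lit 1162) (nat_lit 1164) (nat_lit 1144) (nat_lit 1108) (nat_lit 1324) (nat_lit 676) (nat_lit 1648) (nat_lit 2620) (nat_lit 3348)))
 (.l (.k0_8 (nat_lit 9) (nat_lit 1164) (nat_lit 1162) (nat_lit 1170) (nat_lit 1146) (nat_lit 1110) (nat_lit 1326) (nat_lit 678) (nat_lit 1650) (nat_lit 2622)))))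
 (.n (nat_lit 1170)
 (.l (.k0_8 (nat_lit 10) (nat_lit 1170) (nat_lit 1164) (nat_lit 1152) (nat_lit 1188) (nat_lit 1116) (nat_lit 1332) (nat_lit 684) (nat_lit 1656) (nat_lit 2628)))
 (.n (nat_lit 1188)
 (.l (.k0_5 (nat_lit 11) (nat_lit 1188) (nat_lit 1170) (nat_lit 1350) (nat_lit 702) (nat_lit 1674) (nat_lit 2646)))
 (.l (.k1_5 (nat_lit 8) (nat_lit 1220) (nat_lit 1222) (nat_lit 1226) (nat_lit 1058) (nat_lit 1706) (nat_lit 2678) (nat_lit 3406))))))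
 (.n (nat_lit 1228)
 (.n (nat_lit 1222)
 (.l (.k1_5 (nat_lit 8) (nat_lit 1222) (nat_lit 1220) (nat_lit 1228) (nat_lit 1060) (nat_lit 1708) (nat_lit 2680) (nat_lit 3408)))
 (.n (nat_lit 1226)
 (.l (.k1_6 (nat_lit 6) (nat_lit 1226) (nat_lit 1228) (nat_lit 1220) (nat_lit 1244) (nat_lit 1064) (nat_lit 1712) (nat_lit 2684) (nat_lit 3412)))
 (.l (.k1_8 (nat_lit 8) (nat_lit 1228) (nat_lit 1226) (nat_lit 1230) (nat_lit 1222) (nat_lit 1234) (nat_lit 1246) (nat_lit 1066) (nat_lit 1714) (nat_lit 2686) (nat_lit 3414)))))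
 (.n (nat_lit 1234)
 (.n (nat_lit 1230)
 (.l (.k0_6 (nat_lit 8) (nat_lit 1230) (nat_lit 1228) (nat_lit 1236) (nat_lit 1248) (nat_lit 1068) (nat_lit 1716) (nat_lit 2688)))
 (.l (.k1_6 (nat_lit 6) (nat_lit 1234) (nat_lit 1236) (nat_lit 1228) (nat_lit 1252) (nat_lit 1072) (nat_lit 1720) (nat_lit 2692) (nat_lit 3420))))
 (.n (nat_lit 1236)
 (.l (.k0_6 (nat_lit 8) (nat_lit 1236) (nat_lit 1234) (nat_lit 1230) (nat_lit 1254) (nat_lit 1074) (nat_lit 1722) (nat_lit 2694)))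
 (.l (.k1_6 (nat_lit 6) (nat_lit 1244) (nat_lit 1246) (nat_lit 1226) (nat_lit 1298) (nat_lit 1082) (nat_lit 1730) (nat_lit 2702) (nat_lit 3430)))))))))
 (.n (nat_lit 1472)
 (.n (nat_lit 1306)
 (.n (nat_lit 1270)
 (.n (nat_lit 1252)
 (.n (nat_lit 1246)
 (.l (.k1_8 (nat_lit 7) (nat_lit 1246) (nat_lit 1244) (nat_lit 1248) (nat_lit 1252) (nat_lit 1228) (nat_lit 1300) (nat_lit 1084) (nat_lit 1732) (nat_lit 2704) (nat_lit 3432)))
 (.n (nat_lit 1248)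
 (.l (.k0_7 (nat_lit 6) (nat_lit 1248) (nat_lit 1246) (nat_lit 1254) (nat_lit 1230) (nat_lit 1302) (nat_lit 1086) (nat_lit 1734) (nat_lit 2706)))
 (.l (.k1_8 (nat_lit 7) (nat_lit 1252) (nat_lit 1254) (nat_lit 1246) (nat_lit 1234) (nat_lit 1270) (nat_lit 1306) (nat_lit 1090) (nat_lit 1738) (nat_lit 2710) (nat_lit 3438)))))
 (.n (nat_lit 1254)
 (.l (.k0_9 (nat_lit 8) (nat_lit 1254) (nat_lit 1252) (nat_lit 1248) (nat_lit 1260) (nat_lit 1236) (nat_lit 1272) (nat_lit 1308) (nat_lit 1092) (nat_lit 1740) (nat_lit 2712)))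
 (.n (nat_lit 1260)
 (.l (.k0_6 (nat_lit 8) (nat_lit 1260) (nat_lit 1254) (nat_lit 1278) (nat_lit 1314) (nat_lit 1098) (nat_lit 1746) (nat_lit 2718)))
 (.l (.k1_6 (nat_lit 6) (nat_lit 1270) (nat_lit 1272) (nat_lit 1252) (nat_lit 1324) (nat_lit 1108) (nat_lit 1756) (nat_lit 2728) (nat_lit 3456))))))
 (.n (nat_lit 1298)
 (.n (nat_lit 1272)
 (.l (.k0_7 (nat_lit 6) (nat_lit 1272) (nat_lit 1270) (nat_lit 1278) (nat_lit 1254) (nat_lit 1326) (nat_lit 1110) (nat_lit 1758) (nat_lit 2730)))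
 (.n (nat_lit 1278)
 (.l (.k0_6 (nat_lit 8) (nat_lit 1278) (nat_lit 1272) (nat_lit 1260) (nat_lit 1332) (nat_lit 1116) (nat_lit 1764) (nat_lit 2736)))
 (.l (.k1_5 (nat_lit 8) (nat_lit 1298) (nat_lit 1300) (nat_lit 1244) (nat_lit 1136) (nat_lit 1784) (nat_lit 2756) (nat_lit 3484)))))
 (.n (nat_lit 1300)
 (.l (.k1_7 (nat_lit 9) (nat_lit 1300) (nat_lit 1298) (nat_lit 1302) (nat_lit 1306) (nat_lit 1246) (nat_lit 1138) (nat_lit 1786) (nat_lit 2758) (nat_lit 3486)))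
 (.n (nat_lit 1302)
 (.l (.k0_6 (nat_lit 8) (nat_lit 1302) (nat_lit 1300) (nat_lit 1308) (nat_lit 1248) (nat_lit 1140) (nat_lit 1788) (nat_lit 2760)))
 (.l (.k1_7 (nat_lit 8) (nat_lit 1306) (nat_lit 1308) (nat_lit 1300) (nat_lit 1324) (nat_lit 1252) (nat_lit 1144) (nat_lit 1792) (nat_lit 2764) (nat_lit 3492)))))))
 (.n (nat_lit 1350)
 (.n (nat_lit 1324)
 (.n (nat_lit 1308)
 (.l (.k0_8 (nat_lit 9) (nat_lit 1308) (nat_lit 1306) (nat_lit 1302) (nat_lit 1314) (nat_lit 1326) (nat_lit 1254) (nat_lit 1146) (nat_lit 1794) (nat_lit 2766)))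
 (.n (nat_lit 1314)
 (.l (.k0_6 (nat_lit 8) (nat_lit 1314) (nat_lit 1308) (nat_lit 1332) (nat_lit 1260) (nat_lit 1152) (nat_lit 1800) (nat_lit 2772)))
 (.l (.k1_7 (nat_lit 9) (nat_lit 1324) (nat_lit 1326) (nat_lit 1306) (nat_lit 1270) (nat_lit 1378) (nat_lit 1162) (nat_lit 1810) (nat_lit 2782) (nat_lit 3510)))))
 (.n (nat_lit 1326)
 (.l (.k0_8 (nat_lit 9) (nat_lit 1326) (nat_lit 1324) (nat_lit 1332) (nat_lit 1308) (nat_lit 1272) (nat_lit 1380) (nat_lit 1164) (nat_lit 1812) (nat_lit 2784)))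
 (.n (nat_lit 1332)
 (.l (.k0_8 (nat_lit 10) (nat_lit 1332) (nat_lit 1326) (nat_lit 1314) (nat_lit 1350) (nat_lit 1278) (nat_lit 1386) (nat_lit 1170) (nat_lit 1818) (nat_lit 2790)))
 (.l (.k0_5 (nat_lit 10) (nat_lit 1350) (nat_lit 1332) (nat_lit 1404) (nat_lit 1188) (nat_lit 1836) (nat_lit 2808))))))
 (.n (nat_lit 1386)
 (.n (nat_lit 1378)
 (.l (.k1_4 (nat_lit 10) (nat_lit 1378) (nat_lit 1380) (nat_lit 1324) (nat_lit 1864) (nat_lit 2836) (nat_lit 3564)))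
 (.n (nat_lit 1380)
 (.l (.k0_5 (nat_lit 10) (nat_lit 1380) (nat_lit 1378) (nat_lit 1386) (nat_lit 1326) (nat_lit 1866) (nat_lit 2838)))
 (.l (.k0_5 (nat_lit 10) (nat_lit 1386) (nat_lit 1380) (nat_lit 1404) (nat_lit 1332) (nat_lit 1872) (nat_lit 2844)))))
 (.n (nat_lit 1404)
 (.l (.k0_4 (nat_lit 12) (nat_lit 1404) (nat_lit 1386) (nat_lit 1350) (nat_lit 1890) (nat_lit 2862)))
 (.n (nat_lit 1466)
 (.l (.k1_3 (nat_lit 8) (nat_lit 1466) (nat_lit 1472) (nat_lit 980) (nat_lit 2924) (nat_lit 3652)))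
 (.l (.k1_6 (nat_lit 7) (nat_lit 1472) (nat_lit 1474) (nat_lit 1466) (nat_lit 1478) (nat_lit 1490) (nat_lit 986) (nat_lit 2930) (nat_lit 3658))))))))
 (.n (nat_lit 1514)
 (.n (nat_lit 1492)
 (.n (nat_lit 1480)
 (.n (nat_lit 1474)
 (.l (.k1_5 (nat_lit 8) (nat_lit 1474) (nat_lit 1472) (nat_lit 1480) (nat_lit 1492) (nat_lit 988) (nat_lit 2932) (nat_lit 3660)))
 (.n (nat_lit 1478)
 (.l (.k1_5 (nat_lit 4) (nat_lit 1478) (nat_lit 1480) (nat_lit 1472) (nat_lit 1496) (nat_lit 992) (nat_lit 2936) (nat_lit 3664)))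
 (.l (.k1_6 (nat_lit 7) (nat_lit 1480) (nat_lit 1478) (nat_lit 1482) (nat_lit 1474) (nat_lit 1498) (nat_lit 994) (nat_lit 2938) (nat_lit 3666)))))
 (.n (nat_lit 1482)
 (.l (.k0_4 (nat_lit 8) (nat_lit 1482) (nat_lit 1480) (nat_lit 1500) (nat_lit 996) (nat_lit 2940)))
 (.n (nat_lit 1490)
 (.l (.k1_6 (nat_lit 6) (nat_lit 1490) (nat_lit 1492) (nat_lit 1496) (nat_lit 1472) (nat_lit 1544) (nat_lit 1004) (nat_lit 2948) (nat_lit 3676)))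
 (.l (.k1_6 (nat_lit 6) (nat_lit 1492) (nat_lit 1490) (nat_lit 1498) (nat_lit 1474) (nat_lit 1546) (nat_lit 1006) (nat_lit 2950) (nat_lit 3678))))))
 (.n (nat_lit 1500)
 (.n (nat_lit 1496)
 (.l (.k1_7 (nat_lit 5) (nat_lit 1496) (nat_lit 1498) (nat_lit 1490) (nat_lit 1478) (nat_lit 1514) (nat_lit 1550) (nat_lit 1010) (nat_lit 2954) (nat_lit 3682)))
 (.n (nat_lit 1498)
 (.l (.k1_9 (nat_lit 7) (nat_lit 1498) (nat_lit 1496) (nat_lit 1500) (nat_lit 1492) (nat_lit 1504) (nat_lit 1480) (nat_lit 1516) (nat_lit 1552) (nat_lit 1012) (nat_lit 2956) (nat_lit 3684)))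
 (.l (.k0_7 (nat_lit 7) (nat_lit 1500) (nat_lit 1498) (nat_lit 1506) (nat_lit 1482) (nat_lit 1518) (nat_lit 1554) (nat_lit 1014) (nat_lit 2958)))))
 (.n (nat_lit 1504)
 (.l (.k1_6 (nat_lit 6) (nat_lit 1504) (nat_lit 1506) (nat_lit 1498) (nat_lit 1522) (nat_lit 1558) (nat_lit 1018) (nat_lit 2962) (nat_lit 3690)))
 (.n (nat_lit 1506)
 (.l (.k0_6 (nat_lit 8) (nat_lit 1506) (nat_lit 1504) (nat_lit 1500) (nat_lit 1524) (nat_lit 1560) (nat_lit 1020) (nat_lit 2964)))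
 (.l (.k1_5 (nat_lit 4) (nat_lit 1514) (nat_lit 1516) (nat_lit 1496) (nat_lit 1568) (nat_lit 1028) (nat_lit 2972) (nat_lit 3700)))))))
 (.n (nat_lit 1544)
 (.n (nat_lit 1522)
 (.n (nat_lit 1516)
 (.l (.k1_7 (nat_lit 5) (nat_lit 1516) (nat_lit 1514) (nat_lit 1518) (nat_lit 1522) (nat_lit 1498) (nat_lit 1570) (nat_lit 1030) (nat_lit 2974) (nat_lit 3702)))
 (.n (nat_lit 1518)
 (.l (.k0_6 (nat_lit 4) (nat_lit 1518) (nat_lit 1516) (nat_lit 1524) (nat_lit 1500) (nat_lit 1572) (nat_lit 1032) (nat_lit 2976)))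
 (.l (.k1_6 (nat_lit 6) (nat_lit 1522) (nat_lit 1524) (nat_lit 1516) (nat_lit 1504) (nat_lit 1576) (nat_lit 1036) (nat_lit 2980) (nat_lit 3708)))))
 (.n (nat_lit 1524)
 (.l (.k0_7 (nat_lit 7) (nat_lit 1524) (nat_lit 1522) (nat_lit 1518) (nat_lit 1530) (nat_lit 1506) (nat_lit 1578) (nat_lit 1038) (nat_lit 2982)))
 (.n (nat_lit 1530)
 (.l (.k0_4 (nat_lit 8) (nat_lit 1530) (nat_lit 1524) (nat_lit 1584) (nat_lit 1044) (nat_lit 2988)))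
 (.l (.k1_6 (nat_lit 6) (nat_lit 1544) (nat_lit 1546) (nat_lit 1550) (nat_lit 1490) (nat_lit 1706) (nat_lit 1058) (nat_lit 3002) (nat_lit 3730))))))
 (.n (nat_lit 1552)
 (.n (nat_lit 1546)
 (.l (.k1_6 (nat_lit 6) (nat_lit 1546) (nat_lit 1544) (nat_lit 1552) (nat_lit 1492) (nat_lit 1708) (nat_lit 1060) (nat_lit 3004) (nat_lit 3732)))
 (.n (nat_lit 1550)
 (.l (.k1_7 (nat_lit 4) (nat_lit 1550) (nat_lit 1552) (nat_lit 1544) (nat_lit 1568) (nat_lit 1496) (nat_lit 1712) (nat_lit 1064) (nat_lit 3008) (nat_lit 3736)))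
 (.l (.k1_9 (nat_lit 6) (nat_lit 1552) (nat_lit 1550) (nat_lit 1554) (nat_lit 1546) (nat_lit 1558) (nat_lit 1570) (nat_lit 1498) (nat_lit 1714) (nat_lit 1066) (nat_lit 3010) (nat_lit 3738)))))
 (.n (nat_lit 1558)
 (.n (nat_lit 1554)
 (.l (.k0_7 (nat_lit 6) (nat_lit 1554) (nat_lit 1552) (nat_lit 1560) (nat_lit 1572) (nat_lit 1500) (nat_lit 1716) (nat_lit 1068) (nat_lit 3012)))
 (.l (.k1_7 (nat_lit 4) (nat_lit 1558) (nat_lit 1560) (nat_lit 1552) (nat_lit 1576) (nat_lit 1504) (nat_lit 1720) (nat_lit 1072) (nat_lit 3016) (nat_lit 3744))))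
 (.n (nat_lit 1560)
 (.l (.k0_7 (nat_lit 6) (nat_lit 1560) (nat_lit 1558) (nat_lit 1554) (nat_lit 1578) (nat_lit 1506) (nat_lit 1722) (nat_lit 1074) (nat_lit 3018)))
 (.l (.k1_7 (nat_lit 5) (nat_lit 1568) (nat_lit 1570) (nat_lit 1550) (nat_lit 1514) (nat_lit 1622) (nat_lit 1730) (nat_lit 1082) (nat_lit 3026) (nat_lit 3754))))))))))
 (.n (nat_lit 1946)
 (.n (nat_lit 1720)
 (.n (nat_lit 1630)
 (.n (nat_lit 1594)
 (.n (nat_lit 1576)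
 (.n (nat_lit 1570)
 (.l (.k1_9 (nat_lit 6) (nat_lit 1570) (nat_lit 1568) (nat_lit 1572) (nat_lit 1576) (nat_lit 1552) (nat_lit 1516) (nat_lit 1624) (nat_lit 1732) (nat_lit 1084) (nat_lit 3028) (nat_lit 3756)))
 (.n (nat_lit 1572)
 (.l (.k0_8 (nat_lit 5) (nat_lit 1572) (nat_lit 1570) (nat_lit 1578) (nat_lit 1554) (nat_lit 1518) (nat_lit 1626) (nat_lit 1734) (nat_lit 1086) (nat_lit 3030)))
 (.l (.k1_9 (nat_lit 6) (nat_lit 1576) (nat_lit 1578) (nat_lit 1570) (nat_lit 1558) (nat_lit 1594) (nat_lit 1522) (nat_lit 1630) (nat_lit 1738) (nat_lit 1090) (nat_lit 3034) (nat_lit 3762)))))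
 (.n (nat_lit 1578)
 (.l (.k0_10 (nat_lit 7) (nat_lit 1578) (nat_lit 1576) (nat_lit 1572) (nat_lit 1584) (nat_lit 1560) (nat_lit 1596) (nat_lit 1524) (nat_lit 1632) (nat_lit 1740) (nat_lit 1092) (nat_lit 3036)))
 (.n (nat_lit 1584)
 (.l (.k0_7 (nat_lit 7) (nat_lit 1584) (nat_lit 1578) (nat_lit 1602) (nat_lit 1530) (nat_lit 1638) (nat_lit 1746) (nat_lit 1098) (nat_lit 3042)))
 (.l (.k1_6 (nat_lit 6) (nat_lit 1594) (nat_lit 1596) (nat_lit 1576) (nat_lit 1648) (nat_lit 1756) (nat_lit 1108) (nat_lit 3052) (nat_lit 3780))))))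
 (.n (nat_lit 1622)
 (.n (nat_lit 1596)
 (.l (.k0_7 (nat_lit 6) (nat_lit 1596) (nat_lit 1594) (nat_lit 1602) (nat_lit 1578) (nat_lit 1650) (nat_lit 1758) (nat_lit 1110) (nat_lit 3054)))
 (.n (nat_lit 1602)
 (.l (.k0_6 (nat_lit 8) (nat_lit 1602) (nat_lit 1596) (nat_lit 1584) (nat_lit 1656) (nat_lit 1764) (nat_lit 1116) (nat_lit 3060)))
 (.l (.k1_5 (nat_lit 4) (nat_lit 1622) (nat_lit 1624) (nat_lit 1568) (nat_lit 1784) (nat_lit 1136) (nat_lit 3080) (nat_lit 3808)))))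
 (.n (nat_lit 1624)
 (.l (.k1_7 (nat_lit 5) (nat_lit 1624) (nat_lit 1622) (nat_lit 1626) (nat_lit 1630) (nat_lit 1570) (nat_lit 1786) (nat_lit 1138) (nat_lit 3082) (nat_lit 3810)))
 (.n (nat_lit 1626)
 (.l (.k0_6 (nat_lit 4) (nat_lit 1626) (nat_lit 1624) (nat_lit 1632) (nat_lit 1572) (nat_lit 1788) (nat_lit 1140) (nat_lit 3084)))
 (.l (.k1_7 (nat_lit 4) (nat_lit 1630) (nat_lit 1632) (nat_lit 1624) (nat_lit 1648) (nat_lit 1576) (nat_lit 1792) (nat_lit 1144) (nat_lit 3088) (nat_lit 3816)))))))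
 (.n (nat_lit 1674)
 (.n (nat_lit 1648)
 (.n (nat_lit 1632)
 (.l (.k0_8 (nat_lit 5) (nat_lit 1632) (nat_lit 1630) (nat_lit 1626) (nat_lit 1638) (nat_lit 1650) (nat_lit 1578) (nat_lit 1794) (nat_lit 1146) (nat_lit 3090)))
 (.n (nat_lit 1638)
 (.l (.k0_6 (nat_lit 4) (nat_lit 1638) (nat_lit 1632) (nat_lit 1656) (nat_lit 1584) (nat_lit 1800) (nat_lit 1152) (nat_lit 3096)))
 (.l (.k1_6 (nat_lit 6) (nat_lit 1648) (nat_lit 1650) (nat_lit 1630) (nat_lit 1594) (nat_lit 1810) (nat_lit 1162) (nat_lit 3106) (nat_lit 3834)))))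
 (.n (nat_lit 1650)
 (.l (.k0_7 (nat_lit 6) (nat_lit 1650) (nat_lit 1648) (nat_lit 1656) (nat_lit 1632) (nat_lit 1596) (nat_lit 1812) (nat_lit 1164) (nat_lit 3108)))
 (.n (nat_lit 1656)
 (.l (.k0_7 (nat_lit 7) (nat_lit 1656) (nat_lit 1650) (nat_lit 1638) (nat_lit 1674) (nat_lit 1602) (nat_lit 1818) (nat_lit 1170) (nat_lit 3114)))
 (.l (.k0_4 (nat_lit 8) (nat_lit 1674) (nat_lit 1656) (nat_lit 1836) (nat_lit 1188) (nat_lit 3132))))))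
 (.n (nat_lit 1712)
 (.n (nat_lit 1706)
 (.l (.k1_5 (nat_lit 8) (nat_lit 1706) (nat_lit 1708) (nat_lit 1712) (nat_lit 1544) (nat_lit 1220) (nat_lit 3164) (nat_lit 3892)))
 (.n (nat_lit 1708)
 (.l (.k1_5 (nat_lit 8) (nat_lit 1708) (nat_lit 1706) (nat_lit 1714) (nat_lit 1546) (nat_lit 1222) (nat_lit 3166) (nat_lit 3894)))
 (.l (.k1_6 (nat_lit 6) (nat_lit 1712) (nat_lit 1714) (nat_lit 1706) (nat_lit 1730) (nat_lit 1550) (nat_lit 1226) (nat_lit 3170) (nat_lit 3898)))))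
 (.n (nat_lit 1714)
 (.l (.k1_8 (nat_lit 8) (nat_lit 1714) (nat_lit 1712) (nat_lit 1716) (nat_lit 1708) (nat_lit 1720) (nat_lit 1732) (nat_lit 1552) (nat_lit 1228) (nat_lit 3172) (nat_lit 3900)))
 (.n (nat_lit 1716)
 (.l (.k0_6 (nat_lit 8) (nat_lit 1716) (nat_lit 1714) (nat_lit 1722) (nat_lit 1734) (nat_lit 1554) (nat_lit 1230) (nat_lit 3174)))
 (.l (.k1_6 (nat_lit 6) (nat_lit 1720) (nat_lit 1722) (nat_lit 1714) (nat_lit 1738) (nat_lit 1558) (nat_lit 1234) (nat_lit 3178) (nat_lit 3906))))))))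
 (.n (nat_lit 1786)
 (.n (nat_lit 1740)
 (.n (nat_lit 1732)
 (.n (nat_lit 1722)
 (.l (.k0_6 (nat_lit 8) (nat_lit 1722) (nat_lit 1720) (nat_lit 1716) (nat_lit 1740) (nat_lit 1560) (nat_lit 1236) (nat_lit 3180)))
 (.n (nat_lit 1730)
 (.l (.k1_6 (nat_lit 6) (nat_lit 1730) (nat_lit 1732) (nat_lit 1712) (nat_lit 1784) (nat_lit 1568) (nat_lit 1244) (nat_lit 3188) (nat_lit 3916)))
 (.l (.k1_8 (nat_lit 7) (nat_lit 1732) (nat_lit 1730) (nat_lit 1734) (nat_lit 1738) (nat_lit 1714) (nat_lit 1786) (nat_lit 1570) (nat_lit 1246) (nat_lit 3190) (nat_lit 3918)))))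
 (.n (nat_lit 1734)
 (.l (.k0_7 (nat_lit 6) (nat_lit 1734) (nat_lit 1732) (nat_lit 1740) (nat_lit 1716) (nat_lit 1788) (nat_lit 1572) (nat_lit 1248) (nat_lit 3192)))
 (.n (nat_lit 1738)
 (.l (.k1_8 (nat_lit 7) (nat_lit 1738) (nat_lit 1740) (nat_lit 1732) (nat_lit 1720) (nat_lit 1756) (nat_lit 1792) (nat_lit 1576) (nat_lit 1252) (nat_lit 3196) (nat_lit 3924)))
 (.l (.k0_9 (nat_lit 8) (nat_lit 1740) (nat_lit 1738) (nat_lit 1734) (nat_lit 1746) (nat_lit 1722) (nat_lit 1758) (nat_lit 1794) (nat_lit 1578) (nat_lit 1254) (nat_lit 3198))))))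
 (.n (nat_lit 1758)
 (.n (nat_lit 1746)
 (.l (.k0_6 (nat_lit 8) (nat_lit 1746) (nat_lit 1740) (nat_lit 1764) (nat_lit 1800) (nat_lit 1584) (nat_lit 1260) (nat_lit 3204)))
 (.n (nat_lit 1756)
 (.l (.k1_6 (nat_lit 6) (nat_lit 1756) (nat_lit 1758) (nat_lit 1738) (nat_lit 1810) (nat_lit 1594) (nat_lit 1270) (nat_lit 3214) (nat_lit 3942)))
 (.l (.k0_7 (nat_lit 6) (nat_lit 1758) (nat_lit 1756) (nat_lit 1764) (nat_lit 1740) (nat_lit 1812) (nat_lit 1596) (nat_lit 1272) (nat_lit 3216)))))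
 (.n (nat_lit 1764)
 (.l (.k0_6 (nat_lit 8) (nat_lit 1764) (nat_lit 1758) (nat_lit 1746) (nat_lit 1818) (nat_lit 1602) (nat_lit 1278) (nat_lit 3222)))
 (.n (nat_lit 1784)
 (.l (.k1_6 (nat_lit 7) (nat_lit 1784) (nat_lit 1786) (nat_lit 1730) (nat_lit 1622) (nat_lit 1946) (nat_lit 1298) (nat_lit 3242) (nat_lit 3970)))
 (.l (.k1_8 (nat_lit 8) (nat_lit 1786) (nat_lit 1784) (nat_lit 1788) (nat_lit 1792) (nat_lit 1732) (nat_lit 1624) (nat_lit 1948) (nat_lit 1300) (nat_lit 3244) (nat_lit 3972)))))))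
 (.n (nat_lit 1812)
 (.n (nat_lit 1794)
 (.n (nat_lit 1788)
 (.l (.k0_7 (nat_lit 7) (nat_lit 1788) (nat_lit 1786) (nat_lit 1794) (nat_lit 1734) (nat_lit 1626) (nat_lit 1950) (nat_lit 1302) (nat_lit 3246)))
 (.n (nat_lit 1792)
 (.l (.k1_8 (nat_lit 7) (nat_lit 1792) (nat_lit 1794) (nat_lit 1786) (nat_lit 1810) (nat_lit 1738) (nat_lit 1630) (nat_lit 1954) (nat_lit 1306) (nat_lit 3250) (nat_lit 3978)))
 (.l (.k0_9 (nat_lit 8) (nat_lit 1794) (nat_lit 1792) (nat_lit 1788) (nat_lit 1800) (nat_lit 1812) (nat_lit 1740) (nat_lit 1632) (nat_lit 1956) (nat_lit 1308) (nat_lit 3252)))))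
 (.n (nat_lit 1800)
 (.l (.k0_7 (nat_lit 7) (nat_lit 1800) (nat_lit 1794) (nat_lit 1818) (nat_lit 1746) (nat_lit 1638) (nat_lit 1962) (nat_lit 1314) (nat_lit 3258)))
 (.n (nat_lit 1810)
 (.l (.k1_8 (nat_lit 8) (nat_lit 1810) (nat_lit 1812) (nat_lit 1792) (nat_lit 1756) (nat_lit 1864) (nat_lit 1648) (nat_lit 1972) (nat_lit 1324) (nat_lit 3268) (nat_lit 3996)))
 (.l (.k0_9 (nat_lit 8) (nat_lit 1812) (nat_lit 1810) (nat_lit 1818) (nat_lit 1794) (nat_lit 1758) (nat_lit 1866) (nat_lit 1650) (nat_lit 1974) (nat_lit 1326) (nat_lit 3270))))))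
 (.n (nat_lit 1864)
 (.n (nat_lit 1818)
 (.l (.k0_9 (nat_lit 9) (nat_lit 1818) (nat_lit 1812) (nat_lit 1800) (nat_lit 1836) (nat_lit 1764) (nat_lit 1872) (nat_lit 1656) (nat_lit 1980) (nat_lit 1332) (nat_lit 3276)))
 (.n (nat_lit 1836)
 (.l (.k0_6 (nat_lit 9) (nat_lit 1836) (nat_lit 1818) (nat_lit 1890) (nat_lit 1674) (nat_lit 1998) (nat_lit 1350) (nat_lit 3294)))
 (.l (.k1_5 (nat_lit 8) (nat_lit 1864) (nat_lit 1866) (nat_lit 1810) (nat_lit 2026) (nat_lit 1378) (nat_lit 3322) (nat_lit 4050)))))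
 (.n (nat_lit 1872)
 (.n (nat_lit 1866)
 (.l (.k0_6 (nat_lit 8) (nat_lit 1866) (nat_lit 1864) (nat_lit 1872) (nat_lit 1812) (nat_lit 2028) (nat_lit 1380) (nat_lit 3324)))
 (.l (.k0_6 (nat_lit 8) (nat_lit 1872) (nat_lit 1866) (nat_lit 1890) (nat_lit 1818) (nat_lit 2034) (nat_lit 1386) (nat_lit 3330))))
 (.n (nat_lit 1890)
 (.l (.k0_5 (nat_lit 10) (nat_lit 1890) (nat_lit 1872) (nat_lit 1836) (nat_lit 2052) (nat_lit 1404) (nat_lit 3348)))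
 (.l (.k1_3 (nat_lit 8) (nat_lit 1946) (nat_lit 1948) (nat_lit 1784) (nat_lit 3404) (nat_lit 4132)))))))))
 (.n (nat_lit 2246)
 (.n (nat_lit 2034)
 (.n (nat_lit 1972)
 (.n (nat_lit 1954)
 (.n (nat_lit 1948)
 (.l (.k1_5 (nat_lit 9) (nat_lit 1948) (nat_lit 1946) (nat_lit 1950) (nat_lit 1954) (nat_lit 1786) (nat_lit 3406) (nat_lit 4134)))
 (.n (nat_lit 1950)
 (.l (.k0_4 (nat_lit 8) (nat_lit 1950) (nat_lit 1948) (nat_lit 1956) (nat_lit 1788) (nat_lit 3408)))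
 (.l (.k1_5 (nat_lit 8) (nat_lit 1954) (nat_lit 1956) (nat_lit 1948) (nat_lit 1972) (nat_lit 1792) (nat_lit 3412) (nat_lit 4140)))))
 (.n (nat_lit 1956)
 (.l (.k0_6 (nat_lit 9) (nat_lit 1956) (nat_lit 1954) (nat_lit 1950) (nat_lit 1962) (nat_lit 1974) (nat_lit 1794) (nat_lit 3414)))
 (.n (nat_lit 1962)
 (.l (.k0_4 (nat_lit 8) (nat_lit 1962) (nat_lit 1956) (nat_lit 1980) (nat_lit 1800) (nat_lit 3420)))
 (.l (.k1_5 (nat_lit 8) (nat_lit 1972) (nat_lit 1974) (nat_lit 1954) (nat_lit 2026) (nat_lit 1810) (nat_lit 3430) (nat_lit 4158))))))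
 (.n (nat_lit 1998)
 (.n (nat_lit 1974)
 (.l (.k0_6 (nat_lit 8) (nat_lit 1974) (nat_lit 1972) (nat_lit 1980) (nat_lit 1956) (nat_lit 2028) (nat_lit 1812) (nat_lit 3432)))
 (.n (nat_lit 1980)
 (.l (.k0_6 (nat_lit 9) (nat_lit 1980) (nat_lit 1974) (nat_lit 1962) (nat_lit 1998) (nat_lit 2034) (nat_lit 1818) (nat_lit 3438)))
 (.l (.k0_4 (nat_lit 8) (nat_lit 1998) (nat_lit 1980) (nat_lit 2052) (nat_lit 1836) (nat_lit 3456)))))
 (.n (nat_lit 2026)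
 (.l (.k1_4 (nat_lit 10) (nat_lit 2026) (nat_lit 2028) (nat_lit 1972) (nat_lit 1864) (nat_lit 3484) (nat_lit 4212)))
 (.n (nat_lit 2028)
 (.l (.k0_5 (nat_lit 10) (nat_lit 2028) (nat_lit 2026) (nat_lit 2034) (nat_lit 1974) (nat_lit 1866) (nat_lit 3486)))
 (.l (.k0_5 (nat_lit 10) (nat_lit 2034) (nat_lit 2028) (nat_lit 2052) (nat_lit 1980) (nat_lit 1872) (nat_lit 3492)))))))
 (.n (nat_lit 2222)
 (.n (nat_lit 2204)
 (.n (nat_lit 2052)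
 (.l (.k0_5 (nat_lit 11) (nat_lit 2052) (nat_lit 2034) (nat_lit 1998) (nat_lit 2106) (nat_lit 1890) (nat_lit 3510)))
 (.n (nat_lit 2106)
 (.l (.k0_2 (nat_lit 12) (nat_lit 2106) (nat_lit 2052) (nat_lit 3564)))
 (.l (.k1_3 (nat_lit 12) (nat_lit 2204) (nat_lit 2210) (nat_lit 2222) (nat_lit 746) (nat_lit 4390)))))
 (.n (nat_lit 2210)
 (.l (.k1_4 (nat_lit 10) (nat_lit 2210) (nat_lit 2212) (nat_lit 2204) (nat_lit 2228) (nat_lit 752) (nat_lit 4396)))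
 (.n (nat_lit 2212)
 (.l (.k3_3 (nat_lit 11) (nat_lit 2212) (nat_lit 2210) (nat_lit 2230) (nat_lit 754) (nat_lit 4398) (nat_lit 26)))
 (.l (.k1_4 (nat_lit 10) (nat_lit 2222) (nat_lit 2228) (nat_lit 2204) (nat_lit 2276) (nat_lit 764) (nat_lit 4408))))))
 (.n (nat_lit 2234)
 (.n (nat_lit 2228)
 (.l (.k1_7 (nat_lit 10) (nat_lit 2228) (nat_lit 2230) (nat_lit 2222) (nat_lit 2234) (nat_lit 2210) (nat_lit 2246) (nat_lit 2282) (nat_lit 770) (nat_lit 4414)))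
 (.n (nat_lit 2230)
 (.l (.k3_6 (nat_lit 10) (nat_lit 2230) (nat_lit 2228) (nat_lit 2236) (nat_lit 2212) (nat_lit 2248) (nat_lit 2284) (nat_lit 772) (nat_lit 4416) (nat_lit 44)))
 (.l (.k1_5 (nat_lit 8) (nat_lit 2234) (nat_lit 2236) (nat_lit 2228) (nat_lit 2252) (nat_lit 2288) (nat_lit 776) (nat_lit 4420)))))
 (.n (nat_lit 2236)
 (.l (.k3_6 (nat_lit 10) (nat_lit 2236) (nat_lit 2234) (nat_lit 2238) (nat_lit 2230) (nat_lit 2254) (nat_lit 2290) (nat_lit 778) (nat_lit 4422) (nat_lit 50)))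
 (.n (nat_lit 2238)
 (.l (.k2_4 (nat_lit 10) (nat_lit 2238) (nat_lit 2236) (nat_lit 2256) (nat_lit 2292) (nat_lit 780) (nat_lit 52)))
 (.l (.k1_5 (nat_lit 8) (nat_lit 2246) (nat_lit 2248) (nat_lit 2252) (nat_lit 2228) (nat_lit 2300) (nat_lit 788) (nat_lit 4432))))))))
 (.n (nat_lit 2292)
 (.n (nat_lit 2262)
 (.n (nat_lit 2254)
 (.n (nat_lit 2248)
 (.l (.k3_5 (nat_lit 7) (nat_lit 2248) (nat_lit 2246) (nat_lit 2254) (nat_lit 2230) (nat_lit 2302) (nat_lit 790) (nat_lit 4434) (nat_lit 62)))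
 (.n (nat_lit 2252)
 (.l (.k1_5 (nat_lit 8) (nat_lit 2252) (nat_lit 2254) (nat_lit 2246) (nat_lit 2234) (nat_lit 2306) (nat_lit 794) (nat_lit 4438)))
 (.l (.k3_7 (nat_lit 9) (nat_lit 2254) (nat_lit 2252) (nat_lit 2256) (nat_lit 2248) (nat_lit 2260) (nat_lit 2236) (nat_lit 2308) (nat_lit 796) (nat_lit 4440) (nat_lit 68)))))
 (.n (nat_lit 2256)
 (.l (.k2_5 (nat_lit 8) (nat_lit 2256) (nat_lit 2254) (nat_lit 2262) (nat_lit 2238) (nat_lit 2310) (nat_lit 798) (nat_lit 70)))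
 (.n (nat_lit 2260)
 (.l (.k3_4 (nat_lit 9) (nat_lit 2260) (nat_lit 2262) (nat_lit 2254) (nat_lit 2314) (nat_lit 802) (nat_lit 4446) (nat_lit 74)))
 (.l (.k2_4 (nat_lit 10) (nat_lit 2262) (nat_lit 2260) (nat_lit 2256) (nat_lit 2316) (nat_lit 804) (nat_lit 76))))))
 (.n (nat_lit 2284)
 (.n (nat_lit 2276)
 (.l (.k1_4 (nat_lit 10) (nat_lit 2276) (nat_lit 2282) (nat_lit 2222) (nat_lit 2438) (nat_lit 818) (nat_lit 4462)))
 (.n (nat_lit 2282)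
 (.l (.k1_7 (nat_lit 9) (nat_lit 2282) (nat_lit 2284) (nat_lit 2276) (nat_lit 2288) (nat_lit 2300) (nat_lit 2228) (nat_lit 2444) (nat_lit 824) (nat_lit 4468)))
 (.l (.k3_6 (nat_lit 9) (nat_lit 2284) (nat_lit 2282) (nat_lit 2290) (nat_lit 2302) (nat_lit 2230) (nat_lit 2446) (nat_lit 826) (nat_lit 4470) (nat_lit 98)))))
 (.n (nat_lit 2288)
 (.l (.k1_6 (nat_lit 6) (nat_lit 2288) (nat_lit 2290) (nat_lit 2282) (nat_lit 2306) (nat_lit 2234) (nat_lit 2450) (nat_lit 830) (nat_lit 4474)))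
 (.n (nat_lit 2290)
 (.l (.k3_7 (nat_lit 8) (nat_lit 2290) (nat_lit 2288) (nat_lit 2292) (nat_lit 2284) (nat_lit 2308) (nat_lit 2236) (nat_lit 2452) (nat_lit 832) (nat_lit 4476) (nat_lit 104)))
 (.l (.k2_5 (nat_lit 8) (nat_lit 2292) (nat_lit 2290) (nat_lit 2310) (nat_lit 2238) (nat_lit 2454) (nat_lit 834) (nat_lit 106)))))))
 (.n (nat_lit 2314)
 (.n (nat_lit 2306)
 (.n (nat_lit 2300)
 (.l (.k1_7 (nat_lit 9) (nat_lit 2300) (nat_lit 2302) (nat_lit 2306) (nat_lit 2282) (nat_lit 2246) (nat_lit 2354) (nat_lit 2462) (nat_lit 842) (nat_lit 4486)))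
 (.n (nat_lit 2302)
 (.l (.k3_7 (nat_lit 8) (nat_lit 2302) (nat_lit 2300) (nat_lit 2308) (nat_lit 2284) (nat_lit 2248) (nat_lit 2356) (nat_lit 2464) (nat_lit 844) (nat_lit 4488) (nat_lit 116)))
 (.l (.k1_8 (nat_lit 8) (nat_lit 2306) (nat_lit 2308) (nat_lit 2300) (nat_lit 2288) (nat_lit 2324) (nat_lit 2252) (nat_lit 2360) (nat_lit 2468) (nat_lit 848) (nat_lit 4492)))))
 (.n (nat_lit 2308)
 (.l (.k3_10 (nat_lit 9) (nat_lit 2308) (nat_lit 2306) (nat_lit 2310) (nat_lit 2302) (nat_lit 2314) (nat_lit 2290) (nat_lit 2326) (nat_lit 2254) (nat_lit 2362) (nat_lit 2470) (nat_lit 850) (nat_lit 4494) (nat_lit 122)))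
 (.n (nat_lit 2310)
 (.l (.k2_8 (nat_lit 8) (nat_lit 2310) (nat_lit 2308) (nat_lit 2316) (nat_lit 2292) (nat_lit 2328) (nat_lit 2256) (nat_lit 2364) (nat_lit 2472) (nat_lit 852) (nat_lit 124)))
 (.l (.k3_7 (nat_lit 8) (nat_lit 2314) (nat_lit 2316) (nat_lit 2308) (nat_lit 2332) (nat_lit 2260) (nat_lit 2368) (nat_lit 2476) (nat_lit 856) (nat_lit 4500) (nat_lit 128))))))
 (.n (nat_lit 2326)
 (.n (nat_lit 2316)
 (.l (.k2_7 (nat_lit 9) (nat_lit 2316) (nat_lit 2314) (nat_lit 2310) (nat_lit 2334) (nat_lit 2262) (nat_lit 2370) (nat_lit 2478) (nat_lit 858) (nat_lit 130)))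
 (.n (nat_lit 2324)
 (.l (.k1_5 (nat_lit 8) (nat_lit 2324) (nat_lit 2326) (nat_lit 2306) (nat_lit 2378) (nat_lit 2486) (nat_lit 866) (nat_lit 4510)))
 (.l (.k3_7 (nat_lit 8) (nat_lit 2326) (nat_lit 2324) (nat_lit 2328) (nat_lit 2332) (nat_lit 2308) (nat_lit 2380) (nat_lit 2488) (nat_lit 868) (nat_lit 4512) (nat_lit 140)))))
 (.n (nat_lit 2332)
 (.n (nat_lit 2328)
 (.l (.k2_6 (nat_lit 6) (nat_lit 2328) (nat_lit 2326) (nat_lit 2334) (nat_lit 2310) (nat_lit 2382) (nat_lit 2490) (nat_lit 870) (nat_lit 142)))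
 (.l (.k3_6 (nat_lit 9) (nat_lit 2332) (nat_lit 2334) (nat_lit 2326) (nat_lit 2314) (nat_lit 2386) (nat_lit 2494) (nat_lit 874) (nat_lit 4518) (nat_lit 146))))
 (.n (nat_lit 2334)
 (.l (.k2_7 (nat_lit 9) (nat_lit 2334) (nat_lit 2332) (nat_lit 2328) (nat_lit 2340) (nat_lit 2316) (nat_lit 2388) (nat_lit 2496) (nat_lit 876) (nat_lit 148)))
 (.l (.k2_4 (nat_lit 10) (nat_lit 2340) (nat_lit 2334) (nat_lit 2394) (nat_lit 2502) (nat_lit 882) (nat_lit 154))))))))))))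
 (.n (nat_lit 3702)
 (.n (nat_lit 2948)
 (.n (nat_lit 2566)
 (.n (nat_lit 2464)
 (.n (nat_lit 2388)
 (.n (nat_lit 2368)
 (.n (nat_lit 2360)
 (.n (nat_lit 2354)
 (.l (.k1_5 (nat_lit 8) (nat_lit 2354) (nat_lit 2356) (nat_lit 2360) (nat_lit 2300) (nat_lit 2516) (nat_lit 896) (nat_lit 4540)))
 (.n (nat_lit 2356)
 (.l (.k3_5 (nat_lit 7) (nat_lit 2356) (nat_lit 2354) (nat_lit 2362) (nat_lit 2302) (nat_lit 2518) (nat_lit 898) (nat_lit 4542) (nat_lit 170)))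
 (.l (.k1_6 (nat_lit 6) (nat_lit 2360) (nat_lit 2362) (nat_lit 2354) (nat_lit 2378) (nat_lit 2306) (nat_lit 2522) (nat_lit 902) (nat_lit 4546)))))
 (.n (nat_lit 2362)
 (.l (.k3_8 (nat_lit 7) (nat_lit 2362) (nat_lit 2360) (nat_lit 2364) (nat_lit 2356) (nat_lit 2368) (nat_lit 2380) (nat_lit 2308) (nat_lit 2524) (nat_lit 904) (nat_lit 4548) (nat_lit 176)))
 (.n (nat_lit 2364)
 (.l (.k2_6 (nat_lit 6) (nat_lit 2364) (nat_lit 2362) (nat_lit 2370) (nat_lit 2382) (nat_lit 2310) (nat_lit 2526) (nat_lit 906) (nat_lit 178)))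
 (.l (.k3_6 (nat_lit 5) (nat_lit 2368) (nat_lit 2370) (nat_lit 2362) (nat_lit 2386) (nat_lit 2314) (nat_lit 2530) (nat_lit 910) (nat_lit 4554) (nat_lit 182))))))
 (.n (nat_lit 2380)
 (.n (nat_lit 2370)
 (.l (.k2_6 (nat_lit 6) (nat_lit 2370) (nat_lit 2368) (nat_lit 2364) (nat_lit 2388) (nat_lit 2316) (nat_lit 2532) (nat_lit 912) (nat_lit 184)))
 (.n (nat_lit 2378)
 (.l (.k1_5 (nat_lit 8) (nat_lit 2378) (nat_lit 2380) (nat_lit 2360) (nat_lit 2324) (nat_lit 2540) (nat_lit 920) (nat_lit 4564)))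
 (.l (.k3_7 (nat_lit 8) (nat_lit 2380) (nat_lit 2378) (nat_lit 2382) (nat_lit 2386) (nat_lit 2362) (nat_lit 2326) (nat_lit 2542) (nat_lit 922) (nat_lit 4566) (nat_lit 194)))))
 (.n (nat_lit 2382)
 (.l (.k2_6 (nat_lit 6) (nat_lit 2382) (nat_lit 2380) (nat_lit 2388) (nat_lit 2364) (nat_lit 2328) (nat_lit 2544) (nat_lit 924) (nat_lit 196)))
 (.n (nat_lit 2386)
 (.l (.k3_7 (nat_lit 8) (nat_lit 2386) (nat_lit 2388) (nat_lit 2380) (nat_lit 2368) (nat_lit 2404) (nat_lit 2332) (nat_lit 2548) (nat_lit 928) (nat_lit 4572) (nat_lit 200)))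
 (.l (.k2_8 (nat_lit 8) (nat_lit 2388) (nat_lit 2386) (nat_lit 2382) (nat_lit 2394) (nat_lit 2370) (nat_lit 2406) (nat_lit 2334) (nat_lit 2550) (nat_lit 930) (nat_lit 202)))))))
 (.n (nat_lit 2444)
 (.n (nat_lit 2406)
 (.n (nat_lit 2394)
 (.l (.k2_5 (nat_lit 8) (nat_lit 2394) (nat_lit 2388) (nat_lit 2412) (nat_lit 2340) (nat_lit 2556) (nat_lit 936) (nat_lit 208)))
 (.n (nat_lit 2404)
 (.l (.k3_4 (nat_lit 9) (nat_lit 2404) (nat_lit 2406) (nat_lit 2386) (nat_lit 2566) (nat_lit 946) (nat_lit 4590) (nat_lit 218)))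
 (.l (.k2_5 (nat_lit 8) (nat_lit 2406) (nat_lit 2404) (nat_lit 2412) (nat_lit 2388) (nat_lit 2568) (nat_lit 948) (nat_lit 220)))))
 (.n (nat_lit 2412)
 (.l (.k2_4 (nat_lit 10) (nat_lit 2412) (nat_lit 2406) (nat_lit 2394) (nat_lit 2574) (nat_lit 954) (nat_lit 226)))
 (.n (nat_lit 2438)
 (.l (.k1_4 (nat_lit 10) (nat_lit 2438) (nat_lit 2444) (nat_lit 2276) (nat_lit 2924) (nat_lit 980) (nat_lit 4624)))
 (.l (.k1_7 (nat_lit 9) (nat_lit 2444) (nat_lit 2446) (nat_lit 2438) (nat_lit 2450) (nat_lit 2462) (nat_lit 2282) (nat_lit 2930) (nat_lit 986) (nat_lit 4630))))))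
 (.n (nat_lit 2452)
 (.n (nat_lit 2446)
 (.l (.k3_6 (nat_lit 9) (nat_lit 2446) (nat_lit 2444) (nat_lit 2452) (nat_lit 2464) (nat_lit 2284) (nat_lit 2932) (nat_lit 988) (nat_lit 4632) (nat_lit 260)))
 (.n (nat_lit 2450)
 (.l (.k1_6 (nat_lit 6) (nat_lit 2450) (nat_lit 2452) (nat_lit 2444) (nat_lit 2468) (nat_lit 2288) (nat_lit 2936) (nat_lit 992) (nat_lit 4636)))
 (.l (.k3_7 (nat_lit 8) (nat_lit 2452) (nat_lit 2450) (nat_lit 2454) (nat_lit 2446) (nat_lit 2470) (nat_lit 2290) (nat_lit 2938) (nat_lit 994) (nat_lit 4638) (nat_lit 266)))))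
 (.n (nat_lit 2454)
 (.l (.k2_5 (nat_lit 8) (nat_lit 2454) (nat_lit 2452) (nat_lit 2472) (nat_lit 2292) (nat_lit 2940) (nat_lit 996) (nat_lit 268)))
 (.n (nat_lit 2462)
 (.l (.k1_7 (nat_lit 8) (nat_lit 2462) (nat_lit 2464) (nat_lit 2468) (nat_lit 2444) (nat_lit 2516) (nat_lit 2300) (nat_lit 2948) (nat_lit 1004) (nat_lit 4648)))
 (.l (.k3_7 (nat_lit 7) (nat_lit 2464) (nat_lit 2462) (nat_lit 2470) (nat_lit 2446) (nat_lit 2518) (nat_lit 2302) (nat_lit 2950) (nat_lit 1006) (nat_lit 4650) (nat_lit 278))))))))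
 (.n (nat_lit 2516)
 (.n (nat_lit 2486)
 (.n (nat_lit 2472)
 (.n (nat_lit 2468)
 (.l (.k1_8 (nat_lit 7) (nat_lit 2468) (nat_lit 2470) (nat_lit 2462) (nat_lit 2450) (nat_lit 2486) (nat_lit 2522) (nat_lit 2306) (nat_lit 2954) (nat_lit 1010) (nat_lit 4654)))
 (.n (nat_lit 2470)
 (.l (.k3_10 (nat_lit 8) (nat_lit 2470) (nat_lit 2468) (nat_lit 2472) (nat_lit 2464) (nat_lit 2476) (nat_lit 2452) (nat_lit 2488) (nat_lit 2524) (nat_lit 2308) (nat_lit 2956) (nat_lit 1012) (nat_lit 4656) (nat_lit 284)))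
 (.l (.k2_8 (nat_lit 7) (nat_lit 2472) (nat_lit 2470) (nat_lit 2478) (nat_lit 2454) (nat_lit 2490) (nat_lit 2526) (nat_lit 2310) (nat_lit 2958) (nat_lit 1014) (nat_lit 286)))))
 (.n (nat_lit 2476)
 (.l (.k3_7 (nat_lit 7) (nat_lit 2476) (nat_lit 2478) (nat_lit 2470) (nat_lit 2494) (nat_lit 2530) (nat_lit 2314) (nat_lit 2962) (nat_lit 1018) (nat_lit 4662) (nat_lit 290)))
 (.n (nat_lit 2478)
 (.l (.k2_7 (nat_lit 8) (nat_lit 2478) (nat_lit 2476) (nat_lit 2472) (nat_lit 2496) (nat_lit 2532) (nat_lit 2316) (nat_lit 2964) (nat_lit 1020) (nat_lit 292)))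
 (.l (.k1_6 (nat_lit 6) (nat_lit 2486) (nat_lit 2488) (nat_lit 2468) (nat_lit 2540) (nat_lit 2324) (nat_lit 2972) (nat_lit 1028) (nat_lit 4672))))))
 (.n (nat_lit 2494)
 (.n (nat_lit 2488)
 (.l (.k3_8 (nat_lit 6) (nat_lit 2488) (nat_lit 2486) (nat_lit 2490) (nat_lit 2494) (nat_lit 2470) (nat_lit 2542) (nat_lit 2326) (nat_lit 2974) (nat_lit 1030) (nat_lit 4674) (nat_lit 302)))
 (.n (nat_lit 2490)
 (.l (.k2_7 (nat_lit 4) (nat_lit 2490) (nat_lit 2488) (nat_lit 2496) (nat_lit 2472) (nat_lit 2544) (nat_lit 2328) (nat_lit 2976) (nat_lit 1032) (nat_lit 304)))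
 (.l (.k3_7 (nat_lit 7) (nat_lit 2494) (nat_lit 2496) (nat_lit 2488) (nat_lit 2476) (nat_lit 2548) (nat_lit 2332) (nat_lit 2980) (nat_lit 1036) (nat_lit 4680) (nat_lit 308)))))
 (.n (nat_lit 2496)
 (.l (.k2_8 (nat_lit 7) (nat_lit 2496) (nat_lit 2494) (nat_lit 2490) (nat_lit 2502) (nat_lit 2478) (nat_lit 2550) (nat_lit 2334) (nat_lit 2982) (nat_lit 1038) (nat_lit 310)))
 (.n (nat_lit 2502)
 (.l (.k2_5 (nat_lit 8) (nat_lit 2502) (nat_lit 2496) (nat_lit 2556) (nat_lit 2340) (nat_lit 2988) (nat_lit 1044) (nat_lit 316)))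
 (.l (.k1_7 (nat_lit 9) (nat_lit 2516) (nat_lit 2518) (nat_lit 2522) (nat_lit 2462) (nat_lit 2354) (nat_lit 2678) (nat_lit 3002) (nat_lit 1058) (nat_lit 4702)))))))
 (.n (nat_lit 2532)
 (.n (nat_lit 2524)
 (.n (nat_lit 2518)
 (.l (.k3_7 (nat_lit 8) (nat_lit 2518) (nat_lit 2516) (nat_lit 2524) (nat_lit 2464) (nat_lit 2356) (nat_lit 2680) (nat_lit 3004) (nat_lit 1060) (nat_lit 4704) (nat_lit 332)))
 (.n (nat_lit 2522)
 (.l (.k1_8 (nat_lit 7) (nat_lit 2522) (nat_lit 2524) (nat_lit 2516) (nat_lit 2540) (nat_lit 2468) (nat_lit 2360) (nat_lit 2684) (nat_lit 3008) (nat_lit 1064) (nat_lit 4708)))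
 (.l (.k3_10 (nat_lit 8) (nat_lit 2524) (nat_lit 2522) (nat_lit 2526) (nat_lit 2518) (nat_lit 2530) (nat_lit 2542) (nat_lit 2470) (nat_lit 2362) (nat_lit 2686) (nat_lit 3010) (nat_lit 1066) (nat_lit 4710) (nat_lit 338)))))
 (.n (nat_lit 2526)
 (.l (.k2_8 (nat_lit 7) (nat_lit 2526) (nat_lit 2524) (nat_lit 2532) (nat_lit 2544) (nat_lit 2472) (nat_lit 2364) (nat_lit 2688) (nat_lit 3012) (nat_lit 1068) (nat_lit 340)))
 (.n (nat_lit 2530)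
 (.l (.k3_8 (nat_lit 6) (nat_lit 2530) (nat_lit 2532) (nat_lit 2524) (nat_lit 2548) (nat_lit 2476) (nat_lit 2368) (nat_lit 2692) (nat_lit 3016) (nat_lit 1072) (nat_lit 4716) (nat_lit 344)))
 (.l (.k2_8 (nat_lit 7) (nat_lit 2532) (nat_lit 2530) (nat_lit 2526) (nat_lit 2550) (nat_lit 2478) (nat_lit 2370) (nat_lit 2694) (nat_lit 3018) (nat_lit 1074) (nat_lit 346))))))
 (.n (nat_lit 2544)
 (.n (nat_lit 2540)
 (.l (.k1_8 (nat_lit 8) (nat_lit 2540) (nat_lit 2542) (nat_lit 2522) (nat_lit 2486) (nat_lit 2594) (nat_lit 2378) (nat_lit 2702) (nat_lit 3026) (nat_lit 1082) (nat_lit 4726)))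
 (.n (nat_lit 2542)
 (.l (.k3_10 (nat_lit 8) (nat_lit 2542) (nat_lit 2540) (nat_lit 2544) (nat_lit 2548) (nat_lit 2524) (nat_lit 2488) (nat_lit 2596) (nat_lit 2380) (nat_lit 2704) (nat_lit 3028) (nat_lit 1084) (nat_lit 4728) (nat_lit 356)))
 (.l (.k2_9 (nat_lit 6) (nat_lit 2544) (nat_lit 2542) (nat_lit 2550) (nat_lit 2526) (nat_lit 2490) (nat_lit 2598) (nat_lit 2382) (nat_lit 2706) (nat_lit 3030) (nat_lit 1086) (nat_lit 358)))))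
 (.n (nat_lit 2550)
 (.n (nat_lit 2548)
 (.l (.k3_10 (nat_lit 8) (nat_lit 2548) (nat_lit 2550) (nat_lit 2542) (nat_lit 2530) (nat_lit 2566) (nat_lit 2494) (nat_lit 2602) (nat_lit 2386) (nat_lit 2710) (nat_lit 3034) (nat_lit 1090) (nat_lit 4734) (nat_lit 362)))
 (.l (.k2_11 (nat_lit 8) (nat_lit 2550) (nat_lit 2548) (nat_lit 2544) (nat_lit 2556) (nat_lit 2532) (nat_lit 2568) (nat_lit 2496) (nat_lit 2604) (nat_lit 2388) (nat_lit 2712) (nat_lit 3036) (nat_lit 1092) (nat_lit 364))))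
 (.n (nat_lit 2556)
 (.l (.k2_8 (nat_lit 8) (nat_lit 2556) (nat_lit 2550) (nat_lit 2574) (nat_lit 2502) (nat_lit 2610) (nat_lit 2394) (nat_lit 2718) (nat_lit 3042) (nat_lit 1098) (nat_lit 370)))
 (.l (.k3_7 (nat_lit 8) (nat_lit 2566) (nat_lit 2568) (nat_lit 2548) (nat_lit 2620) (nat_lit 2404) (nat_lit 2728) (nat_lit 3052) (nat_lit 1108) (nat_lit 4752) (nat_lit 380)))))))))
 (.n (nat_lit 2712)
 (.n (nat_lit 2646)
 (.n (nat_lit 2602)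
 (.n (nat_lit 2594)
 (.n (nat_lit 2568)
 (.l (.k2_8 (nat_lit 7) (nat_lit 2568) (nat_lit 2566) (nat_lit 2574) (nat_lit 2550) (nat_lit 2622) (nat_lit 2406) (nat_lit 2730) (nat_lit 3054) (nat_lit 1110) (nat_lit 382)))
 (.n (nat_lit 2574)
 (.l (.k2_7 (nat_lit 9) (nat_lit 2574) (nat_lit 2568) (nat_lit 2556) (nat_lit 2628) (nat_lit 2412) (nat_lit 2736) (nat_lit 3060) (nat_lit 1116) (nat_lit 388)))
 (.l (.k1_5 (nat_lit 8) (nat_lit 2594) (nat_lit 2596) (nat_lit 2540) (nat_lit 2756) (nat_lit 3080) (nat_lit 1136) (nat_lit 4780)))))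
 (.n (nat_lit 2596)
 (.l (.k3_7 (nat_lit 8) (nat_lit 2596) (nat_lit 2594) (nat_lit 2598) (nat_lit 2602) (nat_lit 2542) (nat_lit 2758) (nat_lit 3082) (nat_lit 1138) (nat_lit 4782) (nat_lit 410)))
 (.n (nat_lit 2598)
 (.l (.k2_6 (nat_lit 6) (nat_lit 2598) (nat_lit 2596) (nat_lit 2604) (nat_lit 2544) (nat_lit 2760) (nat_lit 3084) (nat_lit 1140) (nat_lit 412)))
 (.l (.k3_7 (nat_lit 7) (nat_lit 2602) (nat_lit 2604) (nat_lit 2596) (nat_lit 2620) (nat_lit 2548) (nat_lit 2764) (nat_lit 3088) (nat_lit 1144) (nat_lit 4788) (nat_lit 416))))))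
 (.n (nat_lit 2620)
 (.n (nat_lit 2604)
 (.l (.k2_8 (nat_lit 7) (nat_lit 2604) (nat_lit 2602) (nat_lit 2598) (nat_lit 2610) (nat_lit 2622) (nat_lit 2550) (nat_lit 2766) (nat_lit 3090) (nat_lit 1146) (nat_lit 418)))
 (.n (nat_lit 2610)
 (.l (.k2_6 (nat_lit 6) (nat_lit 2610) (nat_lit 2604) (nat_lit 2628) (nat_lit 2556) (nat_lit 2772) (nat_lit 3096) (nat_lit 1152) (nat_lit 424)))
 (.l (.k3_6 (nat_lit 9) (nat_lit 2620) (nat_lit 2622) (nat_lit 2602) (nat_lit 2566) (nat_lit 2782) (nat_lit 3106) (nat_lit 1162) (nat_lit 4806) (nat_lit 434)))))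
 (.n (nat_lit 2622)
 (.l (.k2_7 (nat_lit 8) (nat_lit 2622) (nat_lit 2620) (nat_lit 2628) (nat_lit 2604) (nat_lit 2568) (nat_lit 2784) (nat_lit 3108) (nat_lit 1164) (nat_lit 436)))
 (.n (nat_lit 2628)
 (.l (.k2_7 (nat_lit 9) (nat_lit 2628) (nat_lit 2622) (nat_lit 2610) (nat_lit 2646) (nat_lit 2574) (nat_lit 2790) (nat_lit 3114) (nat_lit 1170) (nat_lit 442)))
 (.l (.k2_4 (nat_lit 10) (nat_lit 2646) (nat_lit 2628) (nat_lit 2808) (nat_lit 3132) (nat_lit 1188) (nat_lit 460)))))))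
 (.n (nat_lit 2692)
 (.n (nat_lit 2684)
 (.n (nat_lit 2678)
 (.l (.k1_5 (nat_lit 8) (nat_lit 2678) (nat_lit 2680) (nat_lit 2684) (nat_lit 2516) (nat_lit 3164) (nat_lit 1220) (nat_lit 4864)))
 (.n (nat_lit 2680)
 (.l (.k3_5 (nat_lit 7) (nat_lit 2680) (nat_lit 2678) (nat_lit 2686) (nat_lit 2518) (nat_lit 3166) (nat_lit 1222) (nat_lit 4866) (nat_lit 494)))
 (.l (.k1_6 (nat_lit 6) (nat_lit 2684) (nat_lit 2686) (nat_lit 2678) (nat_lit 2702) (nat_lit 2522) (nat_lit 3170) (nat_lit 1226) (nat_lit 4870)))))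
 (.n (nat_lit 2686)
 (.l (.k3_8 (nat_lit 7) (nat_lit 2686) (nat_lit 2684) (nat_lit 2688) (nat_lit 2680) (nat_lit 2692) (nat_lit 2704) (nat_lit 2524) (nat_lit 3172) (nat_lit 1228) (nat_lit 4872) (nat_lit 500)))
 (.n (nat_lit 2688)
 (.l (.k2_6 (nat_lit 6) (nat_lit 2688) (nat_lit 2686) (nat_lit 2694) (nat_lit 2706) (nat_lit 2526) (nat_lit 3174) (nat_lit 1230) (nat_lit 502)))
 (.l (.k3_6 (nat_lit 5) (nat_lit 2692) (nat_lit 2694) (nat_lit 2686) (nat_lit 2710) (nat_lit 2530) (nat_lit 3178) (nat_lit 1234) (nat_lit 4878) (nat_lit 506))))))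
 (.n (nat_lit 2704)
 (.n (nat_lit 2694)
 (.l (.k2_6 (nat_lit 6) (nat_lit 2694) (nat_lit 2692) (nat_lit 2688) (nat_lit 2712) (nat_lit 2532) (nat_lit 3180) (nat_lit 1236) (nat_lit 508)))
 (.n (nat_lit 2702)
 (.l (.k1_6 (nat_lit 6) (nat_lit 2702) (nat_lit 2704) (nat_lit 2684) (nat_lit 2756) (nat_lit 2540) (nat_lit 3188) (nat_lit 1244) (nat_lit 4888)))
 (.l (.k3_8 (nat_lit 6) (nat_lit 2704) (nat_lit 2702) (nat_lit 2706) (nat_lit 2710) (nat_lit 2686) (nat_lit 2758) (nat_lit 2542) (nat_lit 3190) (nat_lit 1246) (nat_lit 4890) (nat_lit 518)))))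
 (.n (nat_lit 2706)
 (.l (.k2_7 (nat_lit 4) (nat_lit 2706) (nat_lit 2704) (nat_lit 2712) (nat_lit 2688) (nat_lit 2760) (nat_lit 2544) (nat_lit 3192) (nat_lit 1248) (nat_lit 520)))
 (.n (nat_lit 2710)
 (.l (.k3_8 (nat_lit 6) (nat_lit 2710) (nat_lit 2712) (nat_lit 2704) (nat_lit 2692) (nat_lit 2728) (nat_lit 2764) (nat_lit 2548) (nat_lit 3196) (nat_lit 1252) (nat_lit 4896) (nat_lit 524)))
 (.l (.k2_9 (nat_lit 6) (nat_lit 2712) (nat_lit 2710) (nat_lit 2706) (nat_lit 2718) (nat_lit 2694) (nat_lit 2730) (nat_lit 2766) (nat_lit 2550) (nat_lit 3198) (nat_lit 1254) (nat_lit 526))))))))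
 (.n (nat_lit 2784)
 (.n (nat_lit 2758)
 (.n (nat_lit 2730)
 (.n (nat_lit 2718)
 (.l (.k2_6 (nat_lit 6) (nat_lit 2718) (nat_lit 2712) (nat_lit 2736) (nat_lit 2772) (nat_lit 2556) (nat_lit 3204) (nat_lit 1260) (nat_lit 532)))
 (.n (nat_lit 2728)
 (.l (.k3_6 (nat_lit 5) (nat_lit 2728) (nat_lit 2730) (nat_lit 2710) (nat_lit 2782) (nat_lit 2566) (nat_lit 3214) (nat_lit 1270) (nat_lit 4914) (nat_lit 542)))
 (.l (.k2_7 (nat_lit 4) (nat_lit 2730) (nat_lit 2728) (nat_lit 2736) (nat_lit 2712) (nat_lit 2784) (nat_lit 2568) (nat_lit 3216) (nat_lit 1272) (nat_lit 544)))))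
 (.n (nat_lit 2736)
 (.l (.k2_6 (nat_lit 6) (nat_lit 2736) (nat_lit 2730) (nat_lit 2718) (nat_lit 2790) (nat_lit 2574) (nat_lit 3222) (nat_lit 1278) (nat_lit 550)))
 (.n (nat_lit 2756)
 (.l (.k1_5 (nat_lit 8) (nat_lit 2756) (nat_lit 2758) (nat_lit 2702) (nat_lit 2594) (nat_lit 3242) (nat_lit 1298) (nat_lit 4942)))
 (.l (.k3_7 (nat_lit 8) (nat_lit 2758) (nat_lit 2756) (nat_lit 2760) (nat_lit 2764) (nat_lit 2704) (nat_lit 2596) (nat_lit 3244) (nat_lit 1300) (nat_lit 4944) (nat_lit 572))))))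
 (.n (nat_lit 2766)
 (.n (nat_lit 2760)
 (.l (.k2_6 (nat_lit 6) (nat_lit 2760) (nat_lit 2758) (nat_lit 2766) (nat_lit 2706) (nat_lit 2598) (nat_lit 3246) (nat_lit 1302) (nat_lit 574)))
 (.n (nat_lit 2764)
 (.l (.k3_7 (nat_lit 7) (nat_lit 2764) (nat_lit 2766) (nat_lit 2758) (nat_lit 2782) (nat_lit 2710) (nat_lit 2602) (nat_lit 3250) (nat_lit 1306) (nat_lit 4950) (nat_lit 578)))
 (.l (.k2_8 (nat_lit 7) (nat_lit 2766) (nat_lit 2764) (nat_lit 2760) (nat_lit 2772) (nat_lit 2784) (nat_lit 2712) (nat_lit 2604) (nat_lit 3252) (nat_lit 1308) (nat_lit 580)))))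
 (.n (nat_lit 2772)
 (.l (.k2_6 (nat_lit 6) (nat_lit 2772) (nat_lit 2766) (nat_lit 2790) (nat_lit 2718) (nat_lit 2610) (nat_lit 3258) (nat_lit 1314) (nat_lit 586)))
 (.n (nat_lit 2782)
 (.l (.k3_7 (nat_lit 8) (nat_lit 2782) (nat_lit 2784) (nat_lit 2764) (nat_lit 2728) (nat_lit 2836) (nat_lit 2620) (nat_lit 3268) (nat_lit 1324) (nat_lit 4968) (nat_lit 596)))
 (.l (.k2_8 (nat_lit 7) (nat_lit 2784) (nat_lit 2782) (nat_lit 2790) (nat_lit 2766) (nat_lit 2730) (nat_lit 2838) (nat_lit 2622) (nat_lit 3270) (nat_lit 1326) (nat_lit 598)))))))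
 (.n (nat_lit 2862)
 (.n (nat_lit 2836)
 (.n (nat_lit 2790)
 (.l (.k2_8 (nat_lit 8) (nat_lit 2790) (nat_lit 2784) (nat_lit 2772) (nat_lit 2808) (nat_lit 2736) (nat_lit 2844) (nat_lit 2628) (nat_lit 3276) (nat_lit 1332) (nat_lit 604)))
 (.n (nat_lit 2808)
 (.l (.k2_5 (nat_lit 8) (nat_lit 2808) (nat_lit 2790) (nat_lit 2862) (nat_lit 2646) (nat_lit 3294) (nat_lit 1350) (nat_lit 622)))
 (.l (.k3_4 (nat_lit 9) (nat_lit 2836) (nat_lit 2838) (nat_lit 2782) (nat_lit 3322) (nat_lit 1378) (nat_lit 5022) (nat_lit 650)))))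
 (.n (nat_lit 2838)
 (.l (.k2_5 (nat_lit 8) (nat_lit 2838) (nat_lit 2836) (nat_lit 2844) (nat_lit 2784) (nat_lit 3324) (nat_lit 1380) (nat_lit 652)))
 (.n (nat_lit 2844)
 (.l (.k2_5 (nat_lit 8) (nat_lit 2844) (nat_lit 2838) (nat_lit 2862) (nat_lit 2790) (nat_lit 3330) (nat_lit 1386) (nat_lit 658)))
 (.l (.k2_4 (nat_lit 10) (nat_lit 2862) (nat_lit 2844) (nat_lit 2808) (nat_lit 3348) (nat_lit 1404) (nat_lit 676))))))
 (.n (nat_lit 2932)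
 (.n (nat_lit 2924)
 (.l (.k1_4 (nat_lit 11) (nat_lit 2924) (nat_lit 2930) (nat_lit 2438) (nat_lit 1466) (nat_lit 4382) (nat_lit 5110)))
 (.n (nat_lit 2930)
 (.l (.k1_7 (nat_lit 10) (nat_lit 2930) (nat_lit 2932) (nat_lit 2924) (nat_lit 2936) (nat_lit 2948) (nat_lit 2444) (nat_lit 1472) (nat_lit 4388) (nat_lit 5116)))
 (.l (.k3_6 (nat_lit 10) (nat_lit 2932) (nat_lit 2930) (nat_lit 2938) (nat_lit 2950) (nat_lit 2446) (nat_lit 1474) (nat_lit 4390) (nat_lit 5118) (nat_lit 746)))))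
 (.n (nat_lit 2938)
 (.n (nat_lit 2936)
 (.l (.k1_6 (nat_lit 7) (nat_lit 2936) (nat_lit 2938) (nat_lit 2930) (nat_lit 2954) (nat_lit 2450) (nat_lit 1478) (nat_lit 4394) (nat_lit 5122)))
 (.l (.k3_7 (nat_lit 9) (nat_lit 2938) (nat_lit 2936) (nat_lit 2940) (nat_lit 2932) (nat_lit 2956) (nat_lit 2452) (nat_lit 1480) (nat_lit 4396) (nat_lit 5124) (nat_lit 752))))
 (.n (nat_lit 2940)
 (.l (.k2_5 (nat_lit 9) (nat_lit 2940) (nat_lit 2938) (nat_lit 2958) (nat_lit 2454) (nat_lit 1482) (nat_lit 4398) (nat_lit 754)))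
 (.l (.k1_7 (nat_lit 9) (nat_lit 2948) (nat_lit 2950) (nat_lit 2954) (nat_lit 2930) (nat_lit 3002) (nat_lit 2462) (nat_lit 1490) (nat_lit 4406) (nat_lit 5134))))))))))
 (.n (nat_lit 3196)
 (.n (nat_lit 3036)
 (.n (nat_lit 2988)
 (.n (nat_lit 2964)
 (.n (nat_lit 2956)
 (.n (nat_lit 2950)
 (.l (.k3_7 (nat_lit 8) (nat_lit 2950) (nat_lit 2948) (nat_lit 2956) (nat_lit 2932) (nat_lit 3004) (nat_lit 2464) (nat_lit 1492) (nat_lit 4408) (nat_lit 5136) (nat_lit 764)))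
 (.n (nat_lit 2954)
 (.l (.k1_8 (nat_lit 8) (nat_lit 2954) (nat_lit 2956) (nat_lit 2948) (nat_lit 2936) (nat_lit 2972) (nat_lit 3008) (nat_lit 2468) (nat_lit 1496) (nat_lit 4412) (nat_lit 5140)))
 (.l (.k3_10 (nat_lit 9) (nat_lit 2956) (nat_lit 2954) (nat_lit 2958) (nat_lit 2950) (nat_lit 2962) (nat_lit 2938) (nat_lit 2974) (nat_lit 3010) (nat_lit 2470) (nat_lit 1498) (nat_lit 4414) (nat_lit 5142) (nat_lit 770)))))
 (.n (nat_lit 2958)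
 (.l (.k2_8 (nat_lit 8) (nat_lit 2958) (nat_lit 2956) (nat_lit 2964) (nat_lit 2940) (nat_lit 2976) (nat_lit 3012) (nat_lit 2472) (nat_lit 1500) (nat_lit 4416) (nat_lit 772)))
 (.n (nat_lit 2962)
 (.l (.k3_7 (nat_lit 8) (nat_lit 2962) (nat_lit 2964) (nat_lit 2956) (nat_lit 2980) (nat_lit 3016) (nat_lit 2476) (nat_lit 1504) (nat_lit 4420) (nat_lit 5148) (nat_lit 776)))
 (.l (.k2_7 (nat_lit 9) (nat_lit 2964) (nat_lit 2962) (nat_lit 2958) (nat_lit 2982) (nat_lit 3018) (nat_lit 2478) (nat_lit 1506) (nat_lit 4422) (nat_lit 778))))))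
 (.n (nat_lit 2976)
 (.n (nat_lit 2972)
 (.l (.k1_6 (nat_lit 7) (nat_lit 2972) (nat_lit 2974) (nat_lit 2954) (nat_lit 3026) (nat_lit 2486) (nat_lit 1514) (nat_lit 4430) (nat_lit 5158)))
 (.n (nat_lit 2974)
 (.l (.k3_8 (nat_lit 7) (nat_lit 2974) (nat_lit 2972) (nat_lit 2976) (nat_lit 2980) (nat_lit 2956) (nat_lit 3028) (nat_lit 2488) (nat_lit 1516) (nat_lit 4432) (nat_lit 5160) (nat_lit 788)))
 (.l (.k2_7 (nat_lit 5) (nat_lit 2976) (nat_lit 2974) (nat_lit 2982) (nat_lit 2958) (nat_lit 3030) (nat_lit 2490) (nat_lit 1518) (nat_lit 4434) (nat_lit 790)))))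
 (.n (nat_lit 2980)
 (.l (.k3_7 (nat_lit 8) (nat_lit 2980) (nat_lit 2982) (nat_lit 2974) (nat_lit 2962) (nat_lit 3034) (nat_lit 2494) (nat_lit 1522) (nat_lit 4438) (nat_lit 5166) (nat_lit 794)))
 (.n (nat_lit 2982)
 (.l (.k2_8 (nat_lit 8) (nat_lit 2982) (nat_lit 2980) (nat_lit 2976) (nat_lit 2988) (nat_lit 2964) (nat_lit 3036) (nat_lit 2496) (nat_lit 1524) (nat_lit 4440) (nat_lit 796)))
 (.l (.k2_5 (nat_lit 9) (nat_lit 2988) (nat_lit 2982) (nat_lit 3042) (nat_lit 2502) (nat_lit 1530) (nat_lit 4446) (nat_lit 802)))))))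
 (.n (nat_lit 3016)
 (.n (nat_lit 3008)
 (.n (nat_lit 3002)
 (.l (.k1_7 (nat_lit 9) (nat_lit 3002) (nat_lit 3004) (nat_lit 3008) (nat_lit 2948) (nat_lit 3164) (nat_lit 2516) (nat_lit 1544) (nat_lit 4460) (nat_lit 5188)))
 (.n (nat_lit 3004)
 (.l (.k3_7 (nat_lit 8) (nat_lit 3004) (nat_lit 3002) (nat_lit 3010) (nat_lit 2950) (nat_lit 3166) (nat_lit 2518) (nat_lit 1546) (nat_lit 4462) (nat_lit 5190) (nat_lit 818)))
 (.l (.k1_8 (nat_lit 7) (nat_lit 3008) (nat_lit 3010) (nat_lit 3002) (nat_lit 3026) (nat_lit 2954) (nat_lit 3170) (nat_lit 2522) (nat_lit 1550) (nat_lit 4466) (nat_lit 5194)))))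
 (.n (nat_lit 3010)
 (.l (.k3_10 (nat_lit 8) (nat_lit 3010) (nat_lit 3008) (nat_lit 3012) (nat_lit 3004) (nat_lit 3016) (nat_lit 3028) (nat_lit 2956) (nat_lit 3172) (nat_lit 2524) (nat_lit 1552) (nat_lit 4468) (nat_lit 5196) (nat_lit 824)))
 (.n (nat_lit 3012)
 (.l (.k2_8 (nat_lit 7) (nat_lit 3012) (nat_lit 3010) (nat_lit 3018) (nat_lit 3030) (nat_lit 2958) (nat_lit 3174) (nat_lit 2526) (nat_lit 1554) (nat_lit 4470) (nat_lit 826)))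
 (.l (.k3_8 (nat_lit 6) (nat_lit 3016) (nat_lit 3018) (nat_lit 3010) (nat_lit 3034) (nat_lit 2962) (nat_lit 3178) (nat_lit 2530) (nat_lit 1558) (nat_lit 4474) (nat_lit 5202) (nat_lit 830))))))
 (.n (nat_lit 3028)
 (.n (nat_lit 3018)
 (.l (.k2_8 (nat_lit 7) (nat_lit 3018) (nat_lit 3016) (nat_lit 3012) (nat_lit 3036) (nat_lit 2964) (nat_lit 3180) (nat_lit 2532) (nat_lit 1560) (nat_lit 4476) (nat_lit 832)))
 (.n (nat_lit 3026)
 (.l (.k1_8 (nat_lit 8) (nat_lit 3026) (nat_lit 3028) (nat_lit 3008) (nat_lit 2972) (nat_lit 3080) (nat_lit 3188) (nat_lit 2540) (nat_lit 1568) (nat_lit 4484) (nat_lit 5212)))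
 (.l (.k3_10 (nat_lit 8) (nat_lit 3028) (nat_lit 3026) (nat_lit 3030) (nat_lit 3034) (nat_lit 3010) (nat_lit 2974) (nat_lit 3082) (nat_lit 3190) (nat_lit 2542) (nat_lit 1570) (nat_lit 4486) (nat_lit 5214) (nat_lit 842)))))
 (.n (nat_lit 3030)
 (.l (.k2_9 (nat_lit 6) (nat_lit 3030) (nat_lit 3028) (nat_lit 3036) (nat_lit 3012) (nat_lit 2976) (nat_lit 3084) (nat_lit 3192) (nat_lit 2544) (nat_lit 1572) (nat_lit 4488) (nat_lit 844)))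
 (.n (nat_lit 3034)
 (.l (.k3_10 (nat_lit 8) (nat_lit 3034) (nat_lit 3036) (nat_lit 3028) (nat_lit 3016) (nat_lit 3052) (nat_lit 2980) (nat_lit 3088) (nat_lit 3196) (nat_lit 2548) (nat_lit 1576) (nat_lit 4492) (nat_lit 5220) (nat_lit 848)))
 (.l (.k2_11 (nat_lit 8) (nat_lit 3036) (nat_lit 3034) (nat_lit 3030) (nat_lit 3042) (nat_lit 3018) (nat_lit 3054) (nat_lit 2982) (nat_lit 3090) (nat_lit 3198) (nat_lit 2550) (nat_lit 1578) (nat_lit 4494) (nat_lit 850))))))))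
 (.n (nat_lit 3108)
 (.n (nat_lit 3082)
 (.n (nat_lit 3054)
 (.n (nat_lit 3042)
 (.l (.k2_8 (nat_lit 8) (nat_lit 3042) (nat_lit 3036) (nat_lit 3060) (nat_lit 2988) (nat_lit 3096) (nat_lit 3204) (nat_lit 2556) (nat_lit 1584) (nat_lit 4500) (nat_lit 856)))
 (.n (nat_lit 3052)
 (.l (.k3_7 (nat_lit 8) (nat_lit 3052) (nat_lit 3054) (nat_lit 3034) (nat_lit 3106) (nat_lit 3214) (nat_lit 2566) (nat_lit 1594) (nat_lit 4510) (nat_lit 5238) (nat_lit 866)))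
 (.l (.k2_8 (nat_lit 7) (nat_lit 3054) (nat_lit 3052) (nat_lit 3060) (nat_lit 3036) (nat_lit 3108) (nat_lit 3216) (nat_lit 2568) (nat_lit 1596) (nat_lit 4512) (nat_lit 868)))))
 (.n (nat_lit 3060)
 (.l (.k2_7 (nat_lit 9) (nat_lit 3060) (nat_lit 3054) (nat_lit 3042) (nat_lit 3114) (nat_lit 3222) (nat_lit 2574) (nat_lit 1602) (nat_lit 4518) (nat_lit 874)))
 (.n (nat_lit 3080)
 (.l (.k1_6 (nat_lit 7) (nat_lit 3080) (nat_lit 3082) (nat_lit 3026) (nat_lit 3242) (nat_lit 2594) (nat_lit 1622) (nat_lit 4538) (nat_lit 5266)))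
 (.l (.k3_8 (nat_lit 7) (nat_lit 3082) (nat_lit 3080) (nat_lit 3084) (nat_lit 3088) (nat_lit 3028) (nat_lit 3244) (nat_lit 2596) (nat_lit 1624) (nat_lit 4540) (nat_lit 5268) (nat_lit 896))))))
 (.n (nat_lit 3090)
 (.n (nat_lit 3084)
 (.l (.k2_7 (nat_lit 5) (nat_lit 3084) (nat_lit 3082) (nat_lit 3090) (nat_lit 3030) (nat_lit 3246) (nat_lit 2598) (nat_lit 1626) (nat_lit 4542) (nat_lit 898)))
 (.n (nat_lit 3088)
 (.l (.k3_8 (nat_lit 6) (nat_lit 3088) (nat_lit 3090) (nat_lit 3082) (nat_lit 3106) (nat_lit 3034) (nat_lit 3250) (nat_lit 2602) (nat_lit 1630) (nat_lit 4546) (nat_lit 5274) (nat_lit 902)))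
 (.l (.k2_9 (nat_lit 6) (nat_lit 3090) (nat_lit 3088) (nat_lit 3084) (nat_lit 3096) (nat_lit 3108) (nat_lit 3036) (nat_lit 3252) (nat_lit 2604) (nat_lit 1632) (nat_lit 4548) (nat_lit 904)))))
 (.n (nat_lit 3096)
 (.l (.k2_7 (nat_lit 5) (nat_lit 3096) (nat_lit 3090) (nat_lit 3114) (nat_lit 3042) (nat_lit 3258) (nat_lit 2610) (nat_lit 1638) (nat_lit 4554) (nat_lit 910)))
 (.n (nat_lit 3106)
 (.l (.k3_7 (nat_lit 8) (nat_lit 3106) (nat_lit 3108) (nat_lit 3088) (nat_lit 3052) (nat_lit 3268) (nat_lit 2620) (nat_lit 1648) (nat_lit 4564) (nat_lit 5292) (nat_lit 920)))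
 (.l (.k2_8 (nat_lit 7) (nat_lit 3108) (nat_lit 3106) (nat_lit 3114) (nat_lit 3090) (nat_lit 3054) (nat_lit 3270) (nat_lit 2622) (nat_lit 1650) (nat_lit 4566) (nat_lit 922)))))))
 (.n (nat_lit 3172)
 (.n (nat_lit 3164)
 (.n (nat_lit 3114)
 (.l (.k2_8 (nat_lit 8) (nat_lit 3114) (nat_lit 3108) (nat_lit 3096) (nat_lit 3132) (nat_lit 3060) (nat_lit 3276) (nat_lit 2628) (nat_lit 1656) (nat_lit 4572) (nat_lit 928)))
 (.n (nat_lit 3132)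
 (.l (.k2_5 (nat_lit 9) (nat_lit 3132) (nat_lit 3114) (nat_lit 3294) (nat_lit 2646) (nat_lit 1674) (nat_lit 4590) (nat_lit 946)))
 (.l (.k1_7 (nat_lit 10) (nat_lit 3164) (nat_lit 3166) (nat_lit 3170) (nat_lit 3002) (nat_lit 2678) (nat_lit 3650) (nat_lit 1706) (nat_lit 4622) (nat_lit 5350)))))
 (.n (nat_lit 3166)
 (.l (.k3_7 (nat_lit 9) (nat_lit 3166) (nat_lit 3164) (nat_lit 3172) (nat_lit 3004) (nat_lit 2680) (nat_lit 3652) (nat_lit 1708) (nat_lit 4624) (nat_lit 5352) (nat_lit 980)))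
 (.n (nat_lit 3170)
 (.l (.k1_8 (nat_lit 8) (nat_lit 3170) (nat_lit 3172) (nat_lit 3164) (nat_lit 3188) (nat_lit 3008) (nat_lit 2684) (nat_lit 3656) (nat_lit 1712) (nat_lit 4628) (nat_lit 5356)))
 (.l (.k3_10 (nat_lit 9) (nat_lit 3172) (nat_lit 3170) (nat_lit 3174) (nat_lit 3166) (nat_lit 3178) (nat_lit 3190) (nat_lit 3010) (nat_lit 2686) (nat_lit 3658) (nat_lit 1714) (nat_lit 4630) (nat_lit 5358) (nat_lit 986))))))
 (.n (nat_lit 3180)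
 (.n (nat_lit 3174)
 (.l (.k2_8 (nat_lit 8) (nat_lit 3174) (nat_lit 3172) (nat_lit 3180) (nat_lit 3192) (nat_lit 3012) (nat_lit 2688) (nat_lit 3660) (nat_lit 1716) (nat_lit 4632) (nat_lit 988)))
 (.n (nat_lit 3178)
 (.l (.k3_8 (nat_lit 7) (nat_lit 3178) (nat_lit 3180) (nat_lit 3172) (nat_lit 3196) (nat_lit 3016) (nat_lit 2692) (nat_lit 3664) (nat_lit 1720) (nat_lit 4636) (nat_lit 5364) (nat_lit 992)))
 (.l (.k2_8 (nat_lit 8) (nat_lit 3180) (nat_lit 3178) (nat_lit 3174) (nat_lit 3198) (nat_lit 3018) (nat_lit 2694) (nat_lit 3666) (nat_lit 1722) (nat_lit 4638) (nat_lit 994)))))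
 (.n (nat_lit 3190)
 (.n (nat_lit 3188)
 (.l (.k1_8 (nat_lit 8) (nat_lit 3188) (nat_lit 3190) (nat_lit 3170) (nat_lit 3242) (nat_lit 3026) (nat_lit 2702) (nat_lit 3674) (nat_lit 1730) (nat_lit 4646) (nat_lit 5374)))
 (.l (.k3_10 (nat_lit 8) (nat_lit 3190) (nat_lit 3188) (nat_lit 3192) (nat_lit 3196) (nat_lit 3172) (nat_lit 3244) (nat_lit 3028) (nat_lit 2704) (nat_lit 3676) (nat_lit 1732) (nat_lit 4648) (nat_lit 5376) (nat_lit 1004))))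
 (.n (nat_lit 3192)
 (.l (.k2_9 (nat_lit 6) (nat_lit 3192) (nat_lit 3190) (nat_lit 3198) (nat_lit 3174) (nat_lit 3246) (nat_lit 3030) (nat_lit 2706) (nat_lit 3678) (nat_lit 1734) (nat_lit 4650) (nat_lit 1006)))
 (.l (.k3_10 (nat_lit 8) (nat_lit 3196) (nat_lit 3198) (nat_lit 3190) (nat_lit 3178) (nat_lit 3214) (nat_lit 3250) (nat_lit 3034) (nat_lit 2710) (nat_lit 3682) (nat_lit 1738) (nat_lit 4654) (nat_lit 5382) (nat_lit 1010)))))))))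
 (.n (nat_lit 3414)
 (.n (nat_lit 3268)
 (.n (nat_lit 3242)
 (.n (nat_lit 3214)
 (.n (nat_lit 3198)
 (.l (.k2_11 (nat_lit 8) (nat_lit 3198) (nat_lit 3196) (nat_lit 3192) (nat_lit 3204) (nat_lit 3180) (nat_lit 3216) (nat_lit 3252) (nat_lit 3036) (nat_lit 2712) (nat_lit 3684) (nat_lit 1740) (nat_lit 4656) (nat_lit 1012)))
 (.n (nat_lit 3204)
 (.l (.k2_8 (nat_lit 8) (nat_lit 3204) (nat_lit 3198) (nat_lit 3222) (nat_lit 3258) (nat_lit 3042) (nat_lit 2718) (nat_lit 3690) (nat_lit 1746) (nat_lit 4662) (nat_lit 1018)))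
 (.l (.k3_8 (nat_lit 7) (nat_lit 3214) (nat_lit 3216) (nat_lit 3196) (nat_lit 3268) (nat_lit 3052) (nat_lit 2728) (nat_lit 3700) (nat_lit 1756) (nat_lit 4672) (nat_lit 5400) (nat_lit 1028)))))
 (.n (nat_lit 3216)
 (.l (.k2_9 (nat_lit 6) (nat_lit 3216) (nat_lit 3214) (nat_lit 3222) (nat_lit 3198) (nat_lit 3270) (nat_lit 3054) (nat_lit 2730) (nat_lit 3702) (nat_lit 1758) (nat_lit 4674) (nat_lit 1030)))
 (.n (nat_lit 3222)
 (.l (.k2_8 (nat_lit 8) (nat_lit 3222) (nat_lit 3216) (nat_lit 3204) (nat_lit 3276) (nat_lit 3060) (nat_lit 2736) (nat_lit 3708) (nat_lit 1764) (nat_lit 4680) (nat_lit 1036)))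
 (.l (.k1_8 (nat_lit 9) (nat_lit 3242) (nat_lit 3244) (nat_lit 3188) (nat_lit 3080) (nat_lit 3404) (nat_lit 2756) (nat_lit 3728) (nat_lit 1784) (nat_lit 4700) (nat_lit 5428))))))
 (.n (nat_lit 3250)
 (.n (nat_lit 3244)
 (.l (.k3_10 (nat_lit 9) (nat_lit 3244) (nat_lit 3242) (nat_lit 3246) (nat_lit 3250) (nat_lit 3190) (nat_lit 3082) (nat_lit 3406) (nat_lit 2758) (nat_lit 3730) (nat_lit 1786) (nat_lit 4702) (nat_lit 5430) (nat_lit 1058)))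
 (.n (nat_lit 3246)
 (.l (.k2_9 (nat_lit 7) (nat_lit 3246) (nat_lit 3244) (nat_lit 3252) (nat_lit 3192) (nat_lit 3084) (nat_lit 3408) (nat_lit 2760) (nat_lit 3732) (nat_lit 1788) (nat_lit 4704) (nat_lit 1060)))
 (.l (.k3_10 (nat_lit 8) (nat_lit 3250) (nat_lit 3252) (nat_lit 3244) (nat_lit 3268) (nat_lit 3196) (nat_lit 3088) (nat_lit 3412) (nat_lit 2764) (nat_lit 3736) (nat_lit 1792) (nat_lit 4708) (nat_lit 5436) (nat_lit 1064)))))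
 (.n (nat_lit 3252)
 (.l (.k2_11 (nat_lit 8) (nat_lit 3252) (nat_lit 3250) (nat_lit 3246) (nat_lit 3258) (nat_lit 3270) (nat_lit 3198) (nat_lit 3090) (nat_lit 3414) (nat_lit 2766) (nat_lit 3738) (nat_lit 1794) (nat_lit 4710) (nat_lit 1066)))
 (.n (nat_lit 3258)
 (.l (.k2_9 (nat_lit 7) (nat_lit 3258) (nat_lit 3252) (nat_lit 3276) (nat_lit 3204) (nat_lit 3096) (nat_lit 3420) (nat_lit 2772) (nat_lit 3744) (nat_lit 1800) (nat_lit 4716) (nat_lit 1072)))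
 (.l (.k3_10 (nat_lit 9) (nat_lit 3268) (nat_lit 3270) (nat_lit 3250) (nat_lit 3214) (nat_lit 3322) (nat_lit 3106) (nat_lit 3430) (nat_lit 2782) (nat_lit 3754) (nat_lit 1810) (nat_lit 4726) (nat_lit 5454) (nat_lit 1082)))))))
 (.n (nat_lit 3330)
 (.n (nat_lit 3294)
 (.n (nat_lit 3270)
 (.l (.k2_11 (nat_lit 8) (nat_lit 3270) (nat_lit 3268) (nat_lit 3276) (nat_lit 3252) (nat_lit 3216) (nat_lit 3324) (nat_lit 3108) (nat_lit 3432) (nat_lit 2784) (nat_lit 3756) (nat_lit 1812) (nat_lit 4728) (nat_lit 1084)))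
 (.n (nat_lit 3276)
 (.l (.k2_11 (nat_lit 9) (nat_lit 3276) (nat_lit 3270) (nat_lit 3258) (nat_lit 3294) (nat_lit 3222) (nat_lit 3330) (nat_lit 3114) (nat_lit 3438) (nat_lit 2790) (nat_lit 3762) (nat_lit 1818) (nat_lit 4734) (nat_lit 1090)))
 (.l (.k2_8 (nat_lit 9) (nat_lit 3294) (nat_lit 3276) (nat_lit 3348) (nat_lit 3132) (nat_lit 3456) (nat_lit 2808) (nat_lit 3780) (nat_lit 1836) (nat_lit 4752) (nat_lit 1108)))))
 (.n (nat_lit 3322)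
 (.l (.k3_7 (nat_lit 9) (nat_lit 3322) (nat_lit 3324) (nat_lit 3268) (nat_lit 3484) (nat_lit 2836) (nat_lit 3808) (nat_lit 1864) (nat_lit 4780) (nat_lit 5508) (nat_lit 1136)))
 (.n (nat_lit 3324)
 (.l (.k2_8 (nat_lit 8) (nat_lit 3324) (nat_lit 3322) (nat_lit 3330) (nat_lit 3270) (nat_lit 3486) (nat_lit 2838) (nat_lit 3810) (nat_lit 1866) (nat_lit 4782) (nat_lit 1138)))
 (.l (.k2_8 (nat_lit 8) (nat_lit 3330) (nat_lit 3324) (nat_lit 3348) (nat_lit 3276) (nat_lit 3492) (nat_lit 2844) (nat_lit 3816) (nat_lit 1872) (nat_lit 4788) (nat_lit 1144))))))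
 (.n (nat_lit 3406)
 (.n (nat_lit 3348)
 (.l (.k2_7 (nat_lit 10) (nat_lit 3348) (nat_lit 3330) (nat_lit 3294) (nat_lit 3510) (nat_lit 2862) (nat_lit 3834) (nat_lit 1890) (nat_lit 4806) (nat_lit 1162)))
 (.n (nat_lit 3404)
 (.l (.k1_5 (nat_lit 9) (nat_lit 3404) (nat_lit 3406) (nat_lit 3242) (nat_lit 3890) (nat_lit 1946) (nat_lit 4862) (nat_lit 5590)))
 (.l (.k3_7 (nat_lit 9) (nat_lit 3406) (nat_lit 3404) (nat_lit 3408) (nat_lit 3412) (nat_lit 3244) (nat_lit 3892) (nat_lit 1948) (nat_lit 4864) (nat_lit 5592) (nat_lit 1220)))))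
 (.n (nat_lit 3408)
 (.l (.k2_6 (nat_lit 7) (nat_lit 3408) (nat_lit 3406) (nat_lit 3414) (nat_lit 3246) (nat_lit 3894) (nat_lit 1950) (nat_lit 4866) (nat_lit 1222)))
 (.n (nat_lit 3412)
 (.l (.k3_7 (nat_lit 8) (nat_lit 3412) (nat_lit 3414) (nat_lit 3406) (nat_lit 3430) (nat_lit 3250) (nat_lit 3898) (nat_lit 1954) (nat_lit 4870) (nat_lit 5598) (nat_lit 1226)))
 (.l (.k2_8 (nat_lit 8) (nat_lit 3414) (nat_lit 3412) (nat_lit 3408) (nat_lit 3420) (nat_lit 3432) (nat_lit 3252) (nat_lit 3900) (nat_lit 1956) (nat_lit 4872) (nat_lit 1228))))))))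
 (.n (nat_lit 3652)
 (.n (nat_lit 3484)
 (.n (nat_lit 3432)
 (.n (nat_lit 3420)
 (.l (.k2_6 (nat_lit 7) (nat_lit 3420) (nat_lit 3414) (nat_lit 3438) (nat_lit 3258) (nat_lit 3906) (nat_lit 1962) (nat_lit 4878) (nat_lit 1234)))
 (.n (nat_lit 3430)
 (.l (.k3_7 (nat_lit 8) (nat_lit 3430) (nat_lit 3432) (nat_lit 3412) (nat_lit 3484) (nat_lit 3268) (nat_lit 3916) (nat_lit 1972) (nat_lit 4888) (nat_lit 5616) (nat_lit 1244)))
 (.l (.k2_8 (nat_lit 7) (nat_lit 3432) (nat_lit 3430) (nat_lit 3438) (nat_lit 3414) (nat_lit 3486) (nat_lit 3270) (nat_lit 3918) (nat_lit 1974) (nat_lit 4890) (nat_lit 1246)))))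
 (.n (nat_lit 3438)
 (.l (.k2_8 (nat_lit 8) (nat_lit 3438) (nat_lit 3432) (nat_lit 3420) (nat_lit 3456) (nat_lit 3492) (nat_lit 3276) (nat_lit 3924) (nat_lit 1980) (nat_lit 4896) (nat_lit 1252)))
 (.n (nat_lit 3456)
 (.l (.k2_6 (nat_lit 7) (nat_lit 3456) (nat_lit 3438) (nat_lit 3510) (nat_lit 3294) (nat_lit 3942) (nat_lit 1998) (nat_lit 4914) (nat_lit 1270)))
 (.l (.k3_6 (nat_lit 10) (nat_lit 3484) (nat_lit 3486) (nat_lit 3430) (nat_lit 3322) (nat_lit 3970) (nat_lit 2026) (nat_lit 4942) (nat_lit 5670) (nat_lit 1298))))))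
 (.n (nat_lit 3510)
 (.n (nat_lit 3486)
 (.l (.k2_7 (nat_lit 9) (nat_lit 3486) (nat_lit 3484) (nat_lit 3492) (nat_lit 3432) (nat_lit 3324) (nat_lit 3972) (nat_lit 2028) (nat_lit 4944) (nat_lit 1300)))
 (.n (nat_lit 3492)
 (.l (.k2_7 (nat_lit 9) (nat_lit 3492) (nat_lit 3486) (nat_lit 3510) (nat_lit 3438) (nat_lit 3330) (nat_lit 3978) (nat_lit 2034) (nat_lit 4950) (nat_lit 1306)))
 (.l (.k2_7 (nat_lit 10) (nat_lit 3510) (nat_lit 3492) (nat_lit 3456) (nat_lit 3564) (nat_lit 3348) (nat_lit 3996) (nat_lit 2052) (nat_lit 4968) (nat_lit 1324)))))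
 (.n (nat_lit 3564)
 (.l (.k2_4 (nat_lit 11) (nat_lit 3564) (nat_lit 3510) (nat_lit 4050) (nat_lit 2106) (nat_lit 5022) (nat_lit 1378)))
 (.n (nat_lit 3650)
 (.l (.k1_4 (nat_lit 10) (nat_lit 3650) (nat_lit 3652) (nat_lit 3656) (nat_lit 3164) (nat_lit 5108) (nat_lit 5836)))
 (.l (.k3_4 (nat_lit 9) (nat_lit 3652) (nat_lit 3650) (nat_lit 3658) (nat_lit 3166) (nat_lit 5110) (nat_lit 5838) (nat_lit 1466)))))))
 (.n (nat_lit 3674)
 (.n (nat_lit 3660)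
 (.n (nat_lit 3656)
 (.l (.k1_5 (nat_lit 8) (nat_lit 3656) (nat_lit 3658) (nat_lit 3650) (nat_lit 3674) (nat_lit 3170) (nat_lit 5114) (nat_lit 5842)))
 (.n (nat_lit 3658)
 (.l (.k3_7 (nat_lit 9) (nat_lit 3658) (nat_lit 3656) (nat_lit 3660) (nat_lit 3652) (nat_lit 3664) (nat_lit 3676) (nat_lit 3172) (nat_lit 5116) (nat_lit 5844) (nat_lit 1472)))
 (.l (.k2_5 (nat_lit 8) (nat_lit 3660) (nat_lit 3658) (nat_lit 3666) (nat_lit 3678) (nat_lit 3174) (nat_lit 5118) (nat_lit 1474)))))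
 (.n (nat_lit 3664)
 (.l (.k3_5 (nat_lit 7) (nat_lit 3664) (nat_lit 3666) (nat_lit 3658) (nat_lit 3682) (nat_lit 3178) (nat_lit 5122) (nat_lit 5850) (nat_lit 1478)))
 (.n (nat_lit 3666)
 (.l (.k2_5 (nat_lit 8) (nat_lit 3666) (nat_lit 3664) (nat_lit 3660) (nat_lit 3684) (nat_lit 3180) (nat_lit 5124) (nat_lit 1480)))
 (.l (.k1_5 (nat_lit 8) (nat_lit 3674) (nat_lit 3676) (nat_lit 3656) (nat_lit 3728) (nat_lit 3188) (nat_lit 5132) (nat_lit 5860))))))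
 (.n (nat_lit 3682)
 (.n (nat_lit 3676)
 (.l (.k3_7 (nat_lit 8) (nat_lit 3676) (nat_lit 3674) (nat_lit 3678) (nat_lit 3682) (nat_lit 3658) (nat_lit 3730) (nat_lit 3190) (nat_lit 5134) (nat_lit 5862) (nat_lit 1490)))
 (.n (nat_lit 3678)
 (.l (.k2_6 (nat_lit 6) (nat_lit 3678) (nat_lit 3676) (nat_lit 3684) (nat_lit 3660) (nat_lit 3732) (nat_lit 3192) (nat_lit 5136) (nat_lit 1492)))
 (.l (.k3_7 (nat_lit 8) (nat_lit 3682) (nat_lit 3684) (nat_lit 3676) (nat_lit 3664) (nat_lit 3700) (nat_lit 3736) (nat_lit 3196) (nat_lit 5140) (nat_lit 5868) (nat_lit 1496)))))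
 (.n (nat_lit 3690)
 (.n (nat_lit 3684)
 (.l (.k2_8 (nat_lit 8) (nat_lit 3684) (nat_lit 3682) (nat_lit 3678) (nat_lit 3690) (nat_lit 3666) (nat_lit 3702) (nat_lit 3738) (nat_lit 3198) (nat_lit 5142) (nat_lit 1498)))
 (.l (.k2_5 (nat_lit 8) (nat_lit 3690) (nat_lit 3684) (nat_lit 3708) (nat_lit 3744) (nat_lit 3204) (nat_lit 5148) (nat_lit 1504))))
 (.n (nat_lit 3700)
 (.l (.k3_5 (nat_lit 7) (nat_lit 3700) (nat_lit 3702) (nat_lit 3682) (nat_lit 3754) (nat_lit 3214) (nat_lit 5158) (nat_lit 5886) (nat_lit 1514)))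
 (.l (.k2_6 (nat_lit 6) (nat_lit 3702) (nat_lit 3700) (nat_lit 3708) (nat_lit 3684) (nat_lit 3756) (nat_lit 3216) (nat_lit 5160) (nat_lit 1516)))))))))))
 (.n (nat_lit 4702)
 (.n (nat_lit 4430)
 (.n (nat_lit 3924)
 (.n (nat_lit 3808)
 (.n (nat_lit 3738)
 (.n (nat_lit 3730)
 (.n (nat_lit 3708)
 (.l (.k2_5 (nat_lit 8) (nat_lit 3708) (nat_lit 3702) (nat_lit 3690) (nat_lit 3762) (nat_lit 3222) (nat_lit 5166) (nat_lit 1522)))
 (.n (nat_lit 3728)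
 (.l (.k1_5 (nat_lit 8) (nat_lit 3728) (nat_lit 3730) (nat_lit 3674) (nat_lit 3890) (nat_lit 3242) (nat_lit 5186) (nat_lit 5914)))
 (.l (.k3_7 (nat_lit 8) (nat_lit 3730) (nat_lit 3728) (nat_lit 3732) (nat_lit 3736) (nat_lit 3676) (nat_lit 3892) (nat_lit 3244) (nat_lit 5188) (nat_lit 5916) (nat_lit 1544)))))
 (.n (nat_lit 3732)
 (.l (.k2_6 (nat_lit 6) (nat_lit 3732) (nat_lit 3730) (nat_lit 3738) (nat_lit 3678) (nat_lit 3894) (nat_lit 3246) (nat_lit 5190) (nat_lit 1546)))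
 (.n (nat_lit 3736)
 (.l (.k3_7 (nat_lit 7) (nat_lit 3736) (nat_lit 3738) (nat_lit 3730) (nat_lit 3754) (nat_lit 3682) (nat_lit 3898) (nat_lit 3250) (nat_lit 5194) (nat_lit 5922) (nat_lit 1550)))
 (.l (.k2_8 (nat_lit 7) (nat_lit 3738) (nat_lit 3736) (nat_lit 3732) (nat_lit 3744) (nat_lit 3756) (nat_lit 3684) (nat_lit 3900) (nat_lit 3252) (nat_lit 5196) (nat_lit 1552))))))
 (.n (nat_lit 3756)
 (.n (nat_lit 3744)
 (.l (.k2_6 (nat_lit 6) (nat_lit 3744) (nat_lit 3738) (nat_lit 3762) (nat_lit 3690) (nat_lit 3906) (nat_lit 3258) (nat_lit 5202) (nat_lit 1558)))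
 (.n (nat_lit 3754)
 (.l (.k3_7 (nat_lit 8) (nat_lit 3754) (nat_lit 3756) (nat_lit 3736) (nat_lit 3700) (nat_lit 3808) (nat_lit 3916) (nat_lit 3268) (nat_lit 5212) (nat_lit 5940) (nat_lit 1568)))
 (.l (.k2_8 (nat_lit 7) (nat_lit 3756) (nat_lit 3754) (nat_lit 3762) (nat_lit 3738) (nat_lit 3702) (nat_lit 3810) (nat_lit 3918) (nat_lit 3270) (nat_lit 5214) (nat_lit 1570)))))
 (.n (nat_lit 3762)
 (.l (.k2_8 (nat_lit 8) (nat_lit 3762) (nat_lit 3756) (nat_lit 3744) (nat_lit 3780) (nat_lit 3708) (nat_lit 3816) (nat_lit 3924) (nat_lit 3276) (nat_lit 5220) (nat_lit 1576)))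
 (.n (nat_lit 3780)
 (.l (.k2_5 (nat_lit 8) (nat_lit 3780) (nat_lit 3762) (nat_lit 3834) (nat_lit 3942) (nat_lit 3294) (nat_lit 5238) (nat_lit 1594)))
 (.l (.k3_5 (nat_lit 7) (nat_lit 3808) (nat_lit 3810) (nat_lit 3754) (nat_lit 3970) (nat_lit 3322) (nat_lit 5266) (nat_lit 5994) (nat_lit 1622)))))))
 (.n (nat_lit 3894)
 (.n (nat_lit 3834)
 (.n (nat_lit 3810)
 (.l (.k2_6 (nat_lit 6) (nat_lit 3810) (nat_lit 3808) (nat_lit 3816) (nat_lit 3756) (nat_lit 3972) (nat_lit 3324) (nat_lit 5268) (nat_lit 1624)))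
 (.n (nat_lit 3816)
 (.l (.k2_6 (nat_lit 6) (nat_lit 3816) (nat_lit 3810) (nat_lit 3834) (nat_lit 3762) (nat_lit 3978) (nat_lit 3330) (nat_lit 5274) (nat_lit 1630)))
 (.l (.k2_5 (nat_lit 8) (nat_lit 3834) (nat_lit 3816) (nat_lit 3780) (nat_lit 3996) (nat_lit 3348) (nat_lit 5292) (nat_lit 1648)))))
 (.n (nat_lit 3890)
 (.l (.k1_4 (nat_lit 10) (nat_lit 3890) (nat_lit 3892) (nat_lit 3728) (nat_lit 3404) (nat_lit 5348) (nat_lit 6076)))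
 (.n (nat_lit 3892)
 (.l (.k3_6 (nat_lit 10) (nat_lit 3892) (nat_lit 3890) (nat_lit 3894) (nat_lit 3898) (nat_lit 3730) (nat_lit 3406) (nat_lit 5350) (nat_lit 6078) (nat_lit 1706)))
 (.l (.k2_5 (nat_lit 8) (nat_lit 3894) (nat_lit 3892) (nat_lit 3900) (nat_lit 3732) (nat_lit 3408) (nat_lit 5352) (nat_lit 1708))))))
 (.n (nat_lit 3906)
 (.n (nat_lit 3898)
 (.l (.k3_6 (nat_lit 9) (nat_lit 3898) (nat_lit 3900) (nat_lit 3892) (nat_lit 3916) (nat_lit 3736) (nat_lit 3412) (nat_lit 5356) (nat_lit 6084) (nat_lit 1712)))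
 (.n (nat_lit 3900)
 (.l (.k2_7 (nat_lit 9) (nat_lit 3900) (nat_lit 3898) (nat_lit 3894) (nat_lit 3906) (nat_lit 3918) (nat_lit 3738) (nat_lit 3414) (nat_lit 5358) (nat_lit 1714)))
 (.l (.k2_5 (nat_lit 8) (nat_lit 3906) (nat_lit 3900) (nat_lit 3924) (nat_lit 3744) (nat_lit 3420) (nat_lit 5364) (nat_lit 1720)))))
 (.n (nat_lit 3916)
 (.l (.k3_6 (nat_lit 9) (nat_lit 3916) (nat_lit 3918) (nat_lit 3898) (nat_lit 3970) (nat_lit 3754) (nat_lit 3430) (nat_lit 5374) (nat_lit 6102) (nat_lit 1730)))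
 (.n (nat_lit 3918)
 (.l (.k2_7 (nat_lit 8) (nat_lit 3918) (nat_lit 3916) (nat_lit 3924) (nat_lit 3900) (nat_lit 3972) (nat_lit 3756) (nat_lit 3432) (nat_lit 5376) (nat_lit 1732)))
 (.l (.k2_7 (nat_lit 9) (nat_lit 3924) (nat_lit 3918) (nat_lit 3906) (nat_lit 3942) (nat_lit 3978) (nat_lit 3762) (nat_lit 3438) (nat_lit 5382) (nat_lit 1738))))))))
 (.n (nat_lit 4382)
 (.n (nat_lit 4050)
 (.n (nat_lit 3972)
 (.n (nat_lit 3942)
 (.l (.k2_5 (nat_lit 8) (nat_lit 3942) (nat_lit 3924) (nat_lit 3996) (nat_lit 3780) (nat_lit 3456) (nat_lit 5400) (nat_lit 1756)))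
 (.n (nat_lit 3970)
 (.l (.k3_6 (nat_lit 10) (nat_lit 3970) (nat_lit 3972) (nat_lit 3916) (nat_lit 3808) (nat_lit 4132) (nat_lit 3484) (nat_lit 5428) (nat_lit 6156) (nat_lit 1784)))
 (.l (.k2_7 (nat_lit 9) (nat_lit 3972) (nat_lit 3970) (nat_lit 3978) (nat_lit 3918) (nat_lit 3810) (nat_lit 4134) (nat_lit 3486) (nat_lit 5430) (nat_lit 1786)))))
 (.n (nat_lit 3978)
 (.l (.k2_7 (nat_lit 9) (nat_lit 3978) (nat_lit 3972) (nat_lit 3996) (nat_lit 3924) (nat_lit 3816) (nat_lit 4140) (nat_lit 3492) (nat_lit 5436) (nat_lit 1792)))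
 (.n (nat_lit 3996)
 (.l (.k2_7 (nat_lit 10) (nat_lit 3996) (nat_lit 3978) (nat_lit 3942) (nat_lit 4050) (nat_lit 3834) (nat_lit 4158) (nat_lit 3510) (nat_lit 5454) (nat_lit 1810)))
 (.l (.k2_4 (nat_lit 10) (nat_lit 4050) (nat_lit 3996) (nat_lit 4212) (nat_lit 3564) (nat_lit 5508) (nat_lit 1864))))))
 (.n (nat_lit 4140)
 (.n (nat_lit 4132)
 (.l (.k3_3 (nat_lit 11) (nat_lit 4132) (nat_lit 4134) (nat_lit 3970) (nat_lit 5590) (nat_lit 6318) (nat_lit 1946)))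
 (.n (nat_lit 4134)
 (.l (.k2_4 (nat_lit 10) (nat_lit 4134) (nat_lit 4132) (nat_lit 4140) (nat_lit 3972) (nat_lit 5592) (nat_lit 1948)))
 (.l (.k2_4 (nat_lit 10) (nat_lit 4140) (nat_lit 4134) (nat_lit 4158) (nat_lit 3978) (nat_lit 5598) (nat_lit 1954)))))
 (.n (nat_lit 4158)
 (.l (.k2_4 (nat_lit 10) (nat_lit 4158) (nat_lit 4140) (nat_lit 4212) (nat_lit 3996) (nat_lit 5616) (nat_lit 1972)))
 (.n (nat_lit 4212)
 (.l (.k2_3 (nat_lit 12) (nat_lit 4212) (nat_lit 4158) (nat_lit 4050) (nat_lit 5670) (nat_lit 2026)))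
 (.l (.k0_2 (nat_lit 12) (nat_lit 4382) (nat_lit 4388) (nat_lit 2924)))))))
 (.n (nat_lit 4406)
 (.n (nat_lit 4394)
 (.n (nat_lit 4388)
 (.l (.k0_5 (nat_lit 11) (nat_lit 4388) (nat_lit 4390) (nat_lit 4382) (nat_lit 4394) (nat_lit 4406) (nat_lit 2930)))
 (.n (nat_lit 4390)
 (.l (.k2_4 (nat_lit 10) (nat_lit 4390) (nat_lit 4388) (nat_lit 4396) (nat_lit 4408) (nat_lit 2932) (nat_lit 2204)))
 (.l (.k0_4 (nat_lit 8) (nat_lit 4394) (nat_lit 4396) (nat_lit 4388) (nat_lit 4412) (nat_lit 2936)))))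
 (.n (nat_lit 4396)
 (.l (.k2_5 (nat_lit 9) (nat_lit 4396) (nat_lit 4394) (nat_lit 4398) (nat_lit 4390) (nat_lit 4414) (nat_lit 2938) (nat_lit 2210)))
 (.n (nat_lit 4398)
 (.l (.k2_3 (nat_lit 8) (nat_lit 4398) (nat_lit 4396) (nat_lit 4416) (nat_lit 2940) (nat_lit 2212)))
 (.l (.k0_5 (nat_lit 10) (nat_lit 4406) (nat_lit 4408) (nat_lit 4412) (nat_lit 4388) (nat_lit 4460) (nat_lit 2948))))))
 (.n (nat_lit 4414)
 (.n (nat_lit 4408)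
 (.l (.k2_5 (nat_lit 8) (nat_lit 4408) (nat_lit 4406) (nat_lit 4414) (nat_lit 4390) (nat_lit 4462) (nat_lit 2950) (nat_lit 2222)))
 (.n (nat_lit 4412)
 (.l (.k0_6 (nat_lit 9) (nat_lit 4412) (nat_lit 4414) (nat_lit 4406) (nat_lit 4394) (nat_lit 4430) (nat_lit 4466) (nat_lit 2954)))
 (.l (.k2_8 (nat_lit 9) (nat_lit 4414) (nat_lit 4412) (nat_lit 4416) (nat_lit 4408) (nat_lit 4420) (nat_lit 4396) (nat_lit 4432) (nat_lit 4468) (nat_lit 2956) (nat_lit 2228)))))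
 (.n (nat_lit 4420)
 (.n (nat_lit 4416)
 (.l (.k2_6 (nat_lit 7) (nat_lit 4416) (nat_lit 4414) (nat_lit 4422) (nat_lit 4398) (nat_lit 4434) (nat_lit 4470) (nat_lit 2958) (nat_lit 2230)))
 (.l (.k2_5 (nat_lit 8) (nat_lit 4420) (nat_lit 4422) (nat_lit 4414) (nat_lit 4438) (nat_lit 4474) (nat_lit 2962) (nat_lit 2234))))
 (.n (nat_lit 4422)
 (.l (.k2_5 (nat_lit 8) (nat_lit 4422) (nat_lit 4420) (nat_lit 4416) (nat_lit 4440) (nat_lit 4476) (nat_lit 2964) (nat_lit 2236)))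
 (.l (.k0_4 (nat_lit 8) (nat_lit 4430) (nat_lit 4432) (nat_lit 4412) (nat_lit 4484) (nat_lit 2972)))))))))
 (.n (nat_lit 4542)
 (.n (nat_lit 4476)
 (.n (nat_lit 4460)
 (.n (nat_lit 4438)
 (.n (nat_lit 4432)
 (.l (.k2_6 (nat_lit 7) (nat_lit 4432) (nat_lit 4430) (nat_lit 4434) (nat_lit 4438) (nat_lit 4414) (nat_lit 4486) (nat_lit 2974) (nat_lit 2246)))
 (.n (nat_lit 4434)
 (.l (.k2_5 (nat_lit 4) (nat_lit 4434) (nat_lit 4432) (nat_lit 4440) (nat_lit 4416) (nat_lit 4488) (nat_lit 2976) (nat_lit 2248)))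
 (.l (.k2_5 (nat_lit 8) (nat_lit 4438) (nat_lit 4440) (nat_lit 4432) (nat_lit 4420) (nat_lit 4492) (nat_lit 2980) (nat_lit 2252)))))
 (.n (nat_lit 4440)
 (.l (.k2_6 (nat_lit 7) (nat_lit 4440) (nat_lit 4438) (nat_lit 4434) (nat_lit 4446) (nat_lit 4422) (nat_lit 4494) (nat_lit 2982) (nat_lit 2254)))
 (.n (nat_lit 4446)
 (.l (.k2_3 (nat_lit 8) (nat_lit 4446) (nat_lit 4440) (nat_lit 4500) (nat_lit 2988) (nat_lit 2260)))
 (.l (.k0_5 (nat_lit 10) (nat_lit 4460) (nat_lit 4462) (nat_lit 4466) (nat_lit 4406) (nat_lit 4622) (nat_lit 3002))))))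
 (.n (nat_lit 4468)
 (.n (nat_lit 4462)
 (.l (.k2_5 (nat_lit 8) (nat_lit 4462) (nat_lit 4460) (nat_lit 4468) (nat_lit 4408) (nat_lit 4624) (nat_lit 3004) (nat_lit 2276)))
 (.n (nat_lit 4466)
 (.l (.k0_6 (nat_lit 8) (nat_lit 4466) (nat_lit 4468) (nat_lit 4460) (nat_lit 4484) (nat_lit 4412) (nat_lit 4628) (nat_lit 3008)))
 (.l (.k2_8 (nat_lit 8) (nat_lit 4468) (nat_lit 4466) (nat_lit 4470) (nat_lit 4462) (nat_lit 4474) (nat_lit 4486) (nat_lit 4414) (nat_lit 4630) (nat_lit 3010) (nat_lit 2282)))))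
 (.n (nat_lit 4470)
 (.l (.k2_6 (nat_lit 6) (nat_lit 4470) (nat_lit 4468) (nat_lit 4476) (nat_lit 4488) (nat_lit 4416) (nat_lit 4632) (nat_lit 3012) (nat_lit 2284)))
 (.n (nat_lit 4474)
 (.l (.k2_6 (nat_lit 6) (nat_lit 4474) (nat_lit 4476) (nat_lit 4468) (nat_lit 4492) (nat_lit 4420) (nat_lit 4636) (nat_lit 3016) (nat_lit 2288)))
 (.l (.k2_6 (nat_lit 6) (nat_lit 4476) (nat_lit 4474) (nat_lit 4470) (nat_lit 4494) (nat_lit 4422) (nat_lit 4638) (nat_lit 3018) (nat_lit 2290)))))))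
 (.n (nat_lit 4500)
 (.n (nat_lit 4488)
 (.n (nat_lit 4484)
 (.l (.k0_6 (nat_lit 9) (nat_lit 4484) (nat_lit 4486) (nat_lit 4466) (nat_lit 4430) (nat_lit 4538) (nat_lit 4646) (nat_lit 3026)))
 (.n (nat_lit 4486)
 (.l (.k2_8 (nat_lit 8) (nat_lit 4486) (nat_lit 4484) (nat_lit 4488) (nat_lit 4492) (nat_lit 4468) (nat_lit 4432) (nat_lit 4540) (nat_lit 4648) (nat_lit 3028) (nat_lit 2300)))
 (.l (.k2_7 (nat_lit 5) (nat_lit 4488) (nat_lit 4486) (nat_lit 4494) (nat_lit 4470) (nat_lit 4434) (nat_lit 4542) (nat_lit 4650) (nat_lit 3030) (nat_lit 2302)))))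
 (.n (nat_lit 4492)
 (.l (.k2_8 (nat_lit 8) (nat_lit 4492) (nat_lit 4494) (nat_lit 4486) (nat_lit 4474) (nat_lit 4510) (nat_lit 4438) (nat_lit 4546) (nat_lit 4654) (nat_lit 3034) (nat_lit 2306)))
 (.n (nat_lit 4494)
 (.l (.k2_9 (nat_lit 7) (nat_lit 4494) (nat_lit 4492) (nat_lit 4488) (nat_lit 4500) (nat_lit 4476) (nat_lit 4512) (nat_lit 4440) (nat_lit 4548) (nat_lit 4656) (nat_lit 3036) (nat_lit 2308)))
 (.l (.k2_6 (nat_lit 7) (nat_lit 4500) (nat_lit 4494) (nat_lit 4518) (nat_lit 4446) (nat_lit 4554) (nat_lit 4662) (nat_lit 3042) (nat_lit 2314))))))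
 (.n (nat_lit 4518)
 (.n (nat_lit 4510)
 (.l (.k2_5 (nat_lit 8) (nat_lit 4510) (nat_lit 4512) (nat_lit 4492) (nat_lit 4564) (nat_lit 4672) (nat_lit 3052) (nat_lit 2324)))
 (.n (nat_lit 4512)
 (.l (.k2_6 (nat_lit 6) (nat_lit 4512) (nat_lit 4510) (nat_lit 4518) (nat_lit 4494) (nat_lit 4566) (nat_lit 4674) (nat_lit 3054) (nat_lit 2326)))
 (.l (.k2_5 (nat_lit 8) (nat_lit 4518) (nat_lit 4512) (nat_lit 4500) (nat_lit 4572) (nat_lit 4680) (nat_lit 3060) (nat_lit 2332)))))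
 (.n (nat_lit 4538)
 (.l (.k0_4 (nat_lit 8) (nat_lit 4538) (nat_lit 4540) (nat_lit 4484) (nat_lit 4700) (nat_lit 3080)))
 (.n (nat_lit 4540)
 (.l (.k2_6 (nat_lit 7) (nat_lit 4540) (nat_lit 4538) (nat_lit 4542) (nat_lit 4546) (nat_lit 4486) (nat_lit 4702) (nat_lit 3082) (nat_lit 2354)))
 (.l (.k2_5 (nat_lit 4) (nat_lit 4542) (nat_lit 4540) (nat_lit 4548) (nat_lit 4488) (nat_lit 4704) (nat_lit 3084) (nat_lit 2356))))))))
 (.n (nat_lit 4632)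
 (.n (nat_lit 4572)
 (.n (nat_lit 4554)
 (.n (nat_lit 4546)
 (.l (.k2_6 (nat_lit 6) (nat_lit 4546) (nat_lit 4548) (nat_lit 4540) (nat_lit 4564) (nat_lit 4492) (nat_lit 4708) (nat_lit 3088) (nat_lit 2360)))
 (.n (nat_lit 4548)
 (.l (.k2_7 (nat_lit 5) (nat_lit 4548) (nat_lit 4546) (nat_lit 4542) (nat_lit 4554) (nat_lit 4566) (nat_lit 4494) (nat_lit 4710) (nat_lit 3090) (nat_lit 2362)))
 (.l (.k2_5 (nat_lit 4) (nat_lit 4554) (nat_lit 4548) (nat_lit 4572) (nat_lit 4500) (nat_lit 4716) (nat_lit 3096) (nat_lit 2368)))))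
 (.n (nat_lit 4564)
 (.l (.k2_5 (nat_lit 8) (nat_lit 4564) (nat_lit 4566) (nat_lit 4546) (nat_lit 4510) (nat_lit 4726) (nat_lit 3106) (nat_lit 2378)))
 (.n (nat_lit 4566)
 (.l (.k2_6 (nat_lit 6) (nat_lit 4566) (nat_lit 4564) (nat_lit 4572) (nat_lit 4548) (nat_lit 4512) (nat_lit 4728) (nat_lit 3108) (nat_lit 2380)))
 (.l (.k2_6 (nat_lit 7) (nat_lit 4572) (nat_lit 4566) (nat_lit 4554) (nat_lit 4590) (nat_lit 4518) (nat_lit 4734) (nat_lit 3114) (nat_lit 2386))))))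
 (.n (nat_lit 4624)
 (.n (nat_lit 4590)
 (.l (.k2_3 (nat_lit 8) (nat_lit 4590) (nat_lit 4572) (nat_lit 4752) (nat_lit 3132) (nat_lit 2404)))
 (.n (nat_lit 4622)
 (.l (.k0_5 (nat_lit 10) (nat_lit 4622) (nat_lit 4624) (nat_lit 4628) (nat_lit 4460) (nat_lit 5108) (nat_lit 3164)))
 (.l (.k2_5 (nat_lit 8) (nat_lit 4624) (nat_lit 4622) (nat_lit 4630) (nat_lit 4462) (nat_lit 5110) (nat_lit 3166) (nat_lit 2438)))))
 (.n (nat_lit 4628)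
 (.l (.k0_6 (nat_lit 8) (nat_lit 4628) (nat_lit 4630) (nat_lit 4622) (nat_lit 4646) (nat_lit 4466) (nat_lit 5114) (nat_lit 3170)))
 (.n (nat_lit 4630)
 (.l (.k2_8 (nat_lit 8) (nat_lit 4630) (nat_lit 4628) (nat_lit 4632) (nat_lit 4624) (nat_lit 4636) (nat_lit 4648) (nat_lit 4468) (nat_lit 5116) (nat_lit 3172) (nat_lit 2444)))
 (.l (.k2_6 (nat_lit 6) (nat_lit 4632) (nat_lit 4630) (nat_lit 4638) (nat_lit 4650) (nat_lit 4470) (nat_lit 5118) (nat_lit 3174) (nat_lit 2446)))))))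
 (.n (nat_lit 4654)
 (.n (nat_lit 4646)
 (.n (nat_lit 4636)
 (.l (.k2_6 (nat_lit 6) (nat_lit 4636) (nat_lit 4638) (nat_lit 4630) (nat_lit 4654) (nat_lit 4474) (nat_lit 5122) (nat_lit 3178) (nat_lit 2450)))
 (.n (nat_lit 4638)
 (.l (.k2_6 (nat_lit 6) (nat_lit 4638) (nat_lit 4636) (nat_lit 4632) (nat_lit 4656) (nat_lit 4476) (nat_lit 5124) (nat_lit 3180) (nat_lit 2452)))
 (.l (.k0_6 (nat_lit 8) (nat_lit 4646) (nat_lit 4648) (nat_lit 4628) (nat_lit 4700) (nat_lit 4484) (nat_lit 5132) (nat_lit 3188)))))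
 (.n (nat_lit 4648)
 (.l (.k2_8 (nat_lit 7) (nat_lit 4648) (nat_lit 4646) (nat_lit 4650) (nat_lit 4654) (nat_lit 4630) (nat_lit 4702) (nat_lit 4486) (nat_lit 5134) (nat_lit 3190) (nat_lit 2462)))
 (.n (nat_lit 4650)
 (.l (.k2_7 (nat_lit 4) (nat_lit 4650) (nat_lit 4648) (nat_lit 4656) (nat_lit 4632) (nat_lit 4704) (nat_lit 4488) (nat_lit 5136) (nat_lit 3192) (nat_lit 2464)))
 (.l (.k2_8 (nat_lit 7) (nat_lit 4654) (nat_lit 4656) (nat_lit 4648) (nat_lit 4636) (nat_lit 4672) (nat_lit 4708) (nat_lit 4492) (nat_lit 5140) (nat_lit 3196) (nat_lit 2468))))))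
 (.n (nat_lit 4672)
 (.n (nat_lit 4656)
 (.l (.k2_9 (nat_lit 6) (nat_lit 4656) (nat_lit 4654) (nat_lit 4650) (nat_lit 4662) (nat_lit 4638) (nat_lit 4674) (nat_lit 4710) (nat_lit 4494) (nat_lit 5142) (nat_lit 3198) (nat_lit 2470)))
 (.n (nat_lit 4662)
 (.l (.k2_6 (nat_lit 6) (nat_lit 4662) (nat_lit 4656) (nat_lit 4680) (nat_lit 4716) (nat_lit 4500) (nat_lit 5148) (nat_lit 3204) (nat_lit 2476)))
 (.l (.k2_6 (nat_lit 6) (nat_lit 4672) (nat_lit 4674) (nat_lit 4654) (nat_lit 4726) (nat_lit 4510) (nat_lit 5158) (nat_lit 3214) (nat_lit 2486)))))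
 (.n (nat_lit 4680)
 (.n (nat_lit 4674)
 (.l (.k2_7 (nat_lit 4) (nat_lit 4674) (nat_lit 4672) (nat_lit 4680) (nat_lit 4656) (nat_lit 4728) (nat_lit 4512) (nat_lit 5160) (nat_lit 3216) (nat_lit 2488)))
 (.l (.k2_6 (nat_lit 6) (nat_lit 4680) (nat_lit 4674) (nat_lit 4662) (nat_lit 4734) (nat_lit 4518) (nat_lit 5166) (nat_lit 3222) (nat_lit 2494))))
 (.n (nat_lit 4700)
 (.l (.k0_6 (nat_lit 9) (nat_lit 4700) (nat_lit 4702) (nat_lit 4646) (nat_lit 4538) (nat_lit 4862) (nat_lit 5186) (nat_lit 3242)))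
 (.l (.k2_8 (nat_lit 8) (nat_lit 4702) (nat_lit 4700) (nat_lit 4704) (nat_lit 4708) (nat_lit 4648) (nat_lit 4540) (nat_lit 4864) (nat_lit 5188) (nat_lit 3244) (nat_lit 2516))))))))))
 (.n (nat_lit 5202)
 (.n (nat_lit 4944)
 (.n (nat_lit 4806)
 (.n (nat_lit 4728)
 (.n (nat_lit 4710)
 (.n (nat_lit 4704)
 (.l (.k2_7 (nat_lit 5) (nat_lit 4704) (nat_lit 4702) (nat_lit 4710) (nat_lit 4650) (nat_lit 4542) (nat_lit 4866) (nat_lit 5190) (nat_lit 3246) (nat_lit 2518)))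
 (.n (nat_lit 4708)
 (.l (.k2_8 (nat_lit 7) (nat_lit 4708) (nat_lit 4710) (nat_lit 4702) (nat_lit 4726) (nat_lit 4654) (nat_lit 4546) (nat_lit 4870) (nat_lit 5194) (nat_lit 3250) (nat_lit 2522)))
 (.l (.k2_9 (nat_lit 6) (nat_lit 4710) (nat_lit 4708) (nat_lit 4704) (nat_lit 4716) (nat_lit 4728) (nat_lit 4656) (nat_lit 4548) (nat_lit 4872) (nat_lit 5196) (nat_lit 3252) (nat_lit 2524)))))
 (.n (nat_lit 4716)
 (.l (.k2_7 (nat_lit 5) (nat_lit 4716) (nat_lit 4710) (nat_lit 4734) (nat_lit 4662) (nat_lit 4554) (nat_lit 4878) (nat_lit 5202) (nat_lit 3258) (nat_lit 2530)))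
 (.n (nat_lit 4726)
 (.l (.k2_8 (nat_lit 8) (nat_lit 4726) (nat_lit 4728) (nat_lit 4708) (nat_lit 4672) (nat_lit 4780) (nat_lit 4564) (nat_lit 4888) (nat_lit 5212) (nat_lit 3268) (nat_lit 2540)))
 (.l (.k2_9 (nat_lit 6) (nat_lit 4728) (nat_lit 4726) (nat_lit 4734) (nat_lit 4710) (nat_lit 4674) (nat_lit 4782) (nat_lit 4566) (nat_lit 4890) (nat_lit 5214) (nat_lit 3270) (nat_lit 2542))))))
 (.n (nat_lit 4780)
 (.n (nat_lit 4734)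
 (.l (.k2_9 (nat_lit 7) (nat_lit 4734) (nat_lit 4728) (nat_lit 4716) (nat_lit 4752) (nat_lit 4680) (nat_lit 4788) (nat_lit 4572) (nat_lit 4896) (nat_lit 5220) (nat_lit 3276) (nat_lit 2548)))
 (.n (nat_lit 4752)
 (.l (.k2_6 (nat_lit 7) (nat_lit 4752) (nat_lit 4734) (nat_lit 4806) (nat_lit 4590) (nat_lit 4914) (nat_lit 5238) (nat_lit 3294) (nat_lit 2566)))
 (.l (.k2_5 (nat_lit 8) (nat_lit 4780) (nat_lit 4782) (nat_lit 4726) (nat_lit 4942) (nat_lit 5266) (nat_lit 3322) (nat_lit 2594)))))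
 (.n (nat_lit 4782)
 (.l (.k2_6 (nat_lit 6) (nat_lit 4782) (nat_lit 4780) (nat_lit 4788) (nat_lit 4728) (nat_lit 4944) (nat_lit 5268) (nat_lit 3324) (nat_lit 2596)))
 (.n (nat_lit 4788)
 (.l (.k2_6 (nat_lit 6) (nat_lit 4788) (nat_lit 4782) (nat_lit 4806) (nat_lit 4734) (nat_lit 4950) (nat_lit 5274) (nat_lit 3330) (nat_lit 2602)))
 (.l (.k2_5 (nat_lit 8) (nat_lit 4806) (nat_lit 4788) (nat_lit 4752) (nat_lit 4968) (nat_lit 5292) (nat_lit 3348) (nat_lit 2620)))))))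
 (.n (nat_lit 4878)
 (.n (nat_lit 4866)
 (.n (nat_lit 4862)
 (.l (.k0_4 (nat_lit 8) (nat_lit 4862) (nat_lit 4864) (nat_lit 4700) (nat_lit 5348) (nat_lit 3404)))
 (.n (nat_lit 4864)
 (.l (.k2_6 (nat_lit 7) (nat_lit 4864) (nat_lit 4862) (nat_lit 4866) (nat_lit 4870) (nat_lit 4702) (nat_lit 5350) (nat_lit 3406) (nat_lit 2678)))
 (.l (.k2_5 (nat_lit 4) (nat_lit 4866) (nat_lit 4864) (nat_lit 4872) (nat_lit 4704) (nat_lit 5352) (nat_lit 3408) (nat_lit 2680)))))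
 (.n (nat_lit 4870)
 (.l (.k2_6 (nat_lit 6) (nat_lit 4870) (nat_lit 4872) (nat_lit 4864) (nat_lit 4888) (nat_lit 4708) (nat_lit 5356) (nat_lit 3412) (nat_lit 2684)))
 (.n (nat_lit 4872)
 (.l (.k2_7 (nat_lit 5) (nat_lit 4872) (nat_lit 4870) (nat_lit 4866) (nat_lit 4878) (nat_lit 4890) (nat_lit 4710) (nat_lit 5358) (nat_lit 3414) (nat_lit 2686)))
 (.l (.k2_5 (nat_lit 4) (nat_lit 4878) (nat_lit 4872) (nat_lit 4896) (nat_lit 4716) (nat_lit 5364) (nat_lit 3420) (nat_lit 2692))))))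
 (.n (nat_lit 4896)
 (.n (nat_lit 4888)
 (.l (.k2_6 (nat_lit 6) (nat_lit 4888) (nat_lit 4890) (nat_lit 4870) (nat_lit 4942) (nat_lit 4726) (nat_lit 5374) (nat_lit 3430) (nat_lit 2702)))
 (.n (nat_lit 4890)
 (.l (.k2_7 (nat_lit 4) (nat_lit 4890) (nat_lit 4888) (nat_lit 4896) (nat_lit 4872) (nat_lit 4944) (nat_lit 4728) (nat_lit 5376) (nat_lit 3432) (nat_lit 2704)))
 (.l (.k2_7 (nat_lit 5) (nat_lit 4896) (nat_lit 4890) (nat_lit 4878) (nat_lit 4914) (nat_lit 4950) (nat_lit 4734) (nat_lit 5382) (nat_lit 3438) (nat_lit 2710)))))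
 (.n (nat_lit 4914)
 (.l (.k2_5 (nat_lit 4) (nat_lit 4914) (nat_lit 4896) (nat_lit 4968) (nat_lit 4752) (nat_lit 5400) (nat_lit 3456) (nat_lit 2728)))
 (.n (nat_lit 4942)
 (.l (.k2_5 (nat_lit 8) (nat_lit 4942) (nat_lit 4944) (nat_lit 4888) (nat_lit 4780) (nat_lit 5428) (nat_lit 3484) (nat_lit 2756)))
 (.l (.k2_6 (nat_lit 6) (nat_lit 4944) (nat_lit 4942) (nat_lit 4950) (nat_lit 4890) (nat_lit 4782) (nat_lit 5430) (nat_lit 3486) (nat_lit 2758))))))))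
 (.n (nat_lit 5134)
 (.n (nat_lit 5114)
 (.n (nat_lit 5022)
 (.n (nat_lit 4950)
 (.l (.k2_6 (nat_lit 6) (nat_lit 4950) (nat_lit 4944) (nat_lit 4968) (nat_lit 4896) (nat_lit 4788) (nat_lit 5436) (nat_lit 3492) (nat_lit 2764)))
 (.n (nat_lit 4968)
 (.l (.k2_6 (nat_lit 7) (nat_lit 4968) (nat_lit 4950) (nat_lit 4914) (nat_lit 5022) (nat_lit 4806) (nat_lit 5454) (nat_lit 3510) (nat_lit 2782)))
 (.l (.k2_3 (nat_lit 8) (nat_lit 5022) (nat_lit 4968) (nat_lit 5508) (nat_lit 3564) (nat_lit 2836)))))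
 (.n (nat_lit 5108)
 (.l (.k0_4 (nat_lit 12) (nat_lit 5108) (nat_lit 5110) (nat_lit 5114) (nat_lit 4622) (nat_lit 3650)))
 (.n (nat_lit 5110)
 (.l (.k2_4 (nat_lit 10) (nat_lit 5110) (nat_lit 5108) (nat_lit 5116) (nat_lit 4624) (nat_lit 3652) (nat_lit 2924)))
 (.l (.k0_5 (nat_lit 10) (nat_lit 5114) (nat_lit 5116) (nat_lit 5108) (nat_lit 5132) (nat_lit 4628) (nat_lit 3656))))))
 (.n (nat_lit 5122)
 (.n (nat_lit 5116)
 (.l (.k2_7 (nat_lit 10) (nat_lit 5116) (nat_lit 5114) (nat_lit 5118) (nat_lit 5110) (nat_lit 5122) (nat_lit 5134) (nat_lit 4630) (nat_lit 3658) (nat_lit 2930)))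
 (.n (nat_lit 5118)
 (.l (.k2_5 (nat_lit 8) (nat_lit 5118) (nat_lit 5116) (nat_lit 5124) (nat_lit 5136) (nat_lit 4632) (nat_lit 3660) (nat_lit 2932)))
 (.l (.k2_5 (nat_lit 8) (nat_lit 5122) (nat_lit 5124) (nat_lit 5116) (nat_lit 5140) (nat_lit 4636) (nat_lit 3664) (nat_lit 2936)))))
 (.n (nat_lit 5124)
 (.l (.k2_5 (nat_lit 8) (nat_lit 5124) (nat_lit 5122) (nat_lit 5118) (nat_lit 5142) (nat_lit 4638) (nat_lit 3666) (nat_lit 2938)))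
 (.n (nat_lit 5132)
 (.l (.k0_5 (nat_lit 10) (nat_lit 5132) (nat_lit 5134) (nat_lit 5114) (nat_lit 5186) (nat_lit 4646) (nat_lit 3674)))
 (.l (.k2_7 (nat_lit 9) (nat_lit 5134) (nat_lit 5132) (nat_lit 5136) (nat_lit 5140) (nat_lit 5116) (nat_lit 5188) (nat_lit 4648) (nat_lit 3676) (nat_lit 2948)))))))
 (.n (nat_lit 5160)
 (.n (nat_lit 5142)
 (.n (nat_lit 5136)
 (.l (.k2_6 (nat_lit 6) (nat_lit 5136) (nat_lit 5134) (nat_lit 5142) (nat_lit 5118) (nat_lit 5190) (nat_lit 4650) (nat_lit 3678) (nat_lit 2950)))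
 (.n (nat_lit 5140)
 (.l (.k2_7 (nat_lit 9) (nat_lit 5140) (nat_lit 5142) (nat_lit 5134) (nat_lit 5122) (nat_lit 5158) (nat_lit 5194) (nat_lit 4654) (nat_lit 3682) (nat_lit 2954)))
 (.l (.k2_8 (nat_lit 8) (nat_lit 5142) (nat_lit 5140) (nat_lit 5136) (nat_lit 5148) (nat_lit 5124) (nat_lit 5160) (nat_lit 5196) (nat_lit 4656) (nat_lit 3684) (nat_lit 2956)))))
 (.n (nat_lit 5148)
 (.l (.k2_5 (nat_lit 8) (nat_lit 5148) (nat_lit 5142) (nat_lit 5166) (nat_lit 5202) (nat_lit 4662) (nat_lit 3690) (nat_lit 2962)))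
 (.n (nat_lit 5158)
 (.l (.k2_5 (nat_lit 8) (nat_lit 5158) (nat_lit 5160) (nat_lit 5140) (nat_lit 5212) (nat_lit 4672) (nat_lit 3700) (nat_lit 2972)))
 (.l (.k2_6 (nat_lit 6) (nat_lit 5160) (nat_lit 5158) (nat_lit 5166) (nat_lit 5142) (nat_lit 5214) (nat_lit 4674) (nat_lit 3702) (nat_lit 2974))))))
 (.n (nat_lit 5188)
 (.n (nat_lit 5166)
 (.l (.k2_5 (nat_lit 8) (nat_lit 5166) (nat_lit 5160) (nat_lit 5148) (nat_lit 5220) (nat_lit 4680) (nat_lit 3708) (nat_lit 2980)))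
 (.n (nat_lit 5186)
 (.l (.k0_5 (nat_lit 10) (nat_lit 5186) (nat_lit 5188) (nat_lit 5132) (nat_lit 5348) (nat_lit 4700) (nat_lit 3728)))
 (.l (.k2_7 (nat_lit 9) (nat_lit 5188) (nat_lit 5186) (nat_lit 5190) (nat_lit 5194) (nat_lit 5134) (nat_lit 5350) (nat_lit 4702) (nat_lit 3730) (nat_lit 3002)))))
 (.n (nat_lit 5194)
 (.n (nat_lit 5190)
 (.l (.k2_6 (nat_lit 6) (nat_lit 5190) (nat_lit 5188) (nat_lit 5196) (nat_lit 5136) (nat_lit 5352) (nat_lit 4704) (nat_lit 3732) (nat_lit 3004)))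
 (.l (.k2_7 (nat_lit 8) (nat_lit 5194) (nat_lit 5196) (nat_lit 5188) (nat_lit 5212) (nat_lit 5140) (nat_lit 5356) (nat_lit 4708) (nat_lit 3736) (nat_lit 3008))))
 (.n (nat_lit 5196)
 (.l (.k2_8 (nat_lit 7) (nat_lit 5196) (nat_lit 5194) (nat_lit 5190) (nat_lit 5202) (nat_lit 5214) (nat_lit 5142) (nat_lit 5358) (nat_lit 4710) (nat_lit 3738) (nat_lit 3010)))
 (.l (.k2_6 (nat_lit 6) (nat_lit 5202) (nat_lit 5196) (nat_lit 5220) (nat_lit 5148) (nat_lit 5364) (nat_lit 4716) (nat_lit 3744) (nat_lit 3016)))))))))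
 (.n (nat_lit 5590)
 (.n (nat_lit 5356)
 (.n (nat_lit 5268)
 (.n (nat_lit 5220)
 (.n (nat_lit 5212)
 (.l (.k2_7 (nat_lit 9) (nat_lit 5212) (nat_lit 5214) (nat_lit 5194) (nat_lit 5158) (nat_lit 5266) (nat_lit 5374) (nat_lit 4726) (nat_lit 3754) (nat_lit 3026)))
 (.n (nat_lit 5214)
 (.l (.k2_8 (nat_lit 7) (nat_lit 5214) (nat_lit 5212) (nat_lit 5220) (nat_lit 5196) (nat_lit 5160) (nat_lit 5268) (nat_lit 5376) (nat_lit 4728) (nat_lit 3756) (nat_lit 3028)))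
 (.l (.k2_8 (nat_lit 8) (nat_lit 5220) (nat_lit 5214) (nat_lit 5202) (nat_lit 5238) (nat_lit 5166) (nat_lit 5274) (nat_lit 5382) (nat_lit 4734) (nat_lit 3762) (nat_lit 3034)))))
 (.n (nat_lit 5238)
 (.l (.k2_5 (nat_lit 8) (nat_lit 5238) (nat_lit 5220) (nat_lit 5292) (nat_lit 5400) (nat_lit 4752) (nat_lit 3780) (nat_lit 3052)))
 (.n (nat_lit 5266)
 (.l (.k2_5 (nat_lit 8) (nat_lit 5266) (nat_lit 5268) (nat_lit 5212) (nat_lit 5428) (nat_lit 4780) (nat_lit 3808) (nat_lit 3080)))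
 (.l (.k2_6 (nat_lit 6) (nat_lit 5268) (nat_lit 5266) (nat_lit 5274) (nat_lit 5214) (nat_lit 5430) (nat_lit 4782) (nat_lit 3810) (nat_lit 3082))))))
 (.n (nat_lit 5348)
 (.n (nat_lit 5274)
 (.l (.k2_6 (nat_lit 6) (nat_lit 5274) (nat_lit 5268) (nat_lit 5292) (nat_lit 5220) (nat_lit 5436) (nat_lit 4788) (nat_lit 3816) (nat_lit 3088)))
 (.n (nat_lit 5292)
 (.l (.k2_5 (nat_lit 8) (nat_lit 5292) (nat_lit 5274) (nat_lit 5238) (nat_lit 5454) (nat_lit 4806) (nat_lit 3834) (nat_lit 3106)))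
 (.l (.k0_5 (nat_lit 11) (nat_lit 5348) (nat_lit 5350) (nat_lit 5186) (nat_lit 4862) (nat_lit 5834) (nat_lit 3890)))))
 (.n (nat_lit 5350)
 (.l (.k2_7 (nat_lit 10) (nat_lit 5350) (nat_lit 5348) (nat_lit 5352) (nat_lit 5356) (nat_lit 5188) (nat_lit 4864) (nat_lit 5836) (nat_lit 3892) (nat_lit 3164)))
 (.n (nat_lit 5352)
 (.l (.k2_6 (nat_lit 7) (nat_lit 5352) (nat_lit 5350) (nat_lit 5358) (nat_lit 5190) (nat_lit 4866) (nat_lit 5838) (nat_lit 3894) (nat_lit 3166)))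
 (.l (.k2_7 (nat_lit 9) (nat_lit 5356) (nat_lit 5358) (nat_lit 5350) (nat_lit 5374) (nat_lit 5194) (nat_lit 4870) (nat_lit 5842) (nat_lit 3898) (nat_lit 3170)))))))
 (.n (nat_lit 5400)
 (.n (nat_lit 5374)
 (.n (nat_lit 5358)
 (.l (.k2_8 (nat_lit 8) (nat_lit 5358) (nat_lit 5356) (nat_lit 5352) (nat_lit 5364) (nat_lit 5376) (nat_lit 5196) (nat_lit 4872) (nat_lit 5844) (nat_lit 3900) (nat_lit 3172)))
 (.n (nat_lit 5364)
 (.l (.k2_6 (nat_lit 7) (nat_lit 5364) (nat_lit 5358) (nat_lit 5382) (nat_lit 5202) (nat_lit 4878) (nat_lit 5850) (nat_lit 3906) (nat_lit 3178)))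
 (.l (.k2_7 (nat_lit 9) (nat_lit 5374) (nat_lit 5376) (nat_lit 5356) (nat_lit 5428) (nat_lit 5212) (nat_lit 4888) (nat_lit 5860) (nat_lit 3916) (nat_lit 3188)))))
 (.n (nat_lit 5376)
 (.l (.k2_8 (nat_lit 7) (nat_lit 5376) (nat_lit 5374) (nat_lit 5382) (nat_lit 5358) (nat_lit 5430) (nat_lit 5214) (nat_lit 4890) (nat_lit 5862) (nat_lit 3918) (nat_lit 3190)))
 (.n (nat_lit 5382)
 (.l (.k2_8 (nat_lit 8) (nat_lit 5382) (nat_lit 5376) (nat_lit 5364) (nat_lit 5400) (nat_lit 5436) (nat_lit 5220) (nat_lit 4896) (nat_lit 5868) (nat_lit 3924) (nat_lit 3196)))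
 (.l (.k2_6 (nat_lit 7) (nat_lit 5400) (nat_lit 5382) (nat_lit 5454) (nat_lit 5238) (nat_lit 4914) (nat_lit 5886) (nat_lit 3942) (nat_lit 3214))))))
 (.n (nat_lit 5436)
 (.n (nat_lit 5428)
 (.l (.k2_7 (nat_lit 10) (nat_lit 5428) (nat_lit 5430) (nat_lit 5374) (nat_lit 5266) (nat_lit 5590) (nat_lit 4942) (nat_lit 5914) (nat_lit 3970) (nat_lit 3242)))
 (.n (nat_lit 5430)
 (.l (.k2_8 (nat_lit 8) (nat_lit 5430) (nat_lit 5428) (nat_lit 5436) (nat_lit 5376) (nat_lit 5268) (nat_lit 5592) (nat_lit 4944) (nat_lit 5916) (nat_lit 3972) (nat_lit 3244)))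
 (.l (.k2_8 (nat_lit 8) (nat_lit 5436) (nat_lit 5430) (nat_lit 5454) (nat_lit 5382) (nat_lit 5274) (nat_lit 5598) (nat_lit 4950) (nat_lit 5922) (nat_lit 3978) (nat_lit 3250)))))
 (.n (nat_lit 5454)
 (.l (.k2_8 (nat_lit 9) (nat_lit 5454) (nat_lit 5436) (nat_lit 5400) (nat_lit 5508) (nat_lit 5292) (nat_lit 5616) (nat_lit 4968) (nat_lit 5940) (nat_lit 3996) (nat_lit 3268)))
 (.n (nat_lit 5508)
 (.l (.k2_5 (nat_lit 9) (nat_lit 5508) (nat_lit 5454) (nat_lit 5670) (nat_lit 5022) (nat_lit 5994) (nat_lit 4050) (nat_lit 3322)))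
 (.l (.k2_4 (nat_lit 10) (nat_lit 5590) (nat_lit 5592) (nat_lit 5428) (nat_lit 6076) (nat_lit 4132) (nat_lit 3404))))))))
 (.n (nat_lit 5862)
 (.n (nat_lit 5836)
 (.n (nat_lit 5616)
 (.n (nat_lit 5592)
 (.l (.k2_5 (nat_lit 8) (nat_lit 5592) (nat_lit 5590) (nat_lit 5598) (nat_lit 5430) (nat_lit 6078) (nat_lit 4134) (nat_lit 3406)))
 (.n (nat_lit 5598)
 (.l (.k2_5 (nat_lit 8) (nat_lit 5598) (nat_lit 5592) (nat_lit 5616) (nat_lit 5436) (nat_lit 6084) (nat_lit 4140) (nat_lit 3412)))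
 (.l (.k2_5 (nat_lit 8) (nat_lit 5616) (nat_lit 5598) (nat_lit 5670) (nat_lit 5454) (nat_lit 6102) (nat_lit 4158) (nat_lit 3430)))))
 (.n (nat_lit 5670)
 (.l (.k2_4 (nat_lit 10) (nat_lit 5670) (nat_lit 5616) (nat_lit 5508) (nat_lit 6156) (nat_lit 4212) (nat_lit 3484)))
 (.n (nat_lit 5834)
 (.l (.k0_2 (nat_lit 12) (nat_lit 5834) (nat_lit 5836) (nat_lit 5348)))
 (.l (.k2_4 (nat_lit 11) (nat_lit 5836) (nat_lit 5834) (nat_lit 5838) (nat_lit 5842) (nat_lit 5350) (nat_lit 3650))))))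
 (.n (nat_lit 5844)
 (.n (nat_lit 5838)
 (.l (.k2_3 (nat_lit 8) (nat_lit 5838) (nat_lit 5836) (nat_lit 5844) (nat_lit 5352) (nat_lit 3652)))
 (.n (nat_lit 5842)
 (.l (.k2_4 (nat_lit 10) (nat_lit 5842) (nat_lit 5844) (nat_lit 5836) (nat_lit 5860) (nat_lit 5356) (nat_lit 3656)))
 (.l (.k2_5 (nat_lit 9) (nat_lit 5844) (nat_lit 5842) (nat_lit 5838) (nat_lit 5850) (nat_lit 5862) (nat_lit 5358) (nat_lit 3658)))))
 (.n (nat_lit 5850)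
 (.l (.k2_3 (nat_lit 8) (nat_lit 5850) (nat_lit 5844) (nat_lit 5868) (nat_lit 5364) (nat_lit 3664)))
 (.n (nat_lit 5860)
 (.l (.k2_4 (nat_lit 10) (nat_lit 5860) (nat_lit 5862) (nat_lit 5842) (nat_lit 5914) (nat_lit 5374) (nat_lit 3674)))
 (.l (.k2_5 (nat_lit 8) (nat_lit 5862) (nat_lit 5860) (nat_lit 5868) (nat_lit 5844) (nat_lit 5916) (nat_lit 5376) (nat_lit 3676)))))))
 (.n (nat_lit 5940)
 (.n (nat_lit 5914)
 (.n (nat_lit 5868)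
 (.l (.k2_5 (nat_lit 9) (nat_lit 5868) (nat_lit 5862) (nat_lit 5850) (nat_lit 5886) (nat_lit 5922) (nat_lit 5382) (nat_lit 3682)))
 (.n (nat_lit 5886)
 (.l (.k2_3 (nat_lit 8) (nat_lit 5886) (nat_lit 5868) (nat_lit 5940) (nat_lit 5400) (nat_lit 3700)))
 (.l (.k2_4 (nat_lit 10) (nat_lit 5914) (nat_lit 5916) (nat_lit 5860) (nat_lit 6076) (nat_lit 5428) (nat_lit 3728)))))
 (.n (nat_lit 5916)
 (.l (.k2_5 (nat_lit 8) (nat_lit 5916) (nat_lit 5914) (nat_lit 5922) (nat_lit 5862) (nat_lit 6078) (nat_lit 5430) (nat_lit 3730)))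
 (.n (nat_lit 5922)
 (.l (.k2_5 (nat_lit 8) (nat_lit 5922) (nat_lit 5916) (nat_lit 5940) (nat_lit 5868) (nat_lit 6084) (nat_lit 5436) (nat_lit 3736)))
 (.l (.k2_5 (nat_lit 9) (nat_lit 5940) (nat_lit 5922) (nat_lit 5886) (nat_lit 5994) (nat_lit 6102) (nat_lit 5454) (nat_lit 3754))))))
 (.n (nat_lit 6078)
 (.n (nat_lit 5994)
 (.l (.k2_3 (nat_lit 8) (nat_lit 5994) (nat_lit 5940) (nat_lit 6156) (nat_lit 5508) (nat_lit 3808)))
 (.n (nat_lit 6076)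
 (.l (.k2_3 (nat_lit 12) (nat_lit 6076) (nat_lit 6078) (nat_lit 5914) (nat_lit 5590) (nat_lit 3890)))
 (.l (.k2_4 (nat_lit 10) (nat_lit 6078) (nat_lit 6076) (nat_lit 6084) (nat_lit 5916) (nat_lit 5592) (nat_lit 3892)))))
 (.n (nat_lit 6102)
 (.n (nat_lit 6084)
 (.l (.k2_4 (nat_lit 10) (nat_lit 6084) (nat_lit 6078) (nat_lit 6102) (nat_lit 5922) (nat_lit 5598) (nat_lit 3898)))
 (.l (.k2_4 (nat_lit 10) (nat_lit 6102) (nat_lit 6084) (nat_lit 6156) (nat_lit 5940) (nat_lit 5616) (nat_lit 3916))))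
 (.n (nat_lit 6156)
 (.l (.k2_4 (nat_lit 11) (nat_lit 6156) (nat_lit 6102) (nat_lit 5994) (nat_lit 6318) (nat_lit 5670) (nat_lit 3970)))
 (.l (.k2_1 (nat_lit 12) (nat_lit 6318) (nat_lit 6156) (nat_lit 4132)))))))))))))

def tab4_5 : Trie :=
 (.n (nat_lit 1719)
 (.n (nat_lit 675)
 (.n (nat_lit 289)
 (.n (nat_lit 139)
 (.n (nat_lit 73)
 (.n (nat_lit 47)
 (.n (nat_lit 25)
 (.n (nat_lit 17)
 (.l (.k1_2 (nat_lit 12) (nat_lit 17) (nat_lit 23) (nat_lit 35) (nat_lit 2203)))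
 (.n (nat_lit 23)
 (.l (.k1_3 (nat_lit 10) (nat_lit 23) (nat_lit 25) (nat_lit 17) (nat_lit 41) (nat_lit 2209)))
 (.l (.k1_2 (nat_lit 12) (nat_lit 25) (nat_lit 23) (nat_lit 43) (nat_lit 2211)))))
 (.n (nat_lit 41)
 (.n (nat_lit 35)
 (.l (.k1_3 (nat_lit 10) (nat_lit 35) (nat_lit 41) (nat_lit 17) (nat_lit 89) (nat_lit 2221)))
 (.l (.k1_6 (nat_lit 10) (nat_lit 41) (nat_lit 43) (nat_lit 35) (nat_lit 47) (nat_lit 23) (nat_lit 59) (nat_lit 95) (nat_lit 2227))))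
 (.n (nat_lit 43)
 (.l (.k1_5 (nat_lit 11) (nat_lit 43) (nat_lit 41) (nat_lit 49) (nat_lit 25) (nat_lit 61) (nat_lit 97) (nat_lit 2229)))
 (.l (.k1_4 (nat_lit 8) (nat_lit 47) (nat_lit 49) (nat_lit 41) (nat_lit 65) (nat_lit 101) (nat_lit 2233))))))
 (.n (nat_lit 61)
 (.n (nat_lit 51)
 (.n (nat_lit 49)
 (.l (.k1_5 (nat_lit 11) (nat_lit 49) (nat_lit 47) (nat_lit 51) (nat_lit 43) (nat_lit 67) (nat_lit 103) (nat_lit 2235)))
 (.l (.k0_3 (nat_lit 12) (nat_lit 51) (nat_lit 49) (nat_lit 69) (nat_lit 105))))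
 (.n (nat_lit 59)
 (.l (.k1_4 (nat_lit 8) (nat_lit 59) (nat_lit 61) (nat_lit 65) (nat_lit 41) (nat_lit 113) (nat_lit 2245)))
 (.l (.k1_4 (nat_lit 8) (nat_lit 61) (nat_lit 59) (nat_lit 67) (nat_lit 43) (nat_lit 115) (nat_lit 2247)))))
 (.n (nat_lit 67)
 (.n (nat_lit 65)
 (.l (.k1_4 (nat_lit 8) (nat_lit 65) (nat_lit 67) (nat_lit 59) (nat_lit 47) (nat_lit 119) (nat_lit 2251)))
 (.l (.k1_6 (nat_lit 10) (nat_lit 67) (nat_lit 65) (nat_lit 69) (nat_lit 61) (nat_lit 73) (nat_lit 49) (nat_lit 121) (nat_lit 2253))))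
 (.n (nat_lit 69)
 (.l (.k0_4 (nat_lit 10) (nat_lit 69) (nat_lit 67) (nat_lit 75) (nat_lit 51) (nat_lit 123)))
 (.l (.k1_3 (nat_lit 10) (nat_lit 73) (nat_lit 75) (nat_lit 67) (nat_lit 127) (nat_lit 2259)))))))
 (.n (nat_lit 113)
 (.n (nat_lit 97)
 (.n (nat_lit 89)
 (.n (nat_lit 75)
 (.l (.k0_3 (nat_lit 12) (nat_lit 75) (nat_lit 73) (nat_lit 69) (nat_lit 129)))
 (.l (.k1_3 (nat_lit 10) (nat_lit 89) (nat_lit 95) (nat_lit 35) (nat_lit 251) (nat_lit 2275))))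
 (.n (nat_lit 95)
 (.l (.k1_6 (nat_lit 9) (nat_lit 95) (nat_lit 97) (nat_lit 89) (nat_lit 101) (nat_lit 113) (nat_lit 41) (nat_lit 257) (nat_lit 2281)))
 (.l (.k1_5 (nat_lit 10) (nat_lit 97) (nat_lit 95) (nat_lit 103) (nat_lit 115) (nat_lit 43) (nat_lit 259) (nat_lit 2283)))))
 (.n (nat_lit 103)
 (.n (nat_lit 101)
 (.l (.k1_5 (nat_lit 6) (nat_lit 101) (nat_lit 103) (nat_lit 95) (nat_lit 119) (nat_lit 47) (nat_lit 263) (nat_lit 2287)))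
 (.l (.k1_6 (nat_lit 9) (nat_lit 103) (nat_lit 101) (nat_lit 105) (nat_lit 97) (nat_lit 121) (nat_lit 49) (nat_lit 265) (nat_lit 2289))))
 (.n (nat_lit 105)
 (.l (.k0_4 (nat_lit 10) (nat_lit 105) (nat_lit 103) (nat_lit 123) (nat_lit 51) (nat_lit 267)))
 (.l (.k1_6 (nat_lit 9) (nat_lit 113) (nat_lit 115) (nat_lit 119) (nat_lit 95) (nat_lit 59) (nat_lit 167) (nat_lit 275) (nat_lit 2299))))))
 (.n (nat_lit 123)
 (.n (nat_lit 119)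
 (.n (nat_lit 115)
 (.l (.k1_6 (nat_lit 9) (nat_lit 115) (nat_lit 113) (nat_lit 121) (nat_lit 97) (nat_lit 61) (nat_lit 169) (nat_lit 277) (nat_lit 2301)))
 (.l (.k1_7 (nat_lit 8) (nat_lit 119) (nat_lit 121) (nat_lit 113) (nat_lit 101) (nat_lit 137) (nat_lit 65) (nat_lit 173) (nat_lit 281) (nat_lit 2305))))
 (.n (nat_lit 121)
 (.l (.k1_9 (nat_lit 10) (nat_lit 121) (nat_lit 119) (nat_lit 123) (nat_lit 115) (nat_lit 127) (nat_lit 103) (nat_lit 139) (nat_lit 67) (nat_lit 175) (nat_lit 283) (nat_lit 2307)))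
 (.l (.k0_7 (nat_lit 10) (nat_lit 123) (nat_lit 121) (nat_lit 129) (nat_lit 105) (nat_lit 141) (nat_lit 69) (nat_lit 177) (nat_lit 285)))))
 (.n (nat_lit 129)
 (.n (nat_lit 127)
 (.l (.k1_6 (nat_lit 9) (nat_lit 127) (nat_lit 129) (nat_lit 121) (nat_lit 145) (nat_lit 73) (nat_lit 181) (nat_lit 289) (nat_lit 2313)))
 (.l (.k0_6 (nat_lit 11) (nat_lit 129) (nat_lit 127) (nat_lit 123) (nat_lit 147) (nat_lit 75) (nat_lit 183) (nat_lit 291))))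
 (.n (nat_lit 137)
 (.l (.k1_4 (nat_lit 8) (nat_lit 137) (nat_lit 139) (nat_lit 119) (nat_lit 191) (nat_lit 299) (nat_lit 2323)))
 (.l (.k1_6 (nat_lit 9) (nat_lit 139) (nat_lit 137) (nat_lit 141) (nat_lit 145) (nat_lit 121) (nat_lit 193) (nat_lit 301) (nat_lit 2325))))))))
 (.n (nat_lit 201)
 (.n (nat_lit 175)
 (.n (nat_lit 153)
 (.n (nat_lit 145)
 (.n (nat_lit 141)
 (.l (.k0_5 (nat_lit 8) (nat_lit 141) (nat_lit 139) (nat_lit 147) (nat_lit 123) (nat_lit 195) (nat_lit 303)))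
 (.l (.k1_5 (nat_lit 10) (nat_lit 145) (nat_lit 147) (nat_lit 139) (nat_lit 127) (nat_lit 199) (nat_lit 307) (nat_lit 2331))))
 (.n (nat_lit 147)
 (.l (.k0_6 (nat_lit 11) (nat_lit 147) (nat_lit 145) (nat_lit 141) (nat_lit 153) (nat_lit 129) (nat_lit 201) (nat_lit 309)))
 (.l (.k0_3 (nat_lit 12) (nat_lit 153) (nat_lit 147) (nat_lit 207) (nat_lit 315)))))
 (.n (nat_lit 169)
 (.n (nat_lit 167)
 (.l (.k1_4 (nat_lit 8) (nat_lit 167) (nat_lit 169) (nat_lit 173) (nat_lit 113) (nat_lit 329) (nat_lit 2353)))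
 (.l (.k1_4 (nat_lit 8) (nat_lit 169) (nat_lit 167) (nat_lit 175) (nat_lit 115) (nat_lit 331) (nat_lit 2355))))
 (.n (nat_lit 173)
 (.l (.k1_5 (nat_lit 6) (nat_lit 173) (nat_lit 175) (nat_lit 167) (nat_lit 191) (nat_lit 119) (nat_lit 335) (nat_lit 2359)))
 (.l (.k1_7 (nat_lit 8) (nat_lit 175) (nat_lit 173) (nat_lit 177) (nat_lit 169) (nat_lit 181) (nat_lit 193) (nat_lit 121) (nat_lit 337) (nat_lit 2361))))))
 (.n (nat_lit 191)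
 (.n (nat_lit 181)
 (.n (nat_lit 177)
 (.l (.k0_5 (nat_lit 8) (nat_lit 177) (nat_lit 175) (nat_lit 183) (nat_lit 195) (nat_lit 123) (nat_lit 339)))
 (.l (.k1_5 (nat_lit 6) (nat_lit 181) (nat_lit 183) (nat_lit 175) (nat_lit 199) (nat_lit 127) (nat_lit 343) (nat_lit 2367))))
 (.n (nat_lit 183)
 (.l (.k0_5 (nat_lit 8) (nat_lit 183) (nat_lit 181) (nat_lit 177) (nat_lit 201) (nat_lit 129) (nat_lit 345)))
 (.l (.k1_4 (nat_lit 8) (nat_lit 191) (nat_lit 193) (nat_lit 173) (nat_lit 137) (nat_lit 353) (nat_lit 2377)))))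
 (.n (nat_lit 195)
 (.n (nat_lit 193)
 (.l (.k1_6 (nat_lit 9) (nat_lit 193) (nat_lit 191) (nat_lit 195) (nat_lit 199) (nat_lit 175) (nat_lit 139) (nat_lit 355) (nat_lit 2379)))
 (.l (.k0_5 (nat_lit 8) (nat_lit 195) (nat_lit 193) (nat_lit 201) (nat_lit 177) (nat_lit 141) (nat_lit 357))))
 (.n (nat_lit 199)
 (.l (.k1_6 (nat_lit 9) (nat_lit 199) (nat_lit 201) (nat_lit 193) (nat_lit 181) (nat_lit 217) (nat_lit 145) (nat_lit 361) (nat_lit 2385)))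
 (.l (.k0_7 (nat_lit 10) (nat_lit 201) (nat_lit 199) (nat_lit 195) (nat_lit 207) (nat_lit 183) (nat_lit 219) (nat_lit 147) (nat_lit 363)))))))
 (.n (nat_lit 263)
 (.n (nat_lit 225)
 (.n (nat_lit 217)
 (.n (nat_lit 207)
 (.l (.k0_4 (nat_lit 10) (nat_lit 207) (nat_lit 201) (nat_lit 225) (nat_lit 153) (nat_lit 369)))
 (.l (.k1_3 (nat_lit 10) (nat_lit 217) (nat_lit 219) (nat_lit 199) (nat_lit 379) (nat_lit 2403))))
 (.n (nat_lit 219)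
 (.l (.k0_4 (nat_lit 10) (nat_lit 219) (nat_lit 217) (nat_lit 225) (nat_lit 201) (nat_lit 381)))
 (.l (.k0_3 (nat_lit 12) (nat_lit 225) (nat_lit 219) (nat_lit 207) (nat_lit 387)))))
 (.n (nat_lit 257)
 (.n (nat_lit 251)
 (.l (.k1_3 (nat_lit 10) (nat_lit 251) (nat_lit 257) (nat_lit 89) (nat_lit 737) (nat_lit 2437)))
 (.l (.k1_6 (nat_lit 9) (nat_lit 257) (nat_lit 259) (nat_lit 251) (nat_lit 263) (nat_lit 275) (nat_lit 95) (nat_lit 743) (nat_lit 2443))))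
 (.n (nat_lit 259)
 (.l (.k1_5 (nat_lit 10) (nat_lit 259) (nat_lit 257) (nat_lit 265) (nat_lit 277) (nat_lit 97) (nat_lit 745) (nat_lit 2445)))
 (.l (.k1_5 (nat_lit 6) (nat_lit 263) (nat_lit 265) (nat_lit 257) (nat_lit 281) (nat_lit 101) (nat_lit 749) (nat_lit 2449))))))
 (.n (nat_lit 277)
 (.n (nat_lit 267)
 (.n (nat_lit 265)
 (.l (.k1_6 (nat_lit 9) (nat_lit 265) (nat_lit 263) (nat_lit 267) (nat_lit 259) (nat_lit 283) (nat_lit 103) (nat_lit 751) (nat_lit 2451)))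
 (.l (.k0_4 (nat_lit 10) (nat_lit 267) (nat_lit 265) (nat_lit 285) (nat_lit 105) (nat_lit 753))))
 (.n (nat_lit 275)
 (.l (.k1_6 (nat_lit 8) (nat_lit 275) (nat_lit 277) (nat_lit 281) (nat_lit 257) (nat_lit 329) (nat_lit 113) (nat_lit 761) (nat_lit 2461)))
 (.l (.k1_6 (nat_lit 8) (nat_lit 277) (nat_lit 275) (nat_lit 283) (nat_lit 259) (nat_lit 331) (nat_lit 115) (nat_lit 763) (nat_lit 2463)))))
 (.n (nat_lit 283)
 (.n (nat_lit 281)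
 (.l (.k1_7 (nat_lit 7) (nat_lit 281) (nat_lit 283) (nat_lit 275) (nat_lit 263) (nat_lit 299) (nat_lit 335) (nat_lit 119) (nat_lit 767) (nat_lit 2467)))
 (.l (.k1_9 (nat_lit 9) (nat_lit 283) (nat_lit 281) (nat_lit 285) (nat_lit 277) (nat_lit 289) (nat_lit 265) (nat_lit 301) (nat_lit 337) (nat_lit 121) (nat_lit 769) (nat_lit 2469))))
 (.n (nat_lit 285)
 (.l (.k0_7 (nat_lit 9) (nat_lit 285) (nat_lit 283) (nat_lit 291) (nat_lit 267) (nat_lit 303) (nat_lit 339) (nat_lit 123) (nat_lit 771)))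
 (.l (.k1_6 (nat_lit 8) (nat_lit 289) (nat_lit 291) (nat_lit 283) (nat_lit 307) (nat_lit 343) (nat_lit 127) (nat_lit 775) (nat_lit 2475)))))))))
 (.n (nat_lit 435)
 (.n (nat_lit 353)
 (.n (nat_lit 315)
 (.n (nat_lit 301)
 (.n (nat_lit 291)
 (.l (.k0_6 (nat_lit 10) (nat_lit 291) (nat_lit 289) (nat_lit 285) (nat_lit 309) (nat_lit 345) (nat_lit 129) (nat_lit 777)))
 (.n (nat_lit 299)
 (.l (.k1_5 (nat_lit 6) (nat_lit 299) (nat_lit 301) (nat_lit 281) (nat_lit 353) (nat_lit 137) (nat_lit 785) (nat_lit 2485)))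
 (.l (.k1_7 (nat_lit 7) (nat_lit 301) (nat_lit 299) (nat_lit 303) (nat_lit 307) (nat_lit 283) (nat_lit 355) (nat_lit 139) (nat_lit 787) (nat_lit 2487)))))
 (.n (nat_lit 307)
 (.n (nat_lit 303)
 (.l (.k0_6 (nat_lit 6) (nat_lit 303) (nat_lit 301) (nat_lit 309) (nat_lit 285) (nat_lit 357) (nat_lit 141) (nat_lit 789)))
 (.l (.k1_6 (nat_lit 8) (nat_lit 307) (nat_lit 309) (nat_lit 301) (nat_lit 289) (nat_lit 361) (nat_lit 145) (nat_lit 793) (nat_lit 2493))))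
 (.n (nat_lit 309)
 (.l (.k0_7 (nat_lit 9) (nat_lit 309) (nat_lit 307) (nat_lit 303) (nat_lit 315) (nat_lit 291) (nat_lit 363) (nat_lit 147) (nat_lit 795)))
 (.l (.k0_4 (nat_lit 10) (nat_lit 315) (nat_lit 309) (nat_lit 369) (nat_lit 153) (nat_lit 801))))))
 (.n (nat_lit 337)
 (.n (nat_lit 331)
 (.n (nat_lit 329)
 (.l (.k1_6 (nat_lit 9) (nat_lit 329) (nat_lit 331) (nat_lit 335) (nat_lit 275) (nat_lit 167) (nat_lit 491) (nat_lit 815) (nat_lit 2515)))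
 (.l (.k1_6 (nat_lit 9) (nat_lit 331) (nat_lit 329) (nat_lit 337) (nat_lit 277) (nat_lit 169) (nat_lit 493) (nat_lit 817) (nat_lit 2517))))
 (.n (nat_lit 335)
 (.l (.k1_7 (nat_lit 7) (nat_lit 335) (nat_lit 337) (nat_lit 329) (nat_lit 353) (nat_lit 281) (nat_lit 173) (nat_lit 497) (nat_lit 821) (nat_lit 2521)))
 (.l (.k1_9 (nat_lit 9) (nat_lit 337) (nat_lit 335) (nat_lit 339) (nat_lit 331) (nat_lit 343) (nat_lit 355) (nat_lit 283) (nat_lit 175) (nat_lit 499) (nat_lit 823) (nat_lit 2523)))))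
 (.n (nat_lit 343)
 (.n (nat_lit 339)
 (.l (.k0_7 (nat_lit 9) (nat_lit 339) (nat_lit 337) (nat_lit 345) (nat_lit 357) (nat_lit 285) (nat_lit 177) (nat_lit 501) (nat_lit 825)))
 (.l (.k1_7 (nat_lit 7) (nat_lit 343) (nat_lit 345) (nat_lit 337) (nat_lit 361) (nat_lit 289) (nat_lit 181) (nat_lit 505) (nat_lit 829) (nat_lit 2529))))
 (.n (nat_lit 345)
 (.l (.k0_7 (nat_lit 9) (nat_lit 345) (nat_lit 343) (nat_lit 339) (nat_lit 363) (nat_lit 291) (nat_lit 183) (nat_lit 507) (nat_lit 831)))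
 (.l (.k1_7 (nat_lit 8) (nat_lit 353) (nat_lit 355) (nat_lit 335) (nat_lit 299) (nat_lit 407) (nat_lit 191) (nat_lit 515) (nat_lit 839) (nat_lit 2539)))))))
 (.n (nat_lit 387)
 (.n (nat_lit 363)
 (.n (nat_lit 357)
 (.n (nat_lit 355)
 (.l (.k1_9 (nat_lit 9) (nat_lit 355) (nat_lit 353) (nat_lit 357) (nat_lit 361) (nat_lit 337) (nat_lit 301) (nat_lit 409) (nat_lit 193) (nat_lit 517) (nat_lit 841) (nat_lit 2541)))
 (.l (.k0_8 (nat_lit 8) (nat_lit 357) (nat_lit 355) (nat_lit 363) (nat_lit 339) (nat_lit 303) (nat_lit 411) (nat_lit 195) (nat_lit 519) (nat_lit 843))))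
 (.n (nat_lit 361)
 (.l (.k1_9 (nat_lit 9) (nat_lit 361) (nat_lit 363) (nat_lit 355) (nat_lit 343) (nat_lit 379) (nat_lit 307) (nat_lit 415) (nat_lit 199) (nat_lit 523) (nat_lit 847) (nat_lit 2547)))
 (.l (.k0_10 (nat_lit 10) (nat_lit 363) (nat_lit 361) (nat_lit 357) (nat_lit 369) (nat_lit 345) (nat_lit 381) (nat_lit 309) (nat_lit 417) (nat_lit 201) (nat_lit 525) (nat_lit 849)))))
 (.n (nat_lit 379)
 (.n (nat_lit 369)
 (.l (.k0_7 (nat_lit 10) (nat_lit 369) (nat_lit 363) (nat_lit 387) (nat_lit 315) (nat_lit 423) (nat_lit 207) (nat_lit 531) (nat_lit 855)))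
 (.l (.k1_6 (nat_lit 9) (nat_lit 379) (nat_lit 381) (nat_lit 361) (nat_lit 433) (nat_lit 217) (nat_lit 541) (nat_lit 865) (nat_lit 2565))))
 (.n (nat_lit 381)
 (.l (.k0_7 (nat_lit 9) (nat_lit 381) (nat_lit 379) (nat_lit 387) (nat_lit 363) (nat_lit 435) (nat_lit 219) (nat_lit 543) (nat_lit 867)))
 (.l (.k0_6 (nat_lit 11) (nat_lit 387) (nat_lit 381) (nat_lit 369) (nat_lit 441) (nat_lit 225) (nat_lit 549) (nat_lit 873))))))
 (.n (nat_lit 415)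
 (.n (nat_lit 409)
 (.n (nat_lit 407)
 (.l (.k1_4 (nat_lit 8) (nat_lit 407) (nat_lit 409) (nat_lit 353) (nat_lit 569) (nat_lit 893) (nat_lit 2593)))
 (.l (.k1_6 (nat_lit 9) (nat_lit 409) (nat_lit 407) (nat_lit 411) (nat_lit 415) (nat_lit 355) (nat_lit 571) (nat_lit 895) (nat_lit 2595))))
 (.n (nat_lit 411)
 (.l (.k0_5 (nat_lit 8) (nat_lit 411) (nat_lit 409) (nat_lit 417) (nat_lit 357) (nat_lit 573) (nat_lit 897)))
 (.l (.k1_6 (nat_lit 8) (nat_lit 415) (nat_lit 417) (nat_lit 409) (nat_lit 433) (nat_lit 361) (nat_lit 577) (nat_lit 901) (nat_lit 2601)))))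
 (.n (nat_lit 423)
 (.n (nat_lit 417)
 (.l (.k0_7 (nat_lit 9) (nat_lit 417) (nat_lit 415) (nat_lit 411) (nat_lit 423) (nat_lit 435) (nat_lit 363) (nat_lit 579) (nat_lit 903)))
 (.l (.k0_5 (nat_lit 8) (nat_lit 423) (nat_lit 417) (nat_lit 441) (nat_lit 369) (nat_lit 585) (nat_lit 909))))
 (.n (nat_lit 433)
 (.l (.k1_5 (nat_lit 10) (nat_lit 433) (nat_lit 435) (nat_lit 415) (nat_lit 379) (nat_lit 595) (nat_lit 919) (nat_lit 2619)))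
 (.l (.k0_6 (nat_lit 10) (nat_lit 435) (nat_lit 433) (nat_lit 441) (nat_lit 417) (nat_lit 381) (nat_lit 597) (nat_lit 921))))))))
 (.n (nat_lit 541)
 (.n (nat_lit 505)
 (.n (nat_lit 493)
 (.n (nat_lit 459)
 (.n (nat_lit 441)
 (.l (.k0_6 (nat_lit 11) (nat_lit 441) (nat_lit 435) (nat_lit 423) (nat_lit 459) (nat_lit 387) (nat_lit 603) (nat_lit 927)))
 (.l (.k0_3 (nat_lit 12) (nat_lit 459) (nat_lit 441) (nat_lit 621) (nat_lit 945))))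
 (.n (nat_lit 491)
 (.l (.k1_4 (nat_lit 8) (nat_lit 491) (nat_lit 493) (nat_lit 497) (nat_lit 329) (nat_lit 977) (nat_lit 2677)))
 (.l (.k1_4 (nat_lit 8) (nat_lit 493) (nat_lit 491) (nat_lit 499) (nat_lit 331) (nat_lit 979) (nat_lit 2679)))))
 (.n (nat_lit 499)
 (.n (nat_lit 497)
 (.l (.k1_5 (nat_lit 6) (nat_lit 497) (nat_lit 499) (nat_lit 491) (nat_lit 515) (nat_lit 335) (nat_lit 983) (nat_lit 2683)))
 (.l (.k1_7 (nat_lit 8) (nat_lit 499) (nat_lit 497) (nat_lit 501) (nat_lit 493) (nat_lit 505) (nat_lit 517) (nat_lit 337) (nat_lit 985) (nat_lit 2685))))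
 (.n (nat_lit 501)
 (.l (.k0_5 (nat_lit 8) (nat_lit 501) (nat_lit 499) (nat_lit 507) (nat_lit 519) (nat_lit 339) (nat_lit 987)))
 (.l (.k1_5 (nat_lit 6) (nat_lit 505) (nat_lit 507) (nat_lit 499) (nat_lit 523) (nat_lit 343) (nat_lit 991) (nat_lit 2691))))))
 (.n (nat_lit 519)
 (.n (nat_lit 515)
 (.n (nat_lit 507)
 (.l (.k0_5 (nat_lit 8) (nat_lit 507) (nat_lit 505) (nat_lit 501) (nat_lit 525) (nat_lit 345) (nat_lit 993)))
 (.l (.k1_5 (nat_lit 6) (nat_lit 515) (nat_lit 517) (nat_lit 497) (nat_lit 569) (nat_lit 353) (nat_lit 1001) (nat_lit 2701))))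
 (.n (nat_lit 517)
 (.l (.k1_7 (nat_lit 7) (nat_lit 517) (nat_lit 515) (nat_lit 519) (nat_lit 523) (nat_lit 499) (nat_lit 571) (nat_lit 355) (nat_lit 1003) (nat_lit 2703)))
 (.l (.k0_6 (nat_lit 6) (nat_lit 519) (nat_lit 517) (nat_lit 525) (nat_lit 501) (nat_lit 573) (nat_lit 357) (nat_lit 1005)))))
 (.n (nat_lit 525)
 (.n (nat_lit 523)
 (.l (.k1_7 (nat_lit 7) (nat_lit 523) (nat_lit 525) (nat_lit 517) (nat_lit 505) (nat_lit 541) (nat_lit 577) (nat_lit 361) (nat_lit 1009) (nat_lit 2709)))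
 (.l (.k0_8 (nat_lit 8) (nat_lit 525) (nat_lit 523) (nat_lit 519) (nat_lit 531) (nat_lit 507) (nat_lit 543) (nat_lit 579) (nat_lit 363) (nat_lit 1011))))
 (.n (nat_lit 531)
 (.l (.k0_5 (nat_lit 8) (nat_lit 531) (nat_lit 525) (nat_lit 549) (nat_lit 585) (nat_lit 369) (nat_lit 1017)))
 (.l (.k1_5 (nat_lit 6) (nat_lit 541) (nat_lit 543) (nat_lit 523) (nat_lit 595) (nat_lit 379) (nat_lit 1027) (nat_lit 2727)))))))
 (.n (nat_lit 585)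
 (.n (nat_lit 571)
 (.n (nat_lit 549)
 (.n (nat_lit 543)
 (.l (.k0_6 (nat_lit 6) (nat_lit 543) (nat_lit 541) (nat_lit 549) (nat_lit 525) (nat_lit 597) (nat_lit 381) (nat_lit 1029)))
 (.l (.k0_5 (nat_lit 8) (nat_lit 549) (nat_lit 543) (nat_lit 531) (nat_lit 603) (nat_lit 387) (nat_lit 1035))))
 (.n (nat_lit 569)
 (.l (.k1_4 (nat_lit 8) (nat_lit 569) (nat_lit 571) (nat_lit 515) (nat_lit 407) (nat_lit 1055) (nat_lit 2755)))
 (.l (.k1_6 (nat_lit 9) (nat_lit 571) (nat_lit 569) (nat_lit 573) (nat_lit 577) (nat_lit 517) (nat_lit 409) (nat_lit 1057) (nat_lit 2757)))))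
 (.n (nat_lit 577)
 (.n (nat_lit 573)
 (.l (.k0_5 (nat_lit 8) (nat_lit 573) (nat_lit 571) (nat_lit 579) (nat_lit 519) (nat_lit 411) (nat_lit 1059)))
 (.l (.k1_6 (nat_lit 8) (nat_lit 577) (nat_lit 579) (nat_lit 571) (nat_lit 595) (nat_lit 523) (nat_lit 415) (nat_lit 1063) (nat_lit 2763))))
 (.n (nat_lit 579)
 (.l (.k0_7 (nat_lit 9) (nat_lit 579) (nat_lit 577) (nat_lit 573) (nat_lit 585) (nat_lit 597) (nat_lit 525) (nat_lit 417) (nat_lit 1065)))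
 (.l (.k0_5 (nat_lit 8) (nat_lit 585) (nat_lit 579) (nat_lit 603) (nat_lit 531) (nat_lit 423) (nat_lit 1071))))))
 (.n (nat_lit 621)
 (.n (nat_lit 597)
 (.n (nat_lit 595)
 (.l (.k1_6 (nat_lit 9) (nat_lit 595) (nat_lit 597) (nat_lit 577) (nat_lit 541) (nat_lit 649) (nat_lit 433) (nat_lit 1081) (nat_lit 2781)))
 (.l (.k0_7 (nat_lit 9) (nat_lit 597) (nat_lit 595) (nat_lit 603) (nat_lit 579) (nat_lit 543) (nat_lit 651) (nat_lit 435) (nat_lit 1083))))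
 (.n (nat_lit 603)
 (.l (.k0_7 (nat_lit 10) (nat_lit 603) (nat_lit 597) (nat_lit 585) (nat_lit 621) (nat_lit 549) (nat_lit 657) (nat_lit 441) (nat_lit 1089)))
 (.l (.k0_4 (nat_lit 10) (nat_lit 621) (nat_lit 603) (nat_lit 675) (nat_lit 459) (nat_lit 1107)))))
 (.n (nat_lit 651)
 (.n (nat_lit 649)
 (.l (.k1_3 (nat_lit 10) (nat_lit 649) (nat_lit 651) (nat_lit 595) (nat_lit 1135) (nat_lit 2835)))
 (.l (.k0_4 (nat_lit 10) (nat_lit 651) (nat_lit 649) (nat_lit 657) (nat_lit 597) (nat_lit 1137))))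
 (.n (nat_lit 657)
 (.l (.k0_4 (nat_lit 10) (nat_lit 657) (nat_lit 651) (nat_lit 675) (nat_lit 603) (nat_lit 1143)))
 (.l (.k0_3 (nat_lit 12) (nat_lit 675) (nat_lit 657) (nat_lit 621) (nat_lit 1161))))))))))
 (.n (nat_lit 1057)
 (.n (nat_lit 849)
 (.n (nat_lit 787)
 (.n (nat_lit 761)
 (.n (nat_lit 745)
 (.n (nat_lit 737)
 (.l (.k1_3 (nat_lit 10) (nat_lit 737) (nat_lit 743) (nat_lit 251) (nat_lit 2195) (nat_lit 2923)))
 (.n (nat_lit 743)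
 (.l (.k1_6 (nat_lit 9) (nat_lit 743) (nat_lit 745) (nat_lit 737) (nat_lit 749) (nat_lit 761) (nat_lit 257) (nat_lit 2201) (nat_lit 2929)))
 (.l (.k1_5 (nat_lit 10) (nat_lit 745) (nat_lit 743) (nat_lit 751) (nat_lit 763) (nat_lit 259) (nat_lit 2203) (nat_lit 2931)))))
 (.n (nat_lit 751)
 (.n (nat_lit 749)
 (.l (.k1_5 (nat_lit 6) (nat_lit 749) (nat_lit 751) (nat_lit 743) (nat_lit 767) (nat_lit 263) (nat_lit 2207) (nat_lit 2935)))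
 (.l (.k1_6 (nat_lit 9) (nat_lit 751) (nat_lit 749) (nat_lit 753) (nat_lit 745) (nat_lit 769) (nat_lit 265) (nat_lit 2209) (nat_lit 2937))))
 (.n (nat_lit 753)
 (.l (.k0_4 (nat_lit 10) (nat_lit 753) (nat_lit 751) (nat_lit 771) (nat_lit 267) (nat_lit 2211)))
 (.l (.k1_6 (nat_lit 8) (nat_lit 761) (nat_lit 763) (nat_lit 767) (nat_lit 743) (nat_lit 815) (nat_lit 275) (nat_lit 2219) (nat_lit 2947))))))
 (.n (nat_lit 771)
 (.n (nat_lit 767)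
 (.n (nat_lit 763)
 (.l (.k1_6 (nat_lit 8) (nat_lit 763) (nat_lit 761) (nat_lit 769) (nat_lit 745) (nat_lit 817) (nat_lit 277) (nat_lit 2221) (nat_lit 2949)))
 (.l (.k1_7 (nat_lit 7) (nat_lit 767) (nat_lit 769) (nat_lit 761) (nat_lit 749) (nat_lit 785) (nat_lit 821) (nat_lit 281) (nat_lit 2225) (nat_lit 2953))))
 (.n (nat_lit 769)
 (.l (.k1_9 (nat_lit 9) (nat_lit 769) (nat_lit 767) (nat_lit 771) (nat_lit 763) (nat_lit 775) (nat_lit 751) (nat_lit 787) (nat_lit 823) (nat_lit 283) (nat_lit 2227) (nat_lit 2955)))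
 (.l (.k0_7 (nat_lit 9) (nat_lit 771) (nat_lit 769) (nat_lit 777) (nat_lit 753) (nat_lit 789) (nat_lit 825) (nat_lit 285) (nat_lit 2229)))))
 (.n (nat_lit 777)
 (.n (nat_lit 775)
 (.l (.k1_6 (nat_lit 8) (nat_lit 775) (nat_lit 777) (nat_lit 769) (nat_lit 793) (nat_lit 829) (nat_lit 289) (nat_lit 2233) (nat_lit 2961)))
 (.l (.k0_6 (nat_lit 10) (nat_lit 777) (nat_lit 775) (nat_lit 771) (nat_lit 795) (nat_lit 831) (nat_lit 291) (nat_lit 2235))))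
 (.n (nat_lit 785)
 (.l (.k1_5 (nat_lit 6) (nat_lit 785) (nat_lit 787) (nat_lit 767) (nat_lit 839) (nat_lit 299) (nat_lit 2243) (nat_lit 2971)))
 (.l (.k1_7 (nat_lit 7) (nat_lit 787) (nat_lit 785) (nat_lit 789) (nat_lit 793) (nat_lit 769) (nat_lit 841) (nat_lit 301) (nat_lit 2245) (nat_lit 2973)))))))
 (.n (nat_lit 823)
 (.n (nat_lit 801)
 (.n (nat_lit 793)
 (.n (nat_lit 789)
 (.l (.k0_6 (nat_lit 6) (nat_lit 789) (nat_lit 787) (nat_lit 795) (nat_lit 771) (nat_lit 843) (nat_lit 303) (nat_lit 2247)))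
 (.l (.k1_6 (nat_lit 8) (nat_lit 793) (nat_lit 795) (nat_lit 787) (nat_lit 775) (nat_lit 847) (nat_lit 307) (nat_lit 2251) (nat_lit 2979))))
 (.n (nat_lit 795)
 (.l (.k0_7 (nat_lit 9) (nat_lit 795) (nat_lit 793) (nat_lit 789) (nat_lit 801) (nat_lit 777) (nat_lit 849) (nat_lit 309) (nat_lit 2253)))
 (.l (.k0_4 (nat_lit 10) (nat_lit 801) (nat_lit 795) (nat_lit 855) (nat_lit 315) (nat_lit 2259)))))
 (.n (nat_lit 817)
 (.n (nat_lit 815)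
 (.l (.k1_6 (nat_lit 8) (nat_lit 815) (nat_lit 817) (nat_lit 821) (nat_lit 761) (nat_lit 977) (nat_lit 329) (nat_lit 2273) (nat_lit 3001)))
 (.l (.k1_6 (nat_lit 8) (nat_lit 817) (nat_lit 815) (nat_lit 823) (nat_lit 763) (nat_lit 979) (nat_lit 331) (nat_lit 2275) (nat_lit 3003))))
 (.n (nat_lit 821)
 (.l (.k1_7 (nat_lit 6) (nat_lit 821) (nat_lit 823) (nat_lit 815) (nat_lit 839) (nat_lit 767) (nat_lit 983) (nat_lit 335) (nat_lit 2279) (nat_lit 3007)))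
 (.l (.k1_9 (nat_lit 8) (nat_lit 823) (nat_lit 821) (nat_lit 825) (nat_lit 817) (nat_lit 829) (nat_lit 841) (nat_lit 769) (nat_lit 985) (nat_lit 337) (nat_lit 2281) (nat_lit 3009))))))
 (.n (nat_lit 839)
 (.n (nat_lit 829)
 (.n (nat_lit 825)
 (.l (.k0_7 (nat_lit 8) (nat_lit 825) (nat_lit 823) (nat_lit 831) (nat_lit 843) (nat_lit 771) (nat_lit 987) (nat_lit 339) (nat_lit 2283)))
 (.l (.k1_7 (nat_lit 6) (nat_lit 829) (nat_lit 831) (nat_lit 823) (nat_lit 847) (nat_lit 775) (nat_lit 991) (nat_lit 343) (nat_lit 2287) (nat_lit 3015))))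
 (.n (nat_lit 831)
 (.l (.k0_7 (nat_lit 8) (nat_lit 831) (nat_lit 829) (nat_lit 825) (nat_lit 849) (nat_lit 777) (nat_lit 993) (nat_lit 345) (nat_lit 2289)))
 (.l (.k1_7 (nat_lit 7) (nat_lit 839) (nat_lit 841) (nat_lit 821) (nat_lit 785) (nat_lit 893) (nat_lit 1001) (nat_lit 353) (nat_lit 2297) (nat_lit 3025)))))
 (.n (nat_lit 843)
 (.n (nat_lit 841)
 (.l (.k1_9 (nat_lit 8) (nat_lit 841) (nat_lit 839) (nat_lit 843) (nat_lit 847) (nat_lit 823) (nat_lit 787) (nat_lit 895) (nat_lit 1003) (nat_lit 355) (nat_lit 2299) (nat_lit 3027)))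
 (.l (.k0_8 (nat_lit 7) (nat_lit 843) (nat_lit 841) (nat_lit 849) (nat_lit 825) (nat_lit 789) (nat_lit 897) (nat_lit 1005) (nat_lit 357) (nat_lit 2301))))
 (.n (nat_lit 847)
 (.l (.k1_9 (nat_lit 8) (nat_lit 847) (nat_lit 849) (nat_lit 841) (nat_lit 829) (nat_lit 865) (nat_lit 793) (nat_lit 901) (nat_lit 1009) (nat_lit 361) (nat_lit 2305) (nat_lit 3033)))
 (.l (.k0_10 (nat_lit 9) (nat_lit 849) (nat_lit 847) (nat_lit 843) (nat_lit 855) (nat_lit 831) (nat_lit 867) (nat_lit 795) (nat_lit 903) (nat_lit 1011) (nat_lit 363) (nat_lit 2307))))))))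
 (.n (nat_lit 979)
 (.n (nat_lit 901)
 (.n (nat_lit 873)
 (.n (nat_lit 865)
 (.n (nat_lit 855)
 (.l (.k0_7 (nat_lit 9) (nat_lit 855) (nat_lit 849) (nat_lit 873) (nat_lit 801) (nat_lit 909) (nat_lit 1017) (nat_lit 369) (nat_lit 2313)))
 (.l (.k1_6 (nat_lit 8) (nat_lit 865) (nat_lit 867) (nat_lit 847) (nat_lit 919) (nat_lit 1027) (nat_lit 379) (nat_lit 2323) (nat_lit 3051))))
 (.n (nat_lit 867)
 (.l (.k0_7 (nat_lit 8) (nat_lit 867) (nat_lit 865) (nat_lit 873) (nat_lit 849) (nat_lit 921) (nat_lit 1029) (nat_lit 381) (nat_lit 2325)))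
 (.l (.k0_6 (nat_lit 10) (nat_lit 873) (nat_lit 867) (nat_lit 855) (nat_lit 927) (nat_lit 1035) (nat_lit 387) (nat_lit 2331)))))
 (.n (nat_lit 895)
 (.n (nat_lit 893)
 (.l (.k1_5 (nat_lit 6) (nat_lit 893) (nat_lit 895) (nat_lit 839) (nat_lit 1055) (nat_lit 407) (nat_lit 2351) (nat_lit 3079)))
 (.l (.k1_7 (nat_lit 7) (nat_lit 895) (nat_lit 893) (nat_lit 897) (nat_lit 901) (nat_lit 841) (nat_lit 1057) (nat_lit 409) (nat_lit 2353) (nat_lit 3081))))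
 (.n (nat_lit 897)
 (.l (.k0_6 (nat_lit 6) (nat_lit 897) (nat_lit 895) (nat_lit 903) (nat_lit 843) (nat_lit 1059) (nat_lit 411) (nat_lit 2355)))
 (.l (.k1_7 (nat_lit 6) (nat_lit 901) (nat_lit 903) (nat_lit 895) (nat_lit 919) (nat_lit 847) (nat_lit 1063) (nat_lit 415) (nat_lit 2359) (nat_lit 3087))))))
 (.n (nat_lit 921)
 (.n (nat_lit 909)
 (.n (nat_lit 903)
 (.l (.k0_8 (nat_lit 7) (nat_lit 903) (nat_lit 901) (nat_lit 897) (nat_lit 909) (nat_lit 921) (nat_lit 849) (nat_lit 1065) (nat_lit 417) (nat_lit 2361)))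
 (.l (.k0_6 (nat_lit 6) (nat_lit 909) (nat_lit 903) (nat_lit 927) (nat_lit 855) (nat_lit 1071) (nat_lit 423) (nat_lit 2367))))
 (.n (nat_lit 919)
 (.l (.k1_6 (nat_lit 8) (nat_lit 919) (nat_lit 921) (nat_lit 901) (nat_lit 865) (nat_lit 1081) (nat_lit 433) (nat_lit 2377) (nat_lit 3105)))
 (.l (.k0_7 (nat_lit 8) (nat_lit 921) (nat_lit 919) (nat_lit 927) (nat_lit 903) (nat_lit 867) (nat_lit 1083) (nat_lit 435) (nat_lit 2379)))))
 (.n (nat_lit 945)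
 (.n (nat_lit 927)
 (.l (.k0_7 (nat_lit 9) (nat_lit 927) (nat_lit 921) (nat_lit 909) (nat_lit 945) (nat_lit 873) (nat_lit 1089) (nat_lit 441) (nat_lit 2385)))
 (.l (.k0_4 (nat_lit 10) (nat_lit 945) (nat_lit 927) (nat_lit 1107) (nat_lit 459) (nat_lit 2403))))
 (.n (nat_lit 977)
 (.l (.k1_6 (nat_lit 9) (nat_lit 977) (nat_lit 979) (nat_lit 983) (nat_lit 815) (nat_lit 491) (nat_lit 1463) (nat_lit 2435) (nat_lit 3163)))
 (.l (.k1_6 (nat_lit 9) (nat_lit 979) (nat_lit 977) (nat_lit 985) (nat_lit 817) (nat_lit 493) (nat_lit 1465) (nat_lit 2437) (nat_lit 3165)))))))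
 (.n (nat_lit 1005)
 (.n (nat_lit 991)
 (.n (nat_lit 985)
 (.n (nat_lit 983)
 (.l (.k1_7 (nat_lit 7) (nat_lit 983) (nat_lit 985) (nat_lit 977) (nat_lit 1001) (nat_lit 821) (nat_lit 497) (nat_lit 1469) (nat_lit 2441) (nat_lit 3169)))
 (.l (.k1_9 (nat_lit 9) (nat_lit 985) (nat_lit 983) (nat_lit 987) (nat_lit 979) (nat_lit 991) (nat_lit 1003) (nat_lit 823) (nat_lit 499) (nat_lit 1471) (nat_lit 2443) (nat_lit 3171))))
 (.n (nat_lit 987)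
 (.l (.k0_7 (nat_lit 9) (nat_lit 987) (nat_lit 985) (nat_lit 993) (nat_lit 1005) (nat_lit 825) (nat_lit 501) (nat_lit 1473) (nat_lit 2445)))
 (.l (.k1_7 (nat_lit 7) (nat_lit 991) (nat_lit 993) (nat_lit 985) (nat_lit 1009) (nat_lit 829) (nat_lit 505) (nat_lit 1477) (nat_lit 2449) (nat_lit 3177)))))
 (.n (nat_lit 1001)
 (.n (nat_lit 993)
 (.l (.k0_7 (nat_lit 9) (nat_lit 993) (nat_lit 991) (nat_lit 987) (nat_lit 1011) (nat_lit 831) (nat_lit 507) (nat_lit 1479) (nat_lit 2451)))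
 (.l (.k1_7 (nat_lit 7) (nat_lit 1001) (nat_lit 1003) (nat_lit 983) (nat_lit 1055) (nat_lit 839) (nat_lit 515) (nat_lit 1487) (nat_lit 2459) (nat_lit 3187))))
 (.n (nat_lit 1003)
 (.l (.k1_9 (nat_lit 8) (nat_lit 1003) (nat_lit 1001) (nat_lit 1005) (nat_lit 1009) (nat_lit 985) (nat_lit 1057) (nat_lit 841) (nat_lit 517) (nat_lit 1489) (nat_lit 2461) (nat_lit 3189)))
 (.l (.k0_8 (nat_lit 7) (nat_lit 1005) (nat_lit 1003) (nat_lit 1011) (nat_lit 987) (nat_lit 1059) (nat_lit 843) (nat_lit 519) (nat_lit 1491) (nat_lit 2463))))))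
 (.n (nat_lit 1027)
 (.n (nat_lit 1011)
 (.n (nat_lit 1009)
 (.l (.k1_9 (nat_lit 8) (nat_lit 1009) (nat_lit 1011) (nat_lit 1003) (nat_lit 991) (nat_lit 1027) (nat_lit 1063) (nat_lit 847) (nat_lit 523) (nat_lit 1495) (nat_lit 2467) (nat_lit 3195)))
 (.l (.k0_10 (nat_lit 9) (nat_lit 1011) (nat_lit 1009) (nat_lit 1005) (nat_lit 1017) (nat_lit 993) (nat_lit 1029) (nat_lit 1065) (nat_lit 849) (nat_lit 525) (nat_lit 1497) (nat_lit 2469))))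
 (.n (nat_lit 1017)
 (.l (.k0_7 (nat_lit 9) (nat_lit 1017) (nat_lit 1011) (nat_lit 1035) (nat_lit 1071) (nat_lit 855) (nat_lit 531) (nat_lit 1503) (nat_lit 2475)))
 (.l (.k1_7 (nat_lit 7) (nat_lit 1027) (nat_lit 1029) (nat_lit 1009) (nat_lit 1081) (nat_lit 865) (nat_lit 541) (nat_lit 1513) (nat_lit 2485) (nat_lit 3213)))))
 (.n (nat_lit 1035)
 (.n (nat_lit 1029)
 (.l (.k0_8 (nat_lit 7) (nat_lit 1029) (nat_lit 1027) (nat_lit 1035) (nat_lit 1011) (nat_lit 1083) (nat_lit 867) (nat_lit 543) (nat_lit 1515) (nat_lit 2487)))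
 (.l (.k0_7 (nat_lit 9) (nat_lit 1035) (nat_lit 1029) (nat_lit 1017) (nat_lit 1089) (nat_lit 873) (nat_lit 549) (nat_lit 1521) (nat_lit 2493))))
 (.n (nat_lit 1055)
 (.l (.k1_7 (nat_lit 8) (nat_lit 1055) (nat_lit 1057) (nat_lit 1001) (nat_lit 893) (nat_lit 1217) (nat_lit 569) (nat_lit 1541) (nat_lit 2513) (nat_lit 3241)))
 (.l (.k1_9 (nat_lit 9) (nat_lit 1057) (nat_lit 1055) (nat_lit 1059) (nat_lit 1063) (nat_lit 1003) (nat_lit 895) (nat_lit 1219) (nat_lit 571) (nat_lit 1543) (nat_lit 2515) (nat_lit 3243)))))))))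
 (.n (nat_lit 1471)
 (.n (nat_lit 1221)
 (.n (nat_lit 1089)
 (.n (nat_lit 1065)
 (.n (nat_lit 1059)
 (.l (.k0_8 (nat_lit 8) (nat_lit 1059) (nat_lit 1057) (nat_lit 1065) (nat_lit 1005) (nat_lit 897) (nat_lit 1221) (nat_lit 573) (nat_lit 1545) (nat_lit 2517)))
 (.n (nat_lit 1063)
 (.l (.k1_9 (nat_lit 8) (nat_lit 1063) (nat_lit 1065) (nat_lit 1057) (nat_lit 1081) (nat_lit 1009) (nat_lit 901) (nat_lit 1225) (nat_lit 577) (nat_lit 1549) (nat_lit 2521) (nat_lit 3249)))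
 (.l (.k0_10 (nat_lit 9) (nat_lit 1065) (nat_lit 1063) (nat_lit 1059) (nat_lit 1071) (nat_lit 1083) (nat_lit 1011) (nat_lit 903) (nat_lit 1227) (nat_lit 579) (nat_lit 1551) (nat_lit 2523)))))
 (.n (nat_lit 1081)
 (.n (nat_lit 1071)
 (.l (.k0_8 (nat_lit 8) (nat_lit 1071) (nat_lit 1065) (nat_lit 1089) (nat_lit 1017) (nat_lit 909) (nat_lit 1233) (nat_lit 585) (nat_lit 1557) (nat_lit 2529)))
 (.l (.k1_9 (nat_lit 9) (nat_lit 1081) (nat_lit 1083) (nat_lit 1063) (nat_lit 1027) (nat_lit 1135) (nat_lit 919) (nat_lit 1243) (nat_lit 595) (nat_lit 1567) (nat_lit 2539) (nat_lit 3267))))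
 (.n (nat_lit 1083)
 (.l (.k0_10 (nat_lit 9) (nat_lit 1083) (nat_lit 1081) (nat_lit 1089) (nat_lit 1065) (nat_lit 1029) (nat_lit 1137) (nat_lit 921) (nat_lit 1245) (nat_lit 597) (nat_lit 1569) (nat_lit 2541)))
 (.l (.k0_10 (nat_lit 10) (nat_lit 1089) (nat_lit 1083) (nat_lit 1071) (nat_lit 1107) (nat_lit 1035) (nat_lit 1143) (nat_lit 927) (nat_lit 1251) (nat_lit 603) (nat_lit 1575) (nat_lit 2547))))))
 (.n (nat_lit 1143)
 (.n (nat_lit 1135)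
 (.n (nat_lit 1107)
 (.l (.k0_7 (nat_lit 10) (nat_lit 1107) (nat_lit 1089) (nat_lit 1161) (nat_lit 945) (nat_lit 1269) (nat_lit 621) (nat_lit 1593) (nat_lit 2565)))
 (.l (.k1_6 (nat_lit 9) (nat_lit 1135) (nat_lit 1137) (nat_lit 1081) (nat_lit 1297) (nat_lit 649) (nat_lit 1621) (nat_lit 2593) (nat_lit 3321))))
 (.n (nat_lit 1137)
 (.l (.k0_7 (nat_lit 9) (nat_lit 1137) (nat_lit 1135) (nat_lit 1143) (nat_lit 1083) (nat_lit 1299) (nat_lit 651) (nat_lit 1623) (nat_lit 2595)))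
 (.l (.k0_7 (nat_lit 9) (nat_lit 1143) (nat_lit 1137) (nat_lit 1161) (nat_lit 1089) (nat_lit 1305) (nat_lit 657) (nat_lit 1629) (nat_lit 2601)))))
 (.n (nat_lit 1217)
 (.n (nat_lit 1161)
 (.l (.k0_6 (nat_lit 11) (nat_lit 1161) (nat_lit 1143) (nat_lit 1107) (nat_lit 1323) (nat_lit 675) (nat_lit 1647) (nat_lit 2619)))
 (.l (.k1_4 (nat_lit 8) (nat_lit 1217) (nat_lit 1219) (nat_lit 1055) (nat_lit 1703) (nat_lit 2675) (nat_lit 3403))))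
 (.n (nat_lit 1219)
 (.l (.k1_6 (nat_lit 9) (nat_lit 1219) (nat_lit 1217) (nat_lit 1221) (nat_lit 1225) (nat_lit 1057) (nat_lit 1705) (nat_lit 2677) (nat_lit 3405)))
 (.l (.k0_5 (nat_lit 8) (nat_lit 1221) (nat_lit 1219) (nat_lit 1227) (nat_lit 1059) (nat_lit 1707) (nat_lit 2679)))))))
 (.n (nat_lit 1297)
 (.n (nat_lit 1243)
 (.n (nat_lit 1227)
 (.n (nat_lit 1225)
 (.l (.k1_6 (nat_lit 8) (nat_lit 1225) (nat_lit 1227) (nat_lit 1219) (nat_lit 1243) (nat_lit 1063) (nat_lit 1711) (nat_lit 2683) (nat_lit 3411)))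
 (.l (.k0_7 (nat_lit 9) (nat_lit 1227) (nat_lit 1225) (nat_lit 1221) (nat_lit 1233) (nat_lit 1245) (nat_lit 1065) (nat_lit 1713) (nat_lit 2685))))
 (.n (nat_lit 1233)
 (.l (.k0_5 (nat_lit 8) (nat_lit 1233) (nat_lit 1227) (nat_lit 1251) (nat_lit 1071) (nat_lit 1719) (nat_lit 2691)))
 (.l (.k1_6 (nat_lit 8) (nat_lit 1243) (nat_lit 1245) (nat_lit 1225) (nat_lit 1297) (nat_lit 1081) (nat_lit 1729) (nat_lit 2701) (nat_lit 3429)))))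
 (.n (nat_lit 1251)
 (.n (nat_lit 1245)
 (.l (.k0_7 (nat_lit 8) (nat_lit 1245) (nat_lit 1243) (nat_lit 1251) (nat_lit 1227) (nat_lit 1299) (nat_lit 1083) (nat_lit 1731) (nat_lit 2703)))
 (.l (.k0_7 (nat_lit 9) (nat_lit 1251) (nat_lit 1245) (nat_lit 1233) (nat_lit 1269) (nat_lit 1305) (nat_lit 1089) (nat_lit 1737) (nat_lit 2709))))
 (.n (nat_lit 1269)
 (.l (.k0_5 (nat_lit 8) (nat_lit 1269) (nat_lit 1251) (nat_lit 1323) (nat_lit 1107) (nat_lit 1755) (nat_lit 2727)))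
 (.l (.k1_5 (nat_lit 10) (nat_lit 1297) (nat_lit 1299) (nat_lit 1243) (nat_lit 1135) (nat_lit 1783) (nat_lit 2755) (nat_lit 3483))))))
 (.n (nat_lit 1377)
 (.n (nat_lit 1305)
 (.n (nat_lit 1299)
 (.l (.k0_6 (nat_lit 10) (nat_lit 1299) (nat_lit 1297) (nat_lit 1305) (nat_lit 1245) (nat_lit 1137) (nat_lit 1785) (nat_lit 2757)))
 (.l (.k0_6 (nat_lit 10) (nat_lit 1305) (nat_lit 1299) (nat_lit 1323) (nat_lit 1251) (nat_lit 1143) (nat_lit 1791) (nat_lit 2763))))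
 (.n (nat_lit 1323)
 (.l (.k0_6 (nat_lit 11) (nat_lit 1323) (nat_lit 1305) (nat_lit 1269) (nat_lit 1377) (nat_lit 1161) (nat_lit 1809) (nat_lit 2781)))
 (.l (.k0_3 (nat_lit 12) (nat_lit 1377) (nat_lit 1323) (nat_lit 1863) (nat_lit 2835)))))
 (.n (nat_lit 1465)
 (.n (nat_lit 1463)
 (.l (.k1_4 (nat_lit 8) (nat_lit 1463) (nat_lit 1465) (nat_lit 1469) (nat_lit 977) (nat_lit 2921) (nat_lit 3649)))
 (.l (.k1_4 (nat_lit 8) (nat_lit 1465) (nat_lit 1463) (nat_lit 1471) (nat_lit 979) (nat_lit 2923) (nat_lit 3651))))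
 (.n (nat_lit 1469)
 (.l (.k1_5 (nat_lit 6) (nat_lit 1469) (nat_lit 1471) (nat_lit 1463) (nat_lit 1487) (nat_lit 983) (nat_lit 2927) (nat_lit 3655)))
 (.l (.k1_7 (nat_lit 8) (nat_lit 1471) (nat_lit 1469) (nat_lit 1473) (nat_lit 1465) (nat_lit 1477) (nat_lit 1489) (nat_lit 985) (nat_lit 2929) (nat_lit 3657))))))))
 (.n (nat_lit 1549)
 (.n (nat_lit 1497)
 (.n (nat_lit 1487)
 (.n (nat_lit 1477)
 (.n (nat_lit 1473)
 (.l (.k0_5 (nat_lit 8) (nat_lit 1473) (nat_lit 1471) (nat_lit 1479) (nat_lit 1491) (nat_lit 987) (nat_lit 2931)))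
 (.l (.k1_5 (nat_lit 6) (nat_lit 1477) (nat_lit 1479) (nat_lit 1471) (nat_lit 1495) (nat_lit 991) (nat_lit 2935) (nat_lit 3663))))
 (.n (nat_lit 1479)
 (.l (.k0_5 (nat_lit 8) (nat_lit 1479) (nat_lit 1477) (nat_lit 1473) (nat_lit 1497) (nat_lit 993) (nat_lit 2937)))
 (.l (.k1_5 (nat_lit 6) (nat_lit 1487) (nat_lit 1489) (nat_lit 1469) (nat_lit 1541) (nat_lit 1001) (nat_lit 2945) (nat_lit 3673)))))
 (.n (nat_lit 1491)
 (.n (nat_lit 1489)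
 (.l (.k1_7 (nat_lit 7) (nat_lit 1489) (nat_lit 1487) (nat_lit 1491) (nat_lit 1495) (nat_lit 1471) (nat_lit 1543) (nat_lit 1003) (nat_lit 2947) (nat_lit 3675)))
 (.l (.k0_6 (nat_lit 6) (nat_lit 1491) (nat_lit 1489) (nat_lit 1497) (nat_lit 1473) (nat_lit 1545) (nat_lit 1005) (nat_lit 2949))))
 (.n (nat_lit 1495)
 (.l (.k1_7 (nat_lit 7) (nat_lit 1495) (nat_lit 1497) (nat_lit 1489) (nat_lit 1477) (nat_lit 1513) (nat_lit 1549) (nat_lit 1009) (nat_lit 2953) (nat_lit 3681)))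
 (.l (.k0_8 (nat_lit 8) (nat_lit 1497) (nat_lit 1495) (nat_lit 1491) (nat_lit 1503) (nat_lit 1479) (nat_lit 1515) (nat_lit 1551) (nat_lit 1011) (nat_lit 2955))))))
 (.n (nat_lit 1521)
 (.n (nat_lit 1513)
 (.n (nat_lit 1503)
 (.l (.k0_5 (nat_lit 8) (nat_lit 1503) (nat_lit 1497) (nat_lit 1521) (nat_lit 1557) (nat_lit 1017) (nat_lit 2961)))
 (.l (.k1_5 (nat_lit 6) (nat_lit 1513) (nat_lit 1515) (nat_lit 1495) (nat_lit 1567) (nat_lit 1027) (nat_lit 2971) (nat_lit 3699))))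
 (.n (nat_lit 1515)
 (.l (.k0_6 (nat_lit 6) (nat_lit 1515) (nat_lit 1513) (nat_lit 1521) (nat_lit 1497) (nat_lit 1569) (nat_lit 1029) (nat_lit 2973)))
 (.l (.k0_5 (nat_lit 8) (nat_lit 1521) (nat_lit 1515) (nat_lit 1503) (nat_lit 1575) (nat_lit 1035) (nat_lit 2979)))))
 (.n (nat_lit 1543)
 (.n (nat_lit 1541)
 (.l (.k1_5 (nat_lit 6) (nat_lit 1541) (nat_lit 1543) (nat_lit 1487) (nat_lit 1703) (nat_lit 1055) (nat_lit 2999) (nat_lit 3727)))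
 (.l (.k1_7 (nat_lit 7) (nat_lit 1543) (nat_lit 1541) (nat_lit 1545) (nat_lit 1549) (nat_lit 1489) (nat_lit 1705) (nat_lit 1057) (nat_lit 3001) (nat_lit 3729))))
 (.n (nat_lit 1545)
 (.l (.k0_6 (nat_lit 6) (nat_lit 1545) (nat_lit 1543) (nat_lit 1551) (nat_lit 1491) (nat_lit 1707) (nat_lit 1059) (nat_lit 3003)))
 (.l (.k1_7 (nat_lit 6) (nat_lit 1549) (nat_lit 1551) (nat_lit 1543) (nat_lit 1567) (nat_lit 1495) (nat_lit 1711) (nat_lit 1063) (nat_lit 3007) (nat_lit 3735)))))))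
 (.n (nat_lit 1623)
 (.n (nat_lit 1569)
 (.n (nat_lit 1557)
 (.n (nat_lit 1551)
 (.l (.k0_8 (nat_lit 7) (nat_lit 1551) (nat_lit 1549) (nat_lit 1545) (nat_lit 1557) (nat_lit 1569) (nat_lit 1497) (nat_lit 1713) (nat_lit 1065) (nat_lit 3009)))
 (.l (.k0_6 (nat_lit 6) (nat_lit 1557) (nat_lit 1551) (nat_lit 1575) (nat_lit 1503) (nat_lit 1719) (nat_lit 1071) (nat_lit 3015))))
 (.n (nat_lit 1567)
 (.l (.k1_7 (nat_lit 7) (nat_lit 1567) (nat_lit 1569) (nat_lit 1549) (nat_lit 1513) (nat_lit 1621) (nat_lit 1729) (nat_lit 1081) (nat_lit 3025) (nat_lit 3753)))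
 (.l (.k0_8 (nat_lit 7) (nat_lit 1569) (nat_lit 1567) (nat_lit 1575) (nat_lit 1551) (nat_lit 1515) (nat_lit 1623) (nat_lit 1731) (nat_lit 1083) (nat_lit 3027)))))
 (.n (nat_lit 1593)
 (.n (nat_lit 1575)
 (.l (.k0_8 (nat_lit 8) (nat_lit 1575) (nat_lit 1569) (nat_lit 1557) (nat_lit 1593) (nat_lit 1521) (nat_lit 1629) (nat_lit 1737) (nat_lit 1089) (nat_lit 3033)))
 (.l (.k0_5 (nat_lit 8) (nat_lit 1593) (nat_lit 1575) (nat_lit 1647) (nat_lit 1755) (nat_lit 1107) (nat_lit 3051))))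
 (.n (nat_lit 1621)
 (.l (.k1_5 (nat_lit 6) (nat_lit 1621) (nat_lit 1623) (nat_lit 1567) (nat_lit 1783) (nat_lit 1135) (nat_lit 3079) (nat_lit 3807)))
 (.l (.k0_6 (nat_lit 6) (nat_lit 1623) (nat_lit 1621) (nat_lit 1629) (nat_lit 1569) (nat_lit 1785) (nat_lit 1137) (nat_lit 3081))))))
 (.n (nat_lit 1705)
 (.n (nat_lit 1647)
 (.n (nat_lit 1629)
 (.l (.k0_6 (nat_lit 6) (nat_lit 1629) (nat_lit 1623) (nat_lit 1647) (nat_lit 1575) (nat_lit 1791) (nat_lit 1143) (nat_lit 3087)))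
 (.l (.k0_5 (nat_lit 8) (nat_lit 1647) (nat_lit 1629) (nat_lit 1593) (nat_lit 1809) (nat_lit 1161) (nat_lit 3105))))
 (.n (nat_lit 1703)
 (.l (.k1_4 (nat_lit 8) (nat_lit 1703) (nat_lit 1705) (nat_lit 1541) (nat_lit 1217) (nat_lit 3161) (nat_lit 3889)))
 (.l (.k1_6 (nat_lit 9) (nat_lit 1705) (nat_lit 1703) (nat_lit 1707) (nat_lit 1711) (nat_lit 1543) (nat_lit 1219) (nat_lit 3163) (nat_lit 3891)))))
 (.n (nat_lit 1711)
 (.n (nat_lit 1707)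
 (.l (.k0_5 (nat_lit 8) (nat_lit 1707) (nat_lit 1705) (nat_lit 1713) (nat_lit 1545) (nat_lit 1221) (nat_lit 3165)))
 (.l (.k1_6 (nat_lit 8) (nat_lit 1711) (nat_lit 1713) (nat_lit 1705) (nat_lit 1729) (nat_lit 1549) (nat_lit 1225) (nat_lit 3169) (nat_lit 3897))))
 (.n (nat_lit 1713)
 (.l (.k0_7 (nat_lit 9) (nat_lit 1713) (nat_lit 1711) (nat_lit 1707) (nat_lit 1719) (nat_lit 1731) (nat_lit 1551) (nat_lit 1227) (nat_lit 3171)))
 (.l (.k0_5 (nat_lit 8) (nat_lit 1719) (nat_lit 1713) (nat_lit 1737) (nat_lit 1557) (nat_lit 1233) (nat_lit 3177)))))))))))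
 (.n (nat_lit 3015)
 (.n (nat_lit 2443)
 (.n (nat_lit 2251)
 (.n (nat_lit 2195)
 (.n (nat_lit 1791)
 (.n (nat_lit 1737)
 (.n (nat_lit 1729)
 (.l (.k1_6 (nat_lit 8) (nat_lit 1729) (nat_lit 1731) (nat_lit 1711) (nat_lit 1783) (nat_lit 1567) (nat_lit 1243) (nat_lit 3187) (nat_lit 3915)))
 (.n (nat_lit 1731)
 (.l (.k0_7 (nat_lit 8) (nat_lit 1731) (nat_lit 1729) (nat_lit 1737) (nat_lit 1713) (nat_lit 1785) (nat_lit 1569) (nat_lit 1245) (nat_lit 3189)))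
 (.l (.k0_7 (nat_lit 9) (nat_lit 1737) (nat_lit 1731) (nat_lit 1719) (nat_lit 1755) (nat_lit 1791) (nat_lit 1575) (nat_lit 1251) (nat_lit 3195)))))
 (.n (nat_lit 1783)
 (.n (nat_lit 1755)
 (.l (.k0_5 (nat_lit 8) (nat_lit 1755) (nat_lit 1737) (nat_lit 1809) (nat_lit 1593) (nat_lit 1269) (nat_lit 3213)))
 (.l (.k1_6 (nat_lit 9) (nat_lit 1783) (nat_lit 1785) (nat_lit 1729) (nat_lit 1621) (nat_lit 1945) (nat_lit 1297) (nat_lit 3241) (nat_lit 3969))))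
 (.n (nat_lit 1785)
 (.l (.k0_7 (nat_lit 9) (nat_lit 1785) (nat_lit 1783) (nat_lit 1791) (nat_lit 1731) (nat_lit 1623) (nat_lit 1947) (nat_lit 1299) (nat_lit 3243)))
 (.l (.k0_7 (nat_lit 9) (nat_lit 1791) (nat_lit 1785) (nat_lit 1809) (nat_lit 1737) (nat_lit 1629) (nat_lit 1953) (nat_lit 1305) (nat_lit 3249))))))
 (.n (nat_lit 1947)
 (.n (nat_lit 1863)
 (.n (nat_lit 1809)
 (.l (.k0_7 (nat_lit 10) (nat_lit 1809) (nat_lit 1791) (nat_lit 1755) (nat_lit 1863) (nat_lit 1647) (nat_lit 1971) (nat_lit 1323) (nat_lit 3267)))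
 (.l (.k0_4 (nat_lit 10) (nat_lit 1863) (nat_lit 1809) (nat_lit 2025) (nat_lit 1377) (nat_lit 3321))))
 (.n (nat_lit 1945)
 (.l (.k1_3 (nat_lit 10) (nat_lit 1945) (nat_lit 1947) (nat_lit 1783) (nat_lit 3403) (nat_lit 4131)))
 (.l (.k0_4 (nat_lit 10) (nat_lit 1947) (nat_lit 1945) (nat_lit 1953) (nat_lit 1785) (nat_lit 3405)))))
 (.n (nat_lit 1971)
 (.n (nat_lit 1953)
 (.l (.k0_4 (nat_lit 10) (nat_lit 1953) (nat_lit 1947) (nat_lit 1971) (nat_lit 1791) (nat_lit 3411)))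
 (.l (.k0_4 (nat_lit 10) (nat_lit 1971) (nat_lit 1953) (nat_lit 2025) (nat_lit 1809) (nat_lit 3429))))
 (.n (nat_lit 2025)
 (.l (.k0_3 (nat_lit 12) (nat_lit 2025) (nat_lit 1971) (nat_lit 1863) (nat_lit 3483)))
 (.l (.k1_2 (nat_lit 12) (nat_lit 2195) (nat_lit 2201) (nat_lit 737) (nat_lit 4381)))))))
 (.n (nat_lit 2225)
 (.n (nat_lit 2209)
 (.n (nat_lit 2203)
 (.n (nat_lit 2201)
 (.l (.k1_5 (nat_lit 11) (nat_lit 2201) (nat_lit 2203) (nat_lit 2195) (nat_lit 2207) (nat_lit 2219) (nat_lit 743) (nat_lit 4387)))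
 (.l (.k3_4 (nat_lit 11) (nat_lit 2203) (nat_lit 2201) (nat_lit 2209) (nat_lit 2221) (nat_lit 745) (nat_lit 4389) (nat_lit 17))))
 (.n (nat_lit 2207)
 (.l (.k1_4 (nat_lit 8) (nat_lit 2207) (nat_lit 2209) (nat_lit 2201) (nat_lit 2225) (nat_lit 749) (nat_lit 4393)))
 (.l (.k3_5 (nat_lit 10) (nat_lit 2209) (nat_lit 2207) (nat_lit 2211) (nat_lit 2203) (nat_lit 2227) (nat_lit 751) (nat_lit 4395) (nat_lit 23)))))
 (.n (nat_lit 2219)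
 (.n (nat_lit 2211)
 (.l (.k2_3 (nat_lit 10) (nat_lit 2211) (nat_lit 2209) (nat_lit 2229) (nat_lit 753) (nat_lit 25)))
 (.l (.k1_5 (nat_lit 10) (nat_lit 2219) (nat_lit 2221) (nat_lit 2225) (nat_lit 2201) (nat_lit 2273) (nat_lit 761) (nat_lit 4405))))
 (.n (nat_lit 2221)
 (.l (.k3_5 (nat_lit 9) (nat_lit 2221) (nat_lit 2219) (nat_lit 2227) (nat_lit 2203) (nat_lit 2275) (nat_lit 763) (nat_lit 4407) (nat_lit 35)))
 (.l (.k1_6 (nat_lit 9) (nat_lit 2225) (nat_lit 2227) (nat_lit 2219) (nat_lit 2207) (nat_lit 2243) (nat_lit 2279) (nat_lit 767) (nat_lit 4411))))))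
 (.n (nat_lit 2235)
 (.n (nat_lit 2229)
 (.n (nat_lit 2227)
 (.l (.k3_8 (nat_lit 10) (nat_lit 2227) (nat_lit 2225) (nat_lit 2229) (nat_lit 2221) (nat_lit 2233) (nat_lit 2209) (nat_lit 2245) (nat_lit 2281) (nat_lit 769) (nat_lit 4413) (nat_lit 41)))
 (.l (.k2_6 (nat_lit 9) (nat_lit 2229) (nat_lit 2227) (nat_lit 2235) (nat_lit 2211) (nat_lit 2247) (nat_lit 2283) (nat_lit 771) (nat_lit 43))))
 (.n (nat_lit 2233)
 (.l (.k3_5 (nat_lit 9) (nat_lit 2233) (nat_lit 2235) (nat_lit 2227) (nat_lit 2251) (nat_lit 2287) (nat_lit 775) (nat_lit 4419) (nat_lit 47)))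
 (.l (.k2_5 (nat_lit 10) (nat_lit 2235) (nat_lit 2233) (nat_lit 2229) (nat_lit 2253) (nat_lit 2289) (nat_lit 777) (nat_lit 49)))))
 (.n (nat_lit 2245)
 (.n (nat_lit 2243)
 (.l (.k1_4 (nat_lit 8) (nat_lit 2243) (nat_lit 2245) (nat_lit 2225) (nat_lit 2297) (nat_lit 785) (nat_lit 4429)))
 (.l (.k3_6 (nat_lit 8) (nat_lit 2245) (nat_lit 2243) (nat_lit 2247) (nat_lit 2251) (nat_lit 2227) (nat_lit 2299) (nat_lit 787) (nat_lit 4431) (nat_lit 59))))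
 (.n (nat_lit 2247)
 (.l (.k2_5 (nat_lit 6) (nat_lit 2247) (nat_lit 2245) (nat_lit 2253) (nat_lit 2229) (nat_lit 2301) (nat_lit 789) (nat_lit 61)))
 (.l (.k3_5 (nat_lit 9) (nat_lit 2251) (nat_lit 2253) (nat_lit 2245) (nat_lit 2233) (nat_lit 2305) (nat_lit 793) (nat_lit 4437) (nat_lit 65))))))))
 (.n (nat_lit 2323)
 (.n (nat_lit 2287)
 (.n (nat_lit 2275)
 (.n (nat_lit 2259)
 (.n (nat_lit 2253)
 (.l (.k2_6 (nat_lit 9) (nat_lit 2253) (nat_lit 2251) (nat_lit 2247) (nat_lit 2259) (nat_lit 2235) (nat_lit 2307) (nat_lit 795) (nat_lit 67)))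
 (.l (.k2_3 (nat_lit 10) (nat_lit 2259) (nat_lit 2253) (nat_lit 2313) (nat_lit 801) (nat_lit 73))))
 (.n (nat_lit 2273)
 (.l (.k1_5 (nat_lit 10) (nat_lit 2273) (nat_lit 2275) (nat_lit 2279) (nat_lit 2219) (nat_lit 2435) (nat_lit 815) (nat_lit 4459)))
 (.l (.k3_5 (nat_lit 9) (nat_lit 2275) (nat_lit 2273) (nat_lit 2281) (nat_lit 2221) (nat_lit 2437) (nat_lit 817) (nat_lit 4461) (nat_lit 89)))))
 (.n (nat_lit 2281)
 (.n (nat_lit 2279)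
 (.l (.k1_6 (nat_lit 8) (nat_lit 2279) (nat_lit 2281) (nat_lit 2273) (nat_lit 2297) (nat_lit 2225) (nat_lit 2441) (nat_lit 821) (nat_lit 4465)))
 (.l (.k3_8 (nat_lit 9) (nat_lit 2281) (nat_lit 2279) (nat_lit 2283) (nat_lit 2275) (nat_lit 2287) (nat_lit 2299) (nat_lit 2227) (nat_lit 2443) (nat_lit 823) (nat_lit 4467) (nat_lit 95))))
 (.n (nat_lit 2283)
 (.l (.k2_6 (nat_lit 8) (nat_lit 2283) (nat_lit 2281) (nat_lit 2289) (nat_lit 2301) (nat_lit 2229) (nat_lit 2445) (nat_lit 825) (nat_lit 97)))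
 (.l (.k3_6 (nat_lit 7) (nat_lit 2287) (nat_lit 2289) (nat_lit 2281) (nat_lit 2305) (nat_lit 2233) (nat_lit 2449) (nat_lit 829) (nat_lit 4473) (nat_lit 101))))))
 (.n (nat_lit 2301)
 (.n (nat_lit 2297)
 (.n (nat_lit 2289)
 (.l (.k2_6 (nat_lit 8) (nat_lit 2289) (nat_lit 2287) (nat_lit 2283) (nat_lit 2307) (nat_lit 2235) (nat_lit 2451) (nat_lit 831) (nat_lit 103)))
 (.l (.k1_6 (nat_lit 9) (nat_lit 2297) (nat_lit 2299) (nat_lit 2279) (nat_lit 2243) (nat_lit 2351) (nat_lit 2459) (nat_lit 839) (nat_lit 4483))))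
 (.n (nat_lit 2299)
 (.l (.k3_8 (nat_lit 9) (nat_lit 2299) (nat_lit 2297) (nat_lit 2301) (nat_lit 2305) (nat_lit 2281) (nat_lit 2245) (nat_lit 2353) (nat_lit 2461) (nat_lit 841) (nat_lit 4485) (nat_lit 113)))
 (.l (.k2_7 (nat_lit 7) (nat_lit 2301) (nat_lit 2299) (nat_lit 2307) (nat_lit 2283) (nat_lit 2247) (nat_lit 2355) (nat_lit 2463) (nat_lit 843) (nat_lit 115)))))
 (.n (nat_lit 2307)
 (.n (nat_lit 2305)
 (.l (.k3_8 (nat_lit 9) (nat_lit 2305) (nat_lit 2307) (nat_lit 2299) (nat_lit 2287) (nat_lit 2323) (nat_lit 2251) (nat_lit 2359) (nat_lit 2467) (nat_lit 847) (nat_lit 4491) (nat_lit 119)))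
 (.l (.k2_9 (nat_lit 9) (nat_lit 2307) (nat_lit 2305) (nat_lit 2301) (nat_lit 2313) (nat_lit 2289) (nat_lit 2325) (nat_lit 2253) (nat_lit 2361) (nat_lit 2469) (nat_lit 849) (nat_lit 121))))
 (.n (nat_lit 2313)
 (.l (.k2_6 (nat_lit 9) (nat_lit 2313) (nat_lit 2307) (nat_lit 2331) (nat_lit 2259) (nat_lit 2367) (nat_lit 2475) (nat_lit 855) (nat_lit 127)))
 (.l (.k3_5 (nat_lit 9) (nat_lit 2323) (nat_lit 2325) (nat_lit 2305) (nat_lit 2377) (nat_lit 2485) (nat_lit 865) (nat_lit 4509) (nat_lit 137)))))))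
 (.n (nat_lit 2367)
 (.n (nat_lit 2353)
 (.n (nat_lit 2331)
 (.n (nat_lit 2325)
 (.l (.k2_6 (nat_lit 8) (nat_lit 2325) (nat_lit 2323) (nat_lit 2331) (nat_lit 2307) (nat_lit 2379) (nat_lit 2487) (nat_lit 867) (nat_lit 139)))
 (.l (.k2_5 (nat_lit 10) (nat_lit 2331) (nat_lit 2325) (nat_lit 2313) (nat_lit 2385) (nat_lit 2493) (nat_lit 873) (nat_lit 145))))
 (.n (nat_lit 2351)
 (.l (.k1_4 (nat_lit 8) (nat_lit 2351) (nat_lit 2353) (nat_lit 2297) (nat_lit 2513) (nat_lit 893) (nat_lit 4537)))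
 (.l (.k3_6 (nat_lit 8) (nat_lit 2353) (nat_lit 2351) (nat_lit 2355) (nat_lit 2359) (nat_lit 2299) (nat_lit 2515) (nat_lit 895) (nat_lit 4539) (nat_lit 167)))))
 (.n (nat_lit 2359)
 (.n (nat_lit 2355)
 (.l (.k2_5 (nat_lit 6) (nat_lit 2355) (nat_lit 2353) (nat_lit 2361) (nat_lit 2301) (nat_lit 2517) (nat_lit 897) (nat_lit 169)))
 (.l (.k3_6 (nat_lit 7) (nat_lit 2359) (nat_lit 2361) (nat_lit 2353) (nat_lit 2377) (nat_lit 2305) (nat_lit 2521) (nat_lit 901) (nat_lit 4545) (nat_lit 173))))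
 (.n (nat_lit 2361)
 (.l (.k2_7 (nat_lit 7) (nat_lit 2361) (nat_lit 2359) (nat_lit 2355) (nat_lit 2367) (nat_lit 2379) (nat_lit 2307) (nat_lit 2523) (nat_lit 903) (nat_lit 175)))
 (.l (.k2_5 (nat_lit 6) (nat_lit 2367) (nat_lit 2361) (nat_lit 2385) (nat_lit 2313) (nat_lit 2529) (nat_lit 909) (nat_lit 181))))))
 (.n (nat_lit 2403)
 (.n (nat_lit 2379)
 (.n (nat_lit 2377)
 (.l (.k3_5 (nat_lit 9) (nat_lit 2377) (nat_lit 2379) (nat_lit 2359) (nat_lit 2323) (nat_lit 2539) (nat_lit 919) (nat_lit 4563) (nat_lit 191)))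
 (.l (.k2_6 (nat_lit 8) (nat_lit 2379) (nat_lit 2377) (nat_lit 2385) (nat_lit 2361) (nat_lit 2325) (nat_lit 2541) (nat_lit 921) (nat_lit 193))))
 (.n (nat_lit 2385)
 (.l (.k2_6 (nat_lit 9) (nat_lit 2385) (nat_lit 2379) (nat_lit 2367) (nat_lit 2403) (nat_lit 2331) (nat_lit 2547) (nat_lit 927) (nat_lit 199)))
 (.l (.k2_3 (nat_lit 10) (nat_lit 2403) (nat_lit 2385) (nat_lit 2565) (nat_lit 945) (nat_lit 217)))))
 (.n (nat_lit 2437)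
 (.n (nat_lit 2435)
 (.l (.k1_5 (nat_lit 10) (nat_lit 2435) (nat_lit 2437) (nat_lit 2441) (nat_lit 2273) (nat_lit 2921) (nat_lit 977) (nat_lit 4621)))
 (.l (.k3_5 (nat_lit 9) (nat_lit 2437) (nat_lit 2435) (nat_lit 2443) (nat_lit 2275) (nat_lit 2923) (nat_lit 979) (nat_lit 4623) (nat_lit 251))))
 (.n (nat_lit 2441)
 (.l (.k1_6 (nat_lit 8) (nat_lit 2441) (nat_lit 2443) (nat_lit 2435) (nat_lit 2459) (nat_lit 2279) (nat_lit 2927) (nat_lit 983) (nat_lit 4627)))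
 (.l (.k3_8 (nat_lit 9) (nat_lit 2443) (nat_lit 2441) (nat_lit 2445) (nat_lit 2437) (nat_lit 2449) (nat_lit 2461) (nat_lit 2281) (nat_lit 2929) (nat_lit 985) (nat_lit 4629) (nat_lit 257)))))))))
 (.n (nat_lit 2685)
 (.n (nat_lit 2517)
 (.n (nat_lit 2467)
 (.n (nat_lit 2451)
 (.n (nat_lit 2445)
 (.l (.k2_6 (nat_lit 8) (nat_lit 2445) (nat_lit 2443) (nat_lit 2451) (nat_lit 2463) (nat_lit 2283) (nat_lit 2931) (nat_lit 987) (nat_lit 259)))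
 (.n (nat_lit 2449)
 (.l (.k3_6 (nat_lit 7) (nat_lit 2449) (nat_lit 2451) (nat_lit 2443) (nat_lit 2467) (nat_lit 2287) (nat_lit 2935) (nat_lit 991) (nat_lit 4635) (nat_lit 263)))
 (.l (.k2_6 (nat_lit 8) (nat_lit 2451) (nat_lit 2449) (nat_lit 2445) (nat_lit 2469) (nat_lit 2289) (nat_lit 2937) (nat_lit 993) (nat_lit 265)))))
 (.n (nat_lit 2461)
 (.n (nat_lit 2459)
 (.l (.k1_6 (nat_lit 8) (nat_lit 2459) (nat_lit 2461) (nat_lit 2441) (nat_lit 2513) (nat_lit 2297) (nat_lit 2945) (nat_lit 1001) (nat_lit 4645)))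
 (.l (.k3_8 (nat_lit 8) (nat_lit 2461) (nat_lit 2459) (nat_lit 2463) (nat_lit 2467) (nat_lit 2443) (nat_lit 2515) (nat_lit 2299) (nat_lit 2947) (nat_lit 1003) (nat_lit 4647) (nat_lit 275))))
 (.n (nat_lit 2463)
 (.l (.k2_7 (nat_lit 6) (nat_lit 2463) (nat_lit 2461) (nat_lit 2469) (nat_lit 2445) (nat_lit 2517) (nat_lit 2301) (nat_lit 2949) (nat_lit 1005) (nat_lit 277)))
 (.l (.k3_8 (nat_lit 8) (nat_lit 2467) (nat_lit 2469) (nat_lit 2461) (nat_lit 2449) (nat_lit 2485) (nat_lit 2521) (nat_lit 2305) (nat_lit 2953) (nat_lit 1009) (nat_lit 4653) (nat_lit 281))))))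
 (.n (nat_lit 2487)
 (.n (nat_lit 2475)
 (.n (nat_lit 2469)
 (.l (.k2_9 (nat_lit 8) (nat_lit 2469) (nat_lit 2467) (nat_lit 2463) (nat_lit 2475) (nat_lit 2451) (nat_lit 2487) (nat_lit 2523) (nat_lit 2307) (nat_lit 2955) (nat_lit 1011) (nat_lit 283)))
 (.l (.k2_6 (nat_lit 8) (nat_lit 2475) (nat_lit 2469) (nat_lit 2493) (nat_lit 2529) (nat_lit 2313) (nat_lit 2961) (nat_lit 1017) (nat_lit 289))))
 (.n (nat_lit 2485)
 (.l (.k3_6 (nat_lit 7) (nat_lit 2485) (nat_lit 2487) (nat_lit 2467) (nat_lit 2539) (nat_lit 2323) (nat_lit 2971) (nat_lit 1027) (nat_lit 4671) (nat_lit 299)))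
 (.l (.k2_7 (nat_lit 6) (nat_lit 2487) (nat_lit 2485) (nat_lit 2493) (nat_lit 2469) (nat_lit 2541) (nat_lit 2325) (nat_lit 2973) (nat_lit 1029) (nat_lit 301)))))
 (.n (nat_lit 2513)
 (.n (nat_lit 2493)
 (.l (.k2_6 (nat_lit 8) (nat_lit 2493) (nat_lit 2487) (nat_lit 2475) (nat_lit 2547) (nat_lit 2331) (nat_lit 2979) (nat_lit 1035) (nat_lit 307)))
 (.l (.k1_6 (nat_lit 9) (nat_lit 2513) (nat_lit 2515) (nat_lit 2459) (nat_lit 2351) (nat_lit 2675) (nat_lit 2999) (nat_lit 1055) (nat_lit 4699))))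
 (.n (nat_lit 2515)
 (.l (.k3_8 (nat_lit 9) (nat_lit 2515) (nat_lit 2513) (nat_lit 2517) (nat_lit 2521) (nat_lit 2461) (nat_lit 2353) (nat_lit 2677) (nat_lit 3001) (nat_lit 1057) (nat_lit 4701) (nat_lit 329)))
 (.l (.k2_7 (nat_lit 7) (nat_lit 2517) (nat_lit 2515) (nat_lit 2523) (nat_lit 2463) (nat_lit 2355) (nat_lit 2679) (nat_lit 3003) (nat_lit 1059) (nat_lit 331)))))))
 (.n (nat_lit 2593)
 (.n (nat_lit 2539)
 (.n (nat_lit 2523)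
 (.n (nat_lit 2521)
 (.l (.k3_8 (nat_lit 8) (nat_lit 2521) (nat_lit 2523) (nat_lit 2515) (nat_lit 2539) (nat_lit 2467) (nat_lit 2359) (nat_lit 2683) (nat_lit 3007) (nat_lit 1063) (nat_lit 4707) (nat_lit 335)))
 (.l (.k2_9 (nat_lit 8) (nat_lit 2523) (nat_lit 2521) (nat_lit 2517) (nat_lit 2529) (nat_lit 2541) (nat_lit 2469) (nat_lit 2361) (nat_lit 2685) (nat_lit 3009) (nat_lit 1065) (nat_lit 337))))
 (.n (nat_lit 2529)
 (.l (.k2_7 (nat_lit 7) (nat_lit 2529) (nat_lit 2523) (nat_lit 2547) (nat_lit 2475) (nat_lit 2367) (nat_lit 2691) (nat_lit 3015) (nat_lit 1071) (nat_lit 343)))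
 (.l (.k3_8 (nat_lit 9) (nat_lit 2539) (nat_lit 2541) (nat_lit 2521) (nat_lit 2485) (nat_lit 2593) (nat_lit 2377) (nat_lit 2701) (nat_lit 3025) (nat_lit 1081) (nat_lit 4725) (nat_lit 353)))))
 (.n (nat_lit 2547)
 (.n (nat_lit 2541)
 (.l (.k2_9 (nat_lit 8) (nat_lit 2541) (nat_lit 2539) (nat_lit 2547) (nat_lit 2523) (nat_lit 2487) (nat_lit 2595) (nat_lit 2379) (nat_lit 2703) (nat_lit 3027) (nat_lit 1083) (nat_lit 355)))
 (.l (.k2_9 (nat_lit 9) (nat_lit 2547) (nat_lit 2541) (nat_lit 2529) (nat_lit 2565) (nat_lit 2493) (nat_lit 2601) (nat_lit 2385) (nat_lit 2709) (nat_lit 3033) (nat_lit 1089) (nat_lit 361))))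
 (.n (nat_lit 2565)
 (.l (.k2_6 (nat_lit 9) (nat_lit 2565) (nat_lit 2547) (nat_lit 2619) (nat_lit 2403) (nat_lit 2727) (nat_lit 3051) (nat_lit 1107) (nat_lit 379)))
 (.l (.k3_5 (nat_lit 9) (nat_lit 2593) (nat_lit 2595) (nat_lit 2539) (nat_lit 2755) (nat_lit 3079) (nat_lit 1135) (nat_lit 4779) (nat_lit 407))))))
 (.n (nat_lit 2675)
 (.n (nat_lit 2601)
 (.n (nat_lit 2595)
 (.l (.k2_6 (nat_lit 8) (nat_lit 2595) (nat_lit 2593) (nat_lit 2601) (nat_lit 2541) (nat_lit 2757) (nat_lit 3081) (nat_lit 1137) (nat_lit 409)))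
 (.l (.k2_6 (nat_lit 8) (nat_lit 2601) (nat_lit 2595) (nat_lit 2619) (nat_lit 2547) (nat_lit 2763) (nat_lit 3087) (nat_lit 1143) (nat_lit 415))))
 (.n (nat_lit 2619)
 (.l (.k2_5 (nat_lit 10) (nat_lit 2619) (nat_lit 2601) (nat_lit 2565) (nat_lit 2781) (nat_lit 3105) (nat_lit 1161) (nat_lit 433)))
 (.l (.k1_4 (nat_lit 8) (nat_lit 2675) (nat_lit 2677) (nat_lit 2513) (nat_lit 3161) (nat_lit 1217) (nat_lit 4861)))))
 (.n (nat_lit 2679)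
 (.n (nat_lit 2677)
 (.l (.k3_6 (nat_lit 8) (nat_lit 2677) (nat_lit 2675) (nat_lit 2679) (nat_lit 2683) (nat_lit 2515) (nat_lit 3163) (nat_lit 1219) (nat_lit 4863) (nat_lit 491)))
 (.l (.k2_5 (nat_lit 6) (nat_lit 2679) (nat_lit 2677) (nat_lit 2685) (nat_lit 2517) (nat_lit 3165) (nat_lit 1221) (nat_lit 493))))
 (.n (nat_lit 2683)
 (.l (.k3_6 (nat_lit 7) (nat_lit 2683) (nat_lit 2685) (nat_lit 2677) (nat_lit 2701) (nat_lit 2521) (nat_lit 3169) (nat_lit 1225) (nat_lit 4869) (nat_lit 497)))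
 (.l (.k2_7 (nat_lit 7) (nat_lit 2685) (nat_lit 2683) (nat_lit 2679) (nat_lit 2691) (nat_lit 2703) (nat_lit 2523) (nat_lit 3171) (nat_lit 1227) (nat_lit 499))))))))
 (.n (nat_lit 2935)
 (.n (nat_lit 2763)
 (.n (nat_lit 2709)
 (.n (nat_lit 2701)
 (.n (nat_lit 2691)
 (.l (.k2_5 (nat_lit 6) (nat_lit 2691) (nat_lit 2685) (nat_lit 2709) (nat_lit 2529) (nat_lit 3177) (nat_lit 1233) (nat_lit 505)))
 (.l (.k3_6 (nat_lit 7) (nat_lit 2701) (nat_lit 2703) (nat_lit 2683) (nat_lit 2755) (nat_lit 2539) (nat_lit 3187) (nat_lit 1243) (nat_lit 4887) (nat_lit 515))))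
 (.n (nat_lit 2703)
 (.l (.k2_7 (nat_lit 6) (nat_lit 2703) (nat_lit 2701) (nat_lit 2709) (nat_lit 2685) (nat_lit 2757) (nat_lit 2541) (nat_lit 3189) (nat_lit 1245) (nat_lit 517)))
 (.l (.k2_7 (nat_lit 7) (nat_lit 2709) (nat_lit 2703) (nat_lit 2691) (nat_lit 2727) (nat_lit 2763) (nat_lit 2547) (nat_lit 3195) (nat_lit 1251) (nat_lit 523)))))
 (.n (nat_lit 2755)
 (.n (nat_lit 2727)
 (.l (.k2_5 (nat_lit 6) (nat_lit 2727) (nat_lit 2709) (nat_lit 2781) (nat_lit 2565) (nat_lit 3213) (nat_lit 1269) (nat_lit 541)))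
 (.l (.k3_5 (nat_lit 9) (nat_lit 2755) (nat_lit 2757) (nat_lit 2701) (nat_lit 2593) (nat_lit 3241) (nat_lit 1297) (nat_lit 4941) (nat_lit 569))))
 (.n (nat_lit 2757)
 (.l (.k2_6 (nat_lit 8) (nat_lit 2757) (nat_lit 2755) (nat_lit 2763) (nat_lit 2703) (nat_lit 2595) (nat_lit 3243) (nat_lit 1299) (nat_lit 571)))
 (.l (.k2_6 (nat_lit 8) (nat_lit 2763) (nat_lit 2757) (nat_lit 2781) (nat_lit 2709) (nat_lit 2601) (nat_lit 3249) (nat_lit 1305) (nat_lit 577))))))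
 (.n (nat_lit 2923)
 (.n (nat_lit 2835)
 (.n (nat_lit 2781)
 (.l (.k2_6 (nat_lit 9) (nat_lit 2781) (nat_lit 2763) (nat_lit 2727) (nat_lit 2835) (nat_lit 2619) (nat_lit 3267) (nat_lit 1323) (nat_lit 595)))
 (.l (.k2_3 (nat_lit 10) (nat_lit 2835) (nat_lit 2781) (nat_lit 3321) (nat_lit 1377) (nat_lit 649))))
 (.n (nat_lit 2921)
 (.l (.k1_5 (nat_lit 11) (nat_lit 2921) (nat_lit 2923) (nat_lit 2927) (nat_lit 2435) (nat_lit 1463) (nat_lit 4379) (nat_lit 5107)))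
 (.l (.k3_5 (nat_lit 10) (nat_lit 2923) (nat_lit 2921) (nat_lit 2929) (nat_lit 2437) (nat_lit 1465) (nat_lit 4381) (nat_lit 5109) (nat_lit 737)))))
 (.n (nat_lit 2929)
 (.n (nat_lit 2927)
 (.l (.k1_6 (nat_lit 9) (nat_lit 2927) (nat_lit 2929) (nat_lit 2921) (nat_lit 2945) (nat_lit 2441) (nat_lit 1469) (nat_lit 4385) (nat_lit 5113)))
 (.l (.k3_8 (nat_lit 10) (nat_lit 2929) (nat_lit 2927) (nat_lit 2931) (nat_lit 2923) (nat_lit 2935) (nat_lit 2947) (nat_lit 2443) (nat_lit 1471) (nat_lit 4387) (nat_lit 5115) (nat_lit 743))))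
 (.n (nat_lit 2931)
 (.l (.k2_6 (nat_lit 9) (nat_lit 2931) (nat_lit 2929) (nat_lit 2937) (nat_lit 2949) (nat_lit 2445) (nat_lit 1473) (nat_lit 4389) (nat_lit 745)))
 (.l (.k3_6 (nat_lit 8) (nat_lit 2935) (nat_lit 2937) (nat_lit 2929) (nat_lit 2953) (nat_lit 2449) (nat_lit 1477) (nat_lit 4393) (nat_lit 5121) (nat_lit 749)))))))
 (.n (nat_lit 2971)
 (.n (nat_lit 2949)
 (.n (nat_lit 2945)
 (.n (nat_lit 2937)
 (.l (.k2_6 (nat_lit 9) (nat_lit 2937) (nat_lit 2935) (nat_lit 2931) (nat_lit 2955) (nat_lit 2451) (nat_lit 1479) (nat_lit 4395) (nat_lit 751)))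
 (.l (.k1_6 (nat_lit 9) (nat_lit 2945) (nat_lit 2947) (nat_lit 2927) (nat_lit 2999) (nat_lit 2459) (nat_lit 1487) (nat_lit 4403) (nat_lit 5131))))
 (.n (nat_lit 2947)
 (.l (.k3_8 (nat_lit 9) (nat_lit 2947) (nat_lit 2945) (nat_lit 2949) (nat_lit 2953) (nat_lit 2929) (nat_lit 3001) (nat_lit 2461) (nat_lit 1489) (nat_lit 4405) (nat_lit 5133) (nat_lit 761)))
 (.l (.k2_7 (nat_lit 7) (nat_lit 2949) (nat_lit 2947) (nat_lit 2955) (nat_lit 2931) (nat_lit 3003) (nat_lit 2463) (nat_lit 1491) (nat_lit 4407) (nat_lit 763)))))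
 (.n (nat_lit 2955)
 (.n (nat_lit 2953)
 (.l (.k3_8 (nat_lit 9) (nat_lit 2953) (nat_lit 2955) (nat_lit 2947) (nat_lit 2935) (nat_lit 2971) (nat_lit 3007) (nat_lit 2467) (nat_lit 1495) (nat_lit 4411) (nat_lit 5139) (nat_lit 767)))
 (.l (.k2_9 (nat_lit 9) (nat_lit 2955) (nat_lit 2953) (nat_lit 2949) (nat_lit 2961) (nat_lit 2937) (nat_lit 2973) (nat_lit 3009) (nat_lit 2469) (nat_lit 1497) (nat_lit 4413) (nat_lit 769))))
 (.n (nat_lit 2961)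
 (.l (.k2_6 (nat_lit 9) (nat_lit 2961) (nat_lit 2955) (nat_lit 2979) (nat_lit 3015) (nat_lit 2475) (nat_lit 1503) (nat_lit 4419) (nat_lit 775)))
 (.l (.k3_6 (nat_lit 8) (nat_lit 2971) (nat_lit 2973) (nat_lit 2953) (nat_lit 3025) (nat_lit 2485) (nat_lit 1513) (nat_lit 4429) (nat_lit 5157) (nat_lit 785))))))
 (.n (nat_lit 3001)
 (.n (nat_lit 2979)
 (.n (nat_lit 2973)
 (.l (.k2_7 (nat_lit 7) (nat_lit 2973) (nat_lit 2971) (nat_lit 2979) (nat_lit 2955) (nat_lit 3027) (nat_lit 2487) (nat_lit 1515) (nat_lit 4431) (nat_lit 787)))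
 (.l (.k2_6 (nat_lit 9) (nat_lit 2979) (nat_lit 2973) (nat_lit 2961) (nat_lit 3033) (nat_lit 2493) (nat_lit 1521) (nat_lit 4437) (nat_lit 793))))
 (.n (nat_lit 2999)
 (.l (.k1_6 (nat_lit 9) (nat_lit 2999) (nat_lit 3001) (nat_lit 2945) (nat_lit 3161) (nat_lit 2513) (nat_lit 1541) (nat_lit 4457) (nat_lit 5185)))
 (.l (.k3_8 (nat_lit 9) (nat_lit 3001) (nat_lit 2999) (nat_lit 3003) (nat_lit 3007) (nat_lit 2947) (nat_lit 3163) (nat_lit 2515) (nat_lit 1543) (nat_lit 4459) (nat_lit 5187) (nat_lit 815)))))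
 (.n (nat_lit 3007)
 (.n (nat_lit 3003)
 (.l (.k2_7 (nat_lit 7) (nat_lit 3003) (nat_lit 3001) (nat_lit 3009) (nat_lit 2949) (nat_lit 3165) (nat_lit 2517) (nat_lit 1545) (nat_lit 4461) (nat_lit 817)))
 (.l (.k3_8 (nat_lit 8) (nat_lit 3007) (nat_lit 3009) (nat_lit 3001) (nat_lit 3025) (nat_lit 2953) (nat_lit 3169) (nat_lit 2521) (nat_lit 1549) (nat_lit 4465) (nat_lit 5193) (nat_lit 821))))
 (.n (nat_lit 3009)
 (.l (.k2_9 (nat_lit 8) (nat_lit 3009) (nat_lit 3007) (nat_lit 3003) (nat_lit 3015) (nat_lit 3027) (nat_lit 2955) (nat_lit 3171) (nat_lit 2523) (nat_lit 1551) (nat_lit 4467) (nat_lit 823)))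
 (.l (.k2_7 (nat_lit 7) (nat_lit 3015) (nat_lit 3009) (nat_lit 3033) (nat_lit 2961) (nat_lit 3177) (nat_lit 2529) (nat_lit 1557) (nat_lit 4473) (nat_lit 829))))))))))
 (.n (nat_lit 4429)
 (.n (nat_lit 3651)
 (.n (nat_lit 3187)
 (.n (nat_lit 3087)
 (.n (nat_lit 3033)
 (.n (nat_lit 3025)
 (.l (.k3_8 (nat_lit 9) (nat_lit 3025) (nat_lit 3027) (nat_lit 3007) (nat_lit 2971) (nat_lit 3079) (nat_lit 3187) (nat_lit 2539) (nat_lit 1567) (nat_lit 4483) (nat_lit 5211) (nat_lit 839)))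
 (.n (nat_lit 3027)
 (.l (.k2_9 (nat_lit 8) (nat_lit 3027) (nat_lit 3025) (nat_lit 3033) (nat_lit 3009) (nat_lit 2973) (nat_lit 3081) (nat_lit 3189) (nat_lit 2541) (nat_lit 1569) (nat_lit 4485) (nat_lit 841)))
 (.l (.k2_9 (nat_lit 9) (nat_lit 3033) (nat_lit 3027) (nat_lit 3015) (nat_lit 3051) (nat_lit 2979) (nat_lit 3087) (nat_lit 3195) (nat_lit 2547) (nat_lit 1575) (nat_lit 4491) (nat_lit 847)))))
 (.n (nat_lit 3079)
 (.n (nat_lit 3051)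
 (.l (.k2_6 (nat_lit 9) (nat_lit 3051) (nat_lit 3033) (nat_lit 3105) (nat_lit 3213) (nat_lit 2565) (nat_lit 1593) (nat_lit 4509) (nat_lit 865)))
 (.l (.k3_6 (nat_lit 8) (nat_lit 3079) (nat_lit 3081) (nat_lit 3025) (nat_lit 3241) (nat_lit 2593) (nat_lit 1621) (nat_lit 4537) (nat_lit 5265) (nat_lit 893))))
 (.n (nat_lit 3081)
 (.l (.k2_7 (nat_lit 7) (nat_lit 3081) (nat_lit 3079) (nat_lit 3087) (nat_lit 3027) (nat_lit 3243) (nat_lit 2595) (nat_lit 1623) (nat_lit 4539) (nat_lit 895)))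
 (.l (.k2_7 (nat_lit 7) (nat_lit 3087) (nat_lit 3081) (nat_lit 3105) (nat_lit 3033) (nat_lit 3249) (nat_lit 2601) (nat_lit 1629) (nat_lit 4545) (nat_lit 901))))))
 (.n (nat_lit 3165)
 (.n (nat_lit 3161)
 (.n (nat_lit 3105)
 (.l (.k2_6 (nat_lit 9) (nat_lit 3105) (nat_lit 3087) (nat_lit 3051) (nat_lit 3267) (nat_lit 2619) (nat_lit 1647) (nat_lit 4563) (nat_lit 919)))
 (.l (.k1_6 (nat_lit 10) (nat_lit 3161) (nat_lit 3163) (nat_lit 2999) (nat_lit 2675) (nat_lit 3647) (nat_lit 1703) (nat_lit 4619) (nat_lit 5347))))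
 (.n (nat_lit 3163)
 (.l (.k3_8 (nat_lit 10) (nat_lit 3163) (nat_lit 3161) (nat_lit 3165) (nat_lit 3169) (nat_lit 3001) (nat_lit 2677) (nat_lit 3649) (nat_lit 1705) (nat_lit 4621) (nat_lit 5349) (nat_lit 977)))
 (.l (.k2_7 (nat_lit 8) (nat_lit 3165) (nat_lit 3163) (nat_lit 3171) (nat_lit 3003) (nat_lit 2679) (nat_lit 3651) (nat_lit 1707) (nat_lit 4623) (nat_lit 979)))))
 (.n (nat_lit 3171)
 (.n (nat_lit 3169)
 (.l (.k3_8 (nat_lit 9) (nat_lit 3169) (nat_lit 3171) (nat_lit 3163) (nat_lit 3187) (nat_lit 3007) (nat_lit 2683) (nat_lit 3655) (nat_lit 1711) (nat_lit 4627) (nat_lit 5355) (nat_lit 983)))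
 (.l (.k2_9 (nat_lit 9) (nat_lit 3171) (nat_lit 3169) (nat_lit 3165) (nat_lit 3177) (nat_lit 3189) (nat_lit 3009) (nat_lit 2685) (nat_lit 3657) (nat_lit 1713) (nat_lit 4629) (nat_lit 985))))
 (.n (nat_lit 3177)
 (.l (.k2_7 (nat_lit 8) (nat_lit 3177) (nat_lit 3171) (nat_lit 3195) (nat_lit 3015) (nat_lit 2691) (nat_lit 3663) (nat_lit 1719) (nat_lit 4635) (nat_lit 991)))
 (.l (.k3_8 (nat_lit 9) (nat_lit 3187) (nat_lit 3189) (nat_lit 3169) (nat_lit 3241) (nat_lit 3025) (nat_lit 2701) (nat_lit 3673) (nat_lit 1729) (nat_lit 4645) (nat_lit 5373) (nat_lit 1001)))))))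
 (.n (nat_lit 3321)
 (.n (nat_lit 3241)
 (.n (nat_lit 3195)
 (.n (nat_lit 3189)
 (.l (.k2_9 (nat_lit 8) (nat_lit 3189) (nat_lit 3187) (nat_lit 3195) (nat_lit 3171) (nat_lit 3243) (nat_lit 3027) (nat_lit 2703) (nat_lit 3675) (nat_lit 1731) (nat_lit 4647) (nat_lit 1003)))
 (.l (.k2_9 (nat_lit 9) (nat_lit 3195) (nat_lit 3189) (nat_lit 3177) (nat_lit 3213) (nat_lit 3249) (nat_lit 3033) (nat_lit 2709) (nat_lit 3681) (nat_lit 1737) (nat_lit 4653) (nat_lit 1009))))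
 (.n (nat_lit 3213)
 (.l (.k2_7 (nat_lit 8) (nat_lit 3213) (nat_lit 3195) (nat_lit 3267) (nat_lit 3051) (nat_lit 2727) (nat_lit 3699) (nat_lit 1755) (nat_lit 4671) (nat_lit 1027)))
 (.l (.k3_8 (nat_lit 10) (nat_lit 3241) (nat_lit 3243) (nat_lit 3187) (nat_lit 3079) (nat_lit 3403) (nat_lit 2755) (nat_lit 3727) (nat_lit 1783) (nat_lit 4699) (nat_lit 5427) (nat_lit 1055)))))
 (.n (nat_lit 3249)
 (.n (nat_lit 3243)
 (.l (.k2_9 (nat_lit 9) (nat_lit 3243) (nat_lit 3241) (nat_lit 3249) (nat_lit 3189) (nat_lit 3081) (nat_lit 3405) (nat_lit 2757) (nat_lit 3729) (nat_lit 1785) (nat_lit 4701) (nat_lit 1057)))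
 (.l (.k2_9 (nat_lit 9) (nat_lit 3249) (nat_lit 3243) (nat_lit 3267) (nat_lit 3195) (nat_lit 3087) (nat_lit 3411) (nat_lit 2763) (nat_lit 3735) (nat_lit 1791) (nat_lit 4707) (nat_lit 1063))))
 (.n (nat_lit 3267)
 (.l (.k2_9 (nat_lit 10) (nat_lit 3267) (nat_lit 3249) (nat_lit 3213) (nat_lit 3321) (nat_lit 3105) (nat_lit 3429) (nat_lit 2781) (nat_lit 3753) (nat_lit 1809) (nat_lit 4725) (nat_lit 1081)))
 (.l (.k2_6 (nat_lit 10) (nat_lit 3321) (nat_lit 3267) (nat_lit 3483) (nat_lit 2835) (nat_lit 3807) (nat_lit 1863) (nat_lit 4779) (nat_lit 1135))))))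
 (.n (nat_lit 3429)
 (.n (nat_lit 3405)
 (.n (nat_lit 3403)
 (.l (.k3_5 (nat_lit 10) (nat_lit 3403) (nat_lit 3405) (nat_lit 3241) (nat_lit 3889) (nat_lit 1945) (nat_lit 4861) (nat_lit 5589) (nat_lit 1217)))
 (.l (.k2_6 (nat_lit 9) (nat_lit 3405) (nat_lit 3403) (nat_lit 3411) (nat_lit 3243) (nat_lit 3891) (nat_lit 1947) (nat_lit 4863) (nat_lit 1219))))
 (.n (nat_lit 3411)
 (.l (.k2_6 (nat_lit 9) (nat_lit 3411) (nat_lit 3405) (nat_lit 3429) (nat_lit 3249) (nat_lit 3897) (nat_lit 1953) (nat_lit 4869) (nat_lit 1225)))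
 (.l (.k2_6 (nat_lit 9) (nat_lit 3429) (nat_lit 3411) (nat_lit 3483) (nat_lit 3267) (nat_lit 3915) (nat_lit 1971) (nat_lit 4887) (nat_lit 1243)))))
 (.n (nat_lit 3647)
 (.n (nat_lit 3483)
 (.l (.k2_5 (nat_lit 11) (nat_lit 3483) (nat_lit 3429) (nat_lit 3321) (nat_lit 3969) (nat_lit 2025) (nat_lit 4941) (nat_lit 1297)))
 (.l (.k1_3 (nat_lit 10) (nat_lit 3647) (nat_lit 3649) (nat_lit 3161) (nat_lit 5105) (nat_lit 5833))))
 (.n (nat_lit 3649)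
 (.l (.k3_5 (nat_lit 10) (nat_lit 3649) (nat_lit 3647) (nat_lit 3651) (nat_lit 3655) (nat_lit 3163) (nat_lit 5107) (nat_lit 5835) (nat_lit 1463)))
 (.l (.k2_4 (nat_lit 8) (nat_lit 3651) (nat_lit 3649) (nat_lit 3657) (nat_lit 3165) (nat_lit 5109) (nat_lit 1465))))))))
 (.n (nat_lit 3915)
 (.n (nat_lit 3727)
 (.n (nat_lit 3673)
 (.n (nat_lit 3657)
 (.n (nat_lit 3655)
 (.l (.k3_5 (nat_lit 9) (nat_lit 3655) (nat_lit 3657) (nat_lit 3649) (nat_lit 3673) (nat_lit 3169) (nat_lit 5113) (nat_lit 5841) (nat_lit 1469)))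
 (.l (.k2_6 (nat_lit 9) (nat_lit 3657) (nat_lit 3655) (nat_lit 3651) (nat_lit 3663) (nat_lit 3675) (nat_lit 3171) (nat_lit 5115) (nat_lit 1471))))
 (.n (nat_lit 3663)
 (.l (.k2_4 (nat_lit 8) (nat_lit 3663) (nat_lit 3657) (nat_lit 3681) (nat_lit 3177) (nat_lit 5121) (nat_lit 1477)))
 (.l (.k3_5 (nat_lit 9) (nat_lit 3673) (nat_lit 3675) (nat_lit 3655) (nat_lit 3727) (nat_lit 3187) (nat_lit 5131) (nat_lit 5859) (nat_lit 1487)))))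
 (.n (nat_lit 3681)
 (.n (nat_lit 3675)
 (.l (.k2_6 (nat_lit 8) (nat_lit 3675) (nat_lit 3673) (nat_lit 3681) (nat_lit 3657) (nat_lit 3729) (nat_lit 3189) (nat_lit 5133) (nat_lit 1489)))
 (.l (.k2_6 (nat_lit 9) (nat_lit 3681) (nat_lit 3675) (nat_lit 3663) (nat_lit 3699) (nat_lit 3735) (nat_lit 3195) (nat_lit 5139) (nat_lit 1495))))
 (.n (nat_lit 3699)
 (.l (.k2_4 (nat_lit 8) (nat_lit 3699) (nat_lit 3681) (nat_lit 3753) (nat_lit 3213) (nat_lit 5157) (nat_lit 1513)))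
 (.l (.k3_5 (nat_lit 9) (nat_lit 3727) (nat_lit 3729) (nat_lit 3673) (nat_lit 3889) (nat_lit 3241) (nat_lit 5185) (nat_lit 5913) (nat_lit 1541))))))
 (.n (nat_lit 3807)
 (.n (nat_lit 3735)
 (.n (nat_lit 3729)
 (.l (.k2_6 (nat_lit 8) (nat_lit 3729) (nat_lit 3727) (nat_lit 3735) (nat_lit 3675) (nat_lit 3891) (nat_lit 3243) (nat_lit 5187) (nat_lit 1543)))
 (.l (.k2_6 (nat_lit 8) (nat_lit 3735) (nat_lit 3729) (nat_lit 3753) (nat_lit 3681) (nat_lit 3897) (nat_lit 3249) (nat_lit 5193) (nat_lit 1549))))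
 (.n (nat_lit 3753)
 (.l (.k2_6 (nat_lit 9) (nat_lit 3753) (nat_lit 3735) (nat_lit 3699) (nat_lit 3807) (nat_lit 3915) (nat_lit 3267) (nat_lit 5211) (nat_lit 1567)))
 (.l (.k2_4 (nat_lit 8) (nat_lit 3807) (nat_lit 3753) (nat_lit 3969) (nat_lit 3321) (nat_lit 5265) (nat_lit 1621)))))
 (.n (nat_lit 3891)
 (.n (nat_lit 3889)
 (.l (.k3_4 (nat_lit 11) (nat_lit 3889) (nat_lit 3891) (nat_lit 3727) (nat_lit 3403) (nat_lit 5347) (nat_lit 6075) (nat_lit 1703)))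
 (.l (.k2_5 (nat_lit 10) (nat_lit 3891) (nat_lit 3889) (nat_lit 3897) (nat_lit 3729) (nat_lit 3405) (nat_lit 5349) (nat_lit 1705))))
 (.n (nat_lit 3897)
 (.l (.k2_5 (nat_lit 10) (nat_lit 3897) (nat_lit 3891) (nat_lit 3915) (nat_lit 3735) (nat_lit 3411) (nat_lit 5355) (nat_lit 1711)))
 (.l (.k2_5 (nat_lit 10) (nat_lit 3915) (nat_lit 3897) (nat_lit 3969) (nat_lit 3753) (nat_lit 3429) (nat_lit 5373) (nat_lit 1729)))))))
 (.n (nat_lit 4393)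
 (.n (nat_lit 4381)
 (.n (nat_lit 4131)
 (.n (nat_lit 3969)
 (.l (.k2_5 (nat_lit 11) (nat_lit 3969) (nat_lit 3915) (nat_lit 3807) (nat_lit 4131) (nat_lit 3483) (nat_lit 5427) (nat_lit 1783)))
 (.l (.k2_2 (nat_lit 12) (nat_lit 4131) (nat_lit 3969) (nat_lit 5589) (nat_lit 1945))))
 (.n (nat_lit 4379)
 (.l (.k0_3 (nat_lit 12) (nat_lit 4379) (nat_lit 4381) (nat_lit 4385) (nat_lit 2921)))
 (.l (.k2_3 (nat_lit 10) (nat_lit 4381) (nat_lit 4379) (nat_lit 4387) (nat_lit 2923) (nat_lit 2195)))))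
 (.n (nat_lit 4387)
 (.n (nat_lit 4385)
 (.l (.k0_4 (nat_lit 10) (nat_lit 4385) (nat_lit 4387) (nat_lit 4379) (nat_lit 4403) (nat_lit 2927)))
 (.l (.k2_6 (nat_lit 10) (nat_lit 4387) (nat_lit 4385) (nat_lit 4389) (nat_lit 4381) (nat_lit 4393) (nat_lit 4405) (nat_lit 2929) (nat_lit 2201))))
 (.n (nat_lit 4389)
 (.l (.k2_4 (nat_lit 8) (nat_lit 4389) (nat_lit 4387) (nat_lit 4395) (nat_lit 4407) (nat_lit 2931) (nat_lit 2203)))
 (.l (.k2_4 (nat_lit 8) (nat_lit 4393) (nat_lit 4395) (nat_lit 4387) (nat_lit 4411) (nat_lit 2935) (nat_lit 2207))))))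
 (.n (nat_lit 4407)
 (.n (nat_lit 4403)
 (.n (nat_lit 4395)
 (.l (.k2_4 (nat_lit 8) (nat_lit 4395) (nat_lit 4393) (nat_lit 4389) (nat_lit 4413) (nat_lit 2937) (nat_lit 2209)))
 (.l (.k0_4 (nat_lit 10) (nat_lit 4403) (nat_lit 4405) (nat_lit 4385) (nat_lit 4457) (nat_lit 2945))))
 (.n (nat_lit 4405)
 (.l (.k2_6 (nat_lit 9) (nat_lit 4405) (nat_lit 4403) (nat_lit 4407) (nat_lit 4411) (nat_lit 4387) (nat_lit 4459) (nat_lit 2947) (nat_lit 2219)))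
 (.l (.k2_5 (nat_lit 6) (nat_lit 4407) (nat_lit 4405) (nat_lit 4413) (nat_lit 4389) (nat_lit 4461) (nat_lit 2949) (nat_lit 2221)))))
 (.n (nat_lit 4413)
 (.n (nat_lit 4411)
 (.l (.k2_6 (nat_lit 9) (nat_lit 4411) (nat_lit 4413) (nat_lit 4405) (nat_lit 4393) (nat_lit 4429) (nat_lit 4465) (nat_lit 2953) (nat_lit 2225)))
 (.l (.k2_7 (nat_lit 8) (nat_lit 4413) (nat_lit 4411) (nat_lit 4407) (nat_lit 4419) (nat_lit 4395) (nat_lit 4431) (nat_lit 4467) (nat_lit 2955) (nat_lit 2227))))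
 (.n (nat_lit 4419)
 (.l (.k2_4 (nat_lit 8) (nat_lit 4419) (nat_lit 4413) (nat_lit 4437) (nat_lit 4473) (nat_lit 2961) (nat_lit 2233)))
 (.l (.k2_4 (nat_lit 8) (nat_lit 4429) (nat_lit 4431) (nat_lit 4411) (nat_lit 4483) (nat_lit 2971) (nat_lit 2243)))))))))
 (.n (nat_lit 4779)
 (.n (nat_lit 4545)
 (.n (nat_lit 4467)
 (.n (nat_lit 4457)
 (.n (nat_lit 4431)
 (.l (.k2_5 (nat_lit 6) (nat_lit 4431) (nat_lit 4429) (nat_lit 4437) (nat_lit 4413) (nat_lit 4485) (nat_lit 2973) (nat_lit 2245)))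
 (.n (nat_lit 4437)
 (.l (.k2_4 (nat_lit 8) (nat_lit 4437) (nat_lit 4431) (nat_lit 4419) (nat_lit 4491) (nat_lit 2979) (nat_lit 2251)))
 (.l (.k0_4 (nat_lit 10) (nat_lit 4457) (nat_lit 4459) (nat_lit 4403) (nat_lit 4619) (nat_lit 2999)))))
 (.n (nat_lit 4461)
 (.n (nat_lit 4459)
 (.l (.k2_6 (nat_lit 9) (nat_lit 4459) (nat_lit 4457) (nat_lit 4461) (nat_lit 4465) (nat_lit 4405) (nat_lit 4621) (nat_lit 3001) (nat_lit 2273)))
 (.l (.k2_5 (nat_lit 6) (nat_lit 4461) (nat_lit 4459) (nat_lit 4467) (nat_lit 4407) (nat_lit 4623) (nat_lit 3003) (nat_lit 2275))))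
 (.n (nat_lit 4465)
 (.l (.k2_6 (nat_lit 8) (nat_lit 4465) (nat_lit 4467) (nat_lit 4459) (nat_lit 4483) (nat_lit 4411) (nat_lit 4627) (nat_lit 3007) (nat_lit 2279)))
 (.l (.k2_7 (nat_lit 7) (nat_lit 4467) (nat_lit 4465) (nat_lit 4461) (nat_lit 4473) (nat_lit 4485) (nat_lit 4413) (nat_lit 4629) (nat_lit 3009) (nat_lit 2281))))))
 (.n (nat_lit 4491)
 (.n (nat_lit 4483)
 (.n (nat_lit 4473)
 (.l (.k2_5 (nat_lit 6) (nat_lit 4473) (nat_lit 4467) (nat_lit 4491) (nat_lit 4419) (nat_lit 4635) (nat_lit 3015) (nat_lit 2287)))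
 (.l (.k2_6 (nat_lit 9) (nat_lit 4483) (nat_lit 4485) (nat_lit 4465) (nat_lit 4429) (nat_lit 4537) (nat_lit 4645) (nat_lit 3025) (nat_lit 2297))))
 (.n (nat_lit 4485)
 (.l (.k2_7 (nat_lit 7) (nat_lit 4485) (nat_lit 4483) (nat_lit 4491) (nat_lit 4467) (nat_lit 4431) (nat_lit 4539) (nat_lit 4647) (nat_lit 3027) (nat_lit 2299)))
 (.l (.k2_7 (nat_lit 8) (nat_lit 4491) (nat_lit 4485) (nat_lit 4473) (nat_lit 4509) (nat_lit 4437) (nat_lit 4545) (nat_lit 4653) (nat_lit 3033) (nat_lit 2305)))))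
 (.n (nat_lit 4537)
 (.n (nat_lit 4509)
 (.l (.k2_4 (nat_lit 8) (nat_lit 4509) (nat_lit 4491) (nat_lit 4563) (nat_lit 4671) (nat_lit 3051) (nat_lit 2323)))
 (.l (.k2_4 (nat_lit 8) (nat_lit 4537) (nat_lit 4539) (nat_lit 4483) (nat_lit 4699) (nat_lit 3079) (nat_lit 2351))))
 (.n (nat_lit 4539)
 (.l (.k2_5 (nat_lit 6) (nat_lit 4539) (nat_lit 4537) (nat_lit 4545) (nat_lit 4485) (nat_lit 4701) (nat_lit 3081) (nat_lit 2353)))
 (.l (.k2_5 (nat_lit 6) (nat_lit 4545) (nat_lit 4539) (nat_lit 4563) (nat_lit 4491) (nat_lit 4707) (nat_lit 3087) (nat_lit 2359)))))))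
 (.n (nat_lit 4645)
 (.n (nat_lit 4623)
 (.n (nat_lit 4619)
 (.n (nat_lit 4563)
 (.l (.k2_4 (nat_lit 8) (nat_lit 4563) (nat_lit 4545) (nat_lit 4509) (nat_lit 4725) (nat_lit 3105) (nat_lit 2377)))
 (.l (.k0_4 (nat_lit 10) (nat_lit 4619) (nat_lit 4621) (nat_lit 4457) (nat_lit 5105) (nat_lit 3161))))
 (.n (nat_lit 4621)
 (.l (.k2_6 (nat_lit 9) (nat_lit 4621) (nat_lit 4619) (nat_lit 4623) (nat_lit 4627) (nat_lit 4459) (nat_lit 5107) (nat_lit 3163) (nat_lit 2435)))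
 (.l (.k2_5 (nat_lit 6) (nat_lit 4623) (nat_lit 4621) (nat_lit 4629) (nat_lit 4461) (nat_lit 5109) (nat_lit 3165) (nat_lit 2437)))))
 (.n (nat_lit 4629)
 (.n (nat_lit 4627)
 (.l (.k2_6 (nat_lit 8) (nat_lit 4627) (nat_lit 4629) (nat_lit 4621) (nat_lit 4645) (nat_lit 4465) (nat_lit 5113) (nat_lit 3169) (nat_lit 2441)))
 (.l (.k2_7 (nat_lit 7) (nat_lit 4629) (nat_lit 4627) (nat_lit 4623) (nat_lit 4635) (nat_lit 4647) (nat_lit 4467) (nat_lit 5115) (nat_lit 3171) (nat_lit 2443))))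
 (.n (nat_lit 4635)
 (.l (.k2_5 (nat_lit 6) (nat_lit 4635) (nat_lit 4629) (nat_lit 4653) (nat_lit 4473) (nat_lit 5121) (nat_lit 3177) (nat_lit 2449)))
 (.l (.k2_6 (nat_lit 8) (nat_lit 4645) (nat_lit 4647) (nat_lit 4627) (nat_lit 4699) (nat_lit 4483) (nat_lit 5131) (nat_lit 3187) (nat_lit 2459))))))
 (.n (nat_lit 4699)
 (.n (nat_lit 4653)
 (.n (nat_lit 4647)
 (.l (.k2_7 (nat_lit 6) (nat_lit 4647) (nat_lit 4645) (nat_lit 4653) (nat_lit 4629) (nat_lit 4701) (nat_lit 4485) (nat_lit 5133) (nat_lit 3189) (nat_lit 2461)))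
 (.l (.k2_7 (nat_lit 7) (nat_lit 4653) (nat_lit 4647) (nat_lit 4635) (nat_lit 4671) (nat_lit 4707) (nat_lit 4491) (nat_lit 5139) (nat_lit 3195) (nat_lit 2467))))
 (.n (nat_lit 4671)
 (.l (.k2_5 (nat_lit 6) (nat_lit 4671) (nat_lit 4653) (nat_lit 4725) (nat_lit 4509) (nat_lit 5157) (nat_lit 3213) (nat_lit 2485)))
 (.l (.k2_6 (nat_lit 9) (nat_lit 4699) (nat_lit 4701) (nat_lit 4645) (nat_lit 4537) (nat_lit 4861) (nat_lit 5185) (nat_lit 3241) (nat_lit 2513)))))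
 (.n (nat_lit 4707)
 (.n (nat_lit 4701)
 (.l (.k2_7 (nat_lit 7) (nat_lit 4701) (nat_lit 4699) (nat_lit 4707) (nat_lit 4647) (nat_lit 4539) (nat_lit 4863) (nat_lit 5187) (nat_lit 3243) (nat_lit 2515)))
 (.l (.k2_7 (nat_lit 7) (nat_lit 4707) (nat_lit 4701) (nat_lit 4725) (nat_lit 4653) (nat_lit 4545) (nat_lit 4869) (nat_lit 5193) (nat_lit 3249) (nat_lit 2521))))
 (.n (nat_lit 4725)
 (.l (.k2_7 (nat_lit 8) (nat_lit 4725) (nat_lit 4707) (nat_lit 4671) (nat_lit 4779) (nat_lit 4563) (nat_lit 4887) (nat_lit 5211) (nat_lit 3267) (nat_lit 2539)))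
 (.l (.k2_4 (nat_lit 8) (nat_lit 4779) (nat_lit 4725) (nat_lit 4941) (nat_lit 5265) (nat_lit 3321) (nat_lit 2593))))))))
 (.n (nat_lit 5185)
 (.n (nat_lit 5109)
 (.n (nat_lit 4887)
 (.n (nat_lit 4863)
 (.n (nat_lit 4861)
 (.l (.k2_4 (nat_lit 8) (nat_lit 4861) (nat_lit 4863) (nat_lit 4699) (nat_lit 5347) (nat_lit 3403) (nat_lit 2675)))
 (.l (.k2_5 (nat_lit 6) (nat_lit 4863) (nat_lit 4861) (nat_lit 4869) (nat_lit 4701) (nat_lit 5349) (nat_lit 3405) (nat_lit 2677))))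
 (.n (nat_lit 4869)
 (.l (.k2_5 (nat_lit 6) (nat_lit 4869) (nat_lit 4863) (nat_lit 4887) (nat_lit 4707) (nat_lit 5355) (nat_lit 3411) (nat_lit 2683)))
 (.l (.k2_5 (nat_lit 6) (nat_lit 4887) (nat_lit 4869) (nat_lit 4941) (nat_lit 4725) (nat_lit 5373) (nat_lit 3429) (nat_lit 2701)))))
 (.n (nat_lit 5105)
 (.n (nat_lit 4941)
 (.l (.k2_4 (nat_lit 8) (nat_lit 4941) (nat_lit 4887) (nat_lit 4779) (nat_lit 5427) (nat_lit 3483) (nat_lit 2755)))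
 (.l (.k0_3 (nat_lit 12) (nat_lit 5105) (nat_lit 5107) (nat_lit 4619) (nat_lit 3647))))
 (.n (nat_lit 5107)
 (.l (.k2_5 (nat_lit 11) (nat_lit 5107) (nat_lit 5105) (nat_lit 5109) (nat_lit 5113) (nat_lit 4621) (nat_lit 3649) (nat_lit 2921)))
 (.l (.k2_4 (nat_lit 8) (nat_lit 5109) (nat_lit 5107) (nat_lit 5115) (nat_lit 4623) (nat_lit 3651) (nat_lit 2923))))))
 (.n (nat_lit 5131)
 (.n (nat_lit 5115)
 (.n (nat_lit 5113)
 (.l (.k2_5 (nat_lit 10) (nat_lit 5113) (nat_lit 5115) (nat_lit 5107) (nat_lit 5131) (nat_lit 4627) (nat_lit 3655) (nat_lit 2927)))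
 (.l (.k2_6 (nat_lit 9) (nat_lit 5115) (nat_lit 5113) (nat_lit 5109) (nat_lit 5121) (nat_lit 5133) (nat_lit 4629) (nat_lit 3657) (nat_lit 2929))))
 (.n (nat_lit 5121)
 (.l (.k2_4 (nat_lit 8) (nat_lit 5121) (nat_lit 5115) (nat_lit 5139) (nat_lit 4635) (nat_lit 3663) (nat_lit 2935)))
 (.l (.k2_5 (nat_lit 10) (nat_lit 5131) (nat_lit 5133) (nat_lit 5113) (nat_lit 5185) (nat_lit 4645) (nat_lit 3673) (nat_lit 2945)))))
 (.n (nat_lit 5139)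
 (.n (nat_lit 5133)
 (.l (.k2_6 (nat_lit 8) (nat_lit 5133) (nat_lit 5131) (nat_lit 5139) (nat_lit 5115) (nat_lit 5187) (nat_lit 4647) (nat_lit 3675) (nat_lit 2947)))
 (.l (.k2_6 (nat_lit 9) (nat_lit 5139) (nat_lit 5133) (nat_lit 5121) (nat_lit 5157) (nat_lit 5193) (nat_lit 4653) (nat_lit 3681) (nat_lit 2953))))
 (.n (nat_lit 5157)
 (.l (.k2_4 (nat_lit 8) (nat_lit 5157) (nat_lit 5139) (nat_lit 5211) (nat_lit 4671) (nat_lit 3699) (nat_lit 2971)))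
 (.l (.k2_5 (nat_lit 10) (nat_lit 5185) (nat_lit 5187) (nat_lit 5131) (nat_lit 5347) (nat_lit 4699) (nat_lit 3727) (nat_lit 2999)))))))
 (.n (nat_lit 5373)
 (.n (nat_lit 5265)
 (.n (nat_lit 5193)
 (.n (nat_lit 5187)
 (.l (.k2_6 (nat_lit 8) (nat_lit 5187) (nat_lit 5185) (nat_lit 5193) (nat_lit 5133) (nat_lit 5349) (nat_lit 4701) (nat_lit 3729) (nat_lit 3001)))
 (.l (.k2_6 (nat_lit 8) (nat_lit 5193) (nat_lit 5187) (nat_lit 5211) (nat_lit 5139) (nat_lit 5355) (nat_lit 4707) (nat_lit 3735) (nat_lit 3007))))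
 (.n (nat_lit 5211)
 (.l (.k2_6 (nat_lit 9) (nat_lit 5211) (nat_lit 5193) (nat_lit 5157) (nat_lit 5265) (nat_lit 5373) (nat_lit 4725) (nat_lit 3753) (nat_lit 3025)))
 (.l (.k2_4 (nat_lit 8) (nat_lit 5265) (nat_lit 5211) (nat_lit 5427) (nat_lit 4779) (nat_lit 3807) (nat_lit 3079)))))
 (.n (nat_lit 5349)
 (.n (nat_lit 5347)
 (.l (.k2_5 (nat_lit 11) (nat_lit 5347) (nat_lit 5349) (nat_lit 5185) (nat_lit 4861) (nat_lit 5833) (nat_lit 3889) (nat_lit 3161)))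
 (.l (.k2_6 (nat_lit 9) (nat_lit 5349) (nat_lit 5347) (nat_lit 5355) (nat_lit 5187) (nat_lit 4863) (nat_lit 5835) (nat_lit 3891) (nat_lit 3163))))
 (.n (nat_lit 5355)
 (.l (.k2_6 (nat_lit 9) (nat_lit 5355) (nat_lit 5349) (nat_lit 5373) (nat_lit 5193) (nat_lit 4869) (nat_lit 5841) (nat_lit 3897) (nat_lit 3169)))
 (.l (.k2_6 (nat_lit 9) (nat_lit 5373) (nat_lit 5355) (nat_lit 5427) (nat_lit 5211) (nat_lit 4887) (nat_lit 5859) (nat_lit 3915) (nat_lit 3187))))))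
 (.n (nat_lit 5835)
 (.n (nat_lit 5589)
 (.n (nat_lit 5427)
 (.l (.k2_6 (nat_lit 10) (nat_lit 5427) (nat_lit 5373) (nat_lit 5265) (nat_lit 5589) (nat_lit 4941) (nat_lit 5913) (nat_lit 3969) (nat_lit 3241)))
 (.l (.k2_3 (nat_lit 10) (nat_lit 5589) (nat_lit 5427) (nat_lit 6075) (nat_lit 4131) (nat_lit 3403))))
 (.n (nat_lit 5833)
 (.l (.k2_2 (nat_lit 12) (nat_lit 5833) (nat_lit 5835) (nat_lit 5347) (nat_lit 3647)))
 (.l (.k2_3 (nat_lit 10) (nat_lit 5835) (nat_lit 5833) (nat_lit 5841) (nat_lit 5349) (nat_lit 3649)))))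
 (.n (nat_lit 5859)
 (.n (nat_lit 5841)
 (.l (.k2_3 (nat_lit 10) (nat_lit 5841) (nat_lit 5835) (nat_lit 5859) (nat_lit 5355) (nat_lit 3655)))
 (.l (.k2_3 (nat_lit 10) (nat_lit 5859) (nat_lit 5841) (nat_lit 5913) (nat_lit 5373) (nat_lit 3673))))
 (.n (nat_lit 5913)
 (.l (.k2_3 (nat_lit 10) (nat_lit 5913) (nat_lit 5859) (nat_lit 6075) (nat_lit 5427) (nat_lit 3727)))
 (.l (.k2_2 (nat_lit 12) (nat_lit 6075) (nat_lit 5913) (nat_lit 5589) (nat_lit 3889))))))))))))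

def tab4_4 : Trie :=
 (.n (nat_lit 1062)
 (.n (nat_lit 336)
 (.n (nat_lit 136)
 (.n (nat_lit 60)
 (.n (nat_lit 34)
 (.n (nat_lit 20)
 (.n (nat_lit 14)
 (.n (nat_lit 8)
 (.l (.k1_1 (nat_lit 12) (nat_lit 8) (nat_lit 14) (nat_lit 2194)))
 (.l (.k1_4 (nat_lit 11) (nat_lit 14) (nat_lit 16) (nat_lit 8) (nat_lit 20) (nat_lit 32) (nat_lit 2200))))
 (.n (nat_lit 16)
 (.l (.k1_3 (nat_lit 12) (nat_lit 16) (nat_lit 14) (nat_lit 22) (nat_lit 34) (nat_lit 2202)))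
 (.l (.k1_3 (nat_lit 8) (nat_lit 20) (nat_lit 22) (nat_lit 14) (nat_lit 38) (nat_lit 2206)))))
 (.n (nat_lit 24)
 (.n (nat_lit 22)
 (.l (.k1_4 (nat_lit 11) (nat_lit 22) (nat_lit 20) (nat_lit 24) (nat_lit 16) (nat_lit 40) (nat_lit 2208)))
 (.l (.k0_2 (nat_lit 12) (nat_lit 24) (nat_lit 22) (nat_lit 42))))
 (.n (nat_lit 32)
 (.l (.k1_4 (nat_lit 10) (nat_lit 32) (nat_lit 34) (nat_lit 38) (nat_lit 14) (nat_lit 86) (nat_lit 2218)))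
 (.l (.k1_4 (nat_lit 10) (nat_lit 34) (nat_lit 32) (nat_lit 40) (nat_lit 16) (nat_lit 88) (nat_lit 2220))))))
 (.n (nat_lit 46)
 (.n (nat_lit 40)
 (.n (nat_lit 38)
 (.l (.k1_5 (nat_lit 9) (nat_lit 38) (nat_lit 40) (nat_lit 32) (nat_lit 20) (nat_lit 56) (nat_lit 92) (nat_lit 2224)))
 (.l (.k1_7 (nat_lit 11) (nat_lit 40) (nat_lit 38) (nat_lit 42) (nat_lit 34) (nat_lit 46) (nat_lit 22) (nat_lit 58) (nat_lit 94) (nat_lit 2226))))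
 (.n (nat_lit 42)
 (.l (.k0_5 (nat_lit 11) (nat_lit 42) (nat_lit 40) (nat_lit 48) (nat_lit 24) (nat_lit 60) (nat_lit 96)))
 (.l (.k1_4 (nat_lit 10) (nat_lit 46) (nat_lit 48) (nat_lit 40) (nat_lit 64) (nat_lit 100) (nat_lit 2232)))))
 (.n (nat_lit 56)
 (.n (nat_lit 48)
 (.l (.k0_4 (nat_lit 12) (nat_lit 48) (nat_lit 46) (nat_lit 42) (nat_lit 66) (nat_lit 102)))
 (.l (.k1_3 (nat_lit 8) (nat_lit 56) (nat_lit 58) (nat_lit 38) (nat_lit 110) (nat_lit 2242))))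
 (.n (nat_lit 58)
 (.l (.k1_5 (nat_lit 9) (nat_lit 58) (nat_lit 56) (nat_lit 60) (nat_lit 64) (nat_lit 40) (nat_lit 112) (nat_lit 2244)))
 (.l (.k0_4 (nat_lit 8) (nat_lit 60) (nat_lit 58) (nat_lit 66) (nat_lit 42) (nat_lit 114)))))))
 (.n (nat_lit 96)
 (.n (nat_lit 86)
 (.n (nat_lit 66)
 (.n (nat_lit 64)
 (.l (.k1_4 (nat_lit 10) (nat_lit 64) (nat_lit 66) (nat_lit 58) (nat_lit 46) (nat_lit 118) (nat_lit 2250)))
 (.l (.k0_5 (nat_lit 11) (nat_lit 66) (nat_lit 64) (nat_lit 60) (nat_lit 72) (nat_lit 48) (nat_lit 120))))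
 (.n (nat_lit 72)
 (.l (.k0_2 (nat_lit 12) (nat_lit 72) (nat_lit 66) (nat_lit 126)))
 (.l (.k1_4 (nat_lit 10) (nat_lit 86) (nat_lit 88) (nat_lit 92) (nat_lit 32) (nat_lit 248) (nat_lit 2272)))))
 (.n (nat_lit 92)
 (.n (nat_lit 88)
 (.l (.k1_4 (nat_lit 10) (nat_lit 88) (nat_lit 86) (nat_lit 94) (nat_lit 34) (nat_lit 250) (nat_lit 2274)))
 (.l (.k1_5 (nat_lit 8) (nat_lit 92) (nat_lit 94) (nat_lit 86) (nat_lit 110) (nat_lit 38) (nat_lit 254) (nat_lit 2278))))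
 (.n (nat_lit 94)
 (.l (.k1_7 (nat_lit 10) (nat_lit 94) (nat_lit 92) (nat_lit 96) (nat_lit 88) (nat_lit 100) (nat_lit 112) (nat_lit 40) (nat_lit 256) (nat_lit 2280)))
 (.l (.k0_5 (nat_lit 10) (nat_lit 96) (nat_lit 94) (nat_lit 102) (nat_lit 114) (nat_lit 42) (nat_lit 258))))))
 (.n (nat_lit 112)
 (.n (nat_lit 102)
 (.n (nat_lit 100)
 (.l (.k1_5 (nat_lit 8) (nat_lit 100) (nat_lit 102) (nat_lit 94) (nat_lit 118) (nat_lit 46) (nat_lit 262) (nat_lit 2286)))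
 (.l (.k0_5 (nat_lit 10) (nat_lit 102) (nat_lit 100) (nat_lit 96) (nat_lit 120) (nat_lit 48) (nat_lit 264))))
 (.n (nat_lit 110)
 (.l (.k1_5 (nat_lit 9) (nat_lit 110) (nat_lit 112) (nat_lit 92) (nat_lit 56) (nat_lit 164) (nat_lit 272) (nat_lit 2296)))
 (.l (.k1_7 (nat_lit 10) (nat_lit 112) (nat_lit 110) (nat_lit 114) (nat_lit 118) (nat_lit 94) (nat_lit 58) (nat_lit 166) (nat_lit 274) (nat_lit 2298)))))
 (.n (nat_lit 118)
 (.n (nat_lit 114)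
 (.l (.k0_6 (nat_lit 9) (nat_lit 114) (nat_lit 112) (nat_lit 120) (nat_lit 96) (nat_lit 60) (nat_lit 168) (nat_lit 276)))
 (.l (.k1_7 (nat_lit 10) (nat_lit 118) (nat_lit 120) (nat_lit 112) (nat_lit 100) (nat_lit 136) (nat_lit 64) (nat_lit 172) (nat_lit 280) (nat_lit 2304))))
 (.n (nat_lit 120)
 (.l (.k0_8 (nat_lit 11) (nat_lit 120) (nat_lit 118) (nat_lit 114) (nat_lit 126) (nat_lit 102) (nat_lit 138) (nat_lit 66) (nat_lit 174) (nat_lit 282)))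
 (.n (nat_lit 126)
 (.l (.k0_5 (nat_lit 11) (nat_lit 126) (nat_lit 120) (nat_lit 144) (nat_lit 72) (nat_lit 180) (nat_lit 288)))
 (.l (.k1_4 (nat_lit 10) (nat_lit 136) (nat_lit 138) (nat_lit 118) (nat_lit 190) (nat_lit 298) (nat_lit 2322)))))))))
 (.n (nat_lit 256)
 (.n (nat_lit 180)
 (.n (nat_lit 166)
 (.n (nat_lit 144)
 (.n (nat_lit 138)
 (.l (.k0_5 (nat_lit 10) (nat_lit 138) (nat_lit 136) (nat_lit 144) (nat_lit 120) (nat_lit 192) (nat_lit 300)))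
 (.l (.k0_4 (nat_lit 12) (nat_lit 144) (nat_lit 138) (nat_lit 126) (nat_lit 198) (nat_lit 306))))
 (.n (nat_lit 164)
 (.l (.k1_3 (nat_lit 8) (nat_lit 164) (nat_lit 166) (nat_lit 110) (nat_lit 326) (nat_lit 2350)))
 (.l (.k1_5 (nat_lit 9) (nat_lit 166) (nat_lit 164) (nat_lit 168) (nat_lit 172) (nat_lit 112) (nat_lit 328) (nat_lit 2352)))))
 (.n (nat_lit 172)
 (.n (nat_lit 168)
 (.l (.k0_4 (nat_lit 8) (nat_lit 168) (nat_lit 166) (nat_lit 174) (nat_lit 114) (nat_lit 330)))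
 (.l (.k1_5 (nat_lit 8) (nat_lit 172) (nat_lit 174) (nat_lit 166) (nat_lit 190) (nat_lit 118) (nat_lit 334) (nat_lit 2358))))
 (.n (nat_lit 174)
 (.l (.k0_6 (nat_lit 9) (nat_lit 174) (nat_lit 172) (nat_lit 168) (nat_lit 180) (nat_lit 192) (nat_lit 120) (nat_lit 336)))
 (.l (.k0_4 (nat_lit 8) (nat_lit 180) (nat_lit 174) (nat_lit 198) (nat_lit 126) (nat_lit 342))))))
 (.n (nat_lit 216)
 (.n (nat_lit 192)
 (.n (nat_lit 190)
 (.l (.k1_4 (nat_lit 10) (nat_lit 190) (nat_lit 192) (nat_lit 172) (nat_lit 136) (nat_lit 352) (nat_lit 2376)))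
 (.l (.k0_5 (nat_lit 10) (nat_lit 192) (nat_lit 190) (nat_lit 198) (nat_lit 174) (nat_lit 138) (nat_lit 354))))
 (.n (nat_lit 198)
 (.l (.k0_5 (nat_lit 11) (nat_lit 198) (nat_lit 192) (nat_lit 180) (nat_lit 216) (nat_lit 144) (nat_lit 360)))
 (.l (.k0_2 (nat_lit 12) (nat_lit 216) (nat_lit 198) (nat_lit 378)))))
 (.n (nat_lit 250)
 (.n (nat_lit 248)
 (.l (.k1_4 (nat_lit 10) (nat_lit 248) (nat_lit 250) (nat_lit 254) (nat_lit 86) (nat_lit 734) (nat_lit 2434)))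
 (.l (.k1_4 (nat_lit 10) (nat_lit 250) (nat_lit 248) (nat_lit 256) (nat_lit 88) (nat_lit 736) (nat_lit 2436))))
 (.n (nat_lit 254)
 (.l (.k1_5 (nat_lit 8) (nat_lit 254) (nat_lit 256) (nat_lit 248) (nat_lit 272) (nat_lit 92) (nat_lit 740) (nat_lit 2440)))
 (.l (.k1_7 (nat_lit 10) (nat_lit 256) (nat_lit 254) (nat_lit 258) (nat_lit 250) (nat_lit 262) (nat_lit 274) (nat_lit 94) (nat_lit 742) (nat_lit 2442)))))))
 (.n (nat_lit 282)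
 (.n (nat_lit 272)
 (.n (nat_lit 262)
 (.n (nat_lit 258)
 (.l (.k0_5 (nat_lit 10) (nat_lit 258) (nat_lit 256) (nat_lit 264) (nat_lit 276) (nat_lit 96) (nat_lit 744)))
 (.l (.k1_5 (nat_lit 8) (nat_lit 262) (nat_lit 264) (nat_lit 256) (nat_lit 280) (nat_lit 100) (nat_lit 748) (nat_lit 2448))))
 (.n (nat_lit 264)
 (.l (.k0_5 (nat_lit 10) (nat_lit 264) (nat_lit 262) (nat_lit 258) (nat_lit 282) (nat_lit 102) (nat_lit 750)))
 (.l (.k1_5 (nat_lit 8) (nat_lit 272) (nat_lit 274) (nat_lit 254) (nat_lit 326) (nat_lit 110) (nat_lit 758) (nat_lit 2458)))))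
 (.n (nat_lit 276)
 (.n (nat_lit 274)
 (.l (.k1_7 (nat_lit 9) (nat_lit 274) (nat_lit 272) (nat_lit 276) (nat_lit 280) (nat_lit 256) (nat_lit 328) (nat_lit 112) (nat_lit 760) (nat_lit 2460)))
 (.l (.k0_6 (nat_lit 8) (nat_lit 276) (nat_lit 274) (nat_lit 282) (nat_lit 258) (nat_lit 330) (nat_lit 114) (nat_lit 762))))
 (.n (nat_lit 280)
 (.l (.k1_7 (nat_lit 9) (nat_lit 280) (nat_lit 282) (nat_lit 274) (nat_lit 262) (nat_lit 298) (nat_lit 334) (nat_lit 118) (nat_lit 766) (nat_lit 2466)))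
 (.l (.k0_8 (nat_lit 10) (nat_lit 282) (nat_lit 280) (nat_lit 276) (nat_lit 288) (nat_lit 264) (nat_lit 300) (nat_lit 336) (nat_lit 120) (nat_lit 768))))))
 (.n (nat_lit 306)
 (.n (nat_lit 298)
 (.n (nat_lit 288)
 (.l (.k0_5 (nat_lit 10) (nat_lit 288) (nat_lit 282) (nat_lit 306) (nat_lit 342) (nat_lit 126) (nat_lit 774)))
 (.l (.k1_5 (nat_lit 8) (nat_lit 298) (nat_lit 300) (nat_lit 280) (nat_lit 352) (nat_lit 136) (nat_lit 784) (nat_lit 2484))))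
 (.n (nat_lit 300)
 (.l (.k0_6 (nat_lit 8) (nat_lit 300) (nat_lit 298) (nat_lit 306) (nat_lit 282) (nat_lit 354) (nat_lit 138) (nat_lit 786)))
 (.l (.k0_5 (nat_lit 10) (nat_lit 306) (nat_lit 300) (nat_lit 288) (nat_lit 360) (nat_lit 144) (nat_lit 792)))))
 (.n (nat_lit 328)
 (.n (nat_lit 326)
 (.l (.k1_5 (nat_lit 9) (nat_lit 326) (nat_lit 328) (nat_lit 272) (nat_lit 164) (nat_lit 488) (nat_lit 812) (nat_lit 2512)))
 (.l (.k1_7 (nat_lit 10) (nat_lit 328) (nat_lit 326) (nat_lit 330) (nat_lit 334) (nat_lit 274) (nat_lit 166) (nat_lit 490) (nat_lit 814) (nat_lit 2514))))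
 (.n (nat_lit 330)
 (.l (.k0_6 (nat_lit 9) (nat_lit 330) (nat_lit 328) (nat_lit 336) (nat_lit 276) (nat_lit 168) (nat_lit 492) (nat_lit 816)))
 (.n (nat_lit 334)
 (.l (.k1_7 (nat_lit 9) (nat_lit 334) (nat_lit 336) (nat_lit 328) (nat_lit 352) (nat_lit 280) (nat_lit 172) (nat_lit 496) (nat_lit 820) (nat_lit 2520)))
 (.l (.k0_8 (nat_lit 10) (nat_lit 336) (nat_lit 334) (nat_lit 330) (nat_lit 342) (nat_lit 354) (nat_lit 282) (nat_lit 174) (nat_lit 498) (nat_lit 822))))))))))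
 (.n (nat_lit 760)
 (.n (nat_lit 514)
 (.n (nat_lit 414)
 (.n (nat_lit 360)
 (.n (nat_lit 352)
 (.n (nat_lit 342)
 (.l (.k0_6 (nat_lit 9) (nat_lit 342) (nat_lit 336) (nat_lit 360) (nat_lit 288) (nat_lit 180) (nat_lit 504) (nat_lit 828)))
 (.l (.k1_7 (nat_lit 10) (nat_lit 352) (nat_lit 354) (nat_lit 334) (nat_lit 298) (nat_lit 406) (nat_lit 190) (nat_lit 514) (nat_lit 838) (nat_lit 2538))))
 (.n (nat_lit 354)
 (.l (.k0_8 (nat_lit 10) (nat_lit 354) (nat_lit 352) (nat_lit 360) (nat_lit 336) (nat_lit 300) (nat_lit 408) (nat_lit 192) (nat_lit 516) (nat_lit 840)))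
 (.l (.k0_8 (nat_lit 11) (nat_lit 360) (nat_lit 354) (nat_lit 342) (nat_lit 378) (nat_lit 306) (nat_lit 414) (nat_lit 198) (nat_lit 522) (nat_lit 846)))))
 (.n (nat_lit 406)
 (.n (nat_lit 378)
 (.l (.k0_5 (nat_lit 11) (nat_lit 378) (nat_lit 360) (nat_lit 432) (nat_lit 216) (nat_lit 540) (nat_lit 864)))
 (.l (.k1_4 (nat_lit 10) (nat_lit 406) (nat_lit 408) (nat_lit 352) (nat_lit 568) (nat_lit 892) (nat_lit 2592))))
 (.n (nat_lit 408)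
 (.l (.k0_5 (nat_lit 10) (nat_lit 408) (nat_lit 406) (nat_lit 414) (nat_lit 354) (nat_lit 570) (nat_lit 894)))
 (.l (.k0_5 (nat_lit 10) (nat_lit 414) (nat_lit 408) (nat_lit 432) (nat_lit 360) (nat_lit 576) (nat_lit 900))))))
 (.n (nat_lit 492)
 (.n (nat_lit 488)
 (.n (nat_lit 432)
 (.l (.k0_4 (nat_lit 12) (nat_lit 432) (nat_lit 414) (nat_lit 378) (nat_lit 594) (nat_lit 918)))
 (.l (.k1_3 (nat_lit 8) (nat_lit 488) (nat_lit 490) (nat_lit 326) (nat_lit 974) (nat_lit 2674))))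
 (.n (nat_lit 490)
 (.l (.k1_5 (nat_lit 9) (nat_lit 490) (nat_lit 488) (nat_lit 492) (nat_lit 496) (nat_lit 328) (nat_lit 976) (nat_lit 2676)))
 (.l (.k0_4 (nat_lit 8) (nat_lit 492) (nat_lit 490) (nat_lit 498) (nat_lit 330) (nat_lit 978)))))
 (.n (nat_lit 498)
 (.n (nat_lit 496)
 (.l (.k1_5 (nat_lit 8) (nat_lit 496) (nat_lit 498) (nat_lit 490) (nat_lit 514) (nat_lit 334) (nat_lit 982) (nat_lit 2682)))
 (.l (.k0_6 (nat_lit 9) (nat_lit 498) (nat_lit 496) (nat_lit 492) (nat_lit 504) (nat_lit 516) (nat_lit 336) (nat_lit 984))))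
 (.n (nat_lit 504)
 (.l (.k0_4 (nat_lit 8) (nat_lit 504) (nat_lit 498) (nat_lit 522) (nat_lit 342) (nat_lit 990)))
 (.l (.k1_5 (nat_lit 8) (nat_lit 514) (nat_lit 516) (nat_lit 496) (nat_lit 568) (nat_lit 352) (nat_lit 1000) (nat_lit 2700)))))))
 (.n (nat_lit 648)
 (.n (nat_lit 568)
 (.n (nat_lit 522)
 (.n (nat_lit 516)
 (.l (.k0_6 (nat_lit 8) (nat_lit 516) (nat_lit 514) (nat_lit 522) (nat_lit 498) (nat_lit 570) (nat_lit 354) (nat_lit 1002)))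
 (.l (.k0_6 (nat_lit 9) (nat_lit 522) (nat_lit 516) (nat_lit 504) (nat_lit 540) (nat_lit 576) (nat_lit 360) (nat_lit 1008))))
 (.n (nat_lit 540)
 (.l (.k0_4 (nat_lit 8) (nat_lit 540) (nat_lit 522) (nat_lit 594) (nat_lit 378) (nat_lit 1026)))
 (.l (.k1_4 (nat_lit 10) (nat_lit 568) (nat_lit 570) (nat_lit 514) (nat_lit 406) (nat_lit 1054) (nat_lit 2754)))))
 (.n (nat_lit 576)
 (.n (nat_lit 570)
 (.l (.k0_5 (nat_lit 10) (nat_lit 570) (nat_lit 568) (nat_lit 576) (nat_lit 516) (nat_lit 408) (nat_lit 1056)))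
 (.l (.k0_5 (nat_lit 10) (nat_lit 576) (nat_lit 570) (nat_lit 594) (nat_lit 522) (nat_lit 414) (nat_lit 1062))))
 (.n (nat_lit 594)
 (.l (.k0_5 (nat_lit 11) (nat_lit 594) (nat_lit 576) (nat_lit 540) (nat_lit 648) (nat_lit 432) (nat_lit 1080)))
 (.l (.k0_2 (nat_lit 12) (nat_lit 648) (nat_lit 594) (nat_lit 1134))))))
 (.n (nat_lit 742)
 (.n (nat_lit 736)
 (.n (nat_lit 734)
 (.l (.k1_4 (nat_lit 10) (nat_lit 734) (nat_lit 736) (nat_lit 740) (nat_lit 248) (nat_lit 2192) (nat_lit 2920)))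
 (.l (.k1_4 (nat_lit 10) (nat_lit 736) (nat_lit 734) (nat_lit 742) (nat_lit 250) (nat_lit 2194) (nat_lit 2922))))
 (.n (nat_lit 740)
 (.l (.k1_5 (nat_lit 8) (nat_lit 740) (nat_lit 742) (nat_lit 734) (nat_lit 758) (nat_lit 254) (nat_lit 2198) (nat_lit 2926)))
 (.l (.k1_7 (nat_lit 10) (nat_lit 742) (nat_lit 740) (nat_lit 744) (nat_lit 736) (nat_lit 748) (nat_lit 760) (nat_lit 256) (nat_lit 2200) (nat_lit 2928)))))
 (.n (nat_lit 748)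
 (.n (nat_lit 744)
 (.l (.k0_5 (nat_lit 10) (nat_lit 744) (nat_lit 742) (nat_lit 750) (nat_lit 762) (nat_lit 258) (nat_lit 2202)))
 (.l (.k1_5 (nat_lit 8) (nat_lit 748) (nat_lit 750) (nat_lit 742) (nat_lit 766) (nat_lit 262) (nat_lit 2206) (nat_lit 2934))))
 (.n (nat_lit 750)
 (.l (.k0_5 (nat_lit 10) (nat_lit 750) (nat_lit 748) (nat_lit 744) (nat_lit 768) (nat_lit 264) (nat_lit 2208)))
 (.n (nat_lit 758)
 (.l (.k1_5 (nat_lit 8) (nat_lit 758) (nat_lit 760) (nat_lit 740) (nat_lit 812) (nat_lit 272) (nat_lit 2216) (nat_lit 2944)))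
 (.l (.k1_7 (nat_lit 9) (nat_lit 760) (nat_lit 758) (nat_lit 762) (nat_lit 766) (nat_lit 742) (nat_lit 814) (nat_lit 274) (nat_lit 2218) (nat_lit 2946)))))))))
 (.n (nat_lit 864)
 (.n (nat_lit 812)
 (.n (nat_lit 774)
 (.n (nat_lit 766)
 (.n (nat_lit 762)
 (.l (.k0_6 (nat_lit 8) (nat_lit 762) (nat_lit 760) (nat_lit 768) (nat_lit 744) (nat_lit 816) (nat_lit 276) (nat_lit 2220)))
 (.l (.k1_7 (nat_lit 9) (nat_lit 766) (nat_lit 768) (nat_lit 760) (nat_lit 748) (nat_lit 784) (nat_lit 820) (nat_lit 280) (nat_lit 2224) (nat_lit 2952))))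
 (.n (nat_lit 768)
 (.l (.k0_8 (nat_lit 10) (nat_lit 768) (nat_lit 766) (nat_lit 762) (nat_lit 774) (nat_lit 750) (nat_lit 786) (nat_lit 822) (nat_lit 282) (nat_lit 2226)))
 (.l (.k0_5 (nat_lit 10) (nat_lit 774) (nat_lit 768) (nat_lit 792) (nat_lit 828) (nat_lit 288) (nat_lit 2232)))))
 (.n (nat_lit 786)
 (.n (nat_lit 784)
 (.l (.k1_5 (nat_lit 8) (nat_lit 784) (nat_lit 786) (nat_lit 766) (nat_lit 838) (nat_lit 298) (nat_lit 2242) (nat_lit 2970)))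
 (.l (.k0_6 (nat_lit 8) (nat_lit 786) (nat_lit 784) (nat_lit 792) (nat_lit 768) (nat_lit 840) (nat_lit 300) (nat_lit 2244))))
 (.n (nat_lit 792)
 (.l (.k0_5 (nat_lit 10) (nat_lit 792) (nat_lit 786) (nat_lit 774) (nat_lit 846) (nat_lit 306) (nat_lit 2250)))
 (.l (.k1_5 (nat_lit 8) (nat_lit 812) (nat_lit 814) (nat_lit 758) (nat_lit 974) (nat_lit 326) (nat_lit 2270) (nat_lit 2998))))))
 (.n (nat_lit 822)
 (.n (nat_lit 816)
 (.n (nat_lit 814)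
 (.l (.k1_7 (nat_lit 9) (nat_lit 814) (nat_lit 812) (nat_lit 816) (nat_lit 820) (nat_lit 760) (nat_lit 976) (nat_lit 328) (nat_lit 2272) (nat_lit 3000)))
 (.l (.k0_6 (nat_lit 8) (nat_lit 816) (nat_lit 814) (nat_lit 822) (nat_lit 762) (nat_lit 978) (nat_lit 330) (nat_lit 2274))))
 (.n (nat_lit 820)
 (.l (.k1_7 (nat_lit 8) (nat_lit 820) (nat_lit 822) (nat_lit 814) (nat_lit 838) (nat_lit 766) (nat_lit 982) (nat_lit 334) (nat_lit 2278) (nat_lit 3006)))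
 (.l (.k0_8 (nat_lit 9) (nat_lit 822) (nat_lit 820) (nat_lit 816) (nat_lit 828) (nat_lit 840) (nat_lit 768) (nat_lit 984) (nat_lit 336) (nat_lit 2280)))))
 (.n (nat_lit 838)
 (.n (nat_lit 828)
 (.l (.k0_6 (nat_lit 8) (nat_lit 828) (nat_lit 822) (nat_lit 846) (nat_lit 774) (nat_lit 990) (nat_lit 342) (nat_lit 2286)))
 (.l (.k1_7 (nat_lit 9) (nat_lit 838) (nat_lit 840) (nat_lit 820) (nat_lit 784) (nat_lit 892) (nat_lit 1000) (nat_lit 352) (nat_lit 2296) (nat_lit 3024))))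
 (.n (nat_lit 840)
 (.l (.k0_8 (nat_lit 9) (nat_lit 840) (nat_lit 838) (nat_lit 846) (nat_lit 822) (nat_lit 786) (nat_lit 894) (nat_lit 1002) (nat_lit 354) (nat_lit 2298)))
 (.n (nat_lit 846)
 (.l (.k0_8 (nat_lit 10) (nat_lit 846) (nat_lit 840) (nat_lit 828) (nat_lit 864) (nat_lit 792) (nat_lit 900) (nat_lit 1008) (nat_lit 360) (nat_lit 2304)))
 (.l (.k0_5 (nat_lit 10) (nat_lit 864) (nat_lit 846) (nat_lit 918) (nat_lit 1026) (nat_lit 378) (nat_lit 2322))))))))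
 (.n (nat_lit 982)
 (.n (nat_lit 918)
 (.n (nat_lit 894)
 (.n (nat_lit 892)
 (.l (.k1_5 (nat_lit 8) (nat_lit 892) (nat_lit 894) (nat_lit 838) (nat_lit 1054) (nat_lit 406) (nat_lit 2350) (nat_lit 3078)))
 (.l (.k0_6 (nat_lit 8) (nat_lit 894) (nat_lit 892) (nat_lit 900) (nat_lit 840) (nat_lit 1056) (nat_lit 408) (nat_lit 2352))))
 (.n (nat_lit 900)
 (.l (.k0_6 (nat_lit 8) (nat_lit 900) (nat_lit 894) (nat_lit 918) (nat_lit 846) (nat_lit 1062) (nat_lit 414) (nat_lit 2358)))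
 (.l (.k0_5 (nat_lit 10) (nat_lit 918) (nat_lit 900) (nat_lit 864) (nat_lit 1080) (nat_lit 432) (nat_lit 2376)))))
 (.n (nat_lit 976)
 (.n (nat_lit 974)
 (.l (.k1_5 (nat_lit 9) (nat_lit 974) (nat_lit 976) (nat_lit 812) (nat_lit 488) (nat_lit 1460) (nat_lit 2432) (nat_lit 3160)))
 (.l (.k1_7 (nat_lit 10) (nat_lit 976) (nat_lit 974) (nat_lit 978) (nat_lit 982) (nat_lit 814) (nat_lit 490) (nat_lit 1462) (nat_lit 2434) (nat_lit 3162))))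
 (.n (nat_lit 978)
 (.l (.k0_6 (nat_lit 9) (nat_lit 978) (nat_lit 976) (nat_lit 984) (nat_lit 816) (nat_lit 492) (nat_lit 1464) (nat_lit 2436)))
 (.l (.k1_7 (nat_lit 9) (nat_lit 982) (nat_lit 984) (nat_lit 976) (nat_lit 1000) (nat_lit 820) (nat_lit 496) (nat_lit 1468) (nat_lit 2440) (nat_lit 3168))))))
 (.n (nat_lit 1002)
 (.n (nat_lit 990)
 (.n (nat_lit 984)
 (.l (.k0_8 (nat_lit 10) (nat_lit 984) (nat_lit 982) (nat_lit 978) (nat_lit 990) (nat_lit 1002) (nat_lit 822) (nat_lit 498) (nat_lit 1470) (nat_lit 2442)))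
 (.l (.k0_6 (nat_lit 9) (nat_lit 990) (nat_lit 984) (nat_lit 1008) (nat_lit 828) (nat_lit 504) (nat_lit 1476) (nat_lit 2448))))
 (.n (nat_lit 1000)
 (.l (.k1_7 (nat_lit 9) (nat_lit 1000) (nat_lit 1002) (nat_lit 982) (nat_lit 1054) (nat_lit 838) (nat_lit 514) (nat_lit 1486) (nat_lit 2458) (nat_lit 3186)))
 (.l (.k0_8 (nat_lit 9) (nat_lit 1002) (nat_lit 1000) (nat_lit 1008) (nat_lit 984) (nat_lit 1056) (nat_lit 840) (nat_lit 516) (nat_lit 1488) (nat_lit 2460)))))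
 (.n (nat_lit 1026)
 (.n (nat_lit 1008)
 (.l (.k0_8 (nat_lit 10) (nat_lit 1008) (nat_lit 1002) (nat_lit 990) (nat_lit 1026) (nat_lit 1062) (nat_lit 846) (nat_lit 522) (nat_lit 1494) (nat_lit 2466)))
 (.l (.k0_6 (nat_lit 9) (nat_lit 1026) (nat_lit 1008) (nat_lit 1080) (nat_lit 864) (nat_lit 540) (nat_lit 1512) (nat_lit 2484))))
 (.n (nat_lit 1054)
 (.l (.k1_7 (nat_lit 10) (nat_lit 1054) (nat_lit 1056) (nat_lit 1000) (nat_lit 892) (nat_lit 1216) (nat_lit 568) (nat_lit 1540) (nat_lit 2512) (nat_lit 3240)))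
 (.n (nat_lit 1056)
 (.l (.k0_8 (nat_lit 10) (nat_lit 1056) (nat_lit 1054) (nat_lit 1062) (nat_lit 1002) (nat_lit 894) (nat_lit 1218) (nat_lit 570) (nat_lit 1542) (nat_lit 2514)))
 (.l (.k0_8 (nat_lit 10) (nat_lit 1062) (nat_lit 1056) (nat_lit 1080) (nat_lit 1008) (nat_lit 900) (nat_lit 1224) (nat_lit 576) (nat_lit 1548) (nat_lit 2520)))))))))))
 (.n (nat_lit 2460)
 (.n (nat_lit 2202)
 (.n (nat_lit 1494)
 (.n (nat_lit 1460)
 (.n (nat_lit 1218)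
 (.n (nat_lit 1134)
 (.n (nat_lit 1080)
 (.l (.k0_8 (nat_lit 11) (nat_lit 1080) (nat_lit 1062) (nat_lit 1026) (nat_lit 1134) (nat_lit 918) (nat_lit 1242) (nat_lit 594) (nat_lit 1566) (nat_lit 2538)))
 (.l (.k0_5 (nat_lit 11) (nat_lit 1134) (nat_lit 1080) (nat_lit 1296) (nat_lit 648) (nat_lit 1620) (nat_lit 2592))))
 (.n (nat_lit 1216)
 (.l (.k1_4 (nat_lit 10) (nat_lit 1216) (nat_lit 1218) (nat_lit 1054) (nat_lit 1702) (nat_lit 2674) (nat_lit 3402)))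
 (.l (.k0_5 (nat_lit 10) (nat_lit 1218) (nat_lit 1216) (nat_lit 1224) (nat_lit 1056) (nat_lit 1704) (nat_lit 2676)))))
 (.n (nat_lit 1242)
 (.n (nat_lit 1224)
 (.l (.k0_5 (nat_lit 10) (nat_lit 1224) (nat_lit 1218) (nat_lit 1242) (nat_lit 1062) (nat_lit 1710) (nat_lit 2682)))
 (.l (.k0_5 (nat_lit 10) (nat_lit 1242) (nat_lit 1224) (nat_lit 1296) (nat_lit 1080) (nat_lit 1728) (nat_lit 2700))))
 (.n (nat_lit 1296)
 (.l (.k0_4 (nat_lit 12) (nat_lit 1296) (nat_lit 1242) (nat_lit 1134) (nat_lit 1782) (nat_lit 2754)))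
 (.l (.k1_3 (nat_lit 8) (nat_lit 1460) (nat_lit 1462) (nat_lit 974) (nat_lit 2918) (nat_lit 3646))))))
 (.n (nat_lit 1470)
 (.n (nat_lit 1464)
 (.n (nat_lit 1462)
 (.l (.k1_5 (nat_lit 9) (nat_lit 1462) (nat_lit 1460) (nat_lit 1464) (nat_lit 1468) (nat_lit 976) (nat_lit 2920) (nat_lit 3648)))
 (.l (.k0_4 (nat_lit 8) (nat_lit 1464) (nat_lit 1462) (nat_lit 1470) (nat_lit 978) (nat_lit 2922))))
 (.n (nat_lit 1468)
 (.l (.k1_5 (nat_lit 8) (nat_lit 1468) (nat_lit 1470) (nat_lit 1462) (nat_lit 1486) (nat_lit 982) (nat_lit 2926) (nat_lit 3654)))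
 (.l (.k0_6 (nat_lit 9) (nat_lit 1470) (nat_lit 1468) (nat_lit 1464) (nat_lit 1476) (nat_lit 1488) (nat_lit 984) (nat_lit 2928)))))
 (.n (nat_lit 1486)
 (.n (nat_lit 1476)
 (.l (.k0_4 (nat_lit 8) (nat_lit 1476) (nat_lit 1470) (nat_lit 1494) (nat_lit 990) (nat_lit 2934)))
 (.l (.k1_5 (nat_lit 8) (nat_lit 1486) (nat_lit 1488) (nat_lit 1468) (nat_lit 1540) (nat_lit 1000) (nat_lit 2944) (nat_lit 3672))))
 (.n (nat_lit 1488)
 (.l (.k0_6 (nat_lit 8) (nat_lit 1488) (nat_lit 1486) (nat_lit 1494) (nat_lit 1470) (nat_lit 1542) (nat_lit 1002) (nat_lit 2946)))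
 (.l (.k0_6 (nat_lit 9) (nat_lit 1494) (nat_lit 1488) (nat_lit 1476) (nat_lit 1512) (nat_lit 1548) (nat_lit 1008) (nat_lit 2952)))))))
 (.n (nat_lit 1704)
 (.n (nat_lit 1548)
 (.n (nat_lit 1540)
 (.n (nat_lit 1512)
 (.l (.k0_4 (nat_lit 8) (nat_lit 1512) (nat_lit 1494) (nat_lit 1566) (nat_lit 1026) (nat_lit 2970)))
 (.l (.k1_5 (nat_lit 8) (nat_lit 1540) (nat_lit 1542) (nat_lit 1486) (nat_lit 1702) (nat_lit 1054) (nat_lit 2998) (nat_lit 3726))))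
 (.n (nat_lit 1542)
 (.l (.k0_6 (nat_lit 8) (nat_lit 1542) (nat_lit 1540) (nat_lit 1548) (nat_lit 1488) (nat_lit 1704) (nat_lit 1056) (nat_lit 3000)))
 (.l (.k0_6 (nat_lit 8) (nat_lit 1548) (nat_lit 1542) (nat_lit 1566) (nat_lit 1494) (nat_lit 1710) (nat_lit 1062) (nat_lit 3006)))))
 (.n (nat_lit 1620)
 (.n (nat_lit 1566)
 (.l (.k0_6 (nat_lit 9) (nat_lit 1566) (nat_lit 1548) (nat_lit 1512) (nat_lit 1620) (nat_lit 1728) (nat_lit 1080) (nat_lit 3024)))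
 (.l (.k0_4 (nat_lit 8) (nat_lit 1620) (nat_lit 1566) (nat_lit 1782) (nat_lit 1134) (nat_lit 3078))))
 (.n (nat_lit 1702)
 (.l (.k1_4 (nat_lit 10) (nat_lit 1702) (nat_lit 1704) (nat_lit 1540) (nat_lit 1216) (nat_lit 3160) (nat_lit 3888)))
 (.l (.k0_5 (nat_lit 10) (nat_lit 1704) (nat_lit 1702) (nat_lit 1710) (nat_lit 1542) (nat_lit 1218) (nat_lit 3162))))))
 (.n (nat_lit 1944)
 (.n (nat_lit 1728)
 (.n (nat_lit 1710)
 (.l (.k0_5 (nat_lit 10) (nat_lit 1710) (nat_lit 1704) (nat_lit 1728) (nat_lit 1548) (nat_lit 1224) (nat_lit 3168)))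
 (.l (.k0_5 (nat_lit 10) (nat_lit 1728) (nat_lit 1710) (nat_lit 1782) (nat_lit 1566) (nat_lit 1242) (nat_lit 3186))))
 (.n (nat_lit 1782)
 (.l (.k0_5 (nat_lit 11) (nat_lit 1782) (nat_lit 1728) (nat_lit 1620) (nat_lit 1944) (nat_lit 1296) (nat_lit 3240)))
 (.l (.k0_2 (nat_lit 12) (nat_lit 1944) (nat_lit 1782) (nat_lit 3402)))))
 (.n (nat_lit 2194)
 (.n (nat_lit 2192)
 (.l (.k1_3 (nat_lit 12) (nat_lit 2192) (nat_lit 2194) (nat_lit 2198) (nat_lit 734) (nat_lit 4378)))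
 (.l (.k3_3 (nat_lit 11) (nat_lit 2194) (nat_lit 2192) (nat_lit 2200) (nat_lit 736) (nat_lit 4380) (nat_lit 8))))
 (.n (nat_lit 2198)
 (.l (.k1_4 (nat_lit 10) (nat_lit 2198) (nat_lit 2200) (nat_lit 2192) (nat_lit 2216) (nat_lit 740) (nat_lit 4384)))
 (.n (nat_lit 2200)
 (.l (.k3_6 (nat_lit 11) (nat_lit 2200) (nat_lit 2198) (nat_lit 2202) (nat_lit 2194) (nat_lit 2206) (nat_lit 2218) (nat_lit 742) (nat_lit 4386) (nat_lit 14)))
 (.l (.k2_4 (nat_lit 10) (nat_lit 2202) (nat_lit 2200) (nat_lit 2208) (nat_lit 2220) (nat_lit 744) (nat_lit 16)))))))))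
 (.n (nat_lit 2280)
 (.n (nat_lit 2232)
 (.n (nat_lit 2218)
 (.n (nat_lit 2208)
 (.n (nat_lit 2206)
 (.l (.k3_4 (nat_lit 9) (nat_lit 2206) (nat_lit 2208) (nat_lit 2200) (nat_lit 2224) (nat_lit 748) (nat_lit 4392) (nat_lit 20)))
 (.l (.k2_4 (nat_lit 10) (nat_lit 2208) (nat_lit 2206) (nat_lit 2202) (nat_lit 2226) (nat_lit 750) (nat_lit 22))))
 (.n (nat_lit 2216)
 (.l (.k1_4 (nat_lit 10) (nat_lit 2216) (nat_lit 2218) (nat_lit 2198) (nat_lit 2270) (nat_lit 758) (nat_lit 4402)))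
 (.l (.k3_6 (nat_lit 10) (nat_lit 2218) (nat_lit 2216) (nat_lit 2220) (nat_lit 2224) (nat_lit 2200) (nat_lit 2272) (nat_lit 760) (nat_lit 4404) (nat_lit 32)))))
 (.n (nat_lit 2224)
 (.n (nat_lit 2220)
 (.l (.k2_5 (nat_lit 8) (nat_lit 2220) (nat_lit 2218) (nat_lit 2226) (nat_lit 2202) (nat_lit 2274) (nat_lit 762) (nat_lit 34)))
 (.l (.k3_6 (nat_lit 10) (nat_lit 2224) (nat_lit 2226) (nat_lit 2218) (nat_lit 2206) (nat_lit 2242) (nat_lit 2278) (nat_lit 766) (nat_lit 4410) (nat_lit 38))))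
 (.n (nat_lit 2226)
 (.l (.k2_7 (nat_lit 10) (nat_lit 2226) (nat_lit 2224) (nat_lit 2220) (nat_lit 2232) (nat_lit 2208) (nat_lit 2244) (nat_lit 2280) (nat_lit 768) (nat_lit 40)))
 (.l (.k2_4 (nat_lit 10) (nat_lit 2232) (nat_lit 2226) (nat_lit 2250) (nat_lit 2286) (nat_lit 774) (nat_lit 46))))))
 (.n (nat_lit 2270)
 (.n (nat_lit 2244)
 (.n (nat_lit 2242)
 (.l (.k3_4 (nat_lit 9) (nat_lit 2242) (nat_lit 2244) (nat_lit 2224) (nat_lit 2296) (nat_lit 784) (nat_lit 4428) (nat_lit 56)))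
 (.l (.k2_5 (nat_lit 8) (nat_lit 2244) (nat_lit 2242) (nat_lit 2250) (nat_lit 2226) (nat_lit 2298) (nat_lit 786) (nat_lit 58))))
 (.n (nat_lit 2250)
 (.l (.k2_4 (nat_lit 10) (nat_lit 2250) (nat_lit 2244) (nat_lit 2232) (nat_lit 2304) (nat_lit 792) (nat_lit 64)))
 (.l (.k1_4 (nat_lit 10) (nat_lit 2270) (nat_lit 2272) (nat_lit 2216) (nat_lit 2432) (nat_lit 812) (nat_lit 4456)))))
 (.n (nat_lit 2274)
 (.n (nat_lit 2272)
 (.l (.k3_6 (nat_lit 10) (nat_lit 2272) (nat_lit 2270) (nat_lit 2274) (nat_lit 2278) (nat_lit 2218) (nat_lit 2434) (nat_lit 814) (nat_lit 4458) (nat_lit 86)))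
 (.l (.k2_5 (nat_lit 8) (nat_lit 2274) (nat_lit 2272) (nat_lit 2280) (nat_lit 2220) (nat_lit 2436) (nat_lit 816) (nat_lit 88))))
 (.n (nat_lit 2278)
 (.l (.k3_6 (nat_lit 9) (nat_lit 2278) (nat_lit 2280) (nat_lit 2272) (nat_lit 2296) (nat_lit 2224) (nat_lit 2440) (nat_lit 820) (nat_lit 4464) (nat_lit 92)))
 (.l (.k2_7 (nat_lit 9) (nat_lit 2280) (nat_lit 2278) (nat_lit 2274) (nat_lit 2286) (nat_lit 2298) (nat_lit 2226) (nat_lit 2442) (nat_lit 822) (nat_lit 94)))))))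
 (.n (nat_lit 2358)
 (.n (nat_lit 2304)
 (.n (nat_lit 2296)
 (.n (nat_lit 2286)
 (.l (.k2_5 (nat_lit 8) (nat_lit 2286) (nat_lit 2280) (nat_lit 2304) (nat_lit 2232) (nat_lit 2448) (nat_lit 828) (nat_lit 100)))
 (.l (.k3_6 (nat_lit 10) (nat_lit 2296) (nat_lit 2298) (nat_lit 2278) (nat_lit 2242) (nat_lit 2350) (nat_lit 2458) (nat_lit 838) (nat_lit 4482) (nat_lit 110))))
 (.n (nat_lit 2298)
 (.l (.k2_7 (nat_lit 9) (nat_lit 2298) (nat_lit 2296) (nat_lit 2304) (nat_lit 2280) (nat_lit 2244) (nat_lit 2352) (nat_lit 2460) (nat_lit 840) (nat_lit 112)))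
 (.l (.k2_7 (nat_lit 10) (nat_lit 2304) (nat_lit 2298) (nat_lit 2286) (nat_lit 2322) (nat_lit 2250) (nat_lit 2358) (nat_lit 2466) (nat_lit 846) (nat_lit 118)))))
 (.n (nat_lit 2350)
 (.n (nat_lit 2322)
 (.l (.k2_4 (nat_lit 10) (nat_lit 2322) (nat_lit 2304) (nat_lit 2376) (nat_lit 2484) (nat_lit 864) (nat_lit 136)))
 (.l (.k3_4 (nat_lit 9) (nat_lit 2350) (nat_lit 2352) (nat_lit 2296) (nat_lit 2512) (nat_lit 892) (nat_lit 4536) (nat_lit 164))))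
 (.n (nat_lit 2352)
 (.l (.k2_5 (nat_lit 8) (nat_lit 2352) (nat_lit 2350) (nat_lit 2358) (nat_lit 2298) (nat_lit 2514) (nat_lit 894) (nat_lit 166)))
 (.l (.k2_5 (nat_lit 8) (nat_lit 2358) (nat_lit 2352) (nat_lit 2376) (nat_lit 2304) (nat_lit 2520) (nat_lit 900) (nat_lit 172))))))
 (.n (nat_lit 2436)
 (.n (nat_lit 2432)
 (.n (nat_lit 2376)
 (.l (.k2_4 (nat_lit 10) (nat_lit 2376) (nat_lit 2358) (nat_lit 2322) (nat_lit 2538) (nat_lit 918) (nat_lit 190)))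
 (.l (.k1_4 (nat_lit 10) (nat_lit 2432) (nat_lit 2434) (nat_lit 2270) (nat_lit 2918) (nat_lit 974) (nat_lit 4618))))
 (.n (nat_lit 2434)
 (.l (.k3_6 (nat_lit 10) (nat_lit 2434) (nat_lit 2432) (nat_lit 2436) (nat_lit 2440) (nat_lit 2272) (nat_lit 2920) (nat_lit 976) (nat_lit 4620) (nat_lit 248)))
 (.l (.k2_5 (nat_lit 8) (nat_lit 2436) (nat_lit 2434) (nat_lit 2442) (nat_lit 2274) (nat_lit 2922) (nat_lit 978) (nat_lit 250)))))
 (.n (nat_lit 2442)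
 (.n (nat_lit 2440)
 (.l (.k3_6 (nat_lit 9) (nat_lit 2440) (nat_lit 2442) (nat_lit 2434) (nat_lit 2458) (nat_lit 2278) (nat_lit 2926) (nat_lit 982) (nat_lit 4626) (nat_lit 254)))
 (.l (.k2_7 (nat_lit 9) (nat_lit 2442) (nat_lit 2440) (nat_lit 2436) (nat_lit 2448) (nat_lit 2460) (nat_lit 2280) (nat_lit 2928) (nat_lit 984) (nat_lit 256))))
 (.n (nat_lit 2448)
 (.l (.k2_5 (nat_lit 8) (nat_lit 2448) (nat_lit 2442) (nat_lit 2466) (nat_lit 2286) (nat_lit 2934) (nat_lit 990) (nat_lit 262)))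
 (.n (nat_lit 2458)
 (.l (.k3_6 (nat_lit 9) (nat_lit 2458) (nat_lit 2460) (nat_lit 2440) (nat_lit 2512) (nat_lit 2296) (nat_lit 2944) (nat_lit 1000) (nat_lit 4644) (nat_lit 272)))
 (.l (.k2_7 (nat_lit 8) (nat_lit 2460) (nat_lit 2458) (nat_lit 2466) (nat_lit 2442) (nat_lit 2514) (nat_lit 2298) (nat_lit 2946) (nat_lit 1002) (nat_lit 274))))))))))
 (.n (nat_lit 3402)
 (.n (nat_lit 2926)
 (.n (nat_lit 2674)
 (.n (nat_lit 2514)
 (.n (nat_lit 2484)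
 (.n (nat_lit 2466)
 (.l (.k2_7 (nat_lit 9) (nat_lit 2466) (nat_lit 2460) (nat_lit 2448) (nat_lit 2484) (nat_lit 2520) (nat_lit 2304) (nat_lit 2952) (nat_lit 1008) (nat_lit 280)))
 (.l (.k2_5 (nat_lit 8) (nat_lit 2484) (nat_lit 2466) (nat_lit 2538) (nat_lit 2322) (nat_lit 2970) (nat_lit 1026) (nat_lit 298))))
 (.n (nat_lit 2512)
 (.l (.k3_6 (nat_lit 10) (nat_lit 2512) (nat_lit 2514) (nat_lit 2458) (nat_lit 2350) (nat_lit 2674) (nat_lit 2998) (nat_lit 1054) (nat_lit 4698) (nat_lit 326)))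
 (.l (.k2_7 (nat_lit 9) (nat_lit 2514) (nat_lit 2512) (nat_lit 2520) (nat_lit 2460) (nat_lit 2352) (nat_lit 2676) (nat_lit 3000) (nat_lit 1056) (nat_lit 328)))))
 (.n (nat_lit 2538)
 (.n (nat_lit 2520)
 (.l (.k2_7 (nat_lit 9) (nat_lit 2520) (nat_lit 2514) (nat_lit 2538) (nat_lit 2466) (nat_lit 2358) (nat_lit 2682) (nat_lit 3006) (nat_lit 1062) (nat_lit 334)))
 (.l (.k2_7 (nat_lit 10) (nat_lit 2538) (nat_lit 2520) (nat_lit 2484) (nat_lit 2592) (nat_lit 2376) (nat_lit 2700) (nat_lit 3024) (nat_lit 1080) (nat_lit 352))))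
 (.n (nat_lit 2592)
 (.l (.k2_4 (nat_lit 10) (nat_lit 2592) (nat_lit 2538) (nat_lit 2754) (nat_lit 3078) (nat_lit 1134) (nat_lit 406)))
 (.l (.k3_4 (nat_lit 9) (nat_lit 2674) (nat_lit 2676) (nat_lit 2512) (nat_lit 3160) (nat_lit 1216) (nat_lit 4860) (nat_lit 488))))))
 (.n (nat_lit 2754)
 (.n (nat_lit 2682)
 (.n (nat_lit 2676)
 (.l (.k2_5 (nat_lit 8) (nat_lit 2676) (nat_lit 2674) (nat_lit 2682) (nat_lit 2514) (nat_lit 3162) (nat_lit 1218) (nat_lit 490)))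
 (.l (.k2_5 (nat_lit 8) (nat_lit 2682) (nat_lit 2676) (nat_lit 2700) (nat_lit 2520) (nat_lit 3168) (nat_lit 1224) (nat_lit 496))))
 (.n (nat_lit 2700)
 (.l (.k2_5 (nat_lit 8) (nat_lit 2700) (nat_lit 2682) (nat_lit 2754) (nat_lit 2538) (nat_lit 3186) (nat_lit 1242) (nat_lit 514)))
 (.l (.k2_4 (nat_lit 10) (nat_lit 2754) (nat_lit 2700) (nat_lit 2592) (nat_lit 3240) (nat_lit 1296) (nat_lit 568)))))
 (.n (nat_lit 2920)
 (.n (nat_lit 2918)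
 (.l (.k1_4 (nat_lit 11) (nat_lit 2918) (nat_lit 2920) (nat_lit 2432) (nat_lit 1460) (nat_lit 4376) (nat_lit 5104)))
 (.l (.k3_6 (nat_lit 11) (nat_lit 2920) (nat_lit 2918) (nat_lit 2922) (nat_lit 2926) (nat_lit 2434) (nat_lit 1462) (nat_lit 4378) (nat_lit 5106) (nat_lit 734))))
 (.n (nat_lit 2922)
 (.l (.k2_5 (nat_lit 9) (nat_lit 2922) (nat_lit 2920) (nat_lit 2928) (nat_lit 2436) (nat_lit 1464) (nat_lit 4380) (nat_lit 736)))
 (.l (.k3_6 (nat_lit 10) (nat_lit 2926) (nat_lit 2928) (nat_lit 2920) (nat_lit 2944) (nat_lit 2440) (nat_lit 1468) (nat_lit 4384) (nat_lit 5112) (nat_lit 740)))))))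
 (.n (nat_lit 3000)
 (.n (nat_lit 2946)
 (.n (nat_lit 2934)
 (.n (nat_lit 2928)
 (.l (.k2_7 (nat_lit 10) (nat_lit 2928) (nat_lit 2926) (nat_lit 2922) (nat_lit 2934) (nat_lit 2946) (nat_lit 2442) (nat_lit 1470) (nat_lit 4386) (nat_lit 742)))
 (.l (.k2_5 (nat_lit 9) (nat_lit 2934) (nat_lit 2928) (nat_lit 2952) (nat_lit 2448) (nat_lit 1476) (nat_lit 4392) (nat_lit 748))))
 (.n (nat_lit 2944)
 (.l (.k3_6 (nat_lit 10) (nat_lit 2944) (nat_lit 2946) (nat_lit 2926) (nat_lit 2998) (nat_lit 2458) (nat_lit 1486) (nat_lit 4402) (nat_lit 5130) (nat_lit 758)))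
 (.l (.k2_7 (nat_lit 9) (nat_lit 2946) (nat_lit 2944) (nat_lit 2952) (nat_lit 2928) (nat_lit 3000) (nat_lit 2460) (nat_lit 1488) (nat_lit 4404) (nat_lit 760)))))
 (.n (nat_lit 2970)
 (.n (nat_lit 2952)
 (.l (.k2_7 (nat_lit 10) (nat_lit 2952) (nat_lit 2946) (nat_lit 2934) (nat_lit 2970) (nat_lit 3006) (nat_lit 2466) (nat_lit 1494) (nat_lit 4410) (nat_lit 766)))
 (.l (.k2_5 (nat_lit 9) (nat_lit 2970) (nat_lit 2952) (nat_lit 3024) (nat_lit 2484) (nat_lit 1512) (nat_lit 4428) (nat_lit 784))))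
 (.n (nat_lit 2998)
 (.l (.k3_6 (nat_lit 10) (nat_lit 2998) (nat_lit 3000) (nat_lit 2944) (nat_lit 3160) (nat_lit 2512) (nat_lit 1540) (nat_lit 4456) (nat_lit 5184) (nat_lit 812)))
 (.l (.k2_7 (nat_lit 9) (nat_lit 3000) (nat_lit 2998) (nat_lit 3006) (nat_lit 2946) (nat_lit 3162) (nat_lit 2514) (nat_lit 1542) (nat_lit 4458) (nat_lit 814))))))
 (.n (nat_lit 3160)
 (.n (nat_lit 3024)
 (.n (nat_lit 3006)
 (.l (.k2_7 (nat_lit 9) (nat_lit 3006) (nat_lit 3000) (nat_lit 3024) (nat_lit 2952) (nat_lit 3168) (nat_lit 2520) (nat_lit 1548) (nat_lit 4464) (nat_lit 820)))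
 (.l (.k2_7 (nat_lit 10) (nat_lit 3024) (nat_lit 3006) (nat_lit 2970) (nat_lit 3078) (nat_lit 3186) (nat_lit 2538) (nat_lit 1566) (nat_lit 4482) (nat_lit 838))))
 (.n (nat_lit 3078)
 (.l (.k2_5 (nat_lit 9) (nat_lit 3078) (nat_lit 3024) (nat_lit 3240) (nat_lit 2592) (nat_lit 1620) (nat_lit 4536) (nat_lit 892)))
 (.l (.k3_6 (nat_lit 11) (nat_lit 3160) (nat_lit 3162) (nat_lit 2998) (nat_lit 2674) (nat_lit 3646) (nat_lit 1702) (nat_lit 4618) (nat_lit 5346) (nat_lit 974)))))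
 (.n (nat_lit 3168)
 (.n (nat_lit 3162)
 (.l (.k2_7 (nat_lit 10) (nat_lit 3162) (nat_lit 3160) (nat_lit 3168) (nat_lit 3000) (nat_lit 2676) (nat_lit 3648) (nat_lit 1704) (nat_lit 4620) (nat_lit 976)))
 (.l (.k2_7 (nat_lit 10) (nat_lit 3168) (nat_lit 3162) (nat_lit 3186) (nat_lit 3006) (nat_lit 2682) (nat_lit 3654) (nat_lit 1710) (nat_lit 4626) (nat_lit 982))))
 (.n (nat_lit 3186)
 (.l (.k2_7 (nat_lit 10) (nat_lit 3186) (nat_lit 3168) (nat_lit 3240) (nat_lit 3024) (nat_lit 2700) (nat_lit 3672) (nat_lit 1728) (nat_lit 4644) (nat_lit 1000)))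
 (.n (nat_lit 3240)
 (.l (.k2_7 (nat_lit 11) (nat_lit 3240) (nat_lit 3186) (nat_lit 3078) (nat_lit 3402) (nat_lit 2754) (nat_lit 3726) (nat_lit 1782) (nat_lit 4698) (nat_lit 1054)))
 (.l (.k2_4 (nat_lit 11) (nat_lit 3402) (nat_lit 3240) (nat_lit 3888) (nat_lit 1944) (nat_lit 4860) (nat_lit 1216)))))))))
 (.n (nat_lit 4456)
 (.n (nat_lit 4378)
 (.n (nat_lit 3672)
 (.n (nat_lit 3648)
 (.n (nat_lit 3646)
 (.l (.k3_3 (nat_lit 11) (nat_lit 3646) (nat_lit 3648) (nat_lit 3160) (nat_lit 5104) (nat_lit 5832) (nat_lit 1460)))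
 (.l (.k2_4 (nat_lit 10) (nat_lit 3648) (nat_lit 3646) (nat_lit 3654) (nat_lit 3162) (nat_lit 5106) (nat_lit 1462))))
 (.n (nat_lit 3654)
 (.l (.k2_4 (nat_lit 10) (nat_lit 3654) (nat_lit 3648) (nat_lit 3672) (nat_lit 3168) (nat_lit 5112) (nat_lit 1468)))
 (.l (.k2_4 (nat_lit 10) (nat_lit 3672) (nat_lit 3654) (nat_lit 3726) (nat_lit 3186) (nat_lit 5130) (nat_lit 1486)))))
 (.n (nat_lit 3888)
 (.n (nat_lit 3726)
 (.l (.k2_4 (nat_lit 10) (nat_lit 3726) (nat_lit 3672) (nat_lit 3888) (nat_lit 3240) (nat_lit 5184) (nat_lit 1540)))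
 (.l (.k2_3 (nat_lit 12) (nat_lit 3888) (nat_lit 3726) (nat_lit 3402) (nat_lit 5346) (nat_lit 1702))))
 (.n (nat_lit 4376)
 (.l (.k0_2 (nat_lit 12) (nat_lit 4376) (nat_lit 4378) (nat_lit 2918)))
 (.l (.k2_4 (nat_lit 11) (nat_lit 4378) (nat_lit 4376) (nat_lit 4380) (nat_lit 4384) (nat_lit 2920) (nat_lit 2192))))))
 (.n (nat_lit 4392)
 (.n (nat_lit 4384)
 (.n (nat_lit 4380)
 (.l (.k2_3 (nat_lit 8) (nat_lit 4380) (nat_lit 4378) (nat_lit 4386) (nat_lit 2922) (nat_lit 2194)))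
 (.l (.k2_4 (nat_lit 10) (nat_lit 4384) (nat_lit 4386) (nat_lit 4378) (nat_lit 4402) (nat_lit 2926) (nat_lit 2198))))
 (.n (nat_lit 4386)
 (.l (.k2_5 (nat_lit 9) (nat_lit 4386) (nat_lit 4384) (nat_lit 4380) (nat_lit 4392) (nat_lit 4404) (nat_lit 2928) (nat_lit 2200)))
 (.l (.k2_3 (nat_lit 8) (nat_lit 4392) (nat_lit 4386) (nat_lit 4410) (nat_lit 2934) (nat_lit 2206)))))
 (.n (nat_lit 4404)
 (.n (nat_lit 4402)
 (.l (.k2_4 (nat_lit 10) (nat_lit 4402) (nat_lit 4404) (nat_lit 4384) (nat_lit 4456) (nat_lit 2944) (nat_lit 2216)))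
 (.l (.k2_5 (nat_lit 8) (nat_lit 4404) (nat_lit 4402) (nat_lit 4410) (nat_lit 4386) (nat_lit 4458) (nat_lit 2946) (nat_lit 2218))))
 (.n (nat_lit 4410)
 (.l (.k2_5 (nat_lit 9) (nat_lit 4410) (nat_lit 4404) (nat_lit 4392) (nat_lit 4428) (nat_lit 4464) (nat_lit 2952) (nat_lit 2224)))
 (.n (nat_lit 4428)
 (.l (.k2_3 (nat_lit 8) (nat_lit 4428) (nat_lit 4410) (nat_lit 4482) (nat_lit 2970) (nat_lit 2242)))
 (.l (.k2_4 (nat_lit 10) (nat_lit 4456) (nat_lit 4458) (nat_lit 4402) (nat_lit 4618) (nat_lit 2998) (nat_lit 2270))))))))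
 (.n (nat_lit 4644)
 (.n (nat_lit 4536)
 (.n (nat_lit 4464)
 (.n (nat_lit 4458)
 (.l (.k2_5 (nat_lit 8) (nat_lit 4458) (nat_lit 4456) (nat_lit 4464) (nat_lit 4404) (nat_lit 4620) (nat_lit 3000) (nat_lit 2272)))
 (.l (.k2_5 (nat_lit 8) (nat_lit 4464) (nat_lit 4458) (nat_lit 4482) (nat_lit 4410) (nat_lit 4626) (nat_lit 3006) (nat_lit 2278))))
 (.n (nat_lit 4482)
 (.l (.k2_5 (nat_lit 9) (nat_lit 4482) (nat_lit 4464) (nat_lit 4428) (nat_lit 4536) (nat_lit 4644) (nat_lit 3024) (nat_lit 2296)))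
 (.l (.k2_3 (nat_lit 8) (nat_lit 4536) (nat_lit 4482) (nat_lit 4698) (nat_lit 3078) (nat_lit 2350)))))
 (.n (nat_lit 4620)
 (.n (nat_lit 4618)
 (.l (.k2_4 (nat_lit 10) (nat_lit 4618) (nat_lit 4620) (nat_lit 4456) (nat_lit 5104) (nat_lit 3160) (nat_lit 2432)))
 (.l (.k2_5 (nat_lit 8) (nat_lit 4620) (nat_lit 4618) (nat_lit 4626) (nat_lit 4458) (nat_lit 5106) (nat_lit 3162) (nat_lit 2434))))
 (.n (nat_lit 4626)
 (.l (.k2_5 (nat_lit 8) (nat_lit 4626) (nat_lit 4620) (nat_lit 4644) (nat_lit 4464) (nat_lit 5112) (nat_lit 3168) (nat_lit 2440)))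
 (.l (.k2_5 (nat_lit 8) (nat_lit 4644) (nat_lit 4626) (nat_lit 4698) (nat_lit 4482) (nat_lit 5130) (nat_lit 3186) (nat_lit 2458))))))
 (.n (nat_lit 5106)
 (.n (nat_lit 4860)
 (.n (nat_lit 4698)
 (.l (.k2_5 (nat_lit 9) (nat_lit 4698) (nat_lit 4644) (nat_lit 4536) (nat_lit 4860) (nat_lit 5184) (nat_lit 3240) (nat_lit 2512)))
 (.l (.k2_3 (nat_lit 8) (nat_lit 4860) (nat_lit 4698) (nat_lit 5346) (nat_lit 3402) (nat_lit 2674))))
 (.n (nat_lit 5104)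
 (.l (.k2_3 (nat_lit 12) (nat_lit 5104) (nat_lit 5106) (nat_lit 4618) (nat_lit 3646) (nat_lit 2918)))
 (.l (.k2_4 (nat_lit 10) (nat_lit 5106) (nat_lit 5104) (nat_lit 5112) (nat_lit 4620) (nat_lit 3648) (nat_lit 2920)))))
 (.n (nat_lit 5130)
 (.n (nat_lit 5112)
 (.l (.k2_4 (nat_lit 10) (nat_lit 5112) (nat_lit 5106) (nat_lit 5130) (nat_lit 4626) (nat_lit 3654) (nat_lit 2926)))
 (.l (.k2_4 (nat_lit 10) (nat_lit 5130) (nat_lit 5112) (nat_lit 5184) (nat_lit 4644) (nat_lit 3672) (nat_lit 2944))))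
 (.n (nat_lit 5184)
 (.l (.k2_4 (nat_lit 10) (nat_lit 5184) (nat_lit 5130) (nat_lit 5346) (nat_lit 4698) (nat_lit 3726) (nat_lit 2998)))
 (.n (nat_lit 5346)
 (.l (.k2_4 (nat_lit 11) (nat_lit 5346) (nat_lit 5184) (nat_lit 4860) (nat_lit 5832) (nat_lit 3888) (nat_lit 3160)))
 (.l (.k2_1 (nat_lit 12) (nat_lit 5832) (nat_lit 5346) (nat_lit 3646))))))))))))

def tab4_3 : Trie :=
 (.n (nat_lit 747)
 (.n (nat_lit 165)
 (.n (nat_lit 55)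
 (.n (nat_lit 21)
 (.n (nat_lit 11)
 (.n (nat_lit 5)
 (.l (.k1_2 (nat_lit 12) (nat_lit 5) (nat_lit 7) (nat_lit 11) (nat_lit 2191)))
 (.n (nat_lit 7)
 (.l (.k1_2 (nat_lit 12) (nat_lit 7) (nat_lit 5) (nat_lit 13) (nat_lit 2193)))
 (.l (.k1_3 (nat_lit 10) (nat_lit 11) (nat_lit 13) (nat_lit 5) (nat_lit 29) (nat_lit 2197)))))
 (.n (nat_lit 15)
 (.n (nat_lit 13)
 (.l (.k1_5 (nat_lit 12) (nat_lit 13) (nat_lit 11) (nat_lit 15) (nat_lit 7) (nat_lit 19) (nat_lit 31) (nat_lit 2199)))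
 (.l (.k0_3 (nat_lit 12) (nat_lit 15) (nat_lit 13) (nat_lit 21) (nat_lit 33))))
 (.n (nat_lit 19)
 (.l (.k1_3 (nat_lit 10) (nat_lit 19) (nat_lit 21) (nat_lit 13) (nat_lit 37) (nat_lit 2205)))
 (.l (.k0_3 (nat_lit 12) (nat_lit 21) (nat_lit 19) (nat_lit 15) (nat_lit 39))))))
 (.n (nat_lit 33)
 (.n (nat_lit 29)
 (.l (.k1_3 (nat_lit 10) (nat_lit 29) (nat_lit 31) (nat_lit 11) (nat_lit 83) (nat_lit 2215)))
 (.n (nat_lit 31)
 (.l (.k1_5 (nat_lit 11) (nat_lit 31) (nat_lit 29) (nat_lit 33) (nat_lit 37) (nat_lit 13) (nat_lit 85) (nat_lit 2217)))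
 (.l (.k0_4 (nat_lit 10) (nat_lit 33) (nat_lit 31) (nat_lit 39) (nat_lit 15) (nat_lit 87)))))
 (.n (nat_lit 39)
 (.n (nat_lit 37)
 (.l (.k1_5 (nat_lit 11) (nat_lit 37) (nat_lit 39) (nat_lit 31) (nat_lit 19) (nat_lit 55) (nat_lit 91) (nat_lit 2223)))
 (.l (.k0_6 (nat_lit 12) (nat_lit 39) (nat_lit 37) (nat_lit 33) (nat_lit 45) (nat_lit 21) (nat_lit 57) (nat_lit 93))))
 (.n (nat_lit 45)
 (.l (.k0_3 (nat_lit 12) (nat_lit 45) (nat_lit 39) (nat_lit 63) (nat_lit 99)))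
 (.l (.k1_3 (nat_lit 10) (nat_lit 55) (nat_lit 57) (nat_lit 37) (nat_lit 109) (nat_lit 2241)))))))
 (.n (nat_lit 93)
 (.n (nat_lit 83)
 (.n (nat_lit 57)
 (.l (.k0_4 (nat_lit 10) (nat_lit 57) (nat_lit 55) (nat_lit 63) (nat_lit 39) (nat_lit 111)))
 (.n (nat_lit 63)
 (.l (.k0_3 (nat_lit 12) (nat_lit 63) (nat_lit 57) (nat_lit 45) (nat_lit 117)))
 (.l (.k1_3 (nat_lit 10) (nat_lit 83) (nat_lit 85) (nat_lit 29) (nat_lit 245) (nat_lit 2269)))))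
 (.n (nat_lit 87)
 (.n (nat_lit 85)
 (.l (.k1_5 (nat_lit 11) (nat_lit 85) (nat_lit 83) (nat_lit 87) (nat_lit 91) (nat_lit 31) (nat_lit 247) (nat_lit 2271)))
 (.l (.k0_4 (nat_lit 10) (nat_lit 87) (nat_lit 85) (nat_lit 93) (nat_lit 33) (nat_lit 249))))
 (.n (nat_lit 91)
 (.l (.k1_5 (nat_lit 10) (nat_lit 91) (nat_lit 93) (nat_lit 85) (nat_lit 109) (nat_lit 37) (nat_lit 253) (nat_lit 2277)))
 (.l (.k0_6 (nat_lit 11) (nat_lit 93) (nat_lit 91) (nat_lit 87) (nat_lit 99) (nat_lit 111) (nat_lit 39) (nat_lit 255))))))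
 (.n (nat_lit 111)
 (.n (nat_lit 99)
 (.l (.k0_4 (nat_lit 10) (nat_lit 99) (nat_lit 93) (nat_lit 117) (nat_lit 45) (nat_lit 261)))
 (.n (nat_lit 109)
 (.l (.k1_5 (nat_lit 11) (nat_lit 109) (nat_lit 111) (nat_lit 91) (nat_lit 55) (nat_lit 163) (nat_lit 271) (nat_lit 2295)))
 (.l (.k0_6 (nat_lit 11) (nat_lit 111) (nat_lit 109) (nat_lit 117) (nat_lit 93) (nat_lit 57) (nat_lit 165) (nat_lit 273)))))
 (.n (nat_lit 135)
 (.n (nat_lit 117)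
 (.l (.k0_6 (nat_lit 12) (nat_lit 117) (nat_lit 111) (nat_lit 99) (nat_lit 135) (nat_lit 63) (nat_lit 171) (nat_lit 279)))
 (.l (.k0_3 (nat_lit 12) (nat_lit 135) (nat_lit 117) (nat_lit 189) (nat_lit 297))))
 (.n (nat_lit 163)
 (.l (.k1_3 (nat_lit 10) (nat_lit 163) (nat_lit 165) (nat_lit 109) (nat_lit 325) (nat_lit 2349)))
 (.l (.k0_4 (nat_lit 10) (nat_lit 165) (nat_lit 163) (nat_lit 171) (nat_lit 111) (nat_lit 327))))))))
 (.n (nat_lit 327)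
 (.n (nat_lit 255)
 (.n (nat_lit 245)
 (.n (nat_lit 171)
 (.l (.k0_4 (nat_lit 10) (nat_lit 171) (nat_lit 165) (nat_lit 189) (nat_lit 117) (nat_lit 333)))
 (.n (nat_lit 189)
 (.l (.k0_3 (nat_lit 12) (nat_lit 189) (nat_lit 171) (nat_lit 135) (nat_lit 351)))
 (.l (.k1_3 (nat_lit 10) (nat_lit 245) (nat_lit 247) (nat_lit 83) (nat_lit 731) (nat_lit 2431)))))
 (.n (nat_lit 249)
 (.n (nat_lit 247)
 (.l (.k1_5 (nat_lit 11) (nat_lit 247) (nat_lit 245) (nat_lit 249) (nat_lit 253) (nat_lit 85) (nat_lit 733) (nat_lit 2433)))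
 (.l (.k0_4 (nat_lit 10) (nat_lit 249) (nat_lit 247) (nat_lit 255) (nat_lit 87) (nat_lit 735))))
 (.n (nat_lit 253)
 (.l (.k1_5 (nat_lit 10) (nat_lit 253) (nat_lit 255) (nat_lit 247) (nat_lit 271) (nat_lit 91) (nat_lit 739) (nat_lit 2439)))
 (.l (.k0_6 (nat_lit 11) (nat_lit 255) (nat_lit 253) (nat_lit 249) (nat_lit 261) (nat_lit 273) (nat_lit 93) (nat_lit 741))))))
 (.n (nat_lit 273)
 (.n (nat_lit 261)
 (.l (.k0_4 (nat_lit 10) (nat_lit 261) (nat_lit 255) (nat_lit 279) (nat_lit 99) (nat_lit 747)))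
 (.n (nat_lit 271)
 (.l (.k1_5 (nat_lit 10) (nat_lit 271) (nat_lit 273) (nat_lit 253) (nat_lit 325) (nat_lit 109) (nat_lit 757) (nat_lit 2457)))
 (.l (.k0_6 (nat_lit 10) (nat_lit 273) (nat_lit 271) (nat_lit 279) (nat_lit 255) (nat_lit 327) (nat_lit 111) (nat_lit 759)))))
 (.n (nat_lit 297)
 (.n (nat_lit 279)
 (.l (.k0_6 (nat_lit 11) (nat_lit 279) (nat_lit 273) (nat_lit 261) (nat_lit 297) (nat_lit 333) (nat_lit 117) (nat_lit 765)))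
 (.l (.k0_4 (nat_lit 10) (nat_lit 297) (nat_lit 279) (nat_lit 351) (nat_lit 135) (nat_lit 783))))
 (.n (nat_lit 325)
 (.l (.k1_5 (nat_lit 11) (nat_lit 325) (nat_lit 327) (nat_lit 271) (nat_lit 163) (nat_lit 487) (nat_lit 811) (nat_lit 2511)))
 (.l (.k0_6 (nat_lit 11) (nat_lit 327) (nat_lit 325) (nat_lit 333) (nat_lit 273) (nat_lit 165) (nat_lit 489) (nat_lit 813)))))))
 (.n (nat_lit 513)
 (.n (nat_lit 405)
 (.n (nat_lit 333)
 (.l (.k0_6 (nat_lit 11) (nat_lit 333) (nat_lit 327) (nat_lit 351) (nat_lit 279) (nat_lit 171) (nat_lit 495) (nat_lit 819)))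
 (.n (nat_lit 351)
 (.l (.k0_6 (nat_lit 12) (nat_lit 351) (nat_lit 333) (nat_lit 297) (nat_lit 405) (nat_lit 189) (nat_lit 513) (nat_lit 837)))
 (.l (.k0_3 (nat_lit 12) (nat_lit 405) (nat_lit 351) (nat_lit 567) (nat_lit 891)))))
 (.n (nat_lit 489)
 (.n (nat_lit 487)
 (.l (.k1_3 (nat_lit 10) (nat_lit 487) (nat_lit 489) (nat_lit 325) (nat_lit 973) (nat_lit 2673)))
 (.l (.k0_4 (nat_lit 10) (nat_lit 489) (nat_lit 487) (nat_lit 495) (nat_lit 327) (nat_lit 975))))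
 (.n (nat_lit 495)
 (.l (.k0_4 (nat_lit 10) (nat_lit 495) (nat_lit 489) (nat_lit 513) (nat_lit 333) (nat_lit 981)))
 (.l (.k0_4 (nat_lit 10) (nat_lit 513) (nat_lit 495) (nat_lit 567) (nat_lit 351) (nat_lit 999))))))
 (.n (nat_lit 733)
 (.n (nat_lit 567)
 (.l (.k0_3 (nat_lit 12) (nat_lit 567) (nat_lit 513) (nat_lit 405) (nat_lit 1053)))
 (.n (nat_lit 731)
 (.l (.k1_3 (nat_lit 10) (nat_lit 731) (nat_lit 733) (nat_lit 245) (nat_lit 2189) (nat_lit 2917)))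
 (.l (.k1_5 (nat_lit 11) (nat_lit 733) (nat_lit 731) (nat_lit 735) (nat_lit 739) (nat_lit 247) (nat_lit 2191) (nat_lit 2919)))))
 (.n (nat_lit 739)
 (.n (nat_lit 735)
 (.l (.k0_4 (nat_lit 10) (nat_lit 735) (nat_lit 733) (nat_lit 741) (nat_lit 249) (nat_lit 2193)))
 (.l (.k1_5 (nat_lit 10) (nat_lit 739) (nat_lit 741) (nat_lit 733) (nat_lit 757) (nat_lit 253) (nat_lit 2197) (nat_lit 2925))))
 (.n (nat_lit 741)
 (.l (.k0_6 (nat_lit 11) (nat_lit 741) (nat_lit 739) (nat_lit 735) (nat_lit 747) (nat_lit 759) (nat_lit 255) (nat_lit 2199)))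
 (.l (.k0_4 (nat_lit 10) (nat_lit 747) (nat_lit 741) (nat_lit 765) (nat_lit 261) (nat_lit 2205)))))))))
 (.n (nat_lit 2215)
 (.n (nat_lit 1053)
 (.n (nat_lit 819)
 (.n (nat_lit 765)
 (.n (nat_lit 757)
 (.l (.k1_5 (nat_lit 10) (nat_lit 757) (nat_lit 759) (nat_lit 739) (nat_lit 811) (nat_lit 271) (nat_lit 2215) (nat_lit 2943)))
 (.n (nat_lit 759)
 (.l (.k0_6 (nat_lit 10) (nat_lit 759) (nat_lit 757) (nat_lit 765) (nat_lit 741) (nat_lit 813) (nat_lit 273) (nat_lit 2217)))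
 (.l (.k0_6 (nat_lit 11) (nat_lit 765) (nat_lit 759) (nat_lit 747) (nat_lit 783) (nat_lit 819) (nat_lit 279) (nat_lit 2223)))))
 (.n (nat_lit 811)
 (.n (nat_lit 783)
 (.l (.k0_4 (nat_lit 10) (nat_lit 783) (nat_lit 765) (nat_lit 837) (nat_lit 297) (nat_lit 2241)))
 (.l (.k1_5 (nat_lit 10) (nat_lit 811) (nat_lit 813) (nat_lit 757) (nat_lit 973) (nat_lit 325) (nat_lit 2269) (nat_lit 2997))))
 (.n (nat_lit 813)
 (.l (.k0_6 (nat_lit 10) (nat_lit 813) (nat_lit 811) (nat_lit 819) (nat_lit 759) (nat_lit 975) (nat_lit 327) (nat_lit 2271)))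
 (.l (.k0_6 (nat_lit 10) (nat_lit 819) (nat_lit 813) (nat_lit 837) (nat_lit 765) (nat_lit 981) (nat_lit 333) (nat_lit 2277))))))
 (.n (nat_lit 973)
 (.n (nat_lit 837)
 (.l (.k0_6 (nat_lit 11) (nat_lit 837) (nat_lit 819) (nat_lit 783) (nat_lit 891) (nat_lit 999) (nat_lit 351) (nat_lit 2295)))
 (.n (nat_lit 891)
 (.l (.k0_4 (nat_lit 10) (nat_lit 891) (nat_lit 837) (nat_lit 1053) (nat_lit 405) (nat_lit 2349)))
 (.l (.k1_5 (nat_lit 11) (nat_lit 973) (nat_lit 975) (nat_lit 811) (nat_lit 487) (nat_lit 1459) (nat_lit 2431) (nat_lit 3159)))))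
 (.n (nat_lit 981)
 (.n (nat_lit 975)
 (.l (.k0_6 (nat_lit 11) (nat_lit 975) (nat_lit 973) (nat_lit 981) (nat_lit 813) (nat_lit 489) (nat_lit 1461) (nat_lit 2433)))
 (.l (.k0_6 (nat_lit 11) (nat_lit 981) (nat_lit 975) (nat_lit 999) (nat_lit 819) (nat_lit 495) (nat_lit 1467) (nat_lit 2439))))
 (.n (nat_lit 999)
 (.l (.k0_6 (nat_lit 11) (nat_lit 999) (nat_lit 981) (nat_lit 1053) (nat_lit 837) (nat_lit 513) (nat_lit 1485) (nat_lit 2457)))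
 (.l (.k0_6 (nat_lit 12) (nat_lit 1053) (nat_lit 999) (nat_lit 891) (nat_lit 1215) (nat_lit 567) (nat_lit 1539) (nat_lit 2511)))))))
 (.n (nat_lit 1701)
 (.n (nat_lit 1461)
 (.n (nat_lit 1215)
 (.l (.k0_3 (nat_lit 12) (nat_lit 1215) (nat_lit 1053) (nat_lit 1701) (nat_lit 2673)))
 (.n (nat_lit 1459)
 (.l (.k1_3 (nat_lit 10) (nat_lit 1459) (nat_lit 1461) (nat_lit 973) (nat_lit 2917) (nat_lit 3645)))
 (.l (.k0_4 (nat_lit 10) (nat_lit 1461) (nat_lit 1459) (nat_lit 1467) (nat_lit 975) (nat_lit 2919)))))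
 (.n (nat_lit 1485)
 (.n (nat_lit 1467)
 (.l (.k0_4 (nat_lit 10) (nat_lit 1467) (nat_lit 1461) (nat_lit 1485) (nat_lit 981) (nat_lit 2925)))
 (.l (.k0_4 (nat_lit 10) (nat_lit 1485) (nat_lit 1467) (nat_lit 1539) (nat_lit 999) (nat_lit 2943))))
 (.n (nat_lit 1539)
 (.l (.k0_4 (nat_lit 10) (nat_lit 1539) (nat_lit 1485) (nat_lit 1701) (nat_lit 1053) (nat_lit 2997)))
 (.l (.k0_3 (nat_lit 12) (nat_lit 1701) (nat_lit 1539) (nat_lit 1215) (nat_lit 3159))))))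
 (.n (nat_lit 2193)
 (.n (nat_lit 2189)
 (.l (.k1_2 (nat_lit 12) (nat_lit 2189) (nat_lit 2191) (nat_lit 731) (nat_lit 4375)))
 (.n (nat_lit 2191)
 (.l (.k3_4 (nat_lit 12) (nat_lit 2191) (nat_lit 2189) (nat_lit 2193) (nat_lit 2197) (nat_lit 733) (nat_lit 4377) (nat_lit 5)))
 (.l (.k2_3 (nat_lit 10) (nat_lit 2193) (nat_lit 2191) (nat_lit 2199) (nat_lit 735) (nat_lit 7)))))
 (.n (nat_lit 2199)
 (.n (nat_lit 2197)
 (.l (.k3_4 (nat_lit 11) (nat_lit 2197) (nat_lit 2199) (nat_lit 2191) (nat_lit 2215) (nat_lit 739) (nat_lit 4383) (nat_lit 11)))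
 (.l (.k2_5 (nat_lit 11) (nat_lit 2199) (nat_lit 2197) (nat_lit 2193) (nat_lit 2205) (nat_lit 2217) (nat_lit 741) (nat_lit 13))))
 (.n (nat_lit 2205)
 (.l (.k2_3 (nat_lit 10) (nat_lit 2205) (nat_lit 2199) (nat_lit 2223) (nat_lit 747) (nat_lit 19)))
 (.l (.k3_4 (nat_lit 11) (nat_lit 2215) (nat_lit 2217) (nat_lit 2197) (nat_lit 2269) (nat_lit 757) (nat_lit 4401) (nat_lit 29))))))))
 (.n (nat_lit 2673)
 (.n (nat_lit 2295)
 (.n (nat_lit 2241)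
 (.n (nat_lit 2217)
 (.l (.k2_5 (nat_lit 10) (nat_lit 2217) (nat_lit 2215) (nat_lit 2223) (nat_lit 2199) (nat_lit 2271) (nat_lit 759) (nat_lit 31)))
 (.n (nat_lit 2223)
 (.l (.k2_5 (nat_lit 11) (nat_lit 2223) (nat_lit 2217) (nat_lit 2205) (nat_lit 2241) (nat_lit 2277) (nat_lit 765) (nat_lit 37)))
 (.l (.k2_3 (nat_lit 10) (nat_lit 2241) (nat_lit 2223) (nat_lit 2295) (nat_lit 783) (nat_lit 55)))))
 (.n (nat_lit 2271)
 (.n (nat_lit 2269)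
 (.l (.k3_4 (nat_lit 11) (nat_lit 2269) (nat_lit 2271) (nat_lit 2215) (nat_lit 2431) (nat_lit 811) (nat_lit 4455) (nat_lit 83)))
 (.l (.k2_5 (nat_lit 10) (nat_lit 2271) (nat_lit 2269) (nat_lit 2277) (nat_lit 2217) (nat_lit 2433) (nat_lit 813) (nat_lit 85))))
 (.n (nat_lit 2277)
 (.l (.k2_5 (nat_lit 10) (nat_lit 2277) (nat_lit 2271) (nat_lit 2295) (nat_lit 2223) (nat_lit 2439) (nat_lit 819) (nat_lit 91)))
 (.l (.k2_5 (nat_lit 11) (nat_lit 2295) (nat_lit 2277) (nat_lit 2241) (nat_lit 2349) (nat_lit 2457) (nat_lit 837) (nat_lit 109))))))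
 (.n (nat_lit 2433)
 (.n (nat_lit 2349)
 (.l (.k2_3 (nat_lit 10) (nat_lit 2349) (nat_lit 2295) (nat_lit 2511) (nat_lit 891) (nat_lit 163)))
 (.n (nat_lit 2431)
 (.l (.k3_4 (nat_lit 11) (nat_lit 2431) (nat_lit 2433) (nat_lit 2269) (nat_lit 2917) (nat_lit 973) (nat_lit 4617) (nat_lit 245)))
 (.l (.k2_5 (nat_lit 10) (nat_lit 2433) (nat_lit 2431) (nat_lit 2439) (nat_lit 2271) (nat_lit 2919) (nat_lit 975) (nat_lit 247)))))
 (.n (nat_lit 2457)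
 (.n (nat_lit 2439)
 (.l (.k2_5 (nat_lit 10) (nat_lit 2439) (nat_lit 2433) (nat_lit 2457) (nat_lit 2277) (nat_lit 2925) (nat_lit 981) (nat_lit 253)))
 (.l (.k2_5 (nat_lit 10) (nat_lit 2457) (nat_lit 2439) (nat_lit 2511) (nat_lit 2295) (nat_lit 2943) (nat_lit 999) (nat_lit 271))))
 (.n (nat_lit 2511)
 (.l (.k2_5 (nat_lit 11) (nat_lit 2511) (nat_lit 2457) (nat_lit 2349) (nat_lit 2673) (nat_lit 2997) (nat_lit 1053) (nat_lit 325)))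
 (.l (.k2_3 (nat_lit 10) (nat_lit 2673) (nat_lit 2511) (nat_lit 3159) (nat_lit 1215) (nat_lit 487)))))))
 (.n (nat_lit 3645)
 (.n (nat_lit 2925)
 (.n (nat_lit 2917)
 (.l (.k3_4 (nat_lit 12) (nat_lit 2917) (nat_lit 2919) (nat_lit 2431) (nat_lit 1459) (nat_lit 4375) (nat_lit 5103) (nat_lit 731)))
 (.n (nat_lit 2919)
 (.l (.k2_5 (nat_lit 11) (nat_lit 2919) (nat_lit 2917) (nat_lit 2925) (nat_lit 2433) (nat_lit 1461) (nat_lit 4377) (nat_lit 733)))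
 (.l (.k2_5 (nat_lit 11) (nat_lit 2925) (nat_lit 2919) (nat_lit 2943) (nat_lit 2439) (nat_lit 1467) (nat_lit 4383) (nat_lit 739)))))
 (.n (nat_lit 2997)
 (.n (nat_lit 2943)
 (.l (.k2_5 (nat_lit 11) (nat_lit 2943) (nat_lit 2925) (nat_lit 2997) (nat_lit 2457) (nat_lit 1485) (nat_lit 4401) (nat_lit 757)))
 (.l (.k2_5 (nat_lit 11) (nat_lit 2997) (nat_lit 2943) (nat_lit 3159) (nat_lit 2511) (nat_lit 1539) (nat_lit 4455) (nat_lit 811))))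
 (.n (nat_lit 3159)
 (.l (.k2_5 (nat_lit 12) (nat_lit 3159) (nat_lit 2997) (nat_lit 2673) (nat_lit 3645) (nat_lit 1701) (nat_lit 4617) (nat_lit 973)))
 (.l (.k2_2 (nat_lit 12) (nat_lit 3645) (nat_lit 3159) (nat_lit 5103) (nat_lit 1459))))))
 (.n (nat_lit 4383)
 (.n (nat_lit 4375)
 (.l (.k2_2 (nat_lit 12) (nat_lit 4375) (nat_lit 4377) (nat_lit 2917) (nat_lit 2189)))
 (.n (nat_lit 4377)
 (.l (.k2_3 (nat_lit 10) (nat_lit 4377) (nat_lit 4375) (nat_lit 4383) (nat_lit 2919) (nat_lit 2191)))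
 (.l (.k2_3 (nat_lit 10) (nat_lit 4383) (nat_lit 4377) (nat_lit 4401) (nat_lit 2925) (nat_lit 2197)))))
 (.n (nat_lit 4455)
 (.n (nat_lit 4401)
 (.l (.k2_3 (nat_lit 10) (nat_lit 4401) (nat_lit 4383) (nat_lit 4455) (nat_lit 2943) (nat_lit 2215)))
 (.l (.k2_3 (nat_lit 10) (nat_lit 4455) (nat_lit 4401) (nat_lit 4617) (nat_lit 2997) (nat_lit 2269))))
 (.n (nat_lit 4617)
 (.l (.k2_3 (nat_lit 10) (nat_lit 4617) (nat_lit 4455) (nat_lit 5103) (nat_lit 3159) (nat_lit 2431)))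
 (.l (.k2_2 (nat_lit 12) (nat_lit 5103) (nat_lit 4617) (nat_lit 3645) (nat_lit 2917))))))))))

def tab4_2 : Trie :=
 (.n (nat_lit 252)
 (.n (nat_lit 36)
 (.n (nat_lit 10)
 (.n (nat_lit 4)
 (.n (nat_lit 2)
 (.l (.k1_1 (nat_lit 12) (nat_lit 2) (nat_lit 4) (nat_lit 2188)))
 (.l (.k1_3 (nat_lit 13) (nat_lit 4) (nat_lit 2) (nat_lit 6) (nat_lit 10) (nat_lit 2190))))
 (.n (nat_lit 6)
 (.l (.k0_2 (nat_lit 12) (nat_lit 6) (nat_lit 4) (nat_lit 12)))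
 (.l (.k1_3 (nat_lit 12) (nat_lit 10) (nat_lit 12) (nat_lit 4) (nat_lit 28) (nat_lit 2196)))))
 (.n (nat_lit 18)
 (.n (nat_lit 12)
 (.l (.k0_4 (nat_lit 13) (nat_lit 12) (nat_lit 10) (nat_lit 6) (nat_lit 18) (nat_lit 30)))
 (.l (.k0_2 (nat_lit 12) (nat_lit 18) (nat_lit 12) (nat_lit 36))))
 (.n (nat_lit 28)
 (.l (.k1_3 (nat_lit 12) (nat_lit 28) (nat_lit 30) (nat_lit 10) (nat_lit 82) (nat_lit 2214)))
 (.n (nat_lit 30)
 (.l (.k0_4 (nat_lit 12) (nat_lit 30) (nat_lit 28) (nat_lit 36) (nat_lit 12) (nat_lit 84)))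
 (.l (.k0_4 (nat_lit 13) (nat_lit 36) (nat_lit 30) (nat_lit 18) (nat_lit 54) (nat_lit 90)))))))
 (.n (nat_lit 90)
 (.n (nat_lit 82)
 (.n (nat_lit 54)
 (.l (.k0_2 (nat_lit 12) (nat_lit 54) (nat_lit 36) (nat_lit 108)))
 (.l (.k1_3 (nat_lit 12) (nat_lit 82) (nat_lit 84) (nat_lit 28) (nat_lit 244) (nat_lit 2268))))
 (.n (nat_lit 84)
 (.l (.k0_4 (nat_lit 12) (nat_lit 84) (nat_lit 82) (nat_lit 90) (nat_lit 30) (nat_lit 246)))
 (.l (.k0_4 (nat_lit 12) (nat_lit 90) (nat_lit 84) (nat_lit 108) (nat_lit 36) (nat_lit 252)))))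
 (.n (nat_lit 162)
 (.n (nat_lit 108)
 (.l (.k0_4 (nat_lit 13) (nat_lit 108) (nat_lit 90) (nat_lit 54) (nat_lit 162) (nat_lit 270)))
 (.l (.k0_2 (nat_lit 12) (nat_lit 162) (nat_lit 108) (nat_lit 324))))
 (.n (nat_lit 244)
 (.l (.k1_3 (nat_lit 12) (nat_lit 244) (nat_lit 246) (nat_lit 82) (nat_lit 730) (nat_lit 2430)))
 (.n (nat_lit 246)
 (.l (.k0_4 (nat_lit 12) (nat_lit 246) (nat_lit 244) (nat_lit 252) (nat_lit 84) (nat_lit 732)))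
 (.l (.k0_4 (nat_lit 12) (nat_lit 252) (nat_lit 246) (nat_lit 270) (nat_lit 90) (nat_lit 738))))))))
 (.n (nat_lit 972)
 (.n (nat_lit 730)
 (.n (nat_lit 324)
 (.n (nat_lit 270)
 (.l (.k0_4 (nat_lit 12) (nat_lit 270) (nat_lit 252) (nat_lit 324) (nat_lit 108) (nat_lit 756)))
 (.l (.k0_4 (nat_lit 13) (nat_lit 324) (nat_lit 270) (nat_lit 162) (nat_lit 486) (nat_lit 810))))
 (.n (nat_lit 486)
 (.l (.k0_2 (nat_lit 12) (nat_lit 486) (nat_lit 324) (nat_lit 972)))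
 (.l (.k1_3 (nat_lit 12) (nat_lit 730) (nat_lit 732) (nat_lit 244) (nat_lit 2188) (nat_lit 2916)))))
 (.n (nat_lit 738)
 (.n (nat_lit 732)
 (.l (.k0_4 (nat_lit 12) (nat_lit 732) (nat_lit 730) (nat_lit 738) (nat_lit 246) (nat_lit 2190)))
 (.l (.k0_4 (nat_lit 12) (nat_lit 738) (nat_lit 732) (nat_lit 756) (nat_lit 252) (nat_lit 2196))))
 (.n (nat_lit 756)
 (.l (.k0_4 (nat_lit 12) (nat_lit 756) (nat_lit 738) (nat_lit 810) (nat_lit 270) (nat_lit 2214)))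
 (.n (nat_lit 810)
 (.l (.k0_4 (nat_lit 12) (nat_lit 810) (nat_lit 756) (nat_lit 972) (nat_lit 324) (nat_lit 2268)))
 (.l (.k0_4 (nat_lit 13) (nat_lit 972) (nat_lit 810) (nat_lit 486) (nat_lit 1458) (nat_lit 2430)))))))
 (.n (nat_lit 2196)
 (.n (nat_lit 2188)
 (.n (nat_lit 1458)
 (.l (.k0_2 (nat_lit 12) (nat_lit 1458) (nat_lit 972) (nat_lit 2916)))
 (.l (.k3_2 (nat_lit 13) (nat_lit 2188) (nat_lit 2190) (nat_lit 730) (nat_lit 4374) (nat_lit 2))))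
 (.n (nat_lit 2190)
 (.l (.k2_3 (nat_lit 12) (nat_lit 2190) (nat_lit 2188) (nat_lit 2196) (nat_lit 732) (nat_lit 4)))
 (.l (.k2_3 (nat_lit 12) (nat_lit 2196) (nat_lit 2190) (nat_lit 2214) (nat_lit 738) (nat_lit 10)))))
 (.n (nat_lit 2268)
 (.n (nat_lit 2214)
 (.l (.k2_3 (nat_lit 12) (nat_lit 2214) (nat_lit 2196) (nat_lit 2268) (nat_lit 756) (nat_lit 28)))
 (.l (.k2_3 (nat_lit 12) (nat_lit 2268) (nat_lit 2214) (nat_lit 2430) (nat_lit 810) (nat_lit 82))))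
 (.n (nat_lit 2430)
 (.l (.k2_3 (nat_lit 12) (nat_lit 2430) (nat_lit 2268) (nat_lit 2916) (nat_lit 972) (nat_lit 244)))
 (.n (nat_lit 2916)
 (.l (.k2_3 (nat_lit 13) (nat_lit 2916) (nat_lit 2430) (nat_lit 1458) (nat_lit 4374) (nat_lit 730)))
 (.l (.k2_1 (nat_lit 12) (nat_lit 4374) (nat_lit 2916) (nat_lit 2188)))))))))

def tab4_1 : Trie :=
 (.n (nat_lit 27)
 (.n (nat_lit 3)
 (.n (nat_lit 1)
 (.l (.k1_1 (nat_lit 14) (nat_lit 1) (nat_lit 3) (nat_lit 2187)))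
 (.l (.k0_2 (nat_lit 14) (nat_lit 3) (nat_lit 1) (nat_lit 9))))
 (.n (nat_lit 9)
 (.l (.k0_2 (nat_lit 14) (nat_lit 9) (nat_lit 3) (nat_lit 27)))
 (.l (.k0_2 (nat_lit 14) (nat_lit 27) (nat_lit 9) (nat_lit 81)))))
 (.n (nat_lit 243)
 (.n (nat_lit 81)
 (.l (.k0_2 (nat_lit 14) (nat_lit 81) (nat_lit 27) (nat_lit 243)))
 (.l (.k0_2 (nat_lit 14) (nat_lit 243) (nat_lit 81) (nat_lit 729))))
 (.n (nat_lit 729)
 (.l (.k0_2 (nat_lit 14) (nat_lit 729) (nat_lit 243) (nat_lit 2187)))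
 (.l (.k2_1 (nat_lit 14) (nat_lit 2187) (nat_lit 729) (nat_lit 1))))))

def tab4_0 : Trie :=
 (.l (.k0_0 (nat_lit 16) (nat_lit 0)))

end P348
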