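import Vale.Agent.Lib.P348.KTab4
import Vale.Agent.Lib.P348.KDataH4
import Vale.Agent.Lib.P348.KEv
import Vale.Agent.Lib.P348.KL

/-!
# P348 (K), module KV4: path counts of the ring of length 8, winding numbers modulo 4
(kernel evaluation; no Mathlib; the evaluations are written as definitions of proofs, so that they are
elaborated one after the other: peak memory 1.6 GB)
-/

set_option maxRecDepth 10000
set_option linter.defProp false

namespace P348

def vboth4_0ap : (chk (nat_lit 301) (nat_lit 2107) (fun k s => (G tab4_8 (zup (Nat.pred (Nat.pow 2 (nat_lit 6321))) (nat_lit 2107) (nat_lit 6321))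
      (zdn (Nat.pred (Nat.pow 2 (nat_lit 2107))) (nat_lit 2107) (nat_lit 6321)) (pk (nat_lit 301) cols4_0ap) k).g s) cols4_0ap kl4 out4_4_0ap
    && chk (nat_lit 301) (nat_lit 2107) (fun k s => (G tab4_8 (zup (Nat.pred (Nat.pow 2 (nat_lit 6321))) (nat_lit 2107) (nat_lit 6321))
      (zdn (Nat.pred (Nat.pow 2 (nat_lit 2107))) (nat_lit 2107) (nat_lit 6321)) (pk (nat_lit 301) cols4_0ap) k).g (Nat.sub (nat_lit 6560) s)) cols4_0ap kl4 fout4_0ap) = true := by
  decide +kernel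

def vboth4_0aq : (chk (nat_lit 301) (nat_lit 2107) (fun k s => (G tab4_8 (zup (Nat.pred (Nat.pow 2 (nat_lit 6321))) (nat_lit 2107) (nat_lit 6321))
      (zdn (Nat.pred (Nat.pow 2 (nat_lit 2107))) (nat_lit 2107) (nat_lit 6321)) (pk (nat_lit 301) cols4_0aq) k).g s) cols4_0aq kl4 out4_4_0aq
    && chk (nat_lit 301) (nat_lit 2107) (fun k s => (G tab4_8 (zup (Nat.pred (Nat.pow 2 (nat_lit 6321))) (nat_lit 2107) (nat_lit 6321))
      (zdn (Nat.pred (Nat.pow 2 (nat_lit 2107))) (nat_lit 2107) (nat_lit 6321)) (pk (nat_lit 301) cols4_0aq) k).g (Nat.sub (nat_lit 6560) s)) cols4_0aq kl4 fout4_0aq) = true := by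
  decide +kernel

def vboth4_0ar : (chk (nat_lit 301) (nat_lit 1806) (fun k s => (G tab4_8 (zup (Nat.pred (Nat.pow 2 (nat_lit 5418))) (nat_lit 1806) (nat_lit 5418))
      (zdn (Nat.pred (Nat.pow 2 (nat_lit 1806))) (nat_lit 1806) (nat_lit 5418)) (pk (nat_lit 301) cols4_0ar) k).g s) cols4_0ar kl4 out4_4_0ar
    && chk (nat_lit 301) (nat_lit 1806) (fun k s => (G tab4_8 (zup (Nat.pred (Nat.pow 2 (nat_lit 5418))) (nat_lit 1806) (nat_lit 5418))
      (zdn (Nat.pred (Nat.pow 2 (nat_lit 1806))) (nat_lit 1806) (nat_lit 5418)) (pk (nat_lit 301) cols4_0ar) k).g (Nat.sub (nat_lit 6560) s)) cols4_0ar kl4 fout4_0ar) = true := by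
  decide +kernel

def vboth4_0bp : (chk (nat_lit 301) (nat_lit 2107) (fun k s => (G tab4_8 (zup (Nat.pred (Nat.pow 2 (nat_lit 6321))) (nat_lit 2107) (nat_lit 6321))
      (zdn (Nat.pred (Nat.pow 2 (nat_lit 2107))) (nat_lit 2107) (nat_lit 6321)) (pk (nat_lit 301) cols4_0bp) k).g s) cols4_0bp kl4 out4_4_0bp
    && chk (nat_lit 301) (nat_lit 2107) (fun k s => (G tab4_8 (zup (Nat.pred (Nat.pow 2 (nat_lit 6321))) (nat_lit 2107) (nat_lit 6321))
      (zdn (Nat.pred (Nat.pow 2 (nat_lit 2107))) (nat_lit 2107) (nat_lit 6321)) (pk (nat_lit 301) cols4_0bp) k).g (Nat.sub (nat_lit 6560) s)) cols4_0bp kl4 fout4_0bp) = true := by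
  decide +kernel

def vboth4_0bq : (chk (nat_lit 301) (nat_lit 2107) (fun k s => (G tab4_8 (zup (Nat.pred (Nat.pow 2 (nat_lit 6321))) (nat_lit 2107) (nat_lit 6321))
      (zdn (Nat.pred (Nat.pow 2 (nat_lit 2107))) (nat_lit 2107) (nat_lit 6321)) (pk (nat_lit 301) cols4_0bq) k).g s) cols4_0bq kl4 out4_4_0bq
    && chk (nat_lit 301) (nat_lit 2107) (fun k s => (G tab4_8 (zup (Nat.pred (Nat.pow 2 (nat_lit 6321))) (nat_lit 2107) (nat_lit 6321))
      (zdn (Nat.pred (Nat.pow 2 (nat_lit 2107))) (nat_lit 2107) (nat_lit 6321)) (pk (nat_lit 301) cols4_0bq) k).g (Nat.sub (nat_lit 6560) s)) cols4_0bq kl4 fout4_0bq) = true := by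
  decide +kernel

def vboth4_0br : (chk (nat_lit 301) (nat_lit 1806) (fun k s => (G tab4_8 (zup (Nat.pred (Nat.pow 2 (nat_lit 5418))) (nat_lit 1806) (nat_lit 5418))
      (zdn (Nat.pred (Nat.pow 2 (nat_lit 1806))) (nat_lit 1806) (nat_lit 5418)) (pk (nat_lit 301) cols4_0br) k).g s) cols4_0br kl4 out4_4_0br
    && chk (nat_lit 301) (nat_lit 1806) (fun k s => (G tab4_8 (zup (Nat.pred (Nat.pow 2 (nat_lit 5418))) (nat_lit 1806) (nat_lit 5418))
      (zdn (Nat.pred (Nat.pow 2 (nat_lit 1806))) (nat_lit 1806) (nat_lit 5418)) (pk (nat_lit 301) cols4_0br) k).g (Nat.sub (nat_lit 6560) s)) cols4_0br kl4 fout4_0br) = true := by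
  decide +kernel

def vboth4_0cp : (chk (nat_lit 301) (nat_lit 2107) (fun k s => (G tab4_8 (zup (Nat.pred (Nat.pow 2 (nat_lit 6321))) (nat_lit 2107) (nat_lit 6321))
      (zdn (Nat.pred (Nat.pow 2 (nat_lit 2107))) (nat_lit 2107) (nat_lit 6321)) (pk (nat_lit 301) cols4_0cp) k).g s) cols4_0cp kl4 out4_4_0cp
    && chk (nat_lit 301) (nat_lit 2107) (fun k s => (G tab4_8 (zup (Nat.pred (Nat.pow 2 (nat_lit 6321))) (nat_lit 2107) (nat_lit 6321))
      (zdn (Nat.pred (Nat.pow 2 (nat_lit 2107))) (nat_lit 2107) (nat_lit 6321)) (pk (nat_lit 301) cols4_0cp) k).g (Nat.sub (nat_lit 6560) s)) cols4_0cp kl4 fout4_0cp) = true := by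
  decide +kernel

def vboth4_0cq : (chk (nat_lit 301) (nat_lit 1806) (fun k s => (G tab4_8 (zup (Nat.pred (Nat.pow 2 (nat_lit 5418))) (nat_lit 1806) (nat_lit 5418))
      (zdn (Nat.pred (Nat.pow 2 (nat_lit 1806))) (nat_lit 1806) (nat_lit 5418)) (pk (nat_lit 301) cols4_0cq) k).g s) cols4_0cq kl4 out4_4_0cq
    && chk (nat_lit 301) (nat_lit 1806) (fun k s => (G tab4_8 (zup (Nat.pred (Nat.pow 2 (nat_lit 5418))) (nat_lit 1806) (nat_lit 5418))
      (zdn (Nat.pred (Nat.pow 2 (nat_lit 1806))) (nat_lit 1806) (nat_lit 5418)) (pk (nat_lit 301) cols4_0cq) k).g (Nat.sub (nat_lit 6560) s)) cols4_0cq kl4 fout4_0cq) = true := by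
  decide +kernel

def vboth4_0cr : (chk (nat_lit 301) (nat_lit 1806) (fun k s => (G tab4_8 (zup (Nat.pred (Nat.pow 2 (nat_lit 5418))) (nat_lit 1806) (nat_lit 5418))
      (zdn (Nat.pred (Nat.pow 2 (nat_lit 1806))) (nat_lit 1806) (nat_lit 5418)) (pk (nat_lit 301) cols4_0cr) k).g s) cols4_0cr kl4 out4_4_0cr
    && chk (nat_lit 301) (nat_lit 1806) (fun k s => (G tab4_8 (zup (Nat.pred (Nat.pow 2 (nat_lit 5418))) (nat_lit 1806) (nat_lit 5418))
      (zdn (Nat.pred (Nat.pow 2 (nat_lit 1806))) (nat_lit 1806) (nat_lit 5418)) (pk (nat_lit 301) cols4_0cr) k).g (Nat.sub (nat_lit 6560) s)) cols4_0cr kl4 fout4_0cr) = true := by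
  decide +kernel

def v4_4_1ap : chk (nat_lit 301) (nat_lit 2408) (fun k s => (G tab4_7 (zup (Nat.pred (Nat.pow 2 (nat_lit 7224))) (nat_lit 2408) (nat_lit 7224))
      (zdn (Nat.pred (Nat.pow 2 (nat_lit 2408))) (nat_lit 2408) (nat_lit 7224)) (pk (nat_lit 301) cols4_1ap) k).g s) cols4_1ap kl4 out4_4_1ap = true := by
  decide +kernel

def v4_4_1aq : chk (nat_lit 301) (nat_lit 2408) (fun k s => (G tab4_7 (zup (Nat.pred (Nat.pow 2 (nat_lit 7224))) (nat_lit 2408) (nat_lit 7224))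
      (zdn (Nat.pred (Nat.pow 2 (nat_lit 2408))) (nat_lit 2408) (nat_lit 7224)) (pk (nat_lit 301) cols4_1aq) k).g s) cols4_1aq kl4 out4_4_1aq = true := by
  decide +kernel

def v4_4_1ar : chk (nat_lit 301) (nat_lit 2408) (fun k s => (G tab4_7 (zup (Nat.pred (Nat.pow 2 (nat_lit 7224))) (nat_lit 2408) (nat_lit 7224))
      (zdn (Nat.pred (Nat.pow 2 (nat_lit 2408))) (nat_lit 2408) (nat_lit 7224)) (pk (nat_lit 301) cols4_1ar) k).g s) cols4_1ar kl4 out4_4_1ar = true := by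
  decide +kernel

end P348
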