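import Mathlib.Analysis.Matrix.Order
import Vale.Agent.Lib.P348.M1C

/-!
P348, variational upper bound, part D: reduction to a certificate by three real matrices
`Bx, By, Bz` (the tensors of the y component carry a factor i, realised by a 2 x 2 matrix) which
are almost unital; unitality is restored by a reset channel.
-/

namespace P348

open Matrix
open scoped Kronecker

/-- the imaginary unit -/
def Jm : Matrix (Fin 2) (Fin 2) ℝ := !![0, -1; 1, 0]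

theorem Jm_tr : Jmᵀ = -Jm := by
  ext i j
  fin_cases i <;> fin_cases j <;> simp [Jm]

theorem Jm_mul : Jm * Jm = -1 := by
  ext i j
  fin_cases i <;> fin_cases j <;> simp [Jm, Matrix.mul_apply]

section

variable {n : Type} [Fintype n] [DecidableEq n]

omit [Fintype n] [DecidableEq n] in
theorem neg_kron (A : Matrix (Fin 2) (Fin 2) ℝ) (B : Matrix n n ℝ) : (-A) ⊗ₖ B = -(A ⊗ₖ B) := by
  ext i j
  simp [kroneckerMap_apply]

omit [Fintype n] [DecidableEq n] in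
theorem kron_neg (A : Matrix (Fin 2) (Fin 2) ℝ) (B : Matrix n n ℝ) : A ⊗ₖ (-B) = -(A ⊗ₖ B) := by
  ext i j
  simp [kroneckerMap_apply]

omit [Fintype n] [DecidableEq n] in
theorem kron_sub (A : Matrix (Fin 2) (Fin 2) ℝ) (B C : Matrix n n ℝ) :
    A ⊗ₖ (B - C) = A ⊗ₖ B - A ⊗ₖ C := by
  ext i j
  simp [kroneckerMap_apply, mul_sub]

omit [Fintype n] [DecidableEq n] in
theorem kron_tr (A : Matrix (Fin 2) (Fin 2) ℝ) (B : Matrix n n ℝ) :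
    (A ⊗ₖ B)ᵀ = Aᵀ ⊗ₖ Bᵀ := by
  ext i j
  simp [kroneckerMap_apply]

omit [Fintype n] [DecidableEq n] in
theorem kron_add (A : Matrix (Fin 2) (Fin 2) ℝ) (B C : Matrix n n ℝ) :
    A ⊗ₖ (B + C) = A ⊗ₖ B + A ⊗ₖ C := by
  ext i j
  simp [kroneckerMap_apply, mul_add]

omit [Fintype n] [DecidableEq n] in
theorem kron_smul (A : Matrix (Fin 2) (Fin 2) ℝ) (c : ℝ) (B : Matrix n n ℝ) :
    A ⊗ₖ (c • B) = c • (A ⊗ₖ B) := by
  ext i j
  simp [kroneckerMap_apply, mul_left_comm]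

/-- main tensors -/
def Amain (Bx By Bz : Matrix n n ℝ) : Fin 3 → Matrix (Fin 2 × n) (Fin 2 × n) ℝ :=
  ![1 ⊗ₖ Bx, Jm ⊗ₖ By, 1 ⊗ₖ Bz]

omit [Fintype n] [DecidableEq n] in
theorem Amain0 (Bx By Bz : Matrix n n ℝ) : Amain Bx By Bz 0 = 1 ⊗ₖ Bx := rfl

omit [Fintype n] [DecidableEq n] in
theorem Amain1 (Bx By Bz : Matrix n n ℝ) : Amain Bx By Bz 1 = Jm ⊗ₖ By := rfl

omit [Fintype n] [DecidableEq n] in
theorem Amain2 (Bx By Bz : Matrix n n ℝ) : Amain Bx By Bz 2 = 1 ⊗ₖ Bz := rfl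

/-- reset tensors -/
def Rst {m : Type} [DecidableEq m] (F : Matrix m m ℝ) (q : m) (r : m) (s : Fin 3) :
    Matrix m m ℝ :=
  fun i j => if s = 2 then (if j = q then F i r else 0) else 0

/-- all tensors -/
def Mall (Bx By Bz : Matrix n n ℝ) (F : Matrix (Fin 2 × n) (Fin 2 × n) ℝ) (q : Fin 2 × n) :
    Option (Fin 2 × n) → Fin 3 → Matrix (Fin 2 × n) (Fin 2 × n) ℝ
  | none => Amain Bx By Bz
  | some r => Rst F q r

theorem rst_sum {m : Type} [Fintype m] [DecidableEq m] (F : Matrix m m ℝ) (q : m)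
    (O : Matrix (Fin 3) (Fin 3) ℝ) (Y : Matrix m m ℝ) :
    ∑ r, ∑ s, ∑ t, O s t • (Rst F q r s * Y * (Rst F q r t)ᵀ) =
      (O 2 2 * Y q q) • (F * Fᵀ) := by
  have h0 : ∀ r : m, Rst F q r 0 = 0 := fun r => by ext i j; simp [Rst]
  have h1 : ∀ r : m, Rst F q r 1 = 0 := fun r => by ext i j; simp [Rst]
  simp only [Fin.sum_univ_three, h0, h1, Matrix.zero_mul, transpose_zero, Matrix.mul_zero,
    smul_zero, zero_add]
  ext i j
  simp only [Matrix.sum_apply, Matrix.smul_apply, Matrix.mul_apply, Matrix.transpose_apply, Rst,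
    if_true, ite_mul, zero_mul, mul_ite, mul_zero, Finset.sum_ite_eq', Finset.sum_ite_eq,
    Finset.mem_univ, smul_eq_mul, Finset.mul_sum]
  refine Finset.sum_congr rfl fun r _ => ?_
  ring

theorem tmap_all (Bx By Bz : Matrix n n ℝ) (F : Matrix (Fin 2 × n) (Fin 2 × n) ℝ)
    (q : Fin 2 × n) (O : Matrix (Fin 3) (Fin 3) ℝ) (Y : Matrix (Fin 2 × n) (Fin 2 × n) ℝ) :
    tmap (Mall Bx By Bz F q) O Y =
      (∑ s, ∑ t, O s t • (Amain Bx By Bz s * Y * (Amain Bx By Bz t)ᵀ)) +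
        (O 2 2 * Y q q) • (F * Fᵀ) := by
  rw [tmap, Fintype.sum_option, ← rst_sum]
  rfl

theorem mul3 (A C C' : Matrix (Fin 2) (Fin 2) ℝ) (P Y Q : Matrix n n ℝ) :
    (A ⊗ₖ P) * (C ⊗ₖ Y) * (C' ⊗ₖ Q)ᵀ = (A * C * C'ᵀ) ⊗ₖ (P * Y * Qᵀ) := by
  rw [kron_tr, ← mul_kronecker_mul, ← mul_kronecker_mul]

/-- the channel without operator -/
theorem tmap_all_one (Bx By Bz : Matrix n n ℝ) (F : Matrix (Fin 2 × n) (Fin 2 × n) ℝ)
    (q : Fin 2 × n) (Y : Matrix n n ℝ) :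
    tmap (Mall Bx By Bz F q) 1 (1 ⊗ₖ Y) =
      1 ⊗ₖ (Bx * Y * Bxᵀ + By * Y * Byᵀ + Bz * Y * Bzᵀ) + (Y q.2 q.2) • (F * Fᵀ) := by
  have hJ : Jm * Jmᵀ = 1 := by
    rw [Jm_tr, Matrix.mul_neg, Jm_mul, neg_neg]
  rw [tmap_all]
  congr 1
  · simp only [Fin.sum_univ_three, Matrix.one_apply, Amain0, Amain1, Amain2]
    simp only [Fin.isValue, if_true, one_smul, Fin.reduceEq, if_false, zero_smul,
      add_zero, zero_add, mul3, hJ, Matrix.mul_one, transpose_one]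
    rw [← kron_add, ← kron_add]
  · simp [kroneckerMap_apply]

theorem Lg22 (α : Fin 3) : Lg α 2 2 = 0 := by
  rw [Lg_apply]
  fin_cases α <;> simp

omit [DecidableEq n] in
theorem Lg_main (α : Fin 3) (A : Fin 3 → Matrix (Fin 2 × n) (Fin 2 × n) ℝ)
    (Y : Matrix (Fin 2 × n) (Fin 2 × n) ℝ) :
    ∑ s, ∑ t, Lg α s t • (A s * Y * (A t)ᵀ) =
      A (α + 1) * Y * (A (α + 2))ᵀ - A (α + 2) * Y * (A (α + 1))ᵀ := by
  simp only [Fin.sum_univ_three, Lg_apply]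
  fin_cases α <;> simp <;> abel

theorem kop0 (Bx By Bz : Matrix n n ℝ) (F : Matrix (Fin 2 × n) (Fin 2 × n) ℝ)
    (q : Fin 2 × n) :
    tmap (Mall Bx By Bz F q) (Lg 0) (tmap (Mall Bx By Bz F q) (Lg 0) 1) =
      -(1 ⊗ₖ (By * (By * Bzᵀ + Bz * Byᵀ) * Bzᵀ + Bz * (By * Bzᵀ + Bz * Byᵀ) * Byᵀ)) := by
  have h1 : tmap (Mall Bx By Bz F q) (Lg 0) 1 = Jm ⊗ₖ (By * Bzᵀ + Bz * Byᵀ) := by
    rw [tmap_all, Lg22, zero_mul, zero_smul, add_zero, Lg_main, ← one_kronecker_one]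
    simp only [zero_add, Amain1, Amain2, mul3, Matrix.mul_one, Matrix.one_mul, transpose_one,
      Jm_tr, neg_kron, sub_neg_eq_add]
    rw [← kron_add]
  rw [h1, tmap_all, Lg22, zero_mul, zero_smul, add_zero, Lg_main]
  simp only [zero_add, Amain1, Amain2, mul3, Matrix.mul_one, Matrix.one_mul, transpose_one,
    Jm_tr, Matrix.mul_neg, Jm_mul, neg_kron, neg_neg]
  rw [kron_add]
  abel

theorem kop2 (Bx By Bz : Matrix n n ℝ) (F : Matrix (Fin 2 × n) (Fin 2 × n) ℝ)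
    (q : Fin 2 × n) :
    tmap (Mall Bx By Bz F q) (Lg 2) (tmap (Mall Bx By Bz F q) (Lg 2) 1) =
      -(1 ⊗ₖ (Bx * (Bx * Byᵀ + By * Bxᵀ) * Byᵀ + By * (Bx * Byᵀ + By * Bxᵀ) * Bxᵀ)) := by
  have e1 : (2 : Fin 3) + 1 = 0 := rfl
  have e2 : (2 : Fin 3) + 2 = 1 := rfl
  have h1 : tmap (Mall Bx By Bz F q) (Lg 2) 1 = -(Jm ⊗ₖ (Bx * Byᵀ + By * Bxᵀ)) := by
    rw [tmap_all, Lg22, zero_mul, zero_smul, add_zero, Lg_main, ← one_kronecker_one]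
    simp only [e1, e2, Amain0, Amain1, mul3, Matrix.mul_one, Matrix.one_mul, transpose_one,
      Jm_tr, neg_kron]
    rw [kron_add]
    abel
  rw [h1, tmap_neg, tmap_all, Lg22, zero_mul, zero_smul, add_zero, Lg_main]
  simp only [e1, e2, Amain0, Amain1, mul3, Matrix.mul_one, Matrix.one_mul, transpose_one,
    Jm_tr, Matrix.mul_neg, Jm_mul, neg_kron, neg_neg]
  rw [kron_add]
  abel

theorem kop1 (Bx By Bz : Matrix n n ℝ) (F : Matrix (Fin 2 × n) (Fin 2 × n) ℝ)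
    (q : Fin 2 × n) :
    tmap (Mall Bx By Bz F q) (Lg 1) (tmap (Mall Bx By Bz F q) (Lg 1) 1) =
      1 ⊗ₖ (Bz * (Bz * Bxᵀ - Bx * Bzᵀ) * Bxᵀ - Bx * (Bz * Bxᵀ - Bx * Bzᵀ) * Bzᵀ) := by
  have e1 : (1 : Fin 3) + 1 = 2 := rfl
  have e2 : (1 : Fin 3) + 2 = 0 := rfl
  have h1 : tmap (Mall Bx By Bz F q) (Lg 1) 1 = 1 ⊗ₖ (Bz * Bxᵀ - Bx * Bzᵀ) := by
    rw [tmap_all, Lg22, zero_mul, zero_smul, add_zero, Lg_main, ← one_kronecker_one]
    simp only [e1, e2, Amain0, Amain2, mul3, Matrix.mul_one, transpose_one]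
    rw [kron_sub]
  rw [h1, tmap_all, Lg22, zero_mul, zero_smul, add_zero, Lg_main]
  simp only [e1, e2, Amain0, Amain2, mul3, Matrix.mul_one, transpose_one]
  rw [kron_sub]

/-- the two-site energy operator of the certificate -/
def Kc {R : Type} [CommRing R] (Bx By Bz : Matrix n n R) : Matrix n n R :=
  (By * (By * Bzᵀ + Bz * Byᵀ) * Bzᵀ + Bz * (By * Bzᵀ + Bz * Byᵀ) * Byᵀ) +
  (Bx * (Bx * Byᵀ + By * Bxᵀ) * Byᵀ + By * (Bx * Byᵀ + By * Bxᵀ) * Bxᵀ) -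
  (Bz * (Bz * Bxᵀ - Bx * Bzᵀ) * Bxᵀ - Bx * (Bz * Bxᵀ - Bx * Bzᵀ) * Bzᵀ)

theorem Kop_all (Bx By Bz : Matrix n n ℝ) (F : Matrix (Fin 2 × n) (Fin 2 × n) ℝ)
    (q : Fin 2 × n) : Kop (Mall Bx By Bz F q) = 1 ⊗ₖ Kc Bx By Bz := by
  rw [Kop, Fin.sum_univ_three, kop0, kop1, kop2, Kc, kron_sub 1 (_ + _), kron_add 1 (_ + _)]
  abel

/-- square root of a positive semidefinite real matrix -/
theorem psd_factor {m : Type} [Fintype m] [DecidableEq m] {A : Matrix m m ℝ}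
    (hA : A.PosSemidef) : ∃ F : Matrix m m ℝ, A = F * Fᵀ := by
  open scoped MatrixOrder in
  obtain ⟨a, ha⟩ := CStarAlgebra.nonneg_iff_eq_star_mul_self.mp hA.nonneg
  refine ⟨aᵀ, ?_⟩
  rw [ha, transpose_transpose, star_eq_conjTranspose, conjTranspose_eq_transpose_of_trivial]

/-- the certificate theorem -/
theorem cert_upper (Bx By Bz X : Matrix n n ℝ) (b : n) {e : ℝ} (hX : Xᵀ = X)
    (hD : ((1 : Matrix n n ℝ) - (Bx * Bxᵀ + By * Byᵀ + Bz * Bzᵀ)).PosSemidef)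
    (hS : (e • (1 : Matrix n n ℝ) + X - ((Bx * X * Bxᵀ + By * X * Byᵀ + Bz * X * Bzᵀ) +
      X b b • ((1 : Matrix n n ℝ) - (Bx * Bxᵀ + By * Byᵀ + Bz * Bzᵀ))) -
      Kc Bx By Bz).PosSemidef) :
    ∃ C : ℝ, ∀ (N : ℕ) [NeZero N], ∃ v : Cfg N → ℝ, v ≠ 0 ∧
      v ⬝ᵥ (HR N 1 *ᵥ v) ≤ ((2 * N) * e + C) * (v ⬝ᵥ v) := by
  obtain ⟨F, hF⟩ := psd_factor ((PosSemidef.one (n := Fin 2) (R := ℝ)).kronecker hD)
  have hone : ∀ Y : Matrix n n ℝ, tmap (Mall Bx By Bz F (0, b)) 1 (1 ⊗ₖ Y) =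
      1 ⊗ₖ ((Bx * Y * Bxᵀ + By * Y * Byᵀ + Bz * Y * Bzᵀ) +
        Y b b • ((1 : Matrix n n ℝ) - (Bx * Bxᵀ + By * Byᵀ + Bz * Bzᵀ))) := by
    intro Y
    rw [tmap_all_one, ← hF, kron_add 1 (_ + _ + _), kron_smul]
  refine mps_upper (Mall Bx By Bz F (0, b)) ?_ (X := 1 ⊗ₖ X) ?_ ?_ (0, b)
  · rw [← one_kronecker_one, hone]
    congr 1
    simp
  · rw [kron_tr, transpose_one, hX]
  · rw [Kop_all, hone, ← one_kronecker_one, ← kron_smul, ← kron_add, ← kron_sub,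
      ← kron_sub]
    exact (PosSemidef.one (n := Fin 2) (R := ℝ)).kronecker hS

end

end P348
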