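import Mathlib.Data.Int.Star
import Mathlib.Data.List.GetD
import Vale.Agent.Lib.P348.M1D

/-!
P348, variational upper bound, part E: integer certificates.  Matrix identities are checked on the
single vector `(q^j)_j` with `q` large (Kronecker substitution), with list arithmetic.
-/

namespace P348

open Matrix

/-! ### list arithmetic -/

/-- scalar product of lists -/
def dotLM : List ℤ → List ℤ → ℤ
  | a :: r, b :: v => a * b + dotLM r v
  | _, _ => 0

/-- matrix times vector -/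
def mv (A : List (List ℤ)) (v : List ℤ) : List ℤ := A.map (fun r => dotLM r v)

/-- sum of vectors -/
def addv (v w : List ℤ) : List ℤ := List.zipWith (fun a b => a + b) v w

/-- difference of vectors -/
def subv (v w : List ℤ) : List ℤ := List.zipWith (fun a b => a - b) v w

/-- multiple of a vector -/
def smulv (c : ℤ) (v : List ℤ) : List ℤ := v.map (fun a => c * a)

/-- transposed matrix times vector, with accumulator -/
def vmL : List (List ℤ) → List ℤ → List ℤ → List ℤ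
  | row :: A, x :: v, acc => vmL A v (List.zipWith (fun a r => a + x * r) acc row)
  | _, _, acc => acc

/-- transposed matrix times vector -/
def tv (k : ℕ) (A : List (List ℤ)) (v : List ℤ) : List ℤ := vmL A v (List.replicate k 0)

/-- the vector of a list -/
def toV (k : ℕ) (v : List ℤ) : Fin k → ℤ := fun j => v.getD j 0

/-- the matrix of a list -/
def toM (k : ℕ) (A : List (List ℤ)) : Matrix (Fin k) (Fin k) ℤ :=
  fun i j => (A.getD i []).getD j 0

/-- well formed -/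
def wfL (k : ℕ) (A : List (List ℤ)) : Prop := A.length = k ∧ ∀ r ∈ A, r.length = k

instance (k : ℕ) (A : List (List ℤ)) : Decidable (wfL k A) := by
  unfold wfL
  infer_instance

theorem dotLM_spec : ∀ (k : ℕ) (r v : List ℤ), r.length = k → v.length = k →
    dotLM r v = ∑ j : Fin k, r.getD j 0 * v.getD j 0 := by
  intro k
  induction k with
  | zero =>
    intro r v hr hv
    rw [List.length_eq_zero_iff] at hr hv
    subst hr hv
    simp [dotLM]
  | succ k ih =>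
    intro r v hr hv
    obtain ⟨a, r, rfl⟩ := List.exists_cons_of_length_eq_add_one hr
    obtain ⟨b, v, rfl⟩ := List.exists_cons_of_length_eq_add_one hv
    rw [dotLM, Fin.sum_univ_succ, ih r v (by simpa using hr) (by simpa using hv)]
    simp

theorem mv_spec {k : ℕ} {A : List (List ℤ)} {v : List ℤ} (hA : wfL k A) (hv : v.length = k) :
    (mv A v).length = k ∧ toV k (mv A v) = toM k A *ᵥ toV k v := by
  refine ⟨by simp [mv, hA.1], ?_⟩
  funext i
  have hi : (i : ℕ) < A.length := by rw [hA.1]; exact i.2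
  have h1 : toV k (mv A v) i = dotLM (A.getD i []) v := by
    simp [toV, mv, List.getD_eq_getElem?_getD, hi]
  have h2 : (A.getD i []).length = k := by
    rw [List.getD_eq_getElem _ _ hi]
    exact hA.2 _ (List.getElem_mem hi)
  rw [h1, dotLM_spec k _ _ h2 hv]
  rfl

theorem zip_spec {k : ℕ} (f : ℤ → ℤ → ℤ) {v w : List ℤ} (hv : v.length = k)
    (hw : w.length = k) (j : Fin k) :
    (List.zipWith f v w).getD j 0 = f (v.getD j 0) (w.getD j 0) := by
  have h1 : (j : ℕ) < v.length := by rw [hv]; exact j.2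
  have h2 : (j : ℕ) < w.length := by rw [hw]; exact j.2
  have h3 : (j : ℕ) < (List.zipWith f v w).length := by
    rw [List.length_zipWith]
    exact lt_min h1 h2
  rw [List.getD_eq_getElem _ _ h1, List.getD_eq_getElem _ _ h2, List.getD_eq_getElem _ _ h3,
    List.getElem_zipWith]

theorem addv_spec {k : ℕ} {v w : List ℤ} (hv : v.length = k) (hw : w.length = k) :
    (addv v w).length = k ∧ toV k (addv v w) = toV k v + toV k w :=
  ⟨by simp [addv, hv, hw], funext fun j => zip_spec _ hv hw j⟩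

theorem subv_spec {k : ℕ} {v w : List ℤ} (hv : v.length = k) (hw : w.length = k) :
    (subv v w).length = k ∧ toV k (subv v w) = toV k v - toV k w :=
  ⟨by simp [subv, hv, hw], funext fun j => zip_spec _ hv hw j⟩

theorem smulv_spec {k : ℕ} {v : List ℤ} (c : ℤ) (hv : v.length = k) :
    (smulv c v).length = k ∧ toV k (smulv c v) = c • toV k v := by
  refine ⟨by simp [smulv, hv], funext fun j => ?_⟩
  have h1 : (j : ℕ) < v.length := by rw [hv]; exact j.2
  simp [toV, smulv, List.getD_eq_getElem?_getD, h1]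

theorem vmL_spec (k : ℕ) : ∀ (m : ℕ) (A : List (List ℤ)) (v acc : List ℤ),
    A.length = m → (∀ r ∈ A, r.length = k) → v.length = m → acc.length = k →
    (vmL A v acc).length = k ∧ ∀ j : Fin k, (vmL A v acc).getD j 0 =
      acc.getD j 0 + ∑ i : Fin m, (A.getD i []).getD j 0 * v.getD i 0 := by
  intro m
  induction m with
  | zero =>
    intro A v acc hA _ hv hacc
    rw [List.length_eq_zero_iff] at hA hv
    subst hA hv
    exact ⟨by simpa [vmL] using hacc, fun j => by simp [vmL]⟩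
  | succ m ih =>
    intro A v acc hA hr hv hacc
    obtain ⟨row, A, rfl⟩ := List.exists_cons_of_length_eq_add_one hA
    obtain ⟨x, v, rfl⟩ := List.exists_cons_of_length_eq_add_one hv
    have hrow : row.length = k := hr row (by simp)
    have hacc' : (List.zipWith (fun a r => a + x * r) acc row).length = k := by
      simp [hacc, hrow]
    obtain ⟨h1, h2⟩ := ih A v _ (by simpa using hA) (fun r h => hr r (by simp [h]))
      (by simpa using hv) hacc'
    rw [vmL]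
    refine ⟨h1, fun j => ?_⟩
    rw [h2, zip_spec (fun a r => a + x * r) hacc hrow, Fin.sum_univ_succ]
    simp only [Fin.val_zero, List.getD_cons_zero, Fin.val_succ, List.getD_cons_succ]
    ring

theorem tv_spec {k : ℕ} {A : List (List ℤ)} {v : List ℤ} (hA : wfL k A) (hv : v.length = k) :
    (tv k A v).length = k ∧ toV k (tv k A v) = (toM k A)ᵀ *ᵥ toV k v := by
  obtain ⟨h1, h2⟩ := vmL_spec k k A v (List.replicate k 0) hA.1 hA.2 hv (by simp)
  refine ⟨h1, funext fun j => ?_⟩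
  rw [toV, tv, h2]
  simp [mulVec, dotProduct, toM, toV]

/-! ### compound expressions -/

/-- (P Qᵀ + Q Pᵀ) v -/
def wpL (k : ℕ) (P Q : List (List ℤ)) (v : List ℤ) : List ℤ :=
  addv (mv P (tv k Q v)) (mv Q (tv k P v))

/-- (P Qᵀ - Q Pᵀ) v -/
def wmL (k : ℕ) (P Q : List (List ℤ)) (v : List ℤ) : List ℤ :=
  subv (mv P (tv k Q v)) (mv Q (tv k P v))

theorem wpL_spec {k : ℕ} {P Q : List (List ℤ)} {v : List ℤ} (hP : wfL k P) (hQ : wfL k Q)
    (hv : v.length = k) : (wpL k P Q v).length = k ∧ toV k (wpL k P Q v) =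
      (toM k P * (toM k Q)ᵀ + toM k Q * (toM k P)ᵀ) *ᵥ toV k v := by
  obtain ⟨a1, a2⟩ := tv_spec hQ hv
  obtain ⟨b1, b2⟩ := tv_spec hP hv
  obtain ⟨c1, c2⟩ := mv_spec hP a1
  obtain ⟨d1, d2⟩ := mv_spec hQ b1
  obtain ⟨e1, e2⟩ := addv_spec c1 d1
  refine ⟨e1, ?_⟩
  rw [wpL, e2, c2, d2, a2, b2, add_mulVec, mulVec_mulVec, mulVec_mulVec]

theorem wmL_spec {k : ℕ} {P Q : List (List ℤ)} {v : List ℤ} (hP : wfL k P) (hQ : wfL k Q)
    (hv : v.length = k) : (wmL k P Q v).length = k ∧ toV k (wmL k P Q v) =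
      (toM k P * (toM k Q)ᵀ - toM k Q * (toM k P)ᵀ) *ᵥ toV k v := by
  obtain ⟨a1, a2⟩ := tv_spec hQ hv
  obtain ⟨b1, b2⟩ := tv_spec hP hv
  obtain ⟨c1, c2⟩ := mv_spec hP a1
  obtain ⟨d1, d2⟩ := mv_spec hQ b1
  obtain ⟨e1, e2⟩ := subv_spec c1 d1
  refine ⟨e1, ?_⟩
  rw [wmL, e2, c2, d2, a2, b2, sub_mulVec, mulVec_mulVec, mulVec_mulVec]

/-- the energy operator applied to a vector -/
def kvL (k : ℕ) (bx by' bz : List (List ℤ)) (v : List ℤ) : List ℤ :=
  subv (addv (addv (mv by' (wpL k by' bz (tv k bz v))) (mv bz (wpL k by' bz (tv k by' v))))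
    (addv (mv bx (wpL k bx by' (tv k by' v))) (mv by' (wpL k bx by' (tv k bx v)))))
    (subv (mv bz (wmL k bz bx (tv k bx v))) (mv bx (wmL k bz bx (tv k bz v))))

theorem kvL_spec {k : ℕ} {bx by' bz : List (List ℤ)} {v : List ℤ} (hx : wfL k bx)
    (hy : wfL k by') (hz : wfL k bz) (hv : v.length = k) :
    (kvL k bx by' bz v).length = k ∧ toV k (kvL k bx by' bz v) =
      Kc (toM k bx) (toM k by') (toM k bz) *ᵥ toV k v := by
  obtain ⟨x1, x2⟩ := tv_spec hx hv
  obtain ⟨y1, y2⟩ := tv_spec hy hv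
  obtain ⟨z1, z2⟩ := tv_spec hz hv
  obtain ⟨a1, a2⟩ := wpL_spec hy hz z1
  obtain ⟨b1, b2⟩ := wpL_spec hy hz y1
  obtain ⟨c1, c2⟩ := wpL_spec hx hy y1
  obtain ⟨d1, d2⟩ := wpL_spec hx hy x1
  obtain ⟨e1, e2⟩ := wmL_spec hz hx x1
  obtain ⟨f1, f2⟩ := wmL_spec hz hx z1
  obtain ⟨g1, g2⟩ := mv_spec hy a1
  obtain ⟨h1, h2⟩ := mv_spec hz b1
  obtain ⟨i1, i2⟩ := mv_spec hx c1
  obtain ⟨j1, j2⟩ := mv_spec hy d1
  obtain ⟨k1, k2⟩ := mv_spec hz e1
  obtain ⟨l1, l2⟩ := mv_spec hx f1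
  obtain ⟨m1, m2⟩ := addv_spec g1 h1
  obtain ⟨n1, n2⟩ := addv_spec i1 j1
  obtain ⟨o1, o2⟩ := subv_spec k1 l1
  obtain ⟨p1, p2⟩ := addv_spec m1 n1
  obtain ⟨q1, q2⟩ := subv_spec p1 o1
  refine ⟨q1, ?_⟩
  rw [kvL, q2, p2, o2, n2, m2, l2, k2, j2, i2, h2, g2, f2, e2, d2, c2, b2, a2, x2, y2, z2, Kc]
  simp only [sub_mulVec, add_mulVec, mulVec_mulVec, Matrix.mul_assoc]

/-- sum of `B Y Bᵀ v` -/
def exL (k : ℕ) (bx by' bz xx : List (List ℤ)) (v : List ℤ) : List ℤ :=
  addv (addv (mv bx (mv xx (tv k bx v))) (mv by' (mv xx (tv k by' v))))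
    (mv bz (mv xx (tv k bz v)))

theorem exL_spec {k : ℕ} {bx by' bz xx : List (List ℤ)} {v : List ℤ} (hx : wfL k bx)
    (hy : wfL k by') (hz : wfL k bz) (hxx : wfL k xx) (hv : v.length = k) :
    (exL k bx by' bz xx v).length = k ∧ toV k (exL k bx by' bz xx v) =
      (toM k bx * toM k xx * (toM k bx)ᵀ + toM k by' * toM k xx * (toM k by')ᵀ +
        toM k bz * toM k xx * (toM k bz)ᵀ) *ᵥ toV k v := by
  obtain ⟨x1, x2⟩ := tv_spec hx hv
  obtain ⟨y1, y2⟩ := tv_spec hy hv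
  obtain ⟨z1, z2⟩ := tv_spec hz hv
  obtain ⟨a1, a2⟩ := mv_spec hxx x1
  obtain ⟨b1, b2⟩ := mv_spec hxx y1
  obtain ⟨c1, c2⟩ := mv_spec hxx z1
  obtain ⟨d1, d2⟩ := mv_spec hx a1
  obtain ⟨e1, e2⟩ := mv_spec hy b1
  obtain ⟨f1, f2⟩ := mv_spec hz c1
  obtain ⟨g1, g2⟩ := addv_spec d1 e1
  obtain ⟨h1, h2⟩ := addv_spec g1 f1
  refine ⟨h1, ?_⟩
  rw [exL, h2, g2, f2, e2, d2, c2, b2, a2, x2, y2, z2]
  simp only [add_mulVec, mulVec_mulVec, Matrix.mul_assoc]

/-- sum of `B Bᵀ v` -/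
def grL (k : ℕ) (bx by' bz : List (List ℤ)) (v : List ℤ) : List ℤ :=
  addv (addv (mv bx (tv k bx v)) (mv by' (tv k by' v))) (mv bz (tv k bz v))

theorem grL_spec {k : ℕ} {bx by' bz : List (List ℤ)} {v : List ℤ} (hx : wfL k bx)
    (hy : wfL k by') (hz : wfL k bz) (hv : v.length = k) :
    (grL k bx by' bz v).length = k ∧ toV k (grL k bx by' bz v) =
      (toM k bx * (toM k bx)ᵀ + toM k by' * (toM k by')ᵀ +
        toM k bz * (toM k bz)ᵀ) *ᵥ toV k v := by
  obtain ⟨x1, x2⟩ := tv_spec hx hv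
  obtain ⟨y1, y2⟩ := tv_spec hy hv
  obtain ⟨z1, z2⟩ := tv_spec hz hv
  obtain ⟨d1, d2⟩ := mv_spec hx x1
  obtain ⟨e1, e2⟩ := mv_spec hy y1
  obtain ⟨f1, f2⟩ := mv_spec hz z1
  obtain ⟨g1, g2⟩ := addv_spec d1 e1
  obtain ⟨h1, h2⟩ := addv_spec g1 f1
  refine ⟨h1, ?_⟩
  rw [grL, h2, g2, f2, e2, d2, x2, y2, z2]
  simp only [add_mulVec, mulVec_mulVec]

/-! ### digits -/

theorem digits_zero (q : ℤ) (hq : 0 < q) : ∀ (k : ℕ) (y : Fin k → ℤ), (∀ j, |y j| < q) →
    ∑ j, y j * q ^ (j : ℕ) = 0 → ∀ j, y j = 0 := by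
  intro k
  induction k with
  | zero => intro y _ _ j; exact j.elim0
  | succ k ih =>
    intro y hy hs
    rw [Fin.sum_univ_succ] at hs
    have h1 : ∑ i : Fin k, y i.succ * q ^ ((i.succ : Fin (k + 1)) : ℕ) =
        q * ∑ i : Fin k, y i.succ * q ^ (i : ℕ) := by
      rw [Finset.mul_sum]
      refine Finset.sum_congr rfl fun i _ => ?_
      rw [Fin.val_succ, pow_succ]
      ring
    rw [h1, Fin.val_zero, pow_zero, mul_one] at hs
    have h2 : q ∣ y 0 := ⟨-∑ i : Fin k, y i.succ * q ^ (i : ℕ), by linarith⟩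
    have h3 : y 0 = 0 := Int.eq_zero_of_abs_lt_dvd h2 (hy 0)
    rw [h3, zero_add] at hs
    have h4 : ∑ i : Fin k, y i.succ * q ^ (i : ℕ) = 0 := by
      rcases mul_eq_zero.mp hs with h | h
      · exact absurd h hq.ne'
      · exact h
    have h5 := ih (fun i => y i.succ) (fun i => hy i.succ) h4
    intro j
    refine Fin.cases h3 (fun i => ?_) j
    exact h5 i

/-- the test vector -/
def xiL (k w : ℕ) : List ℤ := (List.range k).map (fun j => ((2 : ℤ) ^ w) ^ j)

theorem xiL_len (k w : ℕ) : (xiL k w).length = k := by simp [xiL]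

theorem xiL_spec (k w : ℕ) (j : Fin k) : toV k (xiL k w) j = ((2 : ℤ) ^ w) ^ (j : ℕ) := by
  have h1 : (j : ℕ) < (List.range k).length := by rw [List.length_range]; exact j.2
  simp [toV, xiL, List.getD_eq_getElem?_getD]

theorem eq_of_xi {k w : ℕ} (Y Z : Matrix (Fin k) (Fin k) ℤ)
    (hb : ∀ i j, |Y i j - Z i j| < 2 ^ w)
    (h : Y *ᵥ toV k (xiL k w) = Z *ᵥ toV k (xiL k w)) : Y = Z := by
  ext i j
  have h1 : ∑ j : Fin k, (Y i j - Z i j) * ((2 : ℤ) ^ w) ^ (j : ℕ) = 0 := by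
    have h2 := congrFun h i
    simp only [mulVec, dotProduct, xiL_spec] at h2
    simp only [sub_mul, Finset.sum_sub_distrib]
    rw [h2, sub_self]
  have h3 := digits_zero ((2 : ℤ) ^ w) (by positivity) k (fun j => Y i j - Z i j) (hb i) h1 j
  exact sub_eq_zero.mp h3

/-! ### bounds -/

/-- entry bound -/
def Bd {k : ℕ} (Y : Matrix (Fin k) (Fin k) ℤ) (c : ℤ) : Prop := ∀ i j, |Y i j| ≤ c

theorem Bd.add {k : ℕ} {Y Z : Matrix (Fin k) (Fin k) ℤ} {a b : ℤ} (hY : Bd Y a) (hZ : Bd Z b) :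
    Bd (Y + Z) (a + b) := fun i j => (abs_add_le _ _).trans (add_le_add (hY i j) (hZ i j))

theorem Bd.sub {k : ℕ} {Y Z : Matrix (Fin k) (Fin k) ℤ} {a b : ℤ} (hY : Bd Y a) (hZ : Bd Z b) :
    Bd (Y - Z) (a + b) := fun i j => (abs_sub _ _).trans (add_le_add (hY i j) (hZ i j))

theorem Bd.smul {k : ℕ} {Y : Matrix (Fin k) (Fin k) ℤ} {a : ℤ} (c : ℤ) (hY : Bd Y a) :
    Bd (c • Y) (|c| * a) := fun i j => by
  rw [Matrix.smul_apply, smul_eq_mul, abs_mul]
  exact mul_le_mul_of_nonneg_left (hY i j) (abs_nonneg c)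

theorem Bd.tr {k : ℕ} {Y : Matrix (Fin k) (Fin k) ℤ} {a : ℤ} (hY : Bd Y a) : Bd Yᵀ a :=
  fun i j => hY j i

theorem Bd.mul {k : ℕ} {Y Z : Matrix (Fin k) (Fin k) ℤ} {a b : ℤ} (hY : Bd Y a) (hZ : Bd Z b) :
    Bd (Y * Z) (k * (a * b)) := fun i j => by
  rw [Matrix.mul_apply]
  refine (Finset.abs_sum_le_sum_abs _ _).trans ?_
  have h1 : ∀ l ∈ (Finset.univ : Finset (Fin k)), |Y i l * Z l j| ≤ a * b := fun l _ => by
    rw [abs_mul]
    exact mul_le_mul (hY i l) (hZ l j) (abs_nonneg _) ((abs_nonneg _).trans (hY i l))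
  refine (Finset.sum_le_card_nsmul _ _ _ h1).trans (le_of_eq ?_)
  simp

theorem Bd.one {k : ℕ} : Bd (1 : Matrix (Fin k) (Fin k) ℤ) 1 := fun i j => by
  rw [Matrix.one_apply]
  split_ifs <;> simp

/-! ### positivity -/

theorem psd_of_dom {k : ℕ} (Y : Matrix (Fin k) (Fin k) ℤ) (hs : ∀ i j, Y i j = Y j i)
    (hd : ∀ i, ∑ j, |Y i j| ≤ 2 * Y i i) :
    (Y.map (Int.cast : ℤ → ℝ)).PosSemidef := by
  refine PosSemidef.of_dotProduct_mulVec_nonneg ?_ fun x => ?_
  · rw [IsHermitian, conjTranspose_eq_transpose_of_trivial]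
    ext i j
    simp [hs i j]
  · have h1 : star x ⬝ᵥ ((Y.map (Int.cast : ℤ → ℝ)) *ᵥ x) =
        ∑ i, ∑ j, x i * ((Y i j : ℝ) * x j) := by
      simp only [star_trivial, dotProduct, mulVec, Matrix.map_apply, Finset.mul_sum]
    rw [h1]
    have hd' : ∀ i, ∑ j, |(Y i j : ℝ)| ≤ 2 * (Y i i : ℝ) := by
      intro i
      have := hd i
      have h2 : ((∑ j, |Y i j| : ℤ) : ℝ) ≤ ((2 * Y i i : ℤ) : ℝ) := by exact_mod_cast this
      push_cast at h2
      exact h2
    have hpos : ∀ i j, 0 ≤ x i * ((Y i j : ℝ) * x j) +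
        |(Y i j : ℝ)| * ((x i * x i + x j * x j) / 2) := by
      intro i j
      have h3 : |x i * ((Y i j : ℝ) * x j)| ≤
          |(Y i j : ℝ)| * ((x i * x i + x j * x j) / 2) := by
        have e : |x i * ((Y i j : ℝ) * x j)| = |(Y i j : ℝ)| * (|x i| * |x j|) := by
          rw [abs_mul, abs_mul]; ring
        rw [e]
        refine mul_le_mul_of_nonneg_left ?_ (abs_nonneg _)
        have h6 : 0 ≤ (|x i| - |x j|) ^ 2 := sq_nonneg _
        have h7 : |x i| ^ 2 = x i ^ 2 := sq_abs _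
        have h8 : |x j| ^ 2 = x j ^ 2 := sq_abs _
        nlinarith
      have := neg_abs_le (x i * ((Y i j : ℝ) * x j))
      linarith
    have hnn : ∀ i, 0 ≤ (Y i i : ℝ) := by
      intro i
      have h4 : 0 ≤ ∑ j, |(Y i j : ℝ)| := Finset.sum_nonneg fun j _ => abs_nonneg _
      have := hd' i
      linarith
    have hdiag : ∀ i, 2 * (Y i i : ℝ) * (x i * x i) ≤ ∑ j, (x i * ((Y i j : ℝ) * x j) +
        |(Y i j : ℝ)| * ((x i * x i + x j * x j) / 2)) := by
      intro i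
      refine le_trans (le_of_eq ?_) (Finset.single_le_sum (fun j _ => hpos i j)
        (Finset.mem_univ i))
      rw [abs_of_nonneg (hnn i)]
      ring
    have hsum := Finset.sum_le_sum fun i (_ : i ∈ (Finset.univ : Finset (Fin k))) => hdiag i
    simp only [Finset.sum_add_distrib] at hsum
    have hsw : ∑ i, ∑ j, |(Y i j : ℝ)| * ((x i * x i + x j * x j) / 2) =
        ∑ i, (∑ j, |(Y i j : ℝ)|) * (x i * x i) := by
      have h5 : ∑ i, ∑ j, |(Y i j : ℝ)| * ((x i * x i + x j * x j) / 2) =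
          (∑ i, ∑ j, |(Y i j : ℝ)| * (x i * x i)) / 2 +
          (∑ i, ∑ j, |(Y i j : ℝ)| * (x j * x j)) / 2 := by
        rw [← add_div, ← Finset.sum_add_distrib, Finset.sum_div]
        refine Finset.sum_congr rfl fun i _ => ?_
        rw [← Finset.sum_add_distrib, Finset.sum_div]
        refine Finset.sum_congr rfl fun j _ => ?_
        ring
      have h6 : ∑ i, ∑ j, |(Y i j : ℝ)| * (x j * x j) =
          ∑ i, ∑ j, |(Y i j : ℝ)| * (x i * x i) := by
        rw [Finset.sum_comm]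
        refine Finset.sum_congr rfl fun i _ => Finset.sum_congr rfl fun j _ => ?_
        rw [hs j i]
      rw [h5, h6, add_halves]
      refine Finset.sum_congr rfl fun i _ => ?_
      rw [Finset.sum_mul]
    rw [hsw] at hsum
    have hfin : ∑ i, (∑ j, |(Y i j : ℝ)|) * (x i * x i) ≤ ∑ i, 2 * (Y i i : ℝ) * (x i * x i) :=
      Finset.sum_le_sum fun i _ => mul_le_mul_of_nonneg_right (hd' i) (mul_self_nonneg (x i))
    linarith

end P348
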