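import Vale.Agent.Lib.P348.M1E

/-!
P348, variational upper bound, part G: from integer matrices to the variational bound.
-/

namespace P348

open Matrix

/-- cast to the reals -/
def cR {k : ℕ} (Y : Matrix (Fin k) (Fin k) ℤ) : Matrix (Fin k) (Fin k) ℝ :=
  Y.map (Int.castRingHom ℝ)

theorem cR_apply {k : ℕ} (Y : Matrix (Fin k) (Fin k) ℤ) (i j : Fin k) :
    cR Y i j = (Y i j : ℝ) := rfl

theorem cR_add {k : ℕ} (Y Z : Matrix (Fin k) (Fin k) ℤ) : cR (Y + Z) = cR Y + cR Z := by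
  ext i j
  simp [cR_apply]

theorem cR_sub {k : ℕ} (Y Z : Matrix (Fin k) (Fin k) ℤ) : cR (Y - Z) = cR Y - cR Z := by
  ext i j
  simp [cR_apply]

theorem cR_tr {k : ℕ} (Y : Matrix (Fin k) (Fin k) ℤ) : cR Yᵀ = (cR Y)ᵀ := rfl

theorem cR_mul {k : ℕ} (Y Z : Matrix (Fin k) (Fin k) ℤ) : cR (Y * Z) = cR Y * cR Z := by
  ext i j
  simp [cR_apply, Matrix.mul_apply]

theorem cR_smul {k : ℕ} (c : ℤ) (Y : Matrix (Fin k) (Fin k) ℤ) :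
    cR (c • Y) = (c : ℝ) • cR Y := by
  ext i j
  rw [cR_apply, Matrix.smul_apply, Matrix.smul_apply, cR_apply, smul_eq_mul, smul_eq_mul,
    Int.cast_mul]

theorem cR_one {k : ℕ} : cR (1 : Matrix (Fin k) (Fin k) ℤ) = 1 := by
  ext i j
  rw [cR_apply, Matrix.one_apply, Matrix.one_apply]
  split_ifs <;> simp

theorem cR_Kc {k : ℕ} (A B C : Matrix (Fin k) (Fin k) ℤ) :
    cR (Kc A B C) = Kc (cR A) (cR B) (cR C) := by
  simp only [Kc, cR_add, cR_sub, cR_mul, cR_tr]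

theorem Kc_smul {k : ℕ} (c : ℝ) (A B C : Matrix (Fin k) (Fin k) ℝ) :
    Kc (c • A) (c • B) (c • C) = (c ^ 4) • Kc A B C := by
  simp only [Kc, transpose_smul, Matrix.smul_mul, Matrix.mul_smul, smul_smul, ← smul_add,
    ← smul_sub]
  congr 1
  ring

theorem cert_int {k : ℕ} (bx by' bz xx ss dd : Matrix (Fin k) (Fin k) ℤ) (b : Fin k)
    (N0 M0 f en ed : ℤ) (hN0 : 0 < N0) (hM0 : 0 < M0) (hed : 0 < ed) (hf : N0 ^ 2 = f * M0)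
    (hD : dd = (N0 ^ 2) • 1 - (bx * bxᵀ + by' * by'ᵀ + bz * bzᵀ))
    (hS : ss = (-(en * N0 ^ 4)) • 1 + (ed * f * N0 ^ 2) • xx -
      (ed * f) • ((bx * xx * bxᵀ + by' * xx * by'ᵀ + bz * xx * bzᵀ) + (xx b b) • dd) -
      ed • Kc bx by' bz)
    (hxs : ∀ i j, xx i j = xx j i)
    (hds : ∀ i j, dd i j = dd j i) (hdd : ∀ i, ∑ j, |dd i j| ≤ 2 * dd i i)
    (hss : ∀ i j, ss i j = ss j i) (hsd : ∀ i, ∑ j, |ss i j| ≤ 2 * ss i i) :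
    ∃ C : ℝ, ∀ (N : ℕ) [NeZero N], ∃ v : Cfg N → ℝ, v ≠ 0 ∧
      v ⬝ᵥ (HR N 1 *ᵥ v) ≤ ((2 * N) * (-(en / ed : ℝ)) + C) * (v ⬝ᵥ v) := by
  have n0 : (0 : ℝ) < N0 := by exact_mod_cast hN0
  have m0 : (0 : ℝ) < M0 := by exact_mod_cast hM0
  have e0 : (0 : ℝ) < ed := by exact_mod_cast hed
  have hfR : (N0 : ℝ) ^ 2 = f * M0 := by exact_mod_cast hf
  have f0 : (f : ℝ) ≠ 0 := by
    intro h
    rw [h, zero_mul] at hfR
    have : (0 : ℝ) < (N0 : ℝ) ^ 2 := by positivity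
    linarith
  have hDR : cR dd = ((N0 : ℝ) ^ 2) • (1 : Matrix (Fin k) (Fin k) ℝ) -
      (cR bx * (cR bx)ᵀ + cR by' * (cR by')ᵀ + cR bz * (cR bz)ᵀ) := by
    rw [hD]
    simp only [cR_add, cR_sub, cR_mul, cR_tr, cR_smul, cR_one]
    push_cast
    rfl
  have hdelta : (1 : Matrix (Fin k) (Fin k) ℝ) -
      (((N0 : ℝ)⁻¹ • cR bx) * ((N0 : ℝ)⁻¹ • cR bx)ᵀ +
        ((N0 : ℝ)⁻¹ • cR by') * ((N0 : ℝ)⁻¹ • cR by')ᵀ +
        ((N0 : ℝ)⁻¹ • cR bz) * ((N0 : ℝ)⁻¹ • cR bz)ᵀ) = ((N0 : ℝ)⁻¹ ^ 2) • cR dd := by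
    rw [hDR]
    simp only [transpose_smul, Matrix.smul_mul, Matrix.mul_smul, smul_smul, ← smul_add,
      smul_sub]
    rw [show (N0 : ℝ)⁻¹ ^ 2 * (N0 : ℝ) ^ 2 = 1 by field_simp, one_smul,
      show (N0 : ℝ)⁻¹ ^ 2 = (N0 : ℝ)⁻¹ * (N0 : ℝ)⁻¹ by ring]
  refine cert_upper ((N0 : ℝ)⁻¹ • cR bx) ((N0 : ℝ)⁻¹ • cR by') ((N0 : ℝ)⁻¹ • cR bz)
    ((M0 : ℝ)⁻¹ • cR xx) b (e := -(en / ed : ℝ)) ?_ ?_ ?_
  · rw [transpose_smul, ← cR_tr]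
    congr 2
    ext i j
    exact hxs j i
  · rw [hdelta]
    exact (psd_of_dom dd hds hdd).smul (by positivity)
  · rw [hdelta, Kc_smul]
    have hSR : cR ss = (-((en : ℝ) * (N0 : ℝ) ^ 4)) • (1 : Matrix (Fin k) (Fin k) ℝ) +
        ((ed : ℝ) * f * (N0 : ℝ) ^ 2) • cR xx -
        ((ed : ℝ) * f) • ((cR bx * cR xx * (cR bx)ᵀ + cR by' * cR xx * (cR by')ᵀ +
          cR bz * cR xx * (cR bz)ᵀ) + (xx b b : ℝ) • cR dd) -
        (ed : ℝ) • Kc (cR bx) (cR by') (cR bz) := by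
      rw [hS]
      simp only [cR_add, cR_sub, cR_mul, cR_tr, cR_smul, cR_one, cR_Kc]
      push_cast
      rfl
    have hfin : (-(en / ed : ℝ)) • (1 : Matrix (Fin k) (Fin k) ℝ) + (M0 : ℝ)⁻¹ • cR xx -
        (((N0 : ℝ)⁻¹ • cR bx) * ((M0 : ℝ)⁻¹ • cR xx) * ((N0 : ℝ)⁻¹ • cR bx)ᵀ +
          ((N0 : ℝ)⁻¹ • cR by') * ((M0 : ℝ)⁻¹ • cR xx) * ((N0 : ℝ)⁻¹ • cR by')ᵀ +
          ((N0 : ℝ)⁻¹ • cR bz) * ((M0 : ℝ)⁻¹ • cR xx) * ((N0 : ℝ)⁻¹ • cR bz)ᵀ +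
          (((M0 : ℝ)⁻¹ • cR xx) b b) • ((N0 : ℝ)⁻¹ ^ 2) • cR dd) -
        ((N0 : ℝ)⁻¹ ^ 4) • Kc (cR bx) (cR by') (cR bz) =
        ((ed : ℝ) * (N0 : ℝ) ^ 4)⁻¹ • cR ss := by
      have hf' : (f : ℝ) = (N0 : ℝ) ^ 2 / M0 := by
        rw [hfR]
        field_simp
      rw [hSR, hf']
      simp only [transpose_smul, Matrix.smul_mul, Matrix.mul_smul, smul_smul]
      ext i j
      simp only [Matrix.sub_apply, Matrix.add_apply, Matrix.smul_apply, smul_eq_mul]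
      rw [cR_apply xx b b]
      generalize (1 : Matrix (Fin k) (Fin k) ℝ) i j = o
      generalize (cR bx * cR xx * (cR bx)ᵀ) i j = a1
      generalize (cR by' * cR xx * (cR by')ᵀ) i j = a2
      generalize (cR bz * cR xx * (cR bz)ᵀ) i j = a3
      generalize (Kc (cR bx) (cR by') (cR bz)) i j = a4
      generalize cR xx i j = a5
      generalize cR dd i j = a6
      field_simp
    rw [hfin]
    exact (psd_of_dom ss hss hsd).smul (by positivity)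

end P348
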