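import Vale.Agent.Lib.P348.PChan3
import Vale.Agent.Lib.P348.PExp3

/-!
# P348 module PVal3: numerical values of the twisted partition functions, ring of length 6

Each bound is `|ZZ 3 W R β * exp (-(2 * 3 * β * f0)) - Q / 10^9| ≤ 10^(-6)`.
-/

namespace P348

theorem val3_1_1_4 (hC : Chan 3 1 1 (-23) 20 152 67 tl3_1_1) :
    |ZZ 3 1 1 (4) * Real.exp (-(2 * 3 * (4) * f0)) - 2693038012 / 10 ^ 9| ≤ 1 / 1000000 := by
  have h := zz_bound 3 1 1 (-23) 20 152 (by norm_num) 67 37 (by norm_num) tl3_1_1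
    dl3_4 100000000000000000000 (by norm_num) (4) _ _ hC exp3_4 2693038012 (by decide +kernel) (1 / 1000000)
    (by norm_num)
  simpa using h

theorem val3_1_1_5 (hC : Chan 3 1 1 (-23) 20 152 67 tl3_1_1) :
    |ZZ 3 1 1 (5) * Real.exp (-(2 * 3 * (5) * f0)) - 3069143114 / 10 ^ 9| ≤ 1 / 1000000 := by
  have h := zz_bound 3 1 1 (-23) 20 152 (by norm_num) 67 41 (by norm_num) tl3_1_1
    dl3_5 100000000000000000000 (by norm_num) (5) _ _ hC exp3_5 3069143114 (by decide +kernel) (1 / 1000000)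
    (by norm_num)
  simpa using h

theorem val3_1_1_6q (hC : Chan 3 1 1 (-23) 20 152 67 tl3_1_1) :
    |ZZ 3 1 1 (25 / 4) * Real.exp (-(2 * 3 * (25 / 4) * f0)) - 3804029562 / 10 ^ 9| ≤ 1 / 1000000 := by
  have h := zz_bound 3 1 1 (-23) 20 152 (by norm_num) 67 46 (by norm_num) tl3_1_1
    dl3_6q 100000000000000000000 (by norm_num) (25 / 4) _ _ hC exp3_6q 3804029562 (by decide +kernel) (1 / 1000000)
    (by norm_num)
  simpa using h

theorem val3_1_1_8 (hC : Chan 3 1 1 (-23) 20 152 67 tl3_1_1) :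
    |ZZ 3 1 1 (8) * Real.exp (-(2 * 3 * (8) * f0)) - 5353270540 / 10 ^ 9| ≤ 1 / 1000000 := by
  have h := zz_bound 3 1 1 (-23) 20 152 (by norm_num) 67 53 (by norm_num) tl3_1_1
    dl3_8 100000000000000000000 (by norm_num) (8) _ _ hC exp3_8 5353270540 (by decide +kernel) (1 / 1000000)
    (by norm_num)
  simpa using h

theorem val3_1_1_10 (hC : Chan 3 1 1 (-23) 20 152 67 tl3_1_1) :
    |ZZ 3 1 1 (10) * Real.exp (-(2 * 3 * (10) * f0)) - 8065979067 / 10 ^ 9| ≤ 1 / 1000000 := by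
  have h := zz_bound 3 1 1 (-23) 20 152 (by norm_num) 67 59 (by norm_num) tl3_1_1
    dl3_10 100000000000000000000 (by norm_num) (10) _ _ hC exp3_10 8065979067 (by decide +kernel) (1 / 1000000)
    (by norm_num)
  simpa using h

theorem val3_1_1_12h (hC : Chan 3 1 1 (-23) 20 152 67 tl3_1_1) :
    |ZZ 3 1 1 (25 / 2) * Real.exp (-(2 * 3 * (25 / 2) * f0)) - 13560444216 / 10 ^ 9| ≤ 1 / 1000000 := by
  have h := zz_bound 3 1 1 (-23) 20 152 (by norm_num) 67 67 (by norm_num) tl3_1_1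
    dl3_12h 100000000000000000000 (by norm_num) (25 / 2) _ _ hC exp3_12h 13560444216 (by decide +kernel) (1 / 1000000)
    (by norm_num)
  simpa using h

theorem val3_1_rz_4 (hC : Chan 3 rz 1 (-23) 20 152 67 tl3_1_rz) :
    |ZZ 3 rz 1 (4) * Real.exp (-(2 * 3 * (4) * f0)) - 2173985568 / 10 ^ 9| ≤ 1 / 1000000 := by
  have h := zz_bound 3 rz 1 (-23) 20 152 (by norm_num) 67 37 (by norm_num) tl3_1_rz
    dl3_4 100000000000000000000 (by norm_num) (4) _ _ hC exp3_4 2173985568 (by decide +kernel) (1 / 1000000)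
    (by norm_num)
  simpa using h

theorem val3_1_rz_5 (hC : Chan 3 rz 1 (-23) 20 152 67 tl3_1_rz) :
    |ZZ 3 rz 1 (5) * Real.exp (-(2 * 3 * (5) * f0)) - 2759659115 / 10 ^ 9| ≤ 1 / 1000000 := by
  have h := zz_bound 3 rz 1 (-23) 20 152 (by norm_num) 67 41 (by norm_num) tl3_1_rz
    dl3_5 100000000000000000000 (by norm_num) (5) _ _ hC exp3_5 2759659115 (by decide +kernel) (1 / 1000000)
    (by norm_num)
  simpa using h

theorem val3_1_rz_6q (hC : Chan 3 rz 1 (-23) 20 152 67 tl3_1_rz) :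
    |ZZ 3 rz 1 (25 / 4) * Real.exp (-(2 * 3 * (25 / 4) * f0)) - 3641036891 / 10 ^ 9| ≤ 1 / 1000000 := by
  have h := zz_bound 3 rz 1 (-23) 20 152 (by norm_num) 67 46 (by norm_num) tl3_1_rz
    dl3_6q 100000000000000000000 (by norm_num) (25 / 4) _ _ hC exp3_6q 3641036891 (by decide +kernel) (1 / 1000000)
    (by norm_num)
  simpa using h

theorem val3_1_rz_8 (hC : Chan 3 rz 1 (-23) 20 152 67 tl3_1_rz) :
    |ZZ 3 rz 1 (8) * Real.exp (-(2 * 3 * (8) * f0)) - 5286758075 / 10 ^ 9| ≤ 1 / 1000000 := by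
  have h := zz_bound 3 rz 1 (-23) 20 152 (by norm_num) 67 53 (by norm_num) tl3_1_rz
    dl3_8 100000000000000000000 (by norm_num) (8) _ _ hC exp3_8 5286758075 (by decide +kernel) (1 / 1000000)
    (by norm_num)
  simpa using h

theorem val3_1_rz_10 (hC : Chan 3 rz 1 (-23) 20 152 67 tl3_1_rz) :
    |ZZ 3 rz 1 (10) * Real.exp (-(2 * 3 * (10) * f0)) - 8042095039 / 10 ^ 9| ≤ 1 / 1000000 := by
  have h := zz_bound 3 rz 1 (-23) 20 152 (by norm_num) 67 59 (by norm_num) tl3_1_rz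
    dl3_10 100000000000000000000 (by norm_num) (10) _ _ hC exp3_10 8042095039 (by decide +kernel) (1 / 1000000)
    (by norm_num)
  simpa using h

theorem val3_1_rz_12h (hC : Chan 3 rz 1 (-23) 20 152 67 tl3_1_rz) :
    |ZZ 3 rz 1 (25 / 2) * Real.exp (-(2 * 3 * (25 / 2) * f0)) - 13553805003 / 10 ^ 9| ≤ 1 / 1000000 := by
  have h := zz_bound 3 rz 1 (-23) 20 152 (by norm_num) 67 67 (by norm_num) tl3_1_rz
    dl3_12h 100000000000000000000 (by norm_num) (25 / 2) _ _ hC exp3_12h 13553805003 (by decide +kernel) (1 / 1000000)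
    (by norm_num)
  simpa using h

theorem val3_rz_1_4 (hC : Chan 3 1 rz (-23) 20 152 67 tl3_rz_1) :
    |ZZ 3 1 rz (4) * Real.exp (-(2 * 3 * (4) * f0)) - 847338851 / 10 ^ 9| ≤ 1 / 1000000 := by
  have h := zz_bound 3 1 rz (-23) 20 152 (by norm_num) 67 37 (by norm_num) tl3_rz_1
    dl3_4 100000000000000000000 (by norm_num) (4) _ _ hC exp3_4 847338851 (by decide +kernel) (1 / 1000000)
    (by norm_num)
  simpa using h

theorem val3_rz_1_5 (hC : Chan 3 1 rz (-23) 20 152 67 tl3_rz_1) :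
    |ZZ 3 1 rz (5) * Real.exp (-(2 * 3 * (5) * f0)) - 702983696 / 10 ^ 9| ≤ 1 / 1000000 := by
  have h := zz_bound 3 1 rz (-23) 20 152 (by norm_num) 67 41 (by norm_num) tl3_rz_1
    dl3_5 100000000000000000000 (by norm_num) (5) _ _ hC exp3_5 702983696 (by decide +kernel) (1 / 1000000)
    (by norm_num)
  simpa using h

theorem val3_rz_1_6q (hC : Chan 3 1 rz (-23) 20 152 67 tl3_rz_1) :
    |ZZ 3 1 rz (25 / 4) * Real.exp (-(2 * 3 * (25 / 4) * f0)) - 581492135 / 10 ^ 9| ≤ 1 / 1000000 := by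
  have h := zz_bound 3 1 rz (-23) 20 152 (by norm_num) 67 46 (by norm_num) tl3_rz_1
    dl3_6q 100000000000000000000 (by norm_num) (25 / 4) _ _ hC exp3_6q 581492135 (by decide +kernel) (1 / 1000000)
    (by norm_num)
  simpa using h

theorem val3_rz_1_8 (hC : Chan 3 1 rz (-23) 20 152 67 tl3_rz_1) :
    |ZZ 3 1 rz (8) * Real.exp (-(2 * 3 * (8) * f0)) - 463110450 / 10 ^ 9| ≤ 1 / 1000000 := by
  have h := zz_bound 3 1 rz (-23) 20 152 (by norm_num) 67 53 (by norm_num) tl3_rz_1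
    dl3_8 100000000000000000000 (by norm_num) (8) _ _ hC exp3_8 463110450 (by decide +kernel) (1 / 1000000)
    (by norm_num)
  simpa using h

theorem val3_rz_1_10 (hC : Chan 3 1 rz (-23) 20 152 67 tl3_rz_1) :
    |ZZ 3 1 rz (10) * Real.exp (-(2 * 3 * (10) * f0)) - 366679128 / 10 ^ 9| ≤ 1 / 1000000 := by
  have h := zz_bound 3 1 rz (-23) 20 152 (by norm_num) 67 59 (by norm_num) tl3_rz_1
    dl3_10 100000000000000000000 (by norm_num) (10) _ _ hC exp3_10 366679128 (by decide +kernel) (1 / 1000000)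
    (by norm_num)
  simpa using h

theorem val3_rz_1_12h (hC : Chan 3 1 rz (-23) 20 152 67 tl3_rz_1) :
    |ZZ 3 1 rz (25 / 2) * Real.exp (-(2 * 3 * (25 / 2) * f0)) - 279076066 / 10 ^ 9| ≤ 1 / 1000000 := by
  have h := zz_bound 3 1 rz (-23) 20 152 (by norm_num) 67 67 (by norm_num) tl3_rz_1
    dl3_12h 100000000000000000000 (by norm_num) (25 / 2) _ _ hC exp3_12h 279076066 (by decide +kernel) (1 / 1000000)
    (by norm_num)
  simpa using h

theorem val3_rz_rz_4 (hC : Chan 3 rz rz (-23) 20 152 67 tl3_rz_rz) :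
    |ZZ 3 rz rz (4) * Real.exp (-(2 * 3 * (4) * f0)) - 793079734 / 10 ^ 9| ≤ 1 / 1000000 := by
  have h := zz_bound 3 rz rz (-23) 20 152 (by norm_num) 67 37 (by norm_num) tl3_rz_rz
    dl3_4 100000000000000000000 (by norm_num) (4) _ _ hC exp3_4 793079734 (by decide +kernel) (1 / 1000000)
    (by norm_num)
  simpa using h

theorem val3_rz_rz_5 (hC : Chan 3 rz rz (-23) 20 152 67 tl3_rz_rz) :
    |ZZ 3 rz rz (5) * Real.exp (-(2 * 3 * (5) * f0)) - 688234951 / 10 ^ 9| ≤ 1 / 1000000 := by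
  have h := zz_bound 3 rz rz (-23) 20 152 (by norm_num) 67 41 (by norm_num) tl3_rz_rz
    dl3_5 100000000000000000000 (by norm_num) (5) _ _ hC exp3_5 688234951 (by decide +kernel) (1 / 1000000)
    (by norm_num)
  simpa using h

theorem val3_rz_rz_6q (hC : Chan 3 rz rz (-23) 20 152 67 tl3_rz_rz) :
    |ZZ 3 rz rz (25 / 4) * Real.exp (-(2 * 3 * (25 / 4) * f0)) - 578529090 / 10 ^ 9| ≤ 1 / 1000000 := by
  have h := zz_bound 3 rz rz (-23) 20 152 (by norm_num) 67 46 (by norm_num) tl3_rz_rz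
    dl3_6q 100000000000000000000 (by norm_num) (25 / 4) _ _ hC exp3_6q 578529090 (by decide +kernel) (1 / 1000000)
    (by norm_num)
  simpa using h

theorem val3_rz_rz_8 (hC : Chan 3 rz rz (-23) 20 152 67 tl3_rz_rz) :
    |ZZ 3 rz rz (8) * Real.exp (-(2 * 3 * (8) * f0)) - 462791403 / 10 ^ 9| ≤ 1 / 1000000 := by
  have h := zz_bound 3 rz rz (-23) 20 152 (by norm_num) 67 53 (by norm_num) tl3_rz_rz
    dl3_8 100000000000000000000 (by norm_num) (8) _ _ hC exp3_8 462791403 (by decide +kernel) (1 / 1000000)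
    (by norm_num)
  simpa using h

theorem val3_rz_rz_10 (hC : Chan 3 rz rz (-23) 20 152 67 tl3_rz_rz) :
    |ZZ 3 rz rz (10) * Real.exp (-(2 * 3 * (10) * f0)) - 366653913 / 10 ^ 9| ≤ 1 / 1000000 := by
  have h := zz_bound 3 rz rz (-23) 20 152 (by norm_num) 67 59 (by norm_num) tl3_rz_rz
    dl3_10 100000000000000000000 (by norm_num) (10) _ _ hC exp3_10 366653913 (by decide +kernel) (1 / 1000000)
    (by norm_num)
  simpa using h

theorem val3_rz_rz_12h (hC : Chan 3 rz rz (-23) 20 152 67 tl3_rz_rz) :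
    |ZZ 3 rz rz (25 / 2) * Real.exp (-(2 * 3 * (25 / 2) * f0)) - 279075053 / 10 ^ 9| ≤ 1 / 1000000 := by
  have h := zz_bound 3 rz rz (-23) 20 152 (by norm_num) 67 67 (by norm_num) tl3_rz_rz
    dl3_12h 100000000000000000000 (by norm_num) (25 / 2) _ _ hC exp3_12h 279075053 (by decide +kernel) (1 / 1000000)
    (by norm_num)
  simpa using h

theorem val3_rz_rx_4 (hC : Chan 3 rx rz (-23) 20 152 67 tl3_rz_rx) :
    |ZZ 3 rx rz (4) * Real.exp (-(2 * 3 * (4) * f0)) - (-504932114) / 10 ^ 9| ≤ 1 / 1000000 := by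
  have h := zz_bound 3 rx rz (-23) 20 152 (by norm_num) 67 37 (by norm_num) tl3_rz_rx
    dl3_4 100000000000000000000 (by norm_num) (4) _ _ hC exp3_4 (-504932114) (by decide +kernel) (1 / 1000000)
    (by norm_num)
  simpa using h

theorem val3_rz_rx_5 (hC : Chan 3 rx rz (-23) 20 152 67 tl3_rz_rx) :
    |ZZ 3 rx rz (5) * Real.exp (-(2 * 3 * (5) * f0)) - (-499666698) / 10 ^ 9| ≤ 1 / 1000000 := by
  have h := zz_bound 3 rx rz (-23) 20 152 (by norm_num) 67 41 (by norm_num) tl3_rz_rx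
    dl3_5 100000000000000000000 (by norm_num) (5) _ _ hC exp3_5 (-499666698) (by decide +kernel) (1 / 1000000)
    (by norm_num)
  simpa using h

theorem val3_rz_rx_6q (hC : Chan 3 rx rz (-23) 20 152 67 tl3_rz_rx) :
    |ZZ 3 rx rz (25 / 4) * Real.exp (-(2 * 3 * (25 / 4) * f0)) - (-470907644) / 10 ^ 9| ≤ 1 / 1000000 := by
  have h := zz_bound 3 rx rz (-23) 20 152 (by norm_num) 67 46 (by norm_num) tl3_rz_rx
    dl3_6q 100000000000000000000 (by norm_num) (25 / 4) _ _ hC exp3_6q (-470907644) (by decide +kernel) (1 / 1000000)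
    (by norm_num)
  simpa using h

theorem val3_rz_rx_8 (hC : Chan 3 rx rz (-23) 20 152 67 tl3_rz_rx) :
    |ZZ 3 rx rz (8) * Real.exp (-(2 * 3 * (8) * f0)) - (-414695119) / 10 ^ 9| ≤ 1 / 1000000 := by
  have h := zz_bound 3 rx rz (-23) 20 152 (by norm_num) 67 53 (by norm_num) tl3_rz_rx
    dl3_8 100000000000000000000 (by norm_num) (8) _ _ hC exp3_8 (-414695119) (by decide +kernel) (1 / 1000000)
    (by norm_num)
  simpa using h

theorem val3_rz_rx_10 (hC : Chan 3 rx rz (-23) 20 152 67 tl3_rz_rx) :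
    |ZZ 3 rx rz (10) * Real.exp (-(2 * 3 * (10) * f0)) - (-347651743) / 10 ^ 9| ≤ 1 / 1000000 := by
  have h := zz_bound 3 rx rz (-23) 20 152 (by norm_num) 67 59 (by norm_num) tl3_rz_rx
    dl3_10 100000000000000000000 (by norm_num) (10) _ _ hC exp3_10 (-347651743) (by decide +kernel) (1 / 1000000)
    (by norm_num)
  simpa using h

theorem val3_rz_rx_12h (hC : Chan 3 rx rz (-23) 20 152 67 tl3_rz_rx) :
    |ZZ 3 rx rz (25 / 2) * Real.exp (-(2 * 3 * (25 / 2) * f0)) - (-273138165) / 10 ^ 9| ≤ 1 / 1000000 := by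
  have h := zz_bound 3 rx rz (-23) 20 152 (by norm_num) 67 67 (by norm_num) tl3_rz_rx
    dl3_12h 100000000000000000000 (by norm_num) (25 / 2) _ _ hC exp3_12h (-273138165) (by decide +kernel) (1 / 1000000)
    (by norm_num)
  simpa using h

theorem val3_qz_1_4 (hC : Chan 3 1 qz (-23) 20 152 67 tl3_qz_1) :
    |ZZ 3 1 qz (4) * Real.exp (-(2 * 3 * (4) * f0)) - 1609099175 / 10 ^ 9| ≤ 1 / 1000000 := by
  have h := zz_bound 3 1 qz (-23) 20 152 (by norm_num) 67 37 (by norm_num) tl3_qz_1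
    dl3_4 100000000000000000000 (by norm_num) (4) _ _ hC exp3_4 1609099175 (by decide +kernel) (1 / 1000000)
    (by norm_num)
  simpa using h

theorem val3_qz_1_5 (hC : Chan 3 1 qz (-23) 20 152 67 tl3_qz_1) :
    |ZZ 3 1 qz (5) * Real.exp (-(2 * 3 * (5) * f0)) - 1596104681 / 10 ^ 9| ≤ 1 / 1000000 := by
  have h := zz_bound 3 1 qz (-23) 20 152 (by norm_num) 67 41 (by norm_num) tl3_qz_1
    dl3_5 100000000000000000000 (by norm_num) (5) _ _ hC exp3_5 1596104681 (by decide +kernel) (1 / 1000000)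
    (by norm_num)
  simpa using h

theorem val3_qz_1_6q (hC : Chan 3 1 qz (-23) 20 152 67 tl3_qz_1) :
    |ZZ 3 1 qz (25 / 4) * Real.exp (-(2 * 3 * (25 / 4) * f0)) - 1664018538 / 10 ^ 9| ≤ 1 / 1000000 := by
  have h := zz_bound 3 1 qz (-23) 20 152 (by norm_num) 67 46 (by norm_num) tl3_qz_1
    dl3_6q 100000000000000000000 (by norm_num) (25 / 4) _ _ hC exp3_6q 1664018538 (by decide +kernel) (1 / 1000000)
    (by norm_num)
  simpa using h

theorem val3_qz_1_8 (hC : Chan 3 1 qz (-23) 20 152 67 tl3_qz_1) :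
    |ZZ 3 1 qz (8) * Real.exp (-(2 * 3 * (8) * f0)) - 1842109190 / 10 ^ 9| ≤ 1 / 1000000 := by
  have h := zz_bound 3 1 qz (-23) 20 152 (by norm_num) 67 53 (by norm_num) tl3_qz_1
    dl3_8 100000000000000000000 (by norm_num) (8) _ _ hC exp3_8 1842109190 (by decide +kernel) (1 / 1000000)
    (by norm_num)
  simpa using h

theorem val3_qz_1_10 (hC : Chan 3 1 qz (-23) 20 152 67 tl3_qz_1) :
    |ZZ 3 1 qz (10) * Real.exp (-(2 * 3 * (10) * f0)) - 2116237116 / 10 ^ 9| ≤ 1 / 1000000 := by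
  have h := zz_bound 3 1 qz (-23) 20 152 (by norm_num) 67 59 (by norm_num) tl3_qz_1
    dl3_10 100000000000000000000 (by norm_num) (10) _ _ hC exp3_10 2116237116 (by decide +kernel) (1 / 1000000)
    (by norm_num)
  simpa using h

theorem val3_qz_1_12h (hC : Chan 3 1 qz (-23) 20 152 67 tl3_qz_1) :
    |ZZ 3 1 qz (25 / 2) * Real.exp (-(2 * 3 * (25 / 2) * f0)) - 2541089464 / 10 ^ 9| ≤ 1 / 1000000 := by
  have h := zz_bound 3 1 qz (-23) 20 152 (by norm_num) 67 67 (by norm_num) tl3_qz_1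
    dl3_12h 100000000000000000000 (by norm_num) (25 / 2) _ _ hC exp3_12h 2541089464 (by decide +kernel) (1 / 1000000)
    (by norm_num)
  simpa using h

theorem val3_qz_rz_4 (hC : Chan 3 rz qz (-23) 20 152 67 tl3_qz_rz) :
    |ZZ 3 rz qz (4) * Real.exp (-(2 * 3 * (4) * f0)) - 1372002471 / 10 ^ 9| ≤ 1 / 1000000 := by
  have h := zz_bound 3 rz qz (-23) 20 152 (by norm_num) 67 37 (by norm_num) tl3_qz_rz
    dl3_4 100000000000000000000 (by norm_num) (4) _ _ hC exp3_4 1372002471 (by decide +kernel) (1 / 1000000)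
    (by norm_num)
  simpa using h

theorem val3_qz_rz_5 (hC : Chan 3 rz qz (-23) 20 152 67 tl3_qz_rz) :
    |ZZ 3 rz qz (5) * Real.exp (-(2 * 3 * (5) * f0)) - 1481446571 / 10 ^ 9| ≤ 1 / 1000000 := by
  have h := zz_bound 3 rz qz (-23) 20 152 (by norm_num) 67 41 (by norm_num) tl3_qz_rz
    dl3_5 100000000000000000000 (by norm_num) (5) _ _ hC exp3_5 1481446571 (by decide +kernel) (1 / 1000000)
    (by norm_num)
  simpa using h

theorem val3_qz_rz_6q (hC : Chan 3 rz qz (-23) 20 152 67 tl3_qz_rz) :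
    |ZZ 3 rz qz (25 / 4) * Real.exp (-(2 * 3 * (25 / 4) * f0)) - 1617125094 / 10 ^ 9| ≤ 1 / 1000000 := by
  have h := zz_bound 3 rz qz (-23) 20 152 (by norm_num) 67 46 (by norm_num) tl3_qz_rz
    dl3_6q 100000000000000000000 (by norm_num) (25 / 4) _ _ hC exp3_6q 1617125094 (by decide +kernel) (1 / 1000000)
    (by norm_num)
  simpa using h

theorem val3_qz_rz_8 (hC : Chan 3 rz qz (-23) 20 152 67 tl3_qz_rz) :
    |ZZ 3 rz qz (8) * Real.exp (-(2 * 3 * (8) * f0)) - 1828624546 / 10 ^ 9| ≤ 1 / 1000000 := by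
  have h := zz_bound 3 rz qz (-23) 20 152 (by norm_num) 67 53 (by norm_num) tl3_qz_rz
    dl3_8 100000000000000000000 (by norm_num) (8) _ _ hC exp3_8 1828624546 (by decide +kernel) (1 / 1000000)
    (by norm_num)
  simpa using h

theorem val3_qz_rz_10 (hC : Chan 3 rz qz (-23) 20 152 67 tl3_qz_rz) :
    |ZZ 3 rz qz (10) * Real.exp (-(2 * 3 * (10) * f0)) - 2112988374 / 10 ^ 9| ≤ 1 / 1000000 := by
  have h := zz_bound 3 rz qz (-23) 20 152 (by norm_num) 67 59 (by norm_num) tl3_qz_rz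
    dl3_10 100000000000000000000 (by norm_num) (10) _ _ hC exp3_10 2112988374 (by decide +kernel) (1 / 1000000)
    (by norm_num)
  simpa using h

theorem val3_qz_rz_12h (hC : Chan 3 rz qz (-23) 20 152 67 tl3_qz_rz) :
    |ZZ 3 rz qz (25 / 2) * Real.exp (-(2 * 3 * (25 / 2) * f0)) - 2540540947 / 10 ^ 9| ≤ 1 / 1000000 := by
  have h := zz_bound 3 rz qz (-23) 20 152 (by norm_num) 67 67 (by norm_num) tl3_qz_rz
    dl3_12h 100000000000000000000 (by norm_num) (25 / 2) _ _ hC exp3_12h 2540540947 (by decide +kernel) (1 / 1000000)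
    (by norm_num)
  simpa using h

theorem val3_c3_1_4 (hC : Chan 3 1 c3 (-23) 20 152 67 tl3_c3_1) :
    |ZZ 3 1 c3 (4) * Real.exp (-(2 * 3 * (4) * f0)) - 1191346691 / 10 ^ 9| ≤ 1 / 1000000 := by
  have h := zz_bound 3 1 c3 (-23) 20 152 (by norm_num) 67 37 (by norm_num) tl3_c3_1
    dl3_4 100000000000000000000 (by norm_num) (4) _ _ hC exp3_4 1191346691 (by decide +kernel) (1 / 1000000)
    (by norm_num)
  simpa using h

theorem val3_c3_1_5 (hC : Chan 3 1 c3 (-23) 20 152 67 tl3_c3_1) :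
    |ZZ 3 1 c3 (5) * Real.exp (-(2 * 3 * (5) * f0)) - 1087435697 / 10 ^ 9| ≤ 1 / 1000000 := by
  have h := zz_bound 3 1 c3 (-23) 20 152 (by norm_num) 67 41 (by norm_num) tl3_c3_1
    dl3_5 100000000000000000000 (by norm_num) (5) _ _ hC exp3_5 1087435697 (by decide +kernel) (1 / 1000000)
    (by norm_num)
  simpa using h

theorem val3_c3_1_6q (hC : Chan 3 1 c3 (-23) 20 152 67 tl3_c3_1) :
    |ZZ 3 1 c3 (25 / 4) * Real.exp (-(2 * 3 * (25 / 4) * f0)) - 1019671403 / 10 ^ 9| ≤ 1 / 1000000 := by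
  have h := zz_bound 3 1 c3 (-23) 20 152 (by norm_num) 67 46 (by norm_num) tl3_c3_1
    dl3_6q 100000000000000000000 (by norm_num) (25 / 4) _ _ hC exp3_6q 1019671403 (by decide +kernel) (1 / 1000000)
    (by norm_num)
  simpa using h

theorem val3_c3_1_8 (hC : Chan 3 1 c3 (-23) 20 152 67 tl3_c3_1) :
    |ZZ 3 1 c3 (8) * Real.exp (-(2 * 3 * (8) * f0)) - 972741020 / 10 ^ 9| ≤ 1 / 1000000 := by
  have h := zz_bound 3 1 c3 (-23) 20 152 (by norm_num) 67 53 (by norm_num) tl3_c3_1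
    dl3_8 100000000000000000000 (by norm_num) (8) _ _ hC exp3_8 972741020 (by decide +kernel) (1 / 1000000)
    (by norm_num)
  simpa using h

theorem val3_c3_1_10 (hC : Chan 3 1 c3 (-23) 20 152 67 tl3_c3_1) :
    |ZZ 3 1 c3 (10) * Real.exp (-(2 * 3 * (10) * f0)) - 945112213 / 10 ^ 9| ≤ 1 / 1000000 := by
  have h := zz_bound 3 1 c3 (-23) 20 152 (by norm_num) 67 59 (by norm_num) tl3_c3_1
    dl3_10 100000000000000000000 (by norm_num) (10) _ _ hC exp3_10 945112213 (by decide +kernel) (1 / 1000000)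
    (by norm_num)
  simpa using h

theorem val3_c3_1_12h (hC : Chan 3 1 c3 (-23) 20 152 67 tl3_c3_1) :
    |ZZ 3 1 c3 (25 / 2) * Real.exp (-(2 * 3 * (25 / 2) * f0)) - 923587632 / 10 ^ 9| ≤ 1 / 1000000 := by
  have h := zz_bound 3 1 c3 (-23) 20 152 (by norm_num) 67 67 (by norm_num) tl3_c3_1
    dl3_12h 100000000000000000000 (by norm_num) (25 / 2) _ _ hC exp3_12h 923587632 (by decide +kernel) (1 / 1000000)
    (by norm_num)
  simpa using h

end P348
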