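import Vale.Agent.Lib.P348.NumG
import Vale.Agent.Lib.P348.PVal3

/-!
# P348 module NumB: the bounds of the table for N = 3, from the moments
-/

set_option linter.style.longLine false

namespace P348

theorem num3_0 (hC : Chan 3 1 1 (-23) 20 152 67 tl3_1_1) (j : ℕ) (hj : j < 6) :
    |gz 0 j 3 - (numC 3 0 j : ℝ) / 100000000| ≤ 5 / 1000000 := by
  have h6 : j = 0 ∨ j = 1 ∨ j = 2 ∨ j = 3 ∨ j = 4 ∨ j = 5 := by omega
  rcases h6 with rfl | rfl | rfl | rfl | rfl | rfl
  · exact num_of 3 0 0 1 1 3 _ (2693038012) (269303803) (by norm_num) bqv0 rfl (by decide)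
      3900 (1 / 1000000) (by norm_num) (by norm_num) (by simpa using val3_1_1_4 hC)
  · exact num_of 3 0 1 1 1 3 _ (3069143114) (306914311) (by norm_num) bqv1 rfl (by decide)
      3900 (1 / 1000000) (by norm_num) (by norm_num) (by simpa using val3_1_1_5 hC)
  · exact num_of 3 0 2 1 1 3 _ (3804029562) (380402958) (by norm_num) bqv2 rfl (by decide)
      3900 (1 / 1000000) (by norm_num) (by norm_num) (by simpa using val3_1_1_6q hC)
  · exact num_of 3 0 3 1 1 3 _ (5353270540) (535327052) (by norm_num) bqv3 rfl (by decide)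
      3900 (1 / 1000000) (by norm_num) (by norm_num) (by simpa using val3_1_1_8 hC)
  · exact num_of 3 0 4 1 1 3 _ (8065979067) (806597905) (by norm_num) bqv4 rfl (by decide)
      3900 (1 / 1000000) (by norm_num) (by norm_num) (by simpa using val3_1_1_10 hC)
  · exact num_of 3 0 5 1 1 3 _ (13560444216) (1356044427) (by norm_num) bqv5 rfl (by decide)
      3900 (1 / 1000000) (by norm_num) (by norm_num) (by simpa using val3_1_1_12h hC)

theorem num3_1 (hC : Chan 3 1 rz (-23) 20 152 67 tl3_rz_1) (j : ℕ) (hj : j < 6) :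
    |gz 1 j 3 - (numC 3 1 j : ℝ) / 100000000| ≤ 5 / 1000000 := by
  have h6 : j = 0 ∨ j = 1 ∨ j = 2 ∨ j = 3 ∨ j = 4 ∨ j = 5 := by omega
  rcases h6 with rfl | rfl | rfl | rfl | rfl | rfl
  · exact num_of 3 1 0 1 rz 3 _ (847338851) (84733887) (by norm_num) bqv0 rfl (by decide)
      3900 (1 / 1000000) (by norm_num) (by norm_num) (by simpa using val3_rz_1_4 hC)
  · exact num_of 3 1 1 1 rz 3 _ (702983696) (70298370) (by norm_num) bqv1 rfl (by decide)
      3900 (1 / 1000000) (by norm_num) (by norm_num) (by simpa using val3_rz_1_5 hC)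
  · exact num_of 3 1 2 1 rz 3 _ (581492135) (58149214) (by norm_num) bqv2 rfl (by decide)
      3900 (1 / 1000000) (by norm_num) (by norm_num) (by simpa using val3_rz_1_6q hC)
  · exact num_of 3 1 3 1 rz 3 _ (463110450) (46311048) (by norm_num) bqv3 rfl (by decide)
      3900 (1 / 1000000) (by norm_num) (by norm_num) (by simpa using val3_rz_1_8 hC)
  · exact num_of 3 1 4 1 rz 3 _ (366679128) (36667911) (by norm_num) bqv4 rfl (by decide)
      3900 (1 / 1000000) (by norm_num) (by norm_num) (by simpa using val3_rz_1_10 hC)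
  · exact num_of 3 1 5 1 rz 3 _ (279076066) (27907607) (by norm_num) bqv5 rfl (by decide)
      3900 (1 / 1000000) (by norm_num) (by norm_num) (by simpa using val3_rz_1_12h hC)

theorem num3_2 (hC : Chan 3 1 qz (-23) 20 152 67 tl3_qz_1) (j : ℕ) (hj : j < 6) :
    |gz 2 j 3 - (numC 3 2 j : ℝ) / 100000000| ≤ 5 / 1000000 := by
  have h6 : j = 0 ∨ j = 1 ∨ j = 2 ∨ j = 3 ∨ j = 4 ∨ j = 5 := by omega
  rcases h6 with rfl | rfl | rfl | rfl | rfl | rfl
  · exact num_of 3 2 0 1 qz 3 _ (1609099175) (160909916) (by norm_num) bqv0 rfl (by decide)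
      3900 (1 / 1000000) (by norm_num) (by norm_num) (by simpa using val3_qz_1_4 hC)
  · exact num_of 3 2 1 1 qz 3 _ (1596104681) (159610465) (by norm_num) bqv1 rfl (by decide)
      3900 (1 / 1000000) (by norm_num) (by norm_num) (by simpa using val3_qz_1_5 hC)
  · exact num_of 3 2 2 1 qz 3 _ (1664018538) (166401855) (by norm_num) bqv2 rfl (by decide)
      3900 (1 / 1000000) (by norm_num) (by norm_num) (by simpa using val3_qz_1_6q hC)
  · exact num_of 3 2 3 1 qz 3 _ (1842109190) (184210920) (by norm_num) bqv3 rfl (by decide)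
      3900 (1 / 1000000) (by norm_num) (by norm_num) (by simpa using val3_qz_1_8 hC)
  · exact num_of 3 2 4 1 qz 3 _ (2116237116) (211623712) (by norm_num) bqv4 rfl (by decide)
      3900 (1 / 1000000) (by norm_num) (by norm_num) (by simpa using val3_qz_1_10 hC)
  · exact num_of 3 2 5 1 qz 3 _ (2541089464) (254108939) (by norm_num) bqv5 rfl (by decide)
      3900 (1 / 1000000) (by norm_num) (by norm_num) (by simpa using val3_qz_1_12h hC)

theorem num3_3 (hC : Chan 3 1 c3 (-23) 20 152 67 tl3_c3_1) (j : ℕ) (hj : j < 6) :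
    |gz 3 j 3 - (numC 3 3 j : ℝ) / 100000000| ≤ 5 / 1000000 := by
  have h6 : j = 0 ∨ j = 1 ∨ j = 2 ∨ j = 3 ∨ j = 4 ∨ j = 5 := by omega
  rcases h6 with rfl | rfl | rfl | rfl | rfl | rfl
  · exact num_of 3 3 0 1 c3 3 _ (1191346691) (119134668) (by norm_num) bqv0 rfl (by decide)
      3900 (1 / 1000000) (by norm_num) (by norm_num) (by simpa using val3_c3_1_4 hC)
  · exact num_of 3 3 1 1 c3 3 _ (1087435697) (108743570) (by norm_num) bqv1 rfl (by decide)
      3900 (1 / 1000000) (by norm_num) (by norm_num) (by simpa using val3_c3_1_5 hC)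
  · exact num_of 3 3 2 1 c3 3 _ (1019671403) (101967141) (by norm_num) bqv2 rfl (by decide)
      3900 (1 / 1000000) (by norm_num) (by norm_num) (by simpa using val3_c3_1_6q hC)
  · exact num_of 3 3 3 1 c3 3 _ (972741020) (97274102) (by norm_num) bqv3 rfl (by decide)
      3900 (1 / 1000000) (by norm_num) (by norm_num) (by simpa using val3_c3_1_8 hC)
  · exact num_of 3 3 4 1 c3 3 _ (945112213) (94511221) (by norm_num) bqv4 rfl (by decide)
      3900 (1 / 1000000) (by norm_num) (by norm_num) (by simpa using val3_c3_1_10 hC)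
  · exact num_of 3 3 5 1 c3 3 _ (923587632) (92358758) (by norm_num) bqv5 rfl (by decide)
      3900 (1 / 1000000) (by norm_num) (by norm_num) (by simpa using val3_c3_1_12h hC)

theorem num3_4 (hC : Chan 3 rz 1 (-23) 20 152 67 tl3_1_rz) (j : ℕ) (hj : j < 6) :
    |gz 4 j 3 - (numC 3 4 j : ℝ) / 100000000| ≤ 5 / 1000000 := by
  have h6 : j = 0 ∨ j = 1 ∨ j = 2 ∨ j = 3 ∨ j = 4 ∨ j = 5 := by omega
  rcases h6 with rfl | rfl | rfl | rfl | rfl | rfl
  · exact num_of 3 4 0 rz 1 3 _ (2173985568) (217398556) (by norm_num) bqv0 rfl (by decide)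
      3900 (1 / 1000000) (by norm_num) (by norm_num) (by simpa using val3_1_rz_4 hC)
  · exact num_of 3 4 1 rz 1 3 _ (2759659115) (275965910) (by norm_num) bqv1 rfl (by decide)
      3900 (1 / 1000000) (by norm_num) (by norm_num) (by simpa using val3_1_rz_5 hC)
  · exact num_of 3 4 2 rz 1 3 _ (3641036891) (364103689) (by norm_num) bqv2 rfl (by decide)
      3900 (1 / 1000000) (by norm_num) (by norm_num) (by simpa using val3_1_rz_6q hC)
  · exact num_of 3 4 3 rz 1 3 _ (5286758075) (528675808) (by norm_num) bqv3 rfl (by decide)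
      3900 (1 / 1000000) (by norm_num) (by norm_num) (by simpa using val3_1_rz_8 hC)
  · exact num_of 3 4 4 rz 1 3 _ (8042095039) (804209506) (by norm_num) bqv4 rfl (by decide)
      3900 (1 / 1000000) (by norm_num) (by norm_num) (by simpa using val3_1_rz_10 hC)
  · exact num_of 3 4 5 rz 1 3 _ (13553805003) (1355380503) (by norm_num) bqv5 rfl (by decide)
      3900 (1 / 1000000) (by norm_num) (by norm_num) (by simpa using val3_1_rz_12h hC)

theorem num3_5 (hC : Chan 3 rz rz (-23) 20 152 67 tl3_rz_rz) (j : ℕ) (hj : j < 6) :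
    |gz 5 j 3 - (numC 3 5 j : ℝ) / 100000000| ≤ 5 / 1000000 := by
  have h6 : j = 0 ∨ j = 1 ∨ j = 2 ∨ j = 3 ∨ j = 4 ∨ j = 5 := by omega
  rcases h6 with rfl | rfl | rfl | rfl | rfl | rfl
  · exact num_of 3 5 0 rz rz 3 _ (793079734) (79307972) (by norm_num) bqv0 rfl (by decide)
      3900 (1 / 1000000) (by norm_num) (by norm_num) (by simpa using val3_rz_rz_4 hC)
  · exact num_of 3 5 1 rz rz 3 _ (688234951) (68823492) (by norm_num) bqv1 rfl (by decide)
      3900 (1 / 1000000) (by norm_num) (by norm_num) (by simpa using val3_rz_rz_5 hC)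
  · exact num_of 3 5 2 rz rz 3 _ (578529090) (57852910) (by norm_num) bqv2 rfl (by decide)
      3900 (1 / 1000000) (by norm_num) (by norm_num) (by simpa using val3_rz_rz_6q hC)
  · exact num_of 3 5 3 rz rz 3 _ (462791403) (46279139) (by norm_num) bqv3 rfl (by decide)
      3900 (1 / 1000000) (by norm_num) (by norm_num) (by simpa using val3_rz_rz_8 hC)
  · exact num_of 3 5 4 rz rz 3 _ (366653913) (36665388) (by norm_num) bqv4 rfl (by decide)
      3900 (1 / 1000000) (by norm_num) (by norm_num) (by simpa using val3_rz_rz_10 hC)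
  · exact num_of 3 5 5 rz rz 3 _ (279075053) (27907501) (by norm_num) bqv5 rfl (by decide)
      3900 (1 / 1000000) (by norm_num) (by norm_num) (by simpa using val3_rz_rz_12h hC)

theorem num3_6 (hC : Chan 3 rz qz (-23) 20 152 67 tl3_qz_rz) (j : ℕ) (hj : j < 6) :
    |gz 6 j 3 - (numC 3 6 j : ℝ) / 100000000| ≤ 5 / 1000000 := by
  have h6 : j = 0 ∨ j = 1 ∨ j = 2 ∨ j = 3 ∨ j = 4 ∨ j = 5 := by omega
  rcases h6 with rfl | rfl | rfl | rfl | rfl | rfl
  · exact num_of 3 6 0 rz qz 3 _ (1372002471) (137200247) (by norm_num) bqv0 rfl (by decide)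
      3900 (1 / 1000000) (by norm_num) (by norm_num) (by simpa using val3_qz_rz_4 hC)
  · exact num_of 3 6 1 rz qz 3 _ (1481446571) (148144658) (by norm_num) bqv1 rfl (by decide)
      3900 (1 / 1000000) (by norm_num) (by norm_num) (by simpa using val3_qz_rz_5 hC)
  · exact num_of 3 6 2 rz qz 3 _ (1617125094) (161712510) (by norm_num) bqv2 rfl (by decide)
      3900 (1 / 1000000) (by norm_num) (by norm_num) (by simpa using val3_qz_rz_6q hC)
  · exact num_of 3 6 3 rz qz 3 _ (1828624546) (182862455) (by norm_num) bqv3 rfl (by decide)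
      3900 (1 / 1000000) (by norm_num) (by norm_num) (by simpa using val3_qz_rz_8 hC)
  · exact num_of 3 6 4 rz qz 3 _ (2112988374) (211298836) (by norm_num) bqv4 rfl (by decide)
      3900 (1 / 1000000) (by norm_num) (by norm_num) (by simpa using val3_qz_rz_10 hC)
  · exact num_of 3 6 5 rz qz 3 _ (2540540947) (254054095) (by norm_num) bqv5 rfl (by decide)
      3900 (1 / 1000000) (by norm_num) (by norm_num) (by simpa using val3_qz_rz_12h hC)

theorem num3_7 (hC : Chan 3 rx rz (-23) 20 152 67 tl3_rz_rx) (j : ℕ) (hj : j < 6) :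
    |gz 7 j 3 - (numC 3 7 j : ℝ) / 100000000| ≤ 5 / 1000000 := by
  have h6 : j = 0 ∨ j = 1 ∨ j = 2 ∨ j = 3 ∨ j = 4 ∨ j = 5 := by omega
  rcases h6 with rfl | rfl | rfl | rfl | rfl | rfl
  · exact num_of 3 7 0 rx rz 3 _ (-504932114) (-50493212) (by norm_num) bqv0 (ZZ_rz_rx 3 _) (by decide)
      3900 (1 / 1000000) (by norm_num) (by norm_num) (by simpa using val3_rz_rx_4 hC)
  · exact num_of 3 7 1 rx rz 3 _ (-499666698) (-49966670) (by norm_num) bqv1 (ZZ_rz_rx 3 _) (by decide)
      3900 (1 / 1000000) (by norm_num) (by norm_num) (by simpa using val3_rz_rx_5 hC)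
  · exact num_of 3 7 2 rx rz 3 _ (-470907644) (-47090765) (by norm_num) bqv2 (ZZ_rz_rx 3 _) (by decide)
      3900 (1 / 1000000) (by norm_num) (by norm_num) (by simpa using val3_rz_rx_6q hC)
  · exact num_of 3 7 3 rx rz 3 _ (-414695119) (-41469511) (by norm_num) bqv3 (ZZ_rz_rx 3 _) (by decide)
      3900 (1 / 1000000) (by norm_num) (by norm_num) (by simpa using val3_rz_rx_8 hC)
  · exact num_of 3 7 4 rx rz 3 _ (-347651743) (-34765175) (by norm_num) bqv4 (ZZ_rz_rx 3 _) (by decide)
      3900 (1 / 1000000) (by norm_num) (by norm_num) (by simpa using val3_rz_rx_10 hC)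
  · exact num_of 3 7 5 rx rz 3 _ (-273138165) (-27313817) (by norm_num) bqv5 (ZZ_rz_rx 3 _) (by decide)
      3900 (1 / 1000000) (by norm_num) (by norm_num) (by simpa using val3_rz_rx_12h hC)

end P348
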