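import Vale.Agent.Lib.P348.PChan4
import Vale.Agent.Lib.P348.PExp4

/-!
# P348 module PVal4: numerical values of the twisted partition functions, ring of length 8

Each bound is `|ZZ 4 W R β * exp (-(2 * 4 * β * f0)) - Q / 10^9| ≤ 10^(-6)`.
-/

namespace P348

theorem val4_1_1_4 (hC : Chan 4 1 1 (-25) 20 202 74 tl4_1_1) :
    |ZZ 4 1 1 (4) * Real.exp (-(2 * 4 * (4) * f0)) - 2123789561 / 10 ^ 9| ≤ 1 / 1000000 := by
  have h := zz_bound 4 1 1 (-25) 20 202 (by norm_num) 74 44 (by norm_num) tl4_1_1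
    dl4_4 100000000000000000000 (by norm_num) (4) _ _ hC exp4_4 2123789561 (by decide +kernel) (1 / 1000000)
    (by norm_num)
  simpa using h

theorem val4_1_1_5 (hC : Chan 4 1 1 (-25) 20 202 74 tl4_1_1) :
    |ZZ 4 1 1 (5) * Real.exp (-(2 * 4 * (5) * f0)) - 2160064208 / 10 ^ 9| ≤ 1 / 1000000 := by
  have h := zz_bound 4 1 1 (-25) 20 202 (by norm_num) 74 48 (by norm_num) tl4_1_1
    dl4_5 100000000000000000000 (by norm_num) (5) _ _ hC exp4_5 2160064208 (by decide +kernel) (1 / 1000000)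
    (by norm_num)
  simpa using h

theorem val4_1_1_6q (hC : Chan 4 1 1 (-25) 20 202 74 tl4_1_1) :
    |ZZ 4 1 1 (25 / 4) * Real.exp (-(2 * 4 * (25 / 4) * f0)) - 2346620114 / 10 ^ 9| ≤ 1 / 1000000 := by
  have h := zz_bound 4 1 1 (-25) 20 202 (by norm_num) 74 54 (by norm_num) tl4_1_1
    dl4_6q 100000000000000000000 (by norm_num) (25 / 4) _ _ hC exp4_6q 2346620114 (by decide +kernel) (1 / 1000000)
    (by norm_num)
  simpa using h

theorem val4_1_1_8 (hC : Chan 4 1 1 (-25) 20 202 74 tl4_1_1) :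
    |ZZ 4 1 1 (8) * Real.exp (-(2 * 4 * (8) * f0)) - 2791550991 / 10 ^ 9| ≤ 1 / 1000000 := by
  have h := zz_bound 4 1 1 (-25) 20 202 (by norm_num) 74 61 (by norm_num) tl4_1_1
    dl4_8 100000000000000000000 (by norm_num) (8) _ _ hC exp4_8 2791550991 (by decide +kernel) (1 / 1000000)
    (by norm_num)
  simpa using h

theorem val4_1_1_10 (hC : Chan 4 1 1 (-25) 20 202 74 tl4_1_1) :
    |ZZ 4 1 1 (10) * Real.exp (-(2 * 4 * (10) * f0)) - 3522112425 / 10 ^ 9| ≤ 1 / 1000000 := by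
  have h := zz_bound 4 1 1 (-25) 20 202 (by norm_num) 74 68 (by norm_num) tl4_1_1
    dl4_10 100000000000000000000 (by norm_num) (10) _ _ hC exp4_10 3522112425 (by decide +kernel) (1 / 1000000)
    (by norm_num)
  simpa using h

theorem val4_1_1_12h (hC : Chan 4 1 1 (-25) 20 202 74 tl4_1_1) :
    |ZZ 4 1 1 (25 / 2) * Real.exp (-(2 * 4 * (25 / 2) * f0)) - 4786252843 / 10 ^ 9| ≤ 4 / 1000000 := by
  have h := zz_bound 4 1 1 (-25) 20 202 (by norm_num) 74 74 (by norm_num) tl4_1_1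
    dl4_12h 100000000000000000000 (by norm_num) (25 / 2) _ _ hC exp4_12h 4786252843 (by decide +kernel) (4 / 1000000)
    (by norm_num)
  simpa using h

theorem val4_1_rz_4 (hC : Chan 4 rz 1 (-25) 20 202 74 tl4_1_rz) :
    |ZZ 4 rz 1 (4) * Real.exp (-(2 * 4 * (4) * f0)) - 1495687699 / 10 ^ 9| ≤ 1 / 1000000 := by
  have h := zz_bound 4 rz 1 (-25) 20 202 (by norm_num) 74 44 (by norm_num) tl4_1_rz
    dl4_4 100000000000000000000 (by norm_num) (4) _ _ hC exp4_4 1495687699 (by decide +kernel) (1 / 1000000)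
    (by norm_num)
  simpa using h

theorem val4_1_rz_5 (hC : Chan 4 rz 1 (-25) 20 202 74 tl4_1_rz) :
    |ZZ 4 rz 1 (5) * Real.exp (-(2 * 4 * (5) * f0)) - 1773256064 / 10 ^ 9| ≤ 1 / 1000000 := by
  have h := zz_bound 4 rz 1 (-25) 20 202 (by norm_num) 74 48 (by norm_num) tl4_1_rz
    dl4_5 100000000000000000000 (by norm_num) (5) _ _ hC exp4_5 1773256064 (by decide +kernel) (1 / 1000000)
    (by norm_num)
  simpa using h

theorem val4_1_rz_6q (hC : Chan 4 rz 1 (-25) 20 202 74 tl4_1_rz) :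
    |ZZ 4 rz 1 (25 / 4) * Real.exp (-(2 * 4 * (25 / 4) * f0)) - 2132284928 / 10 ^ 9| ≤ 1 / 1000000 := by
  have h := zz_bound 4 rz 1 (-25) 20 202 (by norm_num) 74 54 (by norm_num) tl4_1_rz
    dl4_6q 100000000000000000000 (by norm_num) (25 / 4) _ _ hC exp4_6q 2132284928 (by decide +kernel) (1 / 1000000)
    (by norm_num)
  simpa using h

theorem val4_1_rz_8 (hC : Chan 4 rz 1 (-25) 20 202 74 tl4_1_rz) :
    |ZZ 4 rz 1 (8) * Real.exp (-(2 * 4 * (8) * f0)) - 2697232523 / 10 ^ 9| ≤ 1 / 1000000 := by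
  have h := zz_bound 4 rz 1 (-25) 20 202 (by norm_num) 74 61 (by norm_num) tl4_1_rz
    dl4_8 100000000000000000000 (by norm_num) (8) _ _ hC exp4_8 2697232523 (by decide +kernel) (1 / 1000000)
    (by norm_num)
  simpa using h

theorem val4_1_rz_10 (hC : Chan 4 rz 1 (-25) 20 202 74 tl4_1_rz) :
    |ZZ 4 rz 1 (10) * Real.exp (-(2 * 4 * (10) * f0)) - 3485158550 / 10 ^ 9| ≤ 1 / 1000000 := by
  have h := zz_bound 4 rz 1 (-25) 20 202 (by norm_num) 74 68 (by norm_num) tl4_1_rz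
    dl4_10 100000000000000000000 (by norm_num) (10) _ _ hC exp4_10 3485158550 (by decide +kernel) (1 / 1000000)
    (by norm_num)
  simpa using h

theorem val4_1_rz_12h (hC : Chan 4 rz 1 (-25) 20 202 74 tl4_1_rz) :
    |ZZ 4 rz 1 (25 / 2) * Real.exp (-(2 * 4 * (25 / 2) * f0)) - 4774796283 / 10 ^ 9| ≤ 4 / 1000000 := by
  have h := zz_bound 4 rz 1 (-25) 20 202 (by norm_num) 74 74 (by norm_num) tl4_1_rz
    dl4_12h 100000000000000000000 (by norm_num) (25 / 2) _ _ hC exp4_12h 4774796283 (by decide +kernel) (4 / 1000000)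
    (by norm_num)
  simpa using h

theorem val4_rz_1_4 (hC : Chan 4 1 rz (-25) 20 202 74 tl4_rz_1) :
    |ZZ 4 1 rz (4) * Real.exp (-(2 * 4 * (4) * f0)) - 1056961090 / 10 ^ 9| ≤ 1 / 1000000 := by
  have h := zz_bound 4 1 rz (-25) 20 202 (by norm_num) 74 44 (by norm_num) tl4_rz_1
    dl4_4 100000000000000000000 (by norm_num) (4) _ _ hC exp4_4 1056961090 (by decide +kernel) (1 / 1000000)
    (by norm_num)
  simpa using h

theorem val4_rz_1_5 (hC : Chan 4 1 rz (-25) 20 202 74 tl4_rz_1) :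
    |ZZ 4 1 rz (5) * Real.exp (-(2 * 4 * (5) * f0)) - 896072782 / 10 ^ 9| ≤ 1 / 1000000 := by
  have h := zz_bound 4 1 rz (-25) 20 202 (by norm_num) 74 48 (by norm_num) tl4_rz_1
    dl4_5 100000000000000000000 (by norm_num) (5) _ _ hC exp4_5 896072782 (by decide +kernel) (1 / 1000000)
    (by norm_num)
  simpa using h

theorem val4_rz_1_6q (hC : Chan 4 1 rz (-25) 20 202 74 tl4_rz_1) :
    |ZZ 4 1 rz (25 / 4) * Real.exp (-(2 * 4 * (25 / 4) * f0)) - 777369028 / 10 ^ 9| ≤ 1 / 1000000 := by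
  have h := zz_bound 4 1 rz (-25) 20 202 (by norm_num) 74 54 (by norm_num) tl4_rz_1
    dl4_6q 100000000000000000000 (by norm_num) (25 / 4) _ _ hC exp4_6q 777369028 (by decide +kernel) (1 / 1000000)
    (by norm_num)
  simpa using h

theorem val4_rz_1_8 (hC : Chan 4 1 rz (-25) 20 202 74 tl4_rz_1) :
    |ZZ 4 1 rz (8) * Real.exp (-(2 * 4 * (8) * f0)) - 671197684 / 10 ^ 9| ≤ 1 / 1000000 := by
  have h := zz_bound 4 1 rz (-25) 20 202 (by norm_num) 74 61 (by norm_num) tl4_rz_1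
    dl4_8 100000000000000000000 (by norm_num) (8) _ _ hC exp4_8 671197684 (by decide +kernel) (1 / 1000000)
    (by norm_num)
  simpa using h

theorem val4_rz_1_10 (hC : Chan 4 1 rz (-25) 20 202 74 tl4_rz_1) :
    |ZZ 4 1 rz (10) * Real.exp (-(2 * 4 * (10) * f0)) - 585449927 / 10 ^ 9| ≤ 1 / 1000000 := by
  have h := zz_bound 4 1 rz (-25) 20 202 (by norm_num) 74 68 (by norm_num) tl4_rz_1
    dl4_10 100000000000000000000 (by norm_num) (10) _ _ hC exp4_10 585449927 (by decide +kernel) (1 / 1000000)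
    (by norm_num)
  simpa using h

theorem val4_rz_1_12h (hC : Chan 4 1 rz (-25) 20 202 74 tl4_rz_1) :
    |ZZ 4 1 rz (25 / 2) * Real.exp (-(2 * 4 * (25 / 2) * f0)) - 502782984 / 10 ^ 9| ≤ 4 / 1000000 := by
  have h := zz_bound 4 1 rz (-25) 20 202 (by norm_num) 74 74 (by norm_num) tl4_rz_1
    dl4_12h 100000000000000000000 (by norm_num) (25 / 2) _ _ hC exp4_12h 502782984 (by decide +kernel) (4 / 1000000)
    (by norm_num)
  simpa using h

theorem val4_rz_rz_4 (hC : Chan 4 rz rz (-25) 20 202 74 tl4_rz_rz) :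
    |ZZ 4 rz rz (4) * Real.exp (-(2 * 4 * (4) * f0)) - 899680850 / 10 ^ 9| ≤ 1 / 1000000 := by
  have h := zz_bound 4 rz rz (-25) 20 202 (by norm_num) 74 44 (by norm_num) tl4_rz_rz
    dl4_4 100000000000000000000 (by norm_num) (4) _ _ hC exp4_4 899680850 (by decide +kernel) (1 / 1000000)
    (by norm_num)
  simpa using h

theorem val4_rz_rz_5 (hC : Chan 4 rz rz (-25) 20 202 74 tl4_rz_rz) :
    |ZZ 4 rz rz (5) * Real.exp (-(2 * 4 * (5) * f0)) - 840727166 / 10 ^ 9| ≤ 1 / 1000000 := by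
  have h := zz_bound 4 rz rz (-25) 20 202 (by norm_num) 74 48 (by norm_num) tl4_rz_rz
    dl4_5 100000000000000000000 (by norm_num) (5) _ _ hC exp4_5 840727166 (by decide +kernel) (1 / 1000000)
    (by norm_num)
  simpa using h

theorem val4_rz_rz_6q (hC : Chan 4 rz rz (-25) 20 202 74 tl4_rz_rz) :
    |ZZ 4 rz rz (25 / 4) * Real.exp (-(2 * 4 * (25 / 4) * f0)) - 761965271 / 10 ^ 9| ≤ 1 / 1000000 := by
  have h := zz_bound 4 rz rz (-25) 20 202 (by norm_num) 74 54 (by norm_num) tl4_rz_rz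
    dl4_6q 100000000000000000000 (by norm_num) (25 / 4) _ _ hC exp4_6q 761965271 (by decide +kernel) (1 / 1000000)
    (by norm_num)
  simpa using h

theorem val4_rz_rz_8 (hC : Chan 4 rz rz (-25) 20 202 74 tl4_rz_rz) :
    |ZZ 4 rz rz (8) * Real.exp (-(2 * 4 * (8) * f0)) - 668573903 / 10 ^ 9| ≤ 1 / 1000000 := by
  have h := zz_bound 4 rz rz (-25) 20 202 (by norm_num) 74 61 (by norm_num) tl4_rz_rz
    dl4_8 100000000000000000000 (by norm_num) (8) _ _ hC exp4_8 668573903 (by decide +kernel) (1 / 1000000)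
    (by norm_num)
  simpa using h

theorem val4_rz_rz_10 (hC : Chan 4 rz rz (-25) 20 202 74 tl4_rz_rz) :
    |ZZ 4 rz rz (10) * Real.exp (-(2 * 4 * (10) * f0)) - 585099168 / 10 ^ 9| ≤ 1 / 1000000 := by
  have h := zz_bound 4 rz rz (-25) 20 202 (by norm_num) 74 68 (by norm_num) tl4_rz_rz
    dl4_10 100000000000000000000 (by norm_num) (10) _ _ hC exp4_10 585099168 (by decide +kernel) (1 / 1000000)
    (by norm_num)
  simpa using h

theorem val4_rz_rz_12h (hC : Chan 4 rz rz (-25) 20 202 74 tl4_rz_rz) :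
    |ZZ 4 rz rz (25 / 2) * Real.exp (-(2 * 4 * (25 / 2) * f0)) - 502754493 / 10 ^ 9| ≤ 4 / 1000000 := by
  have h := zz_bound 4 rz rz (-25) 20 202 (by norm_num) 74 74 (by norm_num) tl4_rz_rz
    dl4_12h 100000000000000000000 (by norm_num) (25 / 2) _ _ hC exp4_12h 502754493 (by decide +kernel) (4 / 1000000)
    (by norm_num)
  simpa using h

theorem val4_rz_rx_4 (hC : Chan 4 rx rz (-25) 20 202 74 tl4_rz_rx) :
    |ZZ 4 rx rz (4) * Real.exp (-(2 * 4 * (4) * f0)) - (-624573324) / 10 ^ 9| ≤ 1 / 1000000 := by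
  have h := zz_bound 4 rx rz (-25) 20 202 (by norm_num) 74 44 (by norm_num) tl4_rz_rx
    dl4_4 100000000000000000000 (by norm_num) (4) _ _ hC exp4_4 (-624573324) (by decide +kernel) (1 / 1000000)
    (by norm_num)
  simpa using h

theorem val4_rz_rx_5 (hC : Chan 4 rx rz (-25) 20 202 74 tl4_rz_rx) :
    |ZZ 4 rx rz (5) * Real.exp (-(2 * 4 * (5) * f0)) - (-646080795) / 10 ^ 9| ≤ 1 / 1000000 := by
  have h := zz_bound 4 rx rz (-25) 20 202 (by norm_num) 74 48 (by norm_num) tl4_rz_rx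
    dl4_5 100000000000000000000 (by norm_num) (5) _ _ hC exp4_5 (-646080795) (by decide +kernel) (1 / 1000000)
    (by norm_num)
  simpa using h

theorem val4_rz_rx_6q (hC : Chan 4 rx rz (-25) 20 202 74 tl4_rz_rx) :
    |ZZ 4 rx rz (25 / 4) * Real.exp (-(2 * 4 * (25 / 4) * f0)) - (-642835417) / 10 ^ 9| ≤ 1 / 1000000 := by
  have h := zz_bound 4 rx rz (-25) 20 202 (by norm_num) 74 54 (by norm_num) tl4_rz_rx
    dl4_6q 100000000000000000000 (by norm_num) (25 / 4) _ _ hC exp4_6q (-642835417) (by decide +kernel) (1 / 1000000)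
    (by norm_num)
  simpa using h

theorem val4_rz_rx_8 (hC : Chan 4 rx rz (-25) 20 202 74 tl4_rz_rx) :
    |ZZ 4 rx rz (8) * Real.exp (-(2 * 4 * (8) * f0)) - (-611530866) / 10 ^ 9| ≤ 1 / 1000000 := by
  have h := zz_bound 4 rx rz (-25) 20 202 (by norm_num) 74 61 (by norm_num) tl4_rz_rx
    dl4_8 100000000000000000000 (by norm_num) (8) _ _ hC exp4_8 (-611530866) (by decide +kernel) (1 / 1000000)
    (by norm_num)
  simpa using h

theorem val4_rz_rx_10 (hC : Chan 4 rx rz (-25) 20 202 74 tl4_rz_rx) :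
    |ZZ 4 rx rz (10) * Real.exp (-(2 * 4 * (10) * f0)) - (-561175696) / 10 ^ 9| ≤ 1 / 1000000 := by
  have h := zz_bound 4 rx rz (-25) 20 202 (by norm_num) 74 68 (by norm_num) tl4_rz_rx
    dl4_10 100000000000000000000 (by norm_num) (10) _ _ hC exp4_10 (-561175696) (by decide +kernel) (1 / 1000000)
    (by norm_num)
  simpa using h

theorem val4_rz_rx_12h (hC : Chan 4 rx rz (-25) 20 202 74 tl4_rz_rx) :
    |ZZ 4 rx rz (25 / 2) * Real.exp (-(2 * 4 * (25 / 2) * f0)) - (-494785474) / 10 ^ 9| ≤ 4 / 1000000 := by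
  have h := zz_bound 4 rx rz (-25) 20 202 (by norm_num) 74 74 (by norm_num) tl4_rz_rx
    dl4_12h 100000000000000000000 (by norm_num) (25 / 2) _ _ hC exp4_12h (-494785474) (by decide +kernel) (4 / 1000000)
    (by norm_num)
  simpa using h

theorem val4_qz_1_4 (hC : Chan 4 1 qz (-25) 20 202 74 tl4_qz_1) :
    |ZZ 4 1 qz (4) * Real.exp (-(2 * 4 * (4) * f0)) - 1547515439 / 10 ^ 9| ≤ 1 / 1000000 := by
  have h := zz_bound 4 1 qz (-25) 20 202 (by norm_num) 74 44 (by norm_num) tl4_qz_1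
    dl4_4 100000000000000000000 (by norm_num) (4) _ _ hC exp4_4 1547515439 (by decide +kernel) (1 / 1000000)
    (by norm_num)
  simpa using h

theorem val4_qz_1_5 (hC : Chan 4 1 qz (-25) 20 202 74 tl4_qz_1) :
    |ZZ 4 1 qz (5) * Real.exp (-(2 * 4 * (5) * f0)) - 1449438751 / 10 ^ 9| ≤ 1 / 1000000 := by
  have h := zz_bound 4 1 qz (-25) 20 202 (by norm_num) 74 48 (by norm_num) tl4_qz_1
    dl4_5 100000000000000000000 (by norm_num) (5) _ _ hC exp4_5 1449438751 (by decide +kernel) (1 / 1000000)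
    (by norm_num)
  simpa using h

theorem val4_qz_1_6q (hC : Chan 4 1 qz (-25) 20 202 74 tl4_qz_1) :
    |ZZ 4 1 qz (25 / 4) * Real.exp (-(2 * 4 * (25 / 4) * f0)) - 1422776611 / 10 ^ 9| ≤ 1 / 1000000 := by
  have h := zz_bound 4 1 qz (-25) 20 202 (by norm_num) 74 54 (by norm_num) tl4_qz_1
    dl4_6q 100000000000000000000 (by norm_num) (25 / 4) _ _ hC exp4_6q 1422776611 (by decide +kernel) (1 / 1000000)
    (by norm_num)
  simpa using h

theorem val4_qz_1_8 (hC : Chan 4 1 qz (-25) 20 202 74 tl4_qz_1) :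
    |ZZ 4 1 qz (8) * Real.exp (-(2 * 4 * (8) * f0)) - 1468028995 / 10 ^ 9| ≤ 1 / 1000000 := by
  have h := zz_bound 4 1 qz (-25) 20 202 (by norm_num) 74 61 (by norm_num) tl4_qz_1
    dl4_8 100000000000000000000 (by norm_num) (8) _ _ hC exp4_8 1468028995 (by decide +kernel) (1 / 1000000)
    (by norm_num)
  simpa using h

theorem val4_qz_1_10 (hC : Chan 4 1 qz (-25) 20 202 74 tl4_qz_1) :
    |ZZ 4 1 qz (10) * Real.exp (-(2 * 4 * (10) * f0)) - 1574055775 / 10 ^ 9| ≤ 1 / 1000000 := by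
  have h := zz_bound 4 1 qz (-25) 20 202 (by norm_num) 74 68 (by norm_num) tl4_qz_1
    dl4_10 100000000000000000000 (by norm_num) (10) _ _ hC exp4_10 1574055775 (by decide +kernel) (1 / 1000000)
    (by norm_num)
  simpa using h

theorem val4_qz_1_12h (hC : Chan 4 1 qz (-25) 20 202 74 tl4_qz_1) :
    |ZZ 4 1 qz (25 / 2) * Real.exp (-(2 * 4 * (25 / 2) * f0)) - 1746381153 / 10 ^ 9| ≤ 4 / 1000000 := by
  have h := zz_bound 4 1 qz (-25) 20 202 (by norm_num) 74 74 (by norm_num) tl4_qz_1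
    dl4_12h 100000000000000000000 (by norm_num) (25 / 2) _ _ hC exp4_12h 1746381153 (by decide +kernel) (4 / 1000000)
    (by norm_num)
  simpa using h

theorem val4_qz_rz_4 (hC : Chan 4 rz qz (-25) 20 202 74 tl4_qz_rz) :
    |ZZ 4 rz qz (4) * Real.exp (-(2 * 4 * (4) * f0)) - 1177257468 / 10 ^ 9| ≤ 1 / 1000000 := by
  have h := zz_bound 4 rz qz (-25) 20 202 (by norm_num) 74 44 (by norm_num) tl4_qz_rz
    dl4_4 100000000000000000000 (by norm_num) (4) _ _ hC exp4_4 1177257468 (by decide +kernel) (1 / 1000000)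
    (by norm_num)
  simpa using h

theorem val4_qz_rz_5 (hC : Chan 4 rz qz (-25) 20 202 74 tl4_qz_rz) :
    |ZZ 4 rz qz (5) * Real.exp (-(2 * 4 * (5) * f0)) - 1255495672 / 10 ^ 9| ≤ 1 / 1000000 := by
  have h := zz_bound 4 rz qz (-25) 20 202 (by norm_num) 74 48 (by norm_num) tl4_qz_rz
    dl4_5 100000000000000000000 (by norm_num) (5) _ _ hC exp4_5 1255495672 (by decide +kernel) (1 / 1000000)
    (by norm_num)
  simpa using h

theorem val4_qz_rz_6q (hC : Chan 4 rz qz (-25) 20 202 74 tl4_qz_rz) :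
    |ZZ 4 rz qz (25 / 4) * Real.exp (-(2 * 4 * (25 / 4) * f0)) - 1333632580 / 10 ^ 9| ≤ 1 / 1000000 := by
  have h := zz_bound 4 rz qz (-25) 20 202 (by norm_num) 74 54 (by norm_num) tl4_qz_rz
    dl4_6q 100000000000000000000 (by norm_num) (25 / 4) _ _ hC exp4_6q 1333632580 (by decide +kernel) (1 / 1000000)
    (by norm_num)
  simpa using h

theorem val4_qz_rz_8 (hC : Chan 4 rz qz (-25) 20 202 74 tl4_qz_rz) :
    |ZZ 4 rz qz (8) * Real.exp (-(2 * 4 * (8) * f0)) - 1437513595 / 10 ^ 9| ≤ 1 / 1000000 := by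
  have h := zz_bound 4 rz qz (-25) 20 202 (by norm_num) 74 61 (by norm_num) tl4_qz_rz
    dl4_8 100000000000000000000 (by norm_num) (8) _ _ hC exp4_8 1437513595 (by decide +kernel) (1 / 1000000)
    (by norm_num)
  simpa using h

theorem val4_qz_rz_10 (hC : Chan 4 rz qz (-25) 20 202 74 tl4_qz_rz) :
    |ZZ 4 rz qz (10) * Real.exp (-(2 * 4 * (10) * f0)) - 1565048937 / 10 ^ 9| ≤ 1 / 1000000 := by
  have h := zz_bound 4 rz qz (-25) 20 202 (by norm_num) 74 68 (by norm_num) tl4_qz_rz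
    dl4_10 100000000000000000000 (by norm_num) (10) _ _ hC exp4_10 1565048937 (by decide +kernel) (1 / 1000000)
    (by norm_num)
  simpa using h

theorem val4_qz_rz_12h (hC : Chan 4 rz qz (-25) 20 202 74 tl4_qz_rz) :
    |ZZ 4 rz qz (25 / 2) * Real.exp (-(2 * 4 * (25 / 2) * f0)) - 1744419500 / 10 ^ 9| ≤ 4 / 1000000 := by
  have h := zz_bound 4 rz qz (-25) 20 202 (by norm_num) 74 74 (by norm_num) tl4_qz_rz
    dl4_12h 100000000000000000000 (by norm_num) (25 / 2) _ _ hC exp4_12h 1744419500 (by decide +kernel) (4 / 1000000)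
    (by norm_num)
  simpa using h

theorem val4_c3_1_4 (hC : Chan 4 1 c3 (-25) 20 202 74 tl4_c3_1) :
    |ZZ 4 1 c3 (4) * Real.exp (-(2 * 4 * (4) * f0)) - 1291809234 / 10 ^ 9| ≤ 1 / 1000000 := by
  have h := zz_bound 4 1 c3 (-25) 20 202 (by norm_num) 74 44 (by norm_num) tl4_c3_1
    dl4_4 100000000000000000000 (by norm_num) (4) _ _ hC exp4_4 1291809234 (by decide +kernel) (1 / 1000000)
    (by norm_num)
  simpa using h

theorem val4_c3_1_5 (hC : Chan 4 1 c3 (-25) 20 202 74 tl4_c3_1) :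
    |ZZ 4 1 c3 (5) * Real.exp (-(2 * 4 * (5) * f0)) - 1154178422 / 10 ^ 9| ≤ 1 / 1000000 := by
  have h := zz_bound 4 1 c3 (-25) 20 202 (by norm_num) 74 48 (by norm_num) tl4_c3_1
    dl4_5 100000000000000000000 (by norm_num) (5) _ _ hC exp4_5 1154178422 (by decide +kernel) (1 / 1000000)
    (by norm_num)
  simpa using h

theorem val4_c3_1_6q (hC : Chan 4 1 c3 (-25) 20 202 74 tl4_c3_1) :
    |ZZ 4 1 c3 (25 / 4) * Real.exp (-(2 * 4 * (25 / 4) * f0)) - 1068676488 / 10 ^ 9| ≤ 1 / 1000000 := by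
  have h := zz_bound 4 1 c3 (-25) 20 202 (by norm_num) 74 54 (by norm_num) tl4_c3_1
    dl4_6q 100000000000000000000 (by norm_num) (25 / 4) _ _ hC exp4_6q 1068676488 (by decide +kernel) (1 / 1000000)
    (by norm_num)
  simpa using h

theorem val4_c3_1_8 (hC : Chan 4 1 c3 (-25) 20 202 74 tl4_c3_1) :
    |ZZ 4 1 c3 (8) * Real.exp (-(2 * 4 * (8) * f0)) - 1014486063 / 10 ^ 9| ≤ 1 / 1000000 := by
  have h := zz_bound 4 1 c3 (-25) 20 202 (by norm_num) 74 61 (by norm_num) tl4_c3_1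
    dl4_8 100000000000000000000 (by norm_num) (8) _ _ hC exp4_8 1014486063 (by decide +kernel) (1 / 1000000)
    (by norm_num)
  simpa using h

theorem val4_c3_1_10 (hC : Chan 4 1 c3 (-25) 20 202 74 tl4_c3_1) :
    |ZZ 4 1 c3 (10) * Real.exp (-(2 * 4 * (10) * f0)) - 988223895 / 10 ^ 9| ≤ 1 / 1000000 := by
  have h := zz_bound 4 1 c3 (-25) 20 202 (by norm_num) 74 68 (by norm_num) tl4_c3_1
    dl4_10 100000000000000000000 (by norm_num) (10) _ _ hC exp4_10 988223895 (by decide +kernel) (1 / 1000000)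
    (by norm_num)
  simpa using h

theorem val4_c3_1_12h (hC : Chan 4 1 c3 (-25) 20 202 74 tl4_c3_1) :
    |ZZ 4 1 c3 (25 / 2) * Real.exp (-(2 * 4 * (25 / 2) * f0)) - 973259777 / 10 ^ 9| ≤ 4 / 1000000 := by
  have h := zz_bound 4 1 c3 (-25) 20 202 (by norm_num) 74 74 (by norm_num) tl4_c3_1
    dl4_12h 100000000000000000000 (by norm_num) (25 / 2) _ _ hC exp4_12h 973259777 (by decide +kernel) (4 / 1000000)
    (by norm_num)
  simpa using h

end P348
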