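import Vale.Agent.Lib.P348.NumG
import Vale.Agent.Lib.P348.PVal4

/-!
# P348 module NumC: the bounds of the table for N = 4, from the moments
-/

set_option linter.style.longLine false

namespace P348

theorem num4_0 (hC : Chan 4 1 1 (-25) 20 202 74 tl4_1_1) (j : ℕ) (hj : j < 6) :
    |gz 0 j 4 - (numC 4 0 j : ℝ) / 100000000| ≤ 5 / 1000000 := by
  have h6 : j = 0 ∨ j = 1 ∨ j = 2 ∨ j = 3 ∨ j = 4 ∨ j = 5 := by omega
  rcases h6 with rfl | rfl | rfl | rfl | rfl | rfl
  · exact num_of 4 0 0 1 1 4 _ (2123789561) (212378957) (by norm_num) bqv0 rfl (by decide)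
      3900 (1 / 1000000) (by norm_num) (by norm_num) (by simpa using val4_1_1_4 hC)
  · exact num_of 4 0 1 1 1 4 _ (2160064208) (216006420) (by norm_num) bqv1 rfl (by decide)
      3900 (1 / 1000000) (by norm_num) (by norm_num) (by simpa using val4_1_1_5 hC)
  · exact num_of 4 0 2 1 1 4 _ (2346620114) (234662008) (by norm_num) bqv2 rfl (by decide)
      3900 (1 / 1000000) (by norm_num) (by norm_num) (by simpa using val4_1_1_6q hC)
  · exact num_of 4 0 3 1 1 4 _ (2791550991) (279155103) (by norm_num) bqv3 rfl (by decide)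
      3900 (1 / 1000000) (by norm_num) (by norm_num) (by simpa using val4_1_1_8 hC)
  · exact num_of 4 0 4 1 1 4 _ (3522112425) (352211243) (by norm_num) bqv4 rfl (by decide)
      3900 (1 / 1000000) (by norm_num) (by norm_num) (by simpa using val4_1_1_10 hC)
  · exact num_of 4 0 5 1 1 4 _ (4786252843) (478625283) (by norm_num) bqv5 rfl (by decide)
      900 (4 / 1000000) (by norm_num) (by norm_num) (by simpa using val4_1_1_12h hC)

theorem num4_1 (hC : Chan 4 1 rz (-25) 20 202 74 tl4_rz_1) (j : ℕ) (hj : j < 6) :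
    |gz 1 j 4 - (numC 4 1 j : ℝ) / 100000000| ≤ 5 / 1000000 := by
  have h6 : j = 0 ∨ j = 1 ∨ j = 2 ∨ j = 3 ∨ j = 4 ∨ j = 5 := by omega
  rcases h6 with rfl | rfl | rfl | rfl | rfl | rfl
  · exact num_of 4 1 0 1 rz 4 _ (1056961090) (105696109) (by norm_num) bqv0 rfl (by decide)
      3900 (1 / 1000000) (by norm_num) (by norm_num) (by simpa using val4_rz_1_4 hC)
  · exact num_of 4 1 1 1 rz 4 _ (896072782) (89607278) (by norm_num) bqv1 rfl (by decide)
      3900 (1 / 1000000) (by norm_num) (by norm_num) (by simpa using val4_rz_1_5 hC)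
  · exact num_of 4 1 2 1 rz 4 _ (777369028) (77736903) (by norm_num) bqv2 rfl (by decide)
      3900 (1 / 1000000) (by norm_num) (by norm_num) (by simpa using val4_rz_1_6q hC)
  · exact num_of 4 1 3 1 rz 4 _ (671197684) (67119768) (by norm_num) bqv3 rfl (by decide)
      3900 (1 / 1000000) (by norm_num) (by norm_num) (by simpa using val4_rz_1_8 hC)
  · exact num_of 4 1 4 1 rz 4 _ (585449927) (58544993) (by norm_num) bqv4 rfl (by decide)
      3900 (1 / 1000000) (by norm_num) (by norm_num) (by simpa using val4_rz_1_10 hC)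
  · exact num_of 4 1 5 1 rz 4 _ (502782984) (50278298) (by norm_num) bqv5 rfl (by decide)
      900 (4 / 1000000) (by norm_num) (by norm_num) (by simpa using val4_rz_1_12h hC)

theorem num4_2 (hC : Chan 4 1 qz (-25) 20 202 74 tl4_qz_1) (j : ℕ) (hj : j < 6) :
    |gz 2 j 4 - (numC 4 2 j : ℝ) / 100000000| ≤ 5 / 1000000 := by
  have h6 : j = 0 ∨ j = 1 ∨ j = 2 ∨ j = 3 ∨ j = 4 ∨ j = 5 := by omega
  rcases h6 with rfl | rfl | rfl | rfl | rfl | rfl
  · exact num_of 4 2 0 1 qz 4 _ (1547515439) (154751544) (by norm_num) bqv0 rfl (by decide)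
      3900 (1 / 1000000) (by norm_num) (by norm_num) (by simpa using val4_qz_1_4 hC)
  · exact num_of 4 2 1 1 qz 4 _ (1449438751) (144943875) (by norm_num) bqv1 rfl (by decide)
      3900 (1 / 1000000) (by norm_num) (by norm_num) (by simpa using val4_qz_1_5 hC)
  · exact num_of 4 2 2 1 qz 4 _ (1422776611) (142277660) (by norm_num) bqv2 rfl (by decide)
      3900 (1 / 1000000) (by norm_num) (by norm_num) (by simpa using val4_qz_1_6q hC)
  · exact num_of 4 2 3 1 qz 4 _ (1468028995) (146802900) (by norm_num) bqv3 rfl (by decide)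
      3900 (1 / 1000000) (by norm_num) (by norm_num) (by simpa using val4_qz_1_8 hC)
  · exact num_of 4 2 4 1 qz 4 _ (1574055775) (157405578) (by norm_num) bqv4 rfl (by decide)
      3900 (1 / 1000000) (by norm_num) (by norm_num) (by simpa using val4_qz_1_10 hC)
  · exact num_of 4 2 5 1 qz 4 _ (1746381153) (174638112) (by norm_num) bqv5 rfl (by decide)
      900 (4 / 1000000) (by norm_num) (by norm_num) (by simpa using val4_qz_1_12h hC)

theorem num4_3 (hC : Chan 4 1 c3 (-25) 20 202 74 tl4_c3_1) (j : ℕ) (hj : j < 6) :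
    |gz 3 j 4 - (numC 4 3 j : ℝ) / 100000000| ≤ 5 / 1000000 := by
  have h6 : j = 0 ∨ j = 1 ∨ j = 2 ∨ j = 3 ∨ j = 4 ∨ j = 5 := by omega
  rcases h6 with rfl | rfl | rfl | rfl | rfl | rfl
  · exact num_of 4 3 0 1 c3 4 _ (1291809234) (129180924) (by norm_num) bqv0 rfl (by decide)
      3900 (1 / 1000000) (by norm_num) (by norm_num) (by simpa using val4_c3_1_4 hC)
  · exact num_of 4 3 1 1 c3 4 _ (1154178422) (115417842) (by norm_num) bqv1 rfl (by decide)
      3900 (1 / 1000000) (by norm_num) (by norm_num) (by simpa using val4_c3_1_5 hC)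
  · exact num_of 4 3 2 1 c3 4 _ (1068676488) (106867649) (by norm_num) bqv2 rfl (by decide)
      3900 (1 / 1000000) (by norm_num) (by norm_num) (by simpa using val4_c3_1_6q hC)
  · exact num_of 4 3 3 1 c3 4 _ (1014486063) (101448606) (by norm_num) bqv3 rfl (by decide)
      3900 (1 / 1000000) (by norm_num) (by norm_num) (by simpa using val4_c3_1_8 hC)
  · exact num_of 4 3 4 1 c3 4 _ (988223895) (98822390) (by norm_num) bqv4 rfl (by decide)
      3900 (1 / 1000000) (by norm_num) (by norm_num) (by simpa using val4_c3_1_10 hC)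
  · exact num_of 4 3 5 1 c3 4 _ (973259777) (97325975) (by norm_num) bqv5 rfl (by decide)
      900 (4 / 1000000) (by norm_num) (by norm_num) (by simpa using val4_c3_1_12h hC)

theorem num4_4 (hC : Chan 4 rz 1 (-25) 20 202 74 tl4_1_rz) (j : ℕ) (hj : j < 6) :
    |gz 4 j 4 - (numC 4 4 j : ℝ) / 100000000| ≤ 5 / 1000000 := by
  have h6 : j = 0 ∨ j = 1 ∨ j = 2 ∨ j = 3 ∨ j = 4 ∨ j = 5 := by omega
  rcases h6 with rfl | rfl | rfl | rfl | rfl | rfl
  · exact num_of 4 4 0 rz 1 4 _ (1495687699) (149568770) (by norm_num) bqv0 rfl (by decide)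
      3900 (1 / 1000000) (by norm_num) (by norm_num) (by simpa using val4_1_rz_4 hC)
  · exact num_of 4 4 1 rz 1 4 _ (1773256064) (177325607) (by norm_num) bqv1 rfl (by decide)
      3900 (1 / 1000000) (by norm_num) (by norm_num) (by simpa using val4_1_rz_5 hC)
  · exact num_of 4 4 2 rz 1 4 _ (2132284928) (213228493) (by norm_num) bqv2 rfl (by decide)
      3900 (1 / 1000000) (by norm_num) (by norm_num) (by simpa using val4_1_rz_6q hC)
  · exact num_of 4 4 3 rz 1 4 _ (2697232523) (269723253) (by norm_num) bqv3 rfl (by decide)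
      3900 (1 / 1000000) (by norm_num) (by norm_num) (by simpa using val4_1_rz_8 hC)
  · exact num_of 4 4 4 rz 1 4 _ (3485158550) (348515855) (by norm_num) bqv4 rfl (by decide)
      3900 (1 / 1000000) (by norm_num) (by norm_num) (by simpa using val4_1_rz_10 hC)
  · exact num_of 4 4 5 rz 1 4 _ (4774796283) (477479629) (by norm_num) bqv5 rfl (by decide)
      900 (4 / 1000000) (by norm_num) (by norm_num) (by simpa using val4_1_rz_12h hC)

theorem num4_5 (hC : Chan 4 rz rz (-25) 20 202 74 tl4_rz_rz) (j : ℕ) (hj : j < 6) :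
    |gz 5 j 4 - (numC 4 5 j : ℝ) / 100000000| ≤ 5 / 1000000 := by
  have h6 : j = 0 ∨ j = 1 ∨ j = 2 ∨ j = 3 ∨ j = 4 ∨ j = 5 := by omega
  rcases h6 with rfl | rfl | rfl | rfl | rfl | rfl
  · exact num_of 4 5 0 rz rz 4 _ (899680850) (89968085) (by norm_num) bqv0 rfl (by decide)
      3900 (1 / 1000000) (by norm_num) (by norm_num) (by simpa using val4_rz_rz_4 hC)
  · exact num_of 4 5 1 rz rz 4 _ (840727166) (84072717) (by norm_num) bqv1 rfl (by decide)
      3900 (1 / 1000000) (by norm_num) (by norm_num) (by simpa using val4_rz_rz_5 hC)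
  · exact num_of 4 5 2 rz rz 4 _ (761965271) (76196527) (by norm_num) bqv2 rfl (by decide)
      3900 (1 / 1000000) (by norm_num) (by norm_num) (by simpa using val4_rz_rz_6q hC)
  · exact num_of 4 5 3 rz rz 4 _ (668573903) (66857390) (by norm_num) bqv3 rfl (by decide)
      3900 (1 / 1000000) (by norm_num) (by norm_num) (by simpa using val4_rz_rz_8 hC)
  · exact num_of 4 5 4 rz rz 4 _ (585099168) (58509916) (by norm_num) bqv4 rfl (by decide)
      3900 (1 / 1000000) (by norm_num) (by norm_num) (by simpa using val4_rz_rz_10 hC)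
  · exact num_of 4 5 5 rz rz 4 _ (502754493) (50275450) (by norm_num) bqv5 rfl (by decide)
      900 (4 / 1000000) (by norm_num) (by norm_num) (by simpa using val4_rz_rz_12h hC)

theorem num4_6 (hC : Chan 4 rz qz (-25) 20 202 74 tl4_qz_rz) (j : ℕ) (hj : j < 6) :
    |gz 6 j 4 - (numC 4 6 j : ℝ) / 100000000| ≤ 5 / 1000000 := by
  have h6 : j = 0 ∨ j = 1 ∨ j = 2 ∨ j = 3 ∨ j = 4 ∨ j = 5 := by omega
  rcases h6 with rfl | rfl | rfl | rfl | rfl | rfl
  · exact num_of 4 6 0 rz qz 4 _ (1177257468) (117725747) (by norm_num) bqv0 rfl (by decide)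
      3900 (1 / 1000000) (by norm_num) (by norm_num) (by simpa using val4_qz_rz_4 hC)
  · exact num_of 4 6 1 rz qz 4 _ (1255495672) (125549567) (by norm_num) bqv1 rfl (by decide)
      3900 (1 / 1000000) (by norm_num) (by norm_num) (by simpa using val4_qz_rz_5 hC)
  · exact num_of 4 6 2 rz qz 4 _ (1333632580) (133363258) (by norm_num) bqv2 rfl (by decide)
      3900 (1 / 1000000) (by norm_num) (by norm_num) (by simpa using val4_qz_rz_6q hC)
  · exact num_of 4 6 3 rz qz 4 _ (1437513595) (143751359) (by norm_num) bqv3 rfl (by decide)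
      3900 (1 / 1000000) (by norm_num) (by norm_num) (by simpa using val4_qz_rz_8 hC)
  · exact num_of 4 6 4 rz qz 4 _ (1565048937) (156504894) (by norm_num) bqv4 rfl (by decide)
      3900 (1 / 1000000) (by norm_num) (by norm_num) (by simpa using val4_qz_rz_10 hC)
  · exact num_of 4 6 5 rz qz 4 _ (1744419500) (174441951) (by norm_num) bqv5 rfl (by decide)
      900 (4 / 1000000) (by norm_num) (by norm_num) (by simpa using val4_qz_rz_12h hC)

theorem num4_7 (hC : Chan 4 rx rz (-25) 20 202 74 tl4_rz_rx) (j : ℕ) (hj : j < 6) :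
    |gz 7 j 4 - (numC 4 7 j : ℝ) / 100000000| ≤ 5 / 1000000 := by
  have h6 : j = 0 ∨ j = 1 ∨ j = 2 ∨ j = 3 ∨ j = 4 ∨ j = 5 := by omega
  rcases h6 with rfl | rfl | rfl | rfl | rfl | rfl
  · exact num_of 4 7 0 rx rz 4 _ (-624573324) (-62457332) (by norm_num) bqv0 (ZZ_rz_rx 4 _) (by decide)
      3900 (1 / 1000000) (by norm_num) (by norm_num) (by simpa using val4_rz_rx_4 hC)
  · exact num_of 4 7 1 rx rz 4 _ (-646080795) (-64608080) (by norm_num) bqv1 (ZZ_rz_rx 4 _) (by decide)
      3900 (1 / 1000000) (by norm_num) (by norm_num) (by simpa using val4_rz_rx_5 hC)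
  · exact num_of 4 7 2 rx rz 4 _ (-642835417) (-64283542) (by norm_num) bqv2 (ZZ_rz_rx 4 _) (by decide)
      3900 (1 / 1000000) (by norm_num) (by norm_num) (by simpa using val4_rz_rx_6q hC)
  · exact num_of 4 7 3 rx rz 4 _ (-611530866) (-61153087) (by norm_num) bqv3 (ZZ_rz_rx 4 _) (by decide)
      3900 (1 / 1000000) (by norm_num) (by norm_num) (by simpa using val4_rz_rx_8 hC)
  · exact num_of 4 7 4 rx rz 4 _ (-561175696) (-56117569) (by norm_num) bqv4 (ZZ_rz_rx 4 _) (by decide)
      3900 (1 / 1000000) (by norm_num) (by norm_num) (by simpa using val4_rz_rx_10 hC)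
  · exact num_of 4 7 5 rx rz 4 _ (-494785474) (-49478547) (by norm_num) bqv5 (ZZ_rz_rx 4 _) (by decide)
      900 (4 / 1000000) (by norm_num) (by norm_num) (by simpa using val4_rz_rx_12h hC)

end P348
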