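import Vale.Agent.Lib.P348.NumA
import Vale.Agent.Lib.P348.NumB
import Vale.Agent.Lib.P348.NumC
import Vale.Agent.Lib.P348.KF2
import Vale.Agent.Lib.P348.KF3
import Vale.Agent.Lib.P348.KF4

/-!
# P348 module Num: the 144 numerical bounds (from the moments and the Chebyshev certificates)
The table `numC` holds the values rounded to 10^(-8); the error allowed is 5 * 10^(-6).
-/

namespace P348

theorem num_bound2 (c j : ℕ) (hc : c < 8) (hj : j < 6) :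
    |gz c j 2 - (numC 2 c j : ℝ) / 100000000| ≤ 5 / 1000000 := by
  have h8 : c = 0 ∨ c = 1 ∨ c = 2 ∨ c = 3 ∨ c = 4 ∨ c = 5 ∨ c = 6 ∨ c = 7 := by omega
  rcases h8 with rfl | rfl | rfl | rfl | rfl | rfl | rfl | rfl
  · exact num2_0 (chan2_1_1 mok2_1_1 mok2_1_1) j hj
  · exact num2_1 (chan2_rz_1 mok2_rz_1 mok2_rz_1) j hj
  · exact num2_2 (chan2_qz_1 mok2_qz_1 mok2_qz_1) j hj
  · exact num2_3 (chan2_c3_1 mok2_c3_1 mok2_c3_1) j hj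
  · exact num2_4 (chan2_1_rz mok2_1_1 mok2_1_rz) j hj
  · exact num2_5 (chan2_rz_rz mok2_rz_1 mok2_rz_rz) j hj
  · exact num2_6 (chan2_qz_rz mok2_qz_1 mok2_qz_rz) j hj
  · exact num2_7 (chan2_rz_rx mok2_rz_1 mok2_rz_rx) j hj

theorem num_bound3 (c j : ℕ) (hc : c < 8) (hj : j < 6) :
    |gz c j 3 - (numC 3 c j : ℝ) / 100000000| ≤ 5 / 1000000 := by
  have h8 : c = 0 ∨ c = 1 ∨ c = 2 ∨ c = 3 ∨ c = 4 ∨ c = 5 ∨ c = 6 ∨ c = 7 := by omega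
  rcases h8 with rfl | rfl | rfl | rfl | rfl | rfl | rfl | rfl
  · exact num3_0 (chan3_1_1 mok3_1_1 mok3_1_1) j hj
  · exact num3_1 (chan3_rz_1 mok3_rz_1 mok3_rz_1) j hj
  · exact num3_2 (chan3_qz_1 mok3_qz_1 mok3_qz_1) j hj
  · exact num3_3 (chan3_c3_1 mok3_c3_1 mok3_c3_1) j hj
  · exact num3_4 (chan3_1_rz mok3_1_1 mok3_1_rz) j hj
  · exact num3_5 (chan3_rz_rz mok3_rz_1 mok3_rz_rz) j hj
  · exact num3_6 (chan3_qz_rz mok3_qz_1 mok3_qz_rz) j hj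
  · exact num3_7 (chan3_rz_rx mok3_rz_1 mok3_rz_rx) j hj

theorem num_bound4 (c j : ℕ) (hc : c < 8) (hj : j < 6) :
    |gz c j 4 - (numC 4 c j : ℝ) / 100000000| ≤ 5 / 1000000 := by
  have h8 : c = 0 ∨ c = 1 ∨ c = 2 ∨ c = 3 ∨ c = 4 ∨ c = 5 ∨ c = 6 ∨ c = 7 := by omega
  rcases h8 with rfl | rfl | rfl | rfl | rfl | rfl | rfl | rfl
  · exact num4_0 (chan4_1_1 mok4_1_1 mok4_1_1) j hj
  · exact num4_1 (chan4_rz_1 mok4_rz_1 mok4_rz_1) j hj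
  · exact num4_2 (chan4_qz_1 mok4_qz_1 mok4_qz_1) j hj
  · exact num4_3 (chan4_c3_1 mok4_c3_1 mok4_c3_1) j hj
  · exact num4_4 (chan4_1_rz mok4_1_1 mok4_1_rz) j hj
  · exact num4_5 (chan4_rz_rz mok4_rz_1 mok4_rz_rz) j hj
  · exact num4_6 (chan4_qz_rz mok4_qz_1 mok4_qz_rz) j hj
  · exact num4_7 (chan4_rz_rx mok4_rz_1 mok4_rz_rx) j hj

theorem num_bound (N c j : ℕ) (hN : N = 2 ∨ N = 3 ∨ N = 4) (hc : c < 8) (hj : j < 6) :
    |gz c j N - (numC N c j : ℝ) / 100000000| ≤ 5 / 1000000 := by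
  rcases hN with rfl | rfl | rfl
  · exact num_bound2 c j hc hj
  · exact num_bound3 c j hc hj
  · exact num_bound4 c j hc hj

end P348
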