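import Vale.Agent.Lib.P348.PChan2
import Vale.Agent.Lib.P348.PExp2

/-!
# P348 module PVal2: numerical values of the twisted partition functions, ring of length 4

Each bound is `|ZZ 2 W R β * exp (-(2 * 2 * β * f0)) - Q / 10^9| ≤ 10^(-6)`.
-/

namespace P348

theorem val2_1_1_4 (hC : Chan 2 1 1 (-18) 20 104 56 tl2_1_1) :
    |ZZ 2 1 1 (4) * Real.exp (-(2 * 2 * (4) * f0)) - 5103235028 / 10 ^ 9| ≤ 1 / 1000000 := by
  have h := zz_bound 2 1 1 (-18) 20 104 (by norm_num) 56 30 (by norm_num) tl2_1_1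
    dl2_4 100000000000000000000 (by norm_num) (4) _ _ hC exp2_4 5103235028 (by decide +kernel) (1 / 1000000)
    (by norm_num)
  simpa using h

theorem val2_1_1_5 (hC : Chan 2 1 1 (-18) 20 104 56 tl2_1_1) :
    |ZZ 2 1 1 (5) * Real.exp (-(2 * 2 * (5) * f0)) - 7318574732 / 10 ^ 9| ≤ 1 / 1000000 := by
  have h := zz_bound 2 1 1 (-18) 20 104 (by norm_num) 56 33 (by norm_num) tl2_1_1
    dl2_5 100000000000000000000 (by norm_num) (5) _ _ hC exp2_5 7318574732 (by decide +kernel) (1 / 1000000)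
    (by norm_num)
  simpa using h

theorem val2_1_1_6q (hC : Chan 2 1 1 (-18) 20 104 56 tl2_1_1) :
    |ZZ 2 1 1 (25 / 4) * Real.exp (-(2 * 2 * (25 / 4) * f0)) - 11807970083 / 10 ^ 9| ≤ 1 / 1000000 := by
  have h := zz_bound 2 1 1 (-18) 20 104 (by norm_num) 56 38 (by norm_num) tl2_1_1
    dl2_6q 100000000000000000000 (by norm_num) (25 / 4) _ _ hC exp2_6q 11807970083 (by decide +kernel) (1 / 1000000)
    (by norm_num)
  simpa using h

theorem val2_1_1_8 (hC : Chan 2 1 1 (-18) 20 104 56 tl2_1_1) :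
    |ZZ 2 1 1 (8) * Real.exp (-(2 * 2 * (8) * f0)) - 23421300386 / 10 ^ 9| ≤ 1 / 1000000 := by
  have h := zz_bound 2 1 1 (-18) 20 104 (by norm_num) 56 43 (by norm_num) tl2_1_1
    dl2_8 100000000000000000000 (by norm_num) (8) _ _ hC exp2_8 23421300386 (by decide +kernel) (1 / 1000000)
    (by norm_num)
  simpa using h

theorem val2_1_1_10 (hC : Chan 2 1 1 (-18) 20 104 56 tl2_1_1) :
    |ZZ 2 1 1 (10) * Real.exp (-(2 * 2 * (10) * f0)) - 51466761437 / 10 ^ 9| ≤ 1 / 1000000 := by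
  have h := zz_bound 2 1 1 (-18) 20 104 (by norm_num) 56 49 (by norm_num) tl2_1_1
    dl2_10 100000000000000000000 (by norm_num) (10) _ _ hC exp2_10 51466761437 (by decide +kernel) (1 / 1000000)
    (by norm_num)
  simpa using h

theorem val2_1_1_12h (hC : Chan 2 1 1 (-18) 20 104 56 tl2_1_1) :
    |ZZ 2 1 1 (25 / 2) * Real.exp (-(2 * 2 * (25 / 2) * f0)) - 137828640699 / 10 ^ 9| ≤ 1 / 1000000 := by
  have h := zz_bound 2 1 1 (-18) 20 104 (by norm_num) 56 56 (by norm_num) tl2_1_1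
    dl2_12h 100000000000000000000 (by norm_num) (25 / 2) _ _ hC exp2_12h 137828640699 (by decide +kernel) (1 / 1000000)
    (by norm_num)
  simpa using h

theorem val2_1_rz_4 (hC : Chan 2 rz 1 (-18) 20 104 56 tl2_1_rz) :
    |ZZ 2 rz 1 (4) * Real.exp (-(2 * 2 * (4) * f0)) - 4748498252 / 10 ^ 9| ≤ 1 / 1000000 := by
  have h := zz_bound 2 rz 1 (-18) 20 104 (by norm_num) 56 30 (by norm_num) tl2_1_rz
    dl2_4 100000000000000000000 (by norm_num) (4) _ _ hC exp2_4 4748498252 (by decide +kernel) (1 / 1000000)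
    (by norm_num)
  simpa using h

theorem val2_1_rz_5 (hC : Chan 2 rz 1 (-18) 20 104 56 tl2_1_rz) :
    |ZZ 2 rz 1 (5) * Real.exp (-(2 * 2 * (5) * f0)) - 7125208194 / 10 ^ 9| ≤ 1 / 1000000 := by
  have h := zz_bound 2 rz 1 (-18) 20 104 (by norm_num) 56 33 (by norm_num) tl2_1_rz
    dl2_5 100000000000000000000 (by norm_num) (5) _ _ hC exp2_5 7125208194 (by decide +kernel) (1 / 1000000)
    (by norm_num)
  simpa using h

theorem val2_1_rz_6q (hC : Chan 2 rz 1 (-18) 20 104 56 tl2_1_rz) :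
    |ZZ 2 rz 1 (25 / 4) * Real.exp (-(2 * 2 * (25 / 4) * f0)) - 11717315118 / 10 ^ 9| ≤ 1 / 1000000 := by
  have h := zz_bound 2 rz 1 (-18) 20 104 (by norm_num) 56 38 (by norm_num) tl2_1_rz
    dl2_6q 100000000000000000000 (by norm_num) (25 / 4) _ _ hC exp2_6q 11717315118 (by decide +kernel) (1 / 1000000)
    (by norm_num)
  simpa using h

theorem val2_1_rz_8 (hC : Chan 2 rz 1 (-18) 20 104 56 tl2_1_rz) :
    |ZZ 2 rz 1 (8) * Real.exp (-(2 * 2 * (8) * f0)) - 23389904122 / 10 ^ 9| ≤ 1 / 1000000 := by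
  have h := zz_bound 2 rz 1 (-18) 20 104 (by norm_num) 56 43 (by norm_num) tl2_1_rz
    dl2_8 100000000000000000000 (by norm_num) (8) _ _ hC exp2_8 23389904122 (by decide +kernel) (1 / 1000000)
    (by norm_num)
  simpa using h

theorem val2_1_rz_10 (hC : Chan 2 rz 1 (-18) 20 104 56 tl2_1_rz) :
    |ZZ 2 rz 1 (10) * Real.exp (-(2 * 2 * (10) * f0)) - 51457416367 / 10 ^ 9| ≤ 1 / 1000000 := by
  have h := zz_bound 2 rz 1 (-18) 20 104 (by norm_num) 56 49 (by norm_num) tl2_1_rz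
    dl2_10 100000000000000000000 (by norm_num) (10) _ _ hC exp2_10 51457416367 (by decide +kernel) (1 / 1000000)
    (by norm_num)
  simpa using h

theorem val2_1_rz_12h (hC : Chan 2 rz 1 (-18) 20 104 56 tl2_1_rz) :
    |ZZ 2 rz 1 (25 / 2) * Real.exp (-(2 * 2 * (25 / 2) * f0)) - 137826586214 / 10 ^ 9| ≤ 1 / 1000000 := by
  have h := zz_bound 2 rz 1 (-18) 20 104 (by norm_num) 56 56 (by norm_num) tl2_1_rz
    dl2_12h 100000000000000000000 (by norm_num) (25 / 2) _ _ hC exp2_12h 137826586214 (by decide +kernel) (1 / 1000000)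
    (by norm_num)
  simpa using h

theorem val2_rz_1_4 (hC : Chan 2 1 rz (-18) 20 104 56 tl2_rz_1) :
    |ZZ 2 1 rz (4) * Real.exp (-(2 * 2 * (4) * f0)) - 535775658 / 10 ^ 9| ≤ 1 / 1000000 := by
  have h := zz_bound 2 1 rz (-18) 20 104 (by norm_num) 56 30 (by norm_num) tl2_rz_1
    dl2_4 100000000000000000000 (by norm_num) (4) _ _ hC exp2_4 535775658 (by decide +kernel) (1 / 1000000)
    (by norm_num)
  simpa using h

theorem val2_rz_1_5 (hC : Chan 2 1 rz (-18) 20 104 56 tl2_rz_1) :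
    |ZZ 2 1 rz (5) * Real.exp (-(2 * 2 * (5) * f0)) - 400011055 / 10 ^ 9| ≤ 1 / 1000000 := by
  have h := zz_bound 2 1 rz (-18) 20 104 (by norm_num) 56 33 (by norm_num) tl2_rz_1
    dl2_5 100000000000000000000 (by norm_num) (5) _ _ hC exp2_5 400011055 (by decide +kernel) (1 / 1000000)
    (by norm_num)
  simpa using h

theorem val2_rz_1_6q (hC : Chan 2 1 rz (-18) 20 104 56 tl2_rz_1) :
    |ZZ 2 1 rz (25 / 4) * Real.exp (-(2 * 2 * (25 / 4) * f0)) - 284519909 / 10 ^ 9| ≤ 1 / 1000000 := by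
  have h := zz_bound 2 1 rz (-18) 20 104 (by norm_num) 56 38 (by norm_num) tl2_rz_1
    dl2_6q 100000000000000000000 (by norm_num) (25 / 4) _ _ hC exp2_6q 284519909 (by decide +kernel) (1 / 1000000)
    (by norm_num)
  simpa using h

theorem val2_rz_1_8 (hC : Chan 2 1 rz (-18) 20 104 56 tl2_rz_1) :
    |ZZ 2 1 rz (8) * Real.exp (-(2 * 2 * (8) * f0)) - 181613070 / 10 ^ 9| ≤ 1 / 1000000 := by
  have h := zz_bound 2 1 rz (-18) 20 104 (by norm_num) 56 43 (by norm_num) tl2_rz_1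
    dl2_8 100000000000000000000 (by norm_num) (8) _ _ hC exp2_8 181613070 (by decide +kernel) (1 / 1000000)
    (by norm_num)
  simpa using h

theorem val2_rz_1_10 (hC : Chan 2 1 rz (-18) 20 104 56 tl2_rz_1) :
    |ZZ 2 1 rz (10) * Real.exp (-(2 * 2 * (10) * f0)) - 111567431 / 10 ^ 9| ≤ 1 / 1000000 := by
  have h := zz_bound 2 1 rz (-18) 20 104 (by norm_num) 56 49 (by norm_num) tl2_rz_1
    dl2_10 100000000000000000000 (by norm_num) (10) _ _ hC exp2_10 111567431 (by decide +kernel) (1 / 1000000)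
    (by norm_num)
  simpa using h

theorem val2_rz_1_12h (hC : Chan 2 1 rz (-18) 20 104 56 tl2_rz_1) :
    |ZZ 2 1 rz (25 / 2) * Real.exp (-(2 * 2 * (25 / 2) * f0)) - 62064311 / 10 ^ 9| ≤ 1 / 1000000 := by
  have h := zz_bound 2 1 rz (-18) 20 104 (by norm_num) 56 56 (by norm_num) tl2_rz_1
    dl2_12h 100000000000000000000 (by norm_num) (25 / 2) _ _ hC exp2_12h 62064311 (by decide +kernel) (1 / 1000000)
    (by norm_num)
  simpa using h

theorem val2_rz_rz_4 (hC : Chan 2 rz rz (-18) 20 104 56 tl2_rz_rz) :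
    |ZZ 2 rz rz (4) * Real.exp (-(2 * 2 * (4) * f0)) - 528551046 / 10 ^ 9| ≤ 1 / 1000000 := by
  have h := zz_bound 2 rz rz (-18) 20 104 (by norm_num) 56 30 (by norm_num) tl2_rz_rz
    dl2_4 100000000000000000000 (by norm_num) (4) _ _ hC exp2_4 528551046 (by decide +kernel) (1 / 1000000)
    (by norm_num)
  simpa using h

theorem val2_rz_rz_5 (hC : Chan 2 rz rz (-18) 20 104 56 tl2_rz_rz) :
    |ZZ 2 rz rz (5) * Real.exp (-(2 * 2 * (5) * f0)) - 398823239 / 10 ^ 9| ≤ 1 / 1000000 := by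
  have h := zz_bound 2 rz rz (-18) 20 104 (by norm_num) 56 33 (by norm_num) tl2_rz_rz
    dl2_5 100000000000000000000 (by norm_num) (5) _ _ hC exp2_5 398823239 (by decide +kernel) (1 / 1000000)
    (by norm_num)
  simpa using h

theorem val2_rz_rz_6q (hC : Chan 2 rz rz (-18) 20 104 56 tl2_rz_rz) :
    |ZZ 2 rz rz (25 / 4) * Real.exp (-(2 * 2 * (25 / 4) * f0)) - 284392859 / 10 ^ 9| ≤ 1 / 1000000 := by
  have h := zz_bound 2 rz rz (-18) 20 104 (by norm_num) 56 38 (by norm_num) tl2_rz_rz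
    dl2_6q 100000000000000000000 (by norm_num) (25 / 4) _ _ hC exp2_6q 284392859 (by decide +kernel) (1 / 1000000)
    (by norm_num)
  simpa using h

theorem val2_rz_rz_8 (hC : Chan 2 rz rz (-18) 20 104 56 tl2_rz_rz) :
    |ZZ 2 rz rz (8) * Real.exp (-(2 * 2 * (8) * f0)) - 181607536 / 10 ^ 9| ≤ 1 / 1000000 := by
  have h := zz_bound 2 rz rz (-18) 20 104 (by norm_num) 56 43 (by norm_num) tl2_rz_rz
    dl2_8 100000000000000000000 (by norm_num) (8) _ _ hC exp2_8 181607536 (by decide +kernel) (1 / 1000000)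
    (by norm_num)
  simpa using h

theorem val2_rz_rz_10 (hC : Chan 2 rz rz (-18) 20 104 56 tl2_rz_rz) :
    |ZZ 2 rz rz (10) * Real.exp (-(2 * 2 * (10) * f0)) - 111567380 / 10 ^ 9| ≤ 1 / 1000000 := by
  have h := zz_bound 2 rz rz (-18) 20 104 (by norm_num) 56 49 (by norm_num) tl2_rz_rz
    dl2_10 100000000000000000000 (by norm_num) (10) _ _ hC exp2_10 111567380 (by decide +kernel) (1 / 1000000)
    (by norm_num)
  simpa using h

theorem val2_rz_rz_12h (hC : Chan 2 rz rz (-18) 20 104 56 tl2_rz_rz) :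
    |ZZ 2 rz rz (25 / 2) * Real.exp (-(2 * 2 * (25 / 2) * f0)) - 62064341 / 10 ^ 9| ≤ 1 / 1000000 := by
  have h := zz_bound 2 rz rz (-18) 20 104 (by norm_num) 56 56 (by norm_num) tl2_rz_rz
    dl2_12h 100000000000000000000 (by norm_num) (25 / 2) _ _ hC exp2_12h 62064341 (by decide +kernel) (1 / 1000000)
    (by norm_num)
  simpa using h

theorem val2_rz_rx_4 (hC : Chan 2 rx rz (-18) 20 104 56 tl2_rz_rx) :
    |ZZ 2 rx rz (4) * Real.exp (-(2 * 2 * (4) * f0)) - (-283334456) / 10 ^ 9| ≤ 1 / 1000000 := by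
  have h := zz_bound 2 rx rz (-18) 20 104 (by norm_num) 56 30 (by norm_num) tl2_rz_rx
    dl2_4 100000000000000000000 (by norm_num) (4) _ _ hC exp2_4 (-283334456) (by decide +kernel) (1 / 1000000)
    (by norm_num)
  simpa using h

theorem val2_rz_rx_5 (hC : Chan 2 rx rz (-18) 20 104 56 tl2_rz_rx) :
    |ZZ 2 rx rz (5) * Real.exp (-(2 * 2 * (5) * f0)) - (-252235519) / 10 ^ 9| ≤ 1 / 1000000 := by
  have h := zz_bound 2 rx rz (-18) 20 104 (by norm_num) 56 33 (by norm_num) tl2_rz_rx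
    dl2_5 100000000000000000000 (by norm_num) (5) _ _ hC exp2_5 (-252235519) (by decide +kernel) (1 / 1000000)
    (by norm_num)
  simpa using h

theorem val2_rz_rx_6q (hC : Chan 2 rx rz (-18) 20 104 56 tl2_rz_rx) :
    |ZZ 2 rx rz (25 / 4) * Real.exp (-(2 * 2 * (25 / 4) * f0)) - (-207880542) / 10 ^ 9| ≤ 1 / 1000000 := by
  have h := zz_bound 2 rx rz (-18) 20 104 (by norm_num) 56 38 (by norm_num) tl2_rz_rx
    dl2_6q 100000000000000000000 (by norm_num) (25 / 4) _ _ hC exp2_6q (-207880542) (by decide +kernel) (1 / 1000000)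
    (by norm_num)
  simpa using h

theorem val2_rz_rx_8 (hC : Chan 2 rx rz (-18) 20 104 56 tl2_rz_rx) :
    |ZZ 2 rx rz (8) * Real.exp (-(2 * 2 * (8) * f0)) - (-150901857) / 10 ^ 9| ≤ 1 / 1000000 := by
  have h := zz_bound 2 rx rz (-18) 20 104 (by norm_num) 56 43 (by norm_num) tl2_rz_rx
    dl2_8 100000000000000000000 (by norm_num) (8) _ _ hC exp2_8 (-150901857) (by decide +kernel) (1 / 1000000)
    (by norm_num)
  simpa using h

theorem val2_rz_rx_10 (hC : Chan 2 rx rz (-18) 20 104 56 tl2_rz_rx) :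
    |ZZ 2 rx rz (10) * Real.exp (-(2 * 2 * (10) * f0)) - (-100757945) / 10 ^ 9| ≤ 1 / 1000000 := by
  have h := zz_bound 2 rx rz (-18) 20 104 (by norm_num) 56 49 (by norm_num) tl2_rz_rx
    dl2_10 100000000000000000000 (by norm_num) (10) _ _ hC exp2_10 (-100757945) (by decide +kernel) (1 / 1000000)
    (by norm_num)
  simpa using h

theorem val2_rz_rx_12h (hC : Chan 2 rx rz (-18) 20 104 56 tl2_rz_rx) :
    |ZZ 2 rx rz (25 / 2) * Real.exp (-(2 * 2 * (25 / 2) * f0)) - (-59133467) / 10 ^ 9| ≤ 1 / 1000000 := by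
  have h := zz_bound 2 rx rz (-18) 20 104 (by norm_num) 56 56 (by norm_num) tl2_rz_rx
    dl2_12h 100000000000000000000 (by norm_num) (25 / 2) _ _ hC exp2_12h (-59133467) (by decide +kernel) (1 / 1000000)
    (by norm_num)
  simpa using h

theorem val2_qz_1_4 (hC : Chan 2 1 qz (-18) 20 104 56 tl2_qz_1) :
    |ZZ 2 1 qz (4) * Real.exp (-(2 * 2 * (4) * f0)) - 1914488223 / 10 ^ 9| ≤ 1 / 1000000 := by
  have h := zz_bound 2 1 qz (-18) 20 104 (by norm_num) 56 30 (by norm_num) tl2_qz_1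
    dl2_4 100000000000000000000 (by norm_num) (4) _ _ hC exp2_4 1914488223 (by decide +kernel) (1 / 1000000)
    (by norm_num)
  simpa using h

theorem val2_qz_1_5 (hC : Chan 2 1 qz (-18) 20 104 56 tl2_qz_1) :
    |ZZ 2 1 qz (5) * Real.exp (-(2 * 2 * (5) * f0)) - 2104652528 / 10 ^ 9| ≤ 1 / 1000000 := by
  have h := zz_bound 2 1 qz (-18) 20 104 (by norm_num) 56 33 (by norm_num) tl2_qz_1
    dl2_5 100000000000000000000 (by norm_num) (5) _ _ hC exp2_5 2104652528 (by decide +kernel) (1 / 1000000)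
    (by norm_num)
  simpa using h

theorem val2_qz_1_6q (hC : Chan 2 1 qz (-18) 20 104 56 tl2_qz_1) :
    |ZZ 2 1 qz (25 / 4) * Real.exp (-(2 * 2 * (25 / 4) * f0)) - 2450836603 / 10 ^ 9| ≤ 1 / 1000000 := by
  have h := zz_bound 2 1 qz (-18) 20 104 (by norm_num) 56 38 (by norm_num) tl2_qz_1
    dl2_6q 100000000000000000000 (by norm_num) (25 / 4) _ _ hC exp2_6q 2450836603 (by decide +kernel) (1 / 1000000)
    (by norm_num)
  simpa using h

theorem val2_qz_1_8 (hC : Chan 2 1 qz (-18) 20 104 56 tl2_qz_1) :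
    |ZZ 2 1 qz (8) * Real.exp (-(2 * 2 * (8) * f0)) - 3103182490 / 10 ^ 9| ≤ 1 / 1000000 := by
  have h := zz_bound 2 1 qz (-18) 20 104 (by norm_num) 56 43 (by norm_num) tl2_qz_1
    dl2_8 100000000000000000000 (by norm_num) (8) _ _ hC exp2_8 3103182490 (by decide +kernel) (1 / 1000000)
    (by norm_num)
  simpa using h

theorem val2_qz_1_10 (hC : Chan 2 1 qz (-18) 20 104 56 tl2_qz_1) :
    |ZZ 2 1 qz (10) * Real.exp (-(2 * 2 * (10) * f0)) - 4101977131 / 10 ^ 9| ≤ 1 / 1000000 := by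
  have h := zz_bound 2 1 qz (-18) 20 104 (by norm_num) 56 49 (by norm_num) tl2_qz_1
    dl2_10 100000000000000000000 (by norm_num) (10) _ _ hC exp2_10 4101977131 (by decide +kernel) (1 / 1000000)
    (by norm_num)
  simpa using h

theorem val2_qz_1_12h (hC : Chan 2 1 qz (-18) 20 104 56 tl2_qz_1) :
    |ZZ 2 1 qz (25 / 2) * Real.exp (-(2 * 2 * (25 / 2) * f0)) - 5831836742 / 10 ^ 9| ≤ 1 / 1000000 := by
  have h := zz_bound 2 1 qz (-18) 20 104 (by norm_num) 56 56 (by norm_num) tl2_qz_1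
    dl2_12h 100000000000000000000 (by norm_num) (25 / 2) _ _ hC exp2_12h 5831836742 (by decide +kernel) (1 / 1000000)
    (by norm_num)
  simpa using h

theorem val2_qz_rz_4 (hC : Chan 2 rz qz (-18) 20 104 56 tl2_qz_rz) :
    |ZZ 2 rz qz (4) * Real.exp (-(2 * 2 * (4) * f0)) - 1812465890 / 10 ^ 9| ≤ 1 / 1000000 := by
  have h := zz_bound 2 rz qz (-18) 20 104 (by norm_num) 56 30 (by norm_num) tl2_qz_rz
    dl2_4 100000000000000000000 (by norm_num) (4) _ _ hC exp2_4 1812465890 (by decide +kernel) (1 / 1000000)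
    (by norm_num)
  simpa using h

theorem val2_qz_rz_5 (hC : Chan 2 rz qz (-18) 20 104 56 tl2_qz_rz) :
    |ZZ 2 rz qz (5) * Real.exp (-(2 * 2 * (5) * f0)) - 2064093742 / 10 ^ 9| ≤ 1 / 1000000 := by
  have h := zz_bound 2 rz qz (-18) 20 104 (by norm_num) 56 33 (by norm_num) tl2_qz_rz
    dl2_5 100000000000000000000 (by norm_num) (5) _ _ hC exp2_5 2064093742 (by decide +kernel) (1 / 1000000)
    (by norm_num)
  simpa using h

theorem val2_qz_rz_6q (hC : Chan 2 rz qz (-18) 20 104 56 tl2_qz_rz) :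
    |ZZ 2 rz qz (25 / 4) * Real.exp (-(2 * 2 * (25 / 4) * f0)) - 2437981039 / 10 ^ 9| ≤ 1 / 1000000 := by
  have h := zz_bound 2 rz qz (-18) 20 104 (by norm_num) 56 38 (by norm_num) tl2_qz_rz
    dl2_6q 100000000000000000000 (by norm_num) (25 / 4) _ _ hC exp2_6q 2437981039 (by decide +kernel) (1 / 1000000)
    (by norm_num)
  simpa using h

theorem val2_qz_rz_8 (hC : Chan 2 rz qz (-18) 20 104 56 tl2_qz_rz) :
    |ZZ 2 rz qz (8) * Real.exp (-(2 * 2 * (8) * f0)) - 3100606295 / 10 ^ 9| ≤ 1 / 1000000 := by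
  have h := zz_bound 2 rz qz (-18) 20 104 (by norm_num) 56 43 (by norm_num) tl2_qz_rz
    dl2_8 100000000000000000000 (by norm_num) (8) _ _ hC exp2_8 3100606295 (by decide +kernel) (1 / 1000000)
    (by norm_num)
  simpa using h

theorem val2_qz_rz_10 (hC : Chan 2 rz qz (-18) 20 104 56 tl2_qz_rz) :
    |ZZ 2 rz qz (10) * Real.exp (-(2 * 2 * (10) * f0)) - 4101566669 / 10 ^ 9| ≤ 1 / 1000000 := by
  have h := zz_bound 2 rz qz (-18) 20 104 (by norm_num) 56 49 (by norm_num) tl2_qz_rz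
    dl2_10 100000000000000000000 (by norm_num) (10) _ _ hC exp2_10 4101566669 (by decide +kernel) (1 / 1000000)
    (by norm_num)
  simpa using h

theorem val2_qz_rz_12h (hC : Chan 2 rz qz (-18) 20 104 56 tl2_qz_rz) :
    |ZZ 2 rz qz (25 / 2) * Real.exp (-(2 * 2 * (25 / 2) * f0)) - 5831795480 / 10 ^ 9| ≤ 1 / 1000000 := by
  have h := zz_bound 2 rz qz (-18) 20 104 (by norm_num) 56 56 (by norm_num) tl2_qz_rz
    dl2_12h 100000000000000000000 (by norm_num) (25 / 2) _ _ hC exp2_12h 5831795480 (by decide +kernel) (1 / 1000000)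
    (by norm_num)
  simpa using h

theorem val2_c3_1_4 (hC : Chan 2 1 c3 (-18) 20 104 56 tl2_c3_1) :
    |ZZ 2 1 c3 (4) * Real.exp (-(2 * 2 * (4) * f0)) - 1059446952 / 10 ^ 9| ≤ 1 / 1000000 := by
  have h := zz_bound 2 1 c3 (-18) 20 104 (by norm_num) 56 30 (by norm_num) tl2_c3_1
    dl2_4 100000000000000000000 (by norm_num) (4) _ _ hC exp2_4 1059446952 (by decide +kernel) (1 / 1000000)
    (by norm_num)
  simpa using h

theorem val2_c3_1_5 (hC : Chan 2 1 c3 (-18) 20 104 56 tl2_c3_1) :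
    |ZZ 2 1 c3 (5) * Real.exp (-(2 * 2 * (5) * f0)) - 979557019 / 10 ^ 9| ≤ 1 / 1000000 := by
  have h := zz_bound 2 1 c3 (-18) 20 104 (by norm_num) 56 33 (by norm_num) tl2_c3_1
    dl2_5 100000000000000000000 (by norm_num) (5) _ _ hC exp2_5 979557019 (by decide +kernel) (1 / 1000000)
    (by norm_num)
  simpa using h

theorem val2_c3_1_6q (hC : Chan 2 1 c3 (-18) 20 104 56 tl2_c3_1) :
    |ZZ 2 1 c3 (25 / 4) * Real.exp (-(2 * 2 * (25 / 4) * f0)) - 920061849 / 10 ^ 9| ≤ 1 / 1000000 := by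
  have h := zz_bound 2 1 c3 (-18) 20 104 (by norm_num) 56 38 (by norm_num) tl2_c3_1
    dl2_6q 100000000000000000000 (by norm_num) (25 / 4) _ _ hC exp2_6q 920061849 (by decide +kernel) (1 / 1000000)
    (by norm_num)
  simpa using h

theorem val2_c3_1_8 (hC : Chan 2 1 c3 (-18) 20 104 56 tl2_c3_1) :
    |ZZ 2 1 c3 (8) * Real.exp (-(2 * 2 * (8) * f0)) - 868273682 / 10 ^ 9| ≤ 1 / 1000000 := by
  have h := zz_bound 2 1 c3 (-18) 20 104 (by norm_num) 56 43 (by norm_num) tl2_c3_1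
    dl2_8 100000000000000000000 (by norm_num) (8) _ _ hC exp2_8 868273682 (by decide +kernel) (1 / 1000000)
    (by norm_num)
  simpa using h

theorem val2_c3_1_10 (hC : Chan 2 1 c3 (-18) 20 104 56 tl2_c3_1) :
    |ZZ 2 1 c3 (10) * Real.exp (-(2 * 2 * (10) * f0)) - 826605213 / 10 ^ 9| ≤ 1 / 1000000 := by
  have h := zz_bound 2 1 c3 (-18) 20 104 (by norm_num) 56 49 (by norm_num) tl2_c3_1
    dl2_10 100000000000000000000 (by norm_num) (10) _ _ hC exp2_10 826605213 (by decide +kernel) (1 / 1000000)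
    (by norm_num)
  simpa using h

theorem val2_c3_1_12h (hC : Chan 2 1 c3 (-18) 20 104 56 tl2_c3_1) :
    |ZZ 2 1 c3 (25 / 2) * Real.exp (-(2 * 2 * (25 / 2) * f0)) - 784026964 / 10 ^ 9| ≤ 1 / 1000000 := by
  have h := zz_bound 2 1 c3 (-18) 20 104 (by norm_num) 56 56 (by norm_num) tl2_c3_1
    dl2_12h 100000000000000000000 (by norm_num) (25 / 2) _ _ hC exp2_12h 784026964 (by decide +kernel) (1 / 1000000)
    (by norm_num)
  simpa using h

end P348
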