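import Vale.Agent.Lib.P348.NumG
import Vale.Agent.Lib.P348.PVal2

/-!
# P348 module NumA: the bounds of the table for N = 2, from the moments
-/

set_option linter.style.longLine false

namespace P348

theorem num2_0 (hC : Chan 2 1 1 (-18) 20 104 56 tl2_1_1) (j : ℕ) (hj : j < 6) :
    |gz 0 j 2 - (numC 2 0 j : ℝ) / 100000000| ≤ 5 / 1000000 := by
  have h6 : j = 0 ∨ j = 1 ∨ j = 2 ∨ j = 3 ∨ j = 4 ∨ j = 5 := by omega
  rcases h6 with rfl | rfl | rfl | rfl | rfl | rfl
  · exact num_of 2 0 0 1 1 2 _ (5103235028) (510323497) (by norm_num) bqv0 rfl (by decide)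
      3900 (1 / 1000000) (by norm_num) (by norm_num) (by simpa using val2_1_1_4 hC)
  · exact num_of 2 0 1 1 1 2 _ (7318574732) (731857439) (by norm_num) bqv1 rfl (by decide)
      3900 (1 / 1000000) (by norm_num) (by norm_num) (by simpa using val2_1_1_5 hC)
  · exact num_of 2 0 2 1 1 2 _ (11807970083) (1180797010) (by norm_num) bqv2 rfl (by decide)
      3900 (1 / 1000000) (by norm_num) (by norm_num) (by simpa using val2_1_1_6q hC)
  · exact num_of 2 0 3 1 1 2 _ (23421300386) (2342130041) (by norm_num) bqv3 rfl (by decide)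
      3900 (1 / 1000000) (by norm_num) (by norm_num) (by simpa using val2_1_1_8 hC)
  · exact num_of 2 0 4 1 1 2 _ (51466761437) (5146676145) (by norm_num) bqv4 rfl (by decide)
      3900 (1 / 1000000) (by norm_num) (by norm_num) (by simpa using val2_1_1_10 hC)
  · exact num_of 2 0 5 1 1 2 _ (137828640699) (13782864075) (by norm_num) bqv5 rfl (by decide)
      3900 (1 / 1000000) (by norm_num) (by norm_num) (by simpa using val2_1_1_12h hC)

theorem num2_1 (hC : Chan 2 1 rz (-18) 20 104 56 tl2_rz_1) (j : ℕ) (hj : j < 6) :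
    |gz 1 j 2 - (numC 2 1 j : ℝ) / 100000000| ≤ 5 / 1000000 := by
  have h6 : j = 0 ∨ j = 1 ∨ j = 2 ∨ j = 3 ∨ j = 4 ∨ j = 5 := by omega
  rcases h6 with rfl | rfl | rfl | rfl | rfl | rfl
  · exact num_of 2 1 0 1 rz 2 _ (535775658) (53577558) (by norm_num) bqv0 rfl (by decide)
      3900 (1 / 1000000) (by norm_num) (by norm_num) (by simpa using val2_rz_1_4 hC)
  · exact num_of 2 1 1 1 rz 2 _ (400011055) (40001088) (by norm_num) bqv1 rfl (by decide)
      3900 (1 / 1000000) (by norm_num) (by norm_num) (by simpa using val2_rz_1_5 hC)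
  · exact num_of 2 1 2 1 rz 2 _ (284519909) (28451991) (by norm_num) bqv2 rfl (by decide)
      3900 (1 / 1000000) (by norm_num) (by norm_num) (by simpa using val2_rz_1_6q hC)
  · exact num_of 2 1 3 1 rz 2 _ (181613070) (18161311) (by norm_num) bqv3 rfl (by decide)
      3900 (1 / 1000000) (by norm_num) (by norm_num) (by simpa using val2_rz_1_8 hC)
  · exact num_of 2 1 4 1 rz 2 _ (111567431) (11156752) (by norm_num) bqv4 rfl (by decide)
      3900 (1 / 1000000) (by norm_num) (by norm_num) (by simpa using val2_rz_1_10 hC)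
  · exact num_of 2 1 5 1 rz 2 _ (62064311) (6206436) (by norm_num) bqv5 rfl (by decide)
      3900 (1 / 1000000) (by norm_num) (by norm_num) (by simpa using val2_rz_1_12h hC)

theorem num2_2 (hC : Chan 2 1 qz (-18) 20 104 56 tl2_qz_1) (j : ℕ) (hj : j < 6) :
    |gz 2 j 2 - (numC 2 2 j : ℝ) / 100000000| ≤ 5 / 1000000 := by
  have h6 : j = 0 ∨ j = 1 ∨ j = 2 ∨ j = 3 ∨ j = 4 ∨ j = 5 := by omega
  rcases h6 with rfl | rfl | rfl | rfl | rfl | rfl
  · exact num_of 2 2 0 1 qz 2 _ (1914488223) (191448825) (by norm_num) bqv0 rfl (by decide)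
      3900 (1 / 1000000) (by norm_num) (by norm_num) (by simpa using val2_qz_1_4 hC)
  · exact num_of 2 2 1 1 qz 2 _ (2104652528) (210465252) (by norm_num) bqv1 rfl (by decide)
      3900 (1 / 1000000) (by norm_num) (by norm_num) (by simpa using val2_qz_1_5 hC)
  · exact num_of 2 2 2 1 qz 2 _ (2450836603) (245083658) (by norm_num) bqv2 rfl (by decide)
      3900 (1 / 1000000) (by norm_num) (by norm_num) (by simpa using val2_qz_1_6q hC)
  · exact num_of 2 2 3 1 qz 2 _ (3103182490) (310318251) (by norm_num) bqv3 rfl (by decide)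
      3900 (1 / 1000000) (by norm_num) (by norm_num) (by simpa using val2_qz_1_8 hC)
  · exact num_of 2 2 4 1 qz 2 _ (4101977131) (410197716) (by norm_num) bqv4 rfl (by decide)
      3900 (1 / 1000000) (by norm_num) (by norm_num) (by simpa using val2_qz_1_10 hC)
  · exact num_of 2 2 5 1 qz 2 _ (5831836742) (583183677) (by norm_num) bqv5 rfl (by decide)
      3900 (1 / 1000000) (by norm_num) (by norm_num) (by simpa using val2_qz_1_12h hC)

theorem num2_3 (hC : Chan 2 1 c3 (-18) 20 104 56 tl2_c3_1) (j : ℕ) (hj : j < 6) :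
    |gz 3 j 2 - (numC 2 3 j : ℝ) / 100000000| ≤ 5 / 1000000 := by
  have h6 : j = 0 ∨ j = 1 ∨ j = 2 ∨ j = 3 ∨ j = 4 ∨ j = 5 := by omega
  rcases h6 with rfl | rfl | rfl | rfl | rfl | rfl
  · exact num_of 2 3 0 1 c3 2 _ (1059446952) (105944692) (by norm_num) bqv0 rfl (by decide)
      3900 (1 / 1000000) (by norm_num) (by norm_num) (by simpa using val2_c3_1_4 hC)
  · exact num_of 2 3 1 1 c3 2 _ (979557019) (97955700) (by norm_num) bqv1 rfl (by decide)
      3900 (1 / 1000000) (by norm_num) (by norm_num) (by simpa using val2_c3_1_5 hC)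
  · exact num_of 2 3 2 1 c3 2 _ (920061849) (92006189) (by norm_num) bqv2 rfl (by decide)
      3900 (1 / 1000000) (by norm_num) (by norm_num) (by simpa using val2_c3_1_6q hC)
  · exact num_of 2 3 3 1 c3 2 _ (868273682) (86827375) (by norm_num) bqv3 rfl (by decide)
      3900 (1 / 1000000) (by norm_num) (by norm_num) (by simpa using val2_c3_1_8 hC)
  · exact num_of 2 3 4 1 c3 2 _ (826605213) (82660527) (by norm_num) bqv4 rfl (by decide)
      3900 (1 / 1000000) (by norm_num) (by norm_num) (by simpa using val2_c3_1_10 hC)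
  · exact num_of 2 3 5 1 c3 2 _ (784026964) (78402699) (by norm_num) bqv5 rfl (by decide)
      3900 (1 / 1000000) (by norm_num) (by norm_num) (by simpa using val2_c3_1_12h hC)

theorem num2_4 (hC : Chan 2 rz 1 (-18) 20 104 56 tl2_1_rz) (j : ℕ) (hj : j < 6) :
    |gz 4 j 2 - (numC 2 4 j : ℝ) / 100000000| ≤ 5 / 1000000 := by
  have h6 : j = 0 ∨ j = 1 ∨ j = 2 ∨ j = 3 ∨ j = 4 ∨ j = 5 := by omega
  rcases h6 with rfl | rfl | rfl | rfl | rfl | rfl
  · exact num_of 2 4 0 rz 1 2 _ (4748498252) (474849825) (by norm_num) bqv0 rfl (by decide)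
      3900 (1 / 1000000) (by norm_num) (by norm_num) (by simpa using val2_1_rz_4 hC)
  · exact num_of 2 4 1 rz 1 2 _ (7125208194) (712520818) (by norm_num) bqv1 rfl (by decide)
      3900 (1 / 1000000) (by norm_num) (by norm_num) (by simpa using val2_1_rz_5 hC)
  · exact num_of 2 4 2 rz 1 2 _ (11717315118) (1171731512) (by norm_num) bqv2 rfl (by decide)
      3900 (1 / 1000000) (by norm_num) (by norm_num) (by simpa using val2_1_rz_6q hC)
  · exact num_of 2 4 3 rz 1 2 _ (23389904122) (2338990411) (by norm_num) bqv3 rfl (by decide)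
      3900 (1 / 1000000) (by norm_num) (by norm_num) (by simpa using val2_1_rz_8 hC)
  · exact num_of 2 4 4 rz 1 2 _ (51457416367) (5145741637) (by norm_num) bqv4 rfl (by decide)
      3900 (1 / 1000000) (by norm_num) (by norm_num) (by simpa using val2_1_rz_10 hC)
  · exact num_of 2 4 5 rz 1 2 _ (137826586214) (13782658622) (by norm_num) bqv5 rfl (by decide)
      3900 (1 / 1000000) (by norm_num) (by norm_num) (by simpa using val2_1_rz_12h hC)

theorem num2_5 (hC : Chan 2 rz rz (-18) 20 104 56 tl2_rz_rz) (j : ℕ) (hj : j < 6) :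
    |gz 5 j 2 - (numC 2 5 j : ℝ) / 100000000| ≤ 5 / 1000000 := by
  have h6 : j = 0 ∨ j = 1 ∨ j = 2 ∨ j = 3 ∨ j = 4 ∨ j = 5 := by omega
  rcases h6 with rfl | rfl | rfl | rfl | rfl | rfl
  · exact num_of 2 5 0 rz rz 2 _ (528551046) (52855110) (by norm_num) bqv0 rfl (by decide)
      3900 (1 / 1000000) (by norm_num) (by norm_num) (by simpa using val2_rz_rz_4 hC)
  · exact num_of 2 5 1 rz rz 2 _ (398823239) (39882324) (by norm_num) bqv1 rfl (by decide)
      3900 (1 / 1000000) (by norm_num) (by norm_num) (by simpa using val2_rz_rz_5 hC)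
  · exact num_of 2 5 2 rz rz 2 _ (284392859) (28439290) (by norm_num) bqv2 rfl (by decide)
      3900 (1 / 1000000) (by norm_num) (by norm_num) (by simpa using val2_rz_rz_6q hC)
  · exact num_of 2 5 3 rz rz 2 _ (181607536) (18160746) (by norm_num) bqv3 rfl (by decide)
      3900 (1 / 1000000) (by norm_num) (by norm_num) (by simpa using val2_rz_rz_8 hC)
  · exact num_of 2 5 4 rz rz 2 _ (111567380) (11156736) (by norm_num) bqv4 rfl (by decide)
      3900 (1 / 1000000) (by norm_num) (by norm_num) (by simpa using val2_rz_rz_10 hC)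
  · exact num_of 2 5 5 rz rz 2 _ (62064341) (6206436) (by norm_num) bqv5 rfl (by decide)
      3900 (1 / 1000000) (by norm_num) (by norm_num) (by simpa using val2_rz_rz_12h hC)

theorem num2_6 (hC : Chan 2 rz qz (-18) 20 104 56 tl2_qz_rz) (j : ℕ) (hj : j < 6) :
    |gz 6 j 2 - (numC 2 6 j : ℝ) / 100000000| ≤ 5 / 1000000 := by
  have h6 : j = 0 ∨ j = 1 ∨ j = 2 ∨ j = 3 ∨ j = 4 ∨ j = 5 := by omega
  rcases h6 with rfl | rfl | rfl | rfl | rfl | rfl
  · exact num_of 2 6 0 rz qz 2 _ (1812465890) (181246588) (by norm_num) bqv0 rfl (by decide)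
      3900 (1 / 1000000) (by norm_num) (by norm_num) (by simpa using val2_qz_rz_4 hC)
  · exact num_of 2 6 1 rz qz 2 _ (2064093742) (206409373) (by norm_num) bqv1 rfl (by decide)
      3900 (1 / 1000000) (by norm_num) (by norm_num) (by simpa using val2_qz_rz_5 hC)
  · exact num_of 2 6 2 rz qz 2 _ (2437981039) (243798105) (by norm_num) bqv2 rfl (by decide)
      3900 (1 / 1000000) (by norm_num) (by norm_num) (by simpa using val2_qz_rz_6q hC)
  · exact num_of 2 6 3 rz qz 2 _ (3100606295) (310060630) (by norm_num) bqv3 rfl (by decide)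
      3900 (1 / 1000000) (by norm_num) (by norm_num) (by simpa using val2_qz_rz_8 hC)
  · exact num_of 2 6 4 rz qz 2 _ (4101566669) (410156676) (by norm_num) bqv4 rfl (by decide)
      3900 (1 / 1000000) (by norm_num) (by norm_num) (by simpa using val2_qz_rz_10 hC)
  · exact num_of 2 6 5 rz qz 2 _ (5831795480) (583179547) (by norm_num) bqv5 rfl (by decide)
      3900 (1 / 1000000) (by norm_num) (by norm_num) (by simpa using val2_qz_rz_12h hC)

theorem num2_7 (hC : Chan 2 rx rz (-18) 20 104 56 tl2_rz_rx) (j : ℕ) (hj : j < 6) :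
    |gz 7 j 2 - (numC 2 7 j : ℝ) / 100000000| ≤ 5 / 1000000 := by
  have h6 : j = 0 ∨ j = 1 ∨ j = 2 ∨ j = 3 ∨ j = 4 ∨ j = 5 := by omega
  rcases h6 with rfl | rfl | rfl | rfl | rfl | rfl
  · exact num_of 2 7 0 rx rz 2 _ (-283334456) (-28333445) (by norm_num) bqv0 (ZZ_rz_rx 2 _) (by decide)
      3900 (1 / 1000000) (by norm_num) (by norm_num) (by simpa using val2_rz_rx_4 hC)
  · exact num_of 2 7 1 rx rz 2 _ (-252235519) (-25223548) (by norm_num) bqv1 (ZZ_rz_rx 2 _) (by decide)
      3900 (1 / 1000000) (by norm_num) (by norm_num) (by simpa using val2_rz_rx_5 hC)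
  · exact num_of 2 7 2 rx rz 2 _ (-207880542) (-20788054) (by norm_num) bqv2 (ZZ_rz_rx 2 _) (by decide)
      3900 (1 / 1000000) (by norm_num) (by norm_num) (by simpa using val2_rz_rx_6q hC)
  · exact num_of 2 7 3 rx rz 2 _ (-150901857) (-15090186) (by norm_num) bqv3 (ZZ_rz_rx 2 _) (by decide)
      3900 (1 / 1000000) (by norm_num) (by norm_num) (by simpa using val2_rz_rx_8 hC)
  · exact num_of 2 7 4 rx rz 2 _ (-100757945) (-10075792) (by norm_num) bqv4 (ZZ_rz_rx 2 _) (by decide)
      3900 (1 / 1000000) (by norm_num) (by norm_num) (by simpa using val2_rz_rx_10 hC)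
  · exact num_of 2 7 5 rx rz 2 _ (-59133467) (-5913347) (by norm_num) bqv5 (ZZ_rz_rx 2 _) (by decide)
      3900 (1 / 1000000) (by norm_num) (by norm_num) (by simpa using val2_rz_rx_12h hC)

end P348
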