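import Mathlib.Data.Real.Basic

/-!
# P348 module PF0: the reference energy per site
-/

namespace P348

/-- reference energy per site -/
noncomputable def f0 : ℝ := 140148 / 100000

end P348
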