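import Vale.Agent.Lib.P348.NumTab
import Vale.Agent.Lib.P348.PF0
import Vale.Agent.Lib.P348.PAsm

/-!
# P348 module NumG: from the values of the twisted partition functions to the table `numC`
-/

namespace P348

open Matrix

theorem num_of (N c j : ℕ) [NeZero N] (W R : Matrix (Fin 3) (Fin 3) ℝ) (n β : ℝ) (Q T : ℤ)
    (hn : (N : ℝ) = n) (hβ : (bq j : ℝ) / 4 = β)
    (hz : zz (pairW c) (pairR c) β N = ZZ N W R β) (hT : numC N c j = T)
    (e : ℕ) (τ : ℝ) (hQ : (Q - 10 * T).natAbs ≤ e) (hτ : τ + e / 1000000000 ≤ 5 / 1000000)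
    (h : |ZZ N W R β * Real.exp (-(2 * n * β * f0)) - (Q : ℝ) / 10 ^ 9| ≤ τ) :
    |gz c j N - (numC N c j : ℝ) / 100000000| ≤ 5 / 1000000 := by
  have e1 : gz c j N = ZZ N W R β * Real.exp (-(2 * n * β * f0)) := by
    unfold gz
    rw [hβ, hn, hz, f0]
  rw [e1, hT]
  have e2 : |(Q : ℝ) / 10 ^ 9 - (T : ℝ) / 100000000| ≤ (e : ℝ) / 1000000000 := by
    have h3 : (((Q - 10 * T).natAbs : ℤ) : ℝ) ≤ (e : ℝ) := by exact_mod_cast hQ
    rw [Int.natCast_natAbs, Int.cast_abs] at h3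
    push_cast at h3
    have h4 : (Q : ℝ) / 10 ^ 9 - (T : ℝ) / 100000000 = (Q - 10 * T) / 1000000000 := by ring
    rw [h4, abs_div, abs_of_pos (by norm_num : (0 : ℝ) < 1000000000),
      div_le_div_iff_of_pos_right (by norm_num)]
    exact h3
  have e3 := abs_sub_le (ZZ N W R β * Real.exp (-(2 * n * β * f0))) ((Q : ℝ) / 10 ^ 9)
    ((T : ℝ) / 100000000)
  linarith

/-- rotation which exchanges the x axis and the z axis -/
def qy : Matrix (Fin 3) (Fin 3) ℝ := !![0, 0, 1; 0, -1, 0; 1, 0, 0]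

theorem qy_rot : IsRot qy := by
  constructor
  · ext i j
    fin_cases i <;> fin_cases j <;> simp [qy, Matrix.mul_apply, Fin.sum_univ_three]
  · simp [qy, Matrix.det_fin_three]

theorem qy_rx : qy * rx * qyᵀ = rz := by
  ext i j
  fin_cases i <;> fin_cases j <;> simp [qy, rx, rz, Matrix.mul_apply, Fin.sum_univ_three]

theorem qy_rz : qy * rz * qyᵀ = rx := by
  ext i j
  fin_cases i <;> fin_cases j <;> simp [qy, rx, rz, Matrix.mul_apply, Fin.sum_univ_three]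

theorem ZZ_rz_rx (N : ℕ) [NeZero N] (β : ℝ) : ZZ N rz rx β = ZZ N rx rz β := by
  have h := ZZ_conj N rx rz qy qy_rot β
  rw [qy_rx, qy_rz] at h
  exact h

theorem bqv0 : (bq 0 : ℝ) / 4 = 4 := by norm_num [bq, BQ]
theorem bqv1 : (bq 1 : ℝ) / 4 = 5 := by norm_num [bq, BQ]
theorem bqv2 : (bq 2 : ℝ) / 4 = 25 / 4 := by norm_num [bq, BQ]
theorem bqv3 : (bq 3 : ℝ) / 4 = 8 := by norm_num [bq, BQ]
theorem bqv4 : (bq 4 : ℝ) / 4 = 10 := by norm_num [bq, BQ]
theorem bqv5 : (bq 5 : ℝ) / 4 = 25 / 2 := by norm_num [bq, BQ]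

end P348
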