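import Vale.Agent.Lib.P348.Chan
import Vale.Agent.Lib.P348.Checker

/-!
# P348: numerical tables (generated)

`numC N c j`: 10^8 times the value of ZZ N W R β exp(-2 N β f0) for the pair number c (see `pairW`, `pairR`),
β = bq j / 4, f0 = 1.40148; rounded.
`topK k j`: 10^9 times an upper bound for the top of the channel number k at β = bq j / 4.
-/

namespace P348

/-- time twist of the pair number c -/
def pairW : ℕ → Matrix (Fin 3) (Fin 3) ℝ
  | 0 => 1
  | 1 => 1
  | 2 => 1
  | 3 => 1
  | _ => rz

/-- space twist of the pair number c -/
def pairR : ℕ → Matrix (Fin 3) (Fin 3) ℝ
  | 0 => 1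
  | 1 => rz
  | 2 => qz
  | 3 => c3
  | 4 => 1
  | 5 => rz
  | 6 => qz
  | _ => rx

/-- normalised partition function at the reference value f0 = 1.40148 -/
noncomputable def gz (c j N : ℕ) : ℝ :=
  zz (pairW c) (pairR c) ((bq j : ℝ) / 4) N * Real.exp (-(2 * N * ((bq j : ℝ) / 4) * (140148 / 100000)))

/-- table of the values for N = 2, 3, 4, pairs c = 0..7, β index j = 0..5, in units of 10^(-8) -/
def numT : List (List (List ℤ)) := [
  [[510323497, 731857439, 1180797010, 2342130041, 5146676145, 13782864075],
   [53577558, 40001088, 28451991, 18161311, 11156752, 6206436],
   [191448825, 210465252, 245083658, 310318251, 410197716, 583183677],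
   [105944692, 97955700, 92006189, 86827375, 82660527, 78402699],
   [474849825, 712520818, 1171731512, 2338990411, 5145741637, 13782658622],
   [52855110, 39882324, 28439290, 18160746, 11156736, 6206436],
   [181246588, 206409373, 243798105, 310060630, 410156676, 583179547],
   [-28333445, -25223548, -20788054, -15090186, -10075792, -5913347]],
  [[269303803, 306914311, 380402958, 535327052, 806597905, 1356044427],
   [84733887, 70298370, 58149214, 46311048, 36667911, 27907607],
   [160909916, 159610465, 166401855, 184210920, 211623712, 254108939],
   [119134668, 108743570, 101967141, 97274102, 94511221, 92358758],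
   [217398556, 275965910, 364103689, 528675808, 804209506, 1355380503],
   [79307972, 68823492, 57852910, 46279139, 36665388, 27907501],
   [137200247, 148144658, 161712510, 182862455, 211298836, 254054095],
   [-50493212, -49966670, -47090765, -41469511, -34765175, -27313817]],
  [[212378957, 216006420, 234662008, 279155103, 352211243, 478625283],
   [105696109, 89607278, 77736903, 67119768, 58544993, 50278298],
   [154751544, 144943875, 142277660, 146802900, 157405578, 174638112],
   [129180924, 115417842, 106867649, 101448606, 98822390, 97325975],
   [149568770, 177325607, 213228493, 269723253, 348515855, 477479629],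
   [89968085, 84072717, 76196527, 66857390, 58509916, 50275450],
   [117725747, 125549567, 133363258, 143751359, 156504894, 174441951],
   [-62457332, -64608080, -64283542, -61153087, -56117569, -49478547]]]

/-- table entry -/
def numC (N c j : ℕ) : ℤ := ((numT.getD (N - 2) []).getD c []).getD j 0

/-- bounds of the tops, channels A1, A2, E, T1, T2, Bm, Ba, Bb, Be -/
def topT : List (List ℕ) := [
  [1068141837, 1039989026, 1022416413, 1013469166, 1014365583, 1025145473],
  [0, 0, 0, 0, 0, 0],
  [317463206, 364251270, 412489179, 474636748, 545504175, 635261585],
  [701778657, 720117842, 746918137, 792480841, 850015069, 924542027],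
  [317807347, 365424995, 415393380, 480751973, 555966400, 652305454],
  [974101830, 987497558, 997998396, 1010130413, 1026672150, 1056055506],
  [715160193, 730533514, 754662804, 796931062, 852005282, 925178284],
  [254708529, 319882278, 388339326, 469379768, 552177269, 651411786],
  [590397262, 661136254, 727769649, 802720970, 879289128, 973032954]]

/-- table entry -/
def topK (k j : ℕ) : ℕ := (topT.getD k []).getD j 0

end P348
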