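import Mathlib.Algebra.Order.Star.Real
import Mathlib.Analysis.Calculus.Deriv.MeanValue
import Mathlib.Analysis.InnerProductSpace.Basic
import Mathlib.Analysis.SpecialFunctions.ExpDeriv
import Mathlib.Analysis.SpecialFunctions.Trigonometric.Inverse
import Mathlib.Topology.Algebra.Module.ModuleTopology

/-!
# P348 module PCheb: certified Chebyshev approximation of the exponential

`tch x k` is the Chebyshev polynomial `T_k(x)` (in any ring), `uch x k` is `U_{k-1}(x)`.
`chebS d n x = d 0 / 2 + ∑_{1 ≤ m ≤ n} d m T_m(x)`.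
If `e k = e (k+2) + 2 (k+1) d (k+1)` then `(chebS d n)' = chebS e n`; hence if the coefficients of
`chebS e n - a chebS d n` are small then `chebS d n` is close to `G exp (a (x - 1))` on `[-1, 1]`.
-/

namespace P348

open Finset

section ring

variable {A : Type*} [Ring A]

/-- Chebyshev polynomials of the first kind, in a ring -/
def tch (x : A) : ℕ → A
  | 0 => 1
  | 1 => x
  | (k + 2) => 2 * x * tch x (k + 1) - tch x k

/-- Chebyshev polynomials of the second kind, shifted by one: `uch x k = U_{k-1}(x)` -/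
def uch (x : A) : ℕ → A
  | 0 => 0
  | 1 => 1
  | (k + 2) => 2 * x * uch x (k + 1) - uch x k

end ring

theorem tch_succ (x : ℝ) (k : ℕ) : tch x (k + 1) = x * uch x (k + 1) - uch x k := by
  induction k using Nat.twoStepInduction with
  | zero => simp [tch, uch]
  | one => simp [tch, uch]; ring
  | more k h1 h2 =>
    rw [show k + 1 + 1 + 1 = (k + 1) + 2 from rfl] at *
    simp only [tch] at *
    rw [h2, h1]
    simp only [uch]
    ring

theorem two_tch (x : ℝ) (k : ℕ) : 2 * tch x (k + 1) = uch x (k + 2) - uch x k := by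
  rw [tch_succ]
  simp only [uch]
  ring

theorem uch_succ (x : ℝ) (k : ℕ) : uch x (k + 1) = x * uch x k + tch x k := by
  cases k with
  | zero => simp [uch, tch]
  | succ k =>
    have h1 := two_tch x k
    have h2 := tch_succ x k
    rw [show k + 1 + 1 = k + 2 from rfl]
    linarith

theorem tch_cos (t : ℝ) (k : ℕ) : tch (Real.cos t) k = Real.cos (k * t) := by
  induction k using Nat.twoStepInduction with
  | zero => simp [tch]
  | one => simp [tch]
  | more k h1 h2 =>
    simp only [tch]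
    rw [h1, h2]
    push_cast
    have e1 : ((k : ℝ) + 2) * t = (k + 1) * t + t := by ring
    have e2 : (k : ℝ) * t = (k + 1) * t - t := by ring
    rw [e1, e2, Real.cos_add, Real.cos_sub]
    ring

theorem tch_abs_le {x : ℝ} (hx : |x| ≤ 1) (k : ℕ) : |tch x k| ≤ 1 := by
  have h : x = Real.cos (Real.arccos x) := by
    rw [Real.cos_arccos] <;> [exact (abs_le.1 hx).1; exact (abs_le.1 hx).2]
  rw [h, tch_cos]
  exact Real.abs_cos_le_one _

theorem tch_one (k : ℕ) : tch (1 : ℝ) k = 1 := by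
  have := tch_cos 0 k
  simpa using this

theorem tch_hasDerivAt (x : ℝ) (k : ℕ) :
    HasDerivAt (fun y : ℝ => tch y k) (k * uch x k) x := by
  induction k using Nat.twoStepInduction with
  | zero =>
    simp only [tch, Nat.cast_zero, zero_mul]
    exact hasDerivAt_const x (1 : ℝ)
  | one =>
    simp only [tch, uch, Nat.cast_one, mul_one]
    exact hasDerivAt_id x
  | more k h1 h2 =>
    simp only [tch]
    have h3 := (((hasDerivAt_id x).const_mul 2).mul h2).sub h1
    refine h3.congr_deriv ?_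
    have h4 := tch_succ x k
    simp only [id]
    rw [h4]
    push_cast
    simp only [uch]
    ring

/-- the Chebyshev sum, the coefficient of index zero is halved -/
noncomputable def chebS (d : ℕ → ℝ) (n : ℕ) (x : ℝ) : ℝ :=
  ∑ m ∈ range (n + 1), d m * tch x m - d 0 / 2

/-- partial summation -/
theorem chebS_uch (d : ℕ → ℝ) (x : ℝ) (n : ℕ) :
    chebS d n x = (∑ k ∈ range (n + 1), (d k - d (k + 2)) * uch x (k + 1)) / 2 +
      (d (n + 2) * uch x (n + 1) + d (n + 1) * uch x n) / 2 := by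
  unfold chebS
  induction n with
  | zero => simp [tch, uch]; ring
  | succ n ih =>
    rw [sum_range_succ, sum_range_succ (fun k => (d k - d (k + 2)) * uch x (k + 1))]
    have h1 := two_tch x n
    rw [show n + 1 + 2 = n + 3 from rfl, show n + 1 + 1 = n + 2 from rfl] at *
    rw [show ∑ m ∈ range (n + 1), d m * tch x m + d (n + 1) * tch x (n + 1) - d 0 / 2 =
      (∑ m ∈ range (n + 1), d m * tch x m - d 0 / 2) + d (n + 1) * tch x (n + 1) by ring, ih]
    have h2 : tch x (n + 1) = (uch x (n + 2) - uch x n) / 2 := by linarith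
    rw [h2]
    ring

/-- the derivative of a Chebyshev sum -/
theorem chebS_hasDerivAt (d e : ℕ → ℝ) (n : ℕ) (hd : ∀ k, n < k → d k = 0)
    (he : ∀ k, n < k → e k = 0)
    (hrec : ∀ k, k ≤ n → e k = e (k + 2) + 2 * (k + 1) * d (k + 1)) (x : ℝ) :
    HasDerivAt (chebS d n) (chebS e n x) x := by
  have h1 : HasDerivAt (chebS d n) (∑ m ∈ range (n + 1), d m * (m * uch x m) - 0) x := by
    unfold chebS
    refine HasDerivAt.sub ?_ (hasDerivAt_const _ _)
    refine HasDerivAt.fun_sum fun m _ => ?_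
    exact (tch_hasDerivAt x m).const_mul (d m)
  refine h1.congr_deriv ?_
  rw [chebS_uch e x n, he (n + 2) (by omega), he (n + 1) (by omega)]
  have h2 : ∀ k ∈ range (n + 1), (e k - e (k + 2)) * uch x (k + 1) =
      2 * (d (k + 1) * (((k + 1 : ℕ) : ℝ) * uch x (k + 1))) := by
    intro k hk
    rw [hrec k (by have := mem_range.1 hk; omega)]
    push_cast
    ring
  rw [sum_congr rfl h2, ← mul_sum]
  have h3 := sum_range_succ' (fun m : ℕ => d m * ((m : ℝ) * uch x m)) (n + 1)
  have h4 := sum_range_succ (fun m : ℕ => d m * ((m : ℝ) * uch x m)) (n + 1)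
  rw [hd (n + 1) (by omega)] at h4
  simp only [zero_mul, add_zero, Nat.cast_zero, mul_zero] at h3 h4
  rw [← h3, h4]
  ring

/-- comparison with the exponential -/
theorem exp_ode (a ρ G : ℝ) (ha : 0 < a) (P P' : ℝ → ℝ) (hP : ∀ x, HasDerivAt P (P' x) x)
    (hρ : ∀ x, |x| ≤ 1 → |P' x - a * P x| ≤ ρ) (x : ℝ) (hx : |x| ≤ 1) :
    |G * Real.exp (a * (x - 1)) - P x| ≤ |G - P 1| + ρ / a := by
  have hρ0 : 0 ≤ ρ := le_trans (abs_nonneg _) (hρ x hx)
  obtain ⟨hx1, hx2⟩ := abs_le.1 hx
  -- the function F s y = (P y - G exp (a (y-1))) exp (-a y) + s (ρ / a) exp (-a y)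
  have key : ∀ s : ℝ, (s = 1 ∨ s = -1) → ∀ y, HasDerivAt (fun y =>
      (P y - G * Real.exp (a * (y - 1)) + s * (ρ / a)) * Real.exp (-(a * y)))
      ((P' y - a * P y - s * ρ) * Real.exp (-(a * y))) y := by
    intro s _ y
    have e1 : HasDerivAt (fun y : ℝ => Real.exp (a * (y - 1))) (Real.exp (a * (y - 1)) * (a * 1)) y := by
      refine HasDerivAt.exp ?_
      exact ((hasDerivAt_id y).sub_const 1).const_mul a
    have e2 : HasDerivAt (fun y : ℝ => Real.exp (-(a * y))) (Real.exp (-(a * y)) * (-(a * 1))) y := by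
      refine HasDerivAt.exp ?_
      exact ((hasDerivAt_id y).const_mul a).neg
    have e3 := (((hP y).sub (e1.const_mul G)).add_const (s * (ρ / a))).mul e2
    refine e3.congr_deriv ?_
    have hane : a ≠ 0 := ha.ne'
    field_simp
    simp only [Pi.sub_apply]
    ring
  have hmono : ∀ y, |y| ≤ 1 → (P' y - a * P y - 1 * ρ) * Real.exp (-(a * y)) ≤ 0 := by
    intro y hy
    have := (abs_le.1 (hρ y hy)).2
    exact mul_nonpos_of_nonpos_of_nonneg (by linarith) (Real.exp_pos _).le
  have hmono' : ∀ y, |y| ≤ 1 → 0 ≤ (P' y - a * P y - (-1) * ρ) * Real.exp (-(a * y)) := by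
    intro y hy
    have := (abs_le.1 (hρ y hy)).1
    exact mul_nonneg (by linarith) (Real.exp_pos _).le
  have hinter : ∀ y ∈ interior (Set.Icc x 1), |y| ≤ 1 := by
    intro y hy
    have := interior_subset hy
    exact abs_le.2 ⟨by linarith [this.1], this.2⟩
  have hA : AntitoneOn (fun y =>
      (P y - G * Real.exp (a * (y - 1)) + 1 * (ρ / a)) * Real.exp (-(a * y))) (Set.Icc x 1) := by
    refine antitoneOn_of_deriv_nonpos (convex_Icc x 1) ?_ ?_ ?_
    · exact fun y _ => (key 1 (Or.inl rfl) y).continuousAt.continuousWithinAt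
    · exact fun y _ => (key 1 (Or.inl rfl) y).differentiableAt.differentiableWithinAt
    · intro y hy
      rw [(key 1 (Or.inl rfl) y).deriv]
      exact hmono y (hinter y hy)
  have hB : MonotoneOn (fun y =>
      (P y - G * Real.exp (a * (y - 1)) + (-1) * (ρ / a)) * Real.exp (-(a * y))) (Set.Icc x 1) := by
    refine monotoneOn_of_deriv_nonneg (convex_Icc x 1) ?_ ?_ ?_
    · exact fun y _ => (key (-1) (Or.inr rfl) y).continuousAt.continuousWithinAt
    · exact fun y _ => (key (-1) (Or.inr rfl) y).differentiableAt.differentiableWithinAt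
    · intro y hy
      rw [(key (-1) (Or.inr rfl) y).deriv]
      exact hmono' y (hinter y hy)
  have h1 := hA (Set.left_mem_Icc.2 hx2) (Set.right_mem_Icc.2 hx2) hx2
  have h2 := hB (Set.left_mem_Icc.2 hx2) (Set.right_mem_Icc.2 hx2) hx2
  simp only [sub_self, mul_zero, Real.exp_zero, mul_one] at h1 h2
  -- multiply by exp (a x)
  have hE : Real.exp (-(a * 1)) = Real.exp (-(a * x)) * Real.exp (a * (x - 1)) := by
    rw [← Real.exp_add]
    congr 1
    ring
  rw [mul_one] at hE
  rw [hE] at h1 h2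
  have hpos : 0 < Real.exp (-(a * x)) := Real.exp_pos _
  have h1' : (P 1 - G + 1 * (ρ / a)) * Real.exp (a * (x - 1)) ≤
      P x - G * Real.exp (a * (x - 1)) + 1 * (ρ / a) := by
    have h3 : (P 1 - G + 1 * (ρ / a)) * Real.exp (a * (x - 1)) * Real.exp (-(a * x)) ≤
        (P x - G * Real.exp (a * (x - 1)) + 1 * (ρ / a)) * Real.exp (-(a * x)) := by
      calc _ = (P 1 - G + 1 * (ρ / a)) * (Real.exp (-(a * x)) * Real.exp (a * (x - 1))) := by ring
        _ ≤ _ := h1
    exact le_of_mul_le_mul_right h3 hpos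
  have h2' : P x - G * Real.exp (a * (x - 1)) + (-1) * (ρ / a) ≤
      (P 1 - G + (-1) * (ρ / a)) * Real.exp (a * (x - 1)) := by
    have h3 : (P x - G * Real.exp (a * (x - 1)) + (-1) * (ρ / a)) * Real.exp (-(a * x)) ≤
        (P 1 - G + (-1) * (ρ / a)) * Real.exp (a * (x - 1)) * Real.exp (-(a * x)) := by
      calc _ ≤ (P 1 - G + (-1) * (ρ / a)) * (Real.exp (-(a * x)) * Real.exp (a * (x - 1))) := h2
        _ = _ := by ring
    exact le_of_mul_le_mul_right h3 hpos
  have hE0 : 0 < Real.exp (a * (x - 1)) := Real.exp_pos _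
  have hE1 : Real.exp (a * (x - 1)) ≤ 1 := by
    rw [Real.exp_le_one_iff]
    exact mul_nonpos_of_nonneg_of_nonpos ha.le (by linarith)
  have hq : 0 ≤ ρ / a := div_nonneg hρ0 ha.le
  have hab := abs_nonneg (G - P 1)
  have hg1 := le_abs_self (G - P 1)
  have hg2 := neg_abs_le (G - P 1)
  generalize Real.exp (a * (x - 1)) = E at *
  generalize |G - P 1| = g at *
  rw [abs_le]
  constructor
  · nlinarith [mul_le_mul_of_nonneg_left hE1 hab]
  · nlinarith [mul_le_mul_of_nonneg_left hE1 hab]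

/-- the certificate: integer data -/
theorem cheb_cert (d e : ℕ → ℤ) (n : ℕ) (S a1 a2 B : ℕ) (hS : 0 < S) (ha1 : 0 < a1) (ha2 : 0 < a2)
    (hd : ∀ k, n < k → d k = 0) (he : ∀ k, n < k → e k = 0)
    (hrec : ∀ k, k ≤ n → e k = e (k + 2) + 2 * (k + 1) * d (k + 1))
    (hB : ∑ k ∈ range (n + 1), |(a2 : ℤ) * e k - a1 * d k| ≤ B)
    (G δ : ℝ) (h1 : |G - (∑ m ∈ range (n + 1), (d m : ℝ) - d 0 / 2) / S| ≤ δ)
    (x : ℝ) (hx : |x| ≤ 1) :
    |G * Real.exp ((a1 / a2 : ℝ) * (x - 1)) - chebS (fun m => (d m : ℝ)) n x / S| ≤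
      δ + B / (a1 * S) := by
  have hS' : (0 : ℝ) < S := by exact_mod_cast hS
  have ha1' : (0 : ℝ) < a1 := by exact_mod_cast ha1
  have ha2' : (0 : ℝ) < a2 := by exact_mod_cast ha2
  have hder : ∀ x, HasDerivAt (fun x => chebS (fun m => (d m : ℝ)) n x / S)
      (chebS (fun m => (e m : ℝ)) n x / S) x := by
    intro x
    refine HasDerivAt.div_const ?_ _
    refine chebS_hasDerivAt _ _ n ?_ ?_ ?_ x
    · intro k hk
      simp [hd k hk]
    · intro k hk
      simp [he k hk]
    · intro k hk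
      have := hrec k hk
      rw [this]
      push_cast
      ring
  have hres : ∀ x, |x| ≤ 1 → |chebS (fun m => (e m : ℝ)) n x / S -
      (a1 / a2 : ℝ) * (chebS (fun m => (d m : ℝ)) n x / S)| ≤ B / (a2 * S) := by
    intro x hx
    have h2 : chebS (fun m => (e m : ℝ)) n x / S -
        (a1 / a2 : ℝ) * (chebS (fun m => (d m : ℝ)) n x / S) =
        (∑ m ∈ range (n + 1), (((a2 : ℝ) * e m - a1 * d m) * tch x m) -
          ((a2 : ℝ) * e 0 - a1 * d 0) / 2) / (a2 * S) := by
      unfold chebS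
      simp only [sub_mul, sum_sub_distrib, mul_assoc, ← mul_sum]
      field_simp
      ring
    rw [h2, abs_div, abs_of_pos (mul_pos ha2' hS')]
    refine div_le_div_of_nonneg_right ?_ (mul_pos ha2' hS').le
    have h3 : ∑ m ∈ range (n + 1), (((a2 : ℝ) * e m - a1 * d m) * tch x m) -
          ((a2 : ℝ) * e 0 - a1 * d 0) / 2 =
        ∑ m ∈ range n, (((a2 : ℝ) * e (m + 1) - a1 * d (m + 1)) * tch x (m + 1)) +
          ((a2 : ℝ) * e 0 - a1 * d 0) / 2 := by
      rw [sum_range_succ']
      simp only [tch]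
      ring
    rw [h3]
    have h4 : (∑ k ∈ range (n + 1), |(a2 : ℝ) * e k - a1 * d k|) ≤ B := by
      have h5 : ((∑ k ∈ range (n + 1), |(a2 : ℤ) * e k - a1 * d k| : ℤ) : ℝ) ≤ ((B : ℤ) : ℝ) := by
        exact_mod_cast hB
      push_cast at h5
      exact h5
    rw [sum_range_succ'] at h4
    have h6 : |∑ m ∈ range n, (((a2 : ℝ) * e (m + 1) - a1 * d (m + 1)) * tch x (m + 1))| ≤
        ∑ m ∈ range n, |(a2 : ℝ) * e (m + 1) - a1 * d (m + 1)| := by
      refine (abs_sum_le_sum_abs _ _).trans (sum_le_sum fun m _ => ?_)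
      rw [abs_mul]
      calc _ ≤ |(a2 : ℝ) * e (m + 1) - a1 * d (m + 1)| * 1 :=
            mul_le_mul_of_nonneg_left (tch_abs_le hx _) (abs_nonneg _)
        _ = _ := mul_one _
    have h7 : |((a2 : ℝ) * e 0 - a1 * d 0) / 2| ≤ |(a2 : ℝ) * e 0 - a1 * d 0| := by
      rw [abs_div, abs_of_pos (by norm_num : (0 : ℝ) < 2)]
      have := abs_nonneg ((a2 : ℝ) * e 0 - a1 * d 0)
      linarith
    refine (abs_add_le _ _).trans ?_
    linarith
  have hfin := exp_ode (a1 / a2) (B / (a2 * S)) G (div_pos ha1' ha2') _ _ hder hres x hx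
  refine hfin.trans ?_
  have h8 : chebS (fun m => (d m : ℝ)) n 1 = ∑ m ∈ range (n + 1), (d m : ℝ) - d 0 / 2 := by
    unfold chebS
    simp [tch_one]
  simp only [h8]
  have h9 : (B : ℝ) / (a2 * S) / (a1 / a2) = B / (a1 * S) := by
    field_simp
  rw [h9]
  linarith

end P348
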