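import Mathlib.Analysis.Matrix.Spectrum
import Mathlib.Analysis.Normed.Algebra.MatrixExponential
import Vale.Agent.Lib.P348.T2
import Vale.Agent.Lib.P348.PCheb

/-!
# P348 module PSpec: spectral form of the twisted traces
-/

namespace P348

open Matrix Finset

section general

variable {ι : Type} [Fintype ι] [DecidableEq ι]

theorem trace_conj_diag (W V : Matrix ι ι ℝ) (μ : ι → ℝ) :
    (W * (V * diagonal μ * Vᵀ)).trace = ∑ i, (Vᵀ * W * V) i i * μ i := by
  have h : W * (V * diagonal μ * Vᵀ) = (W * V * diagonal μ) * Vᵀ := by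
    simp only [Matrix.mul_assoc]
  rw [h, Matrix.trace_mul_comm]
  have h2 : Vᵀ * (W * V * diagonal μ) = (Vᵀ * W * V) * diagonal μ := by
    simp only [Matrix.mul_assoc]
  rw [h2]
  unfold Matrix.trace
  refine sum_congr rfl fun i _ => ?_
  rw [Matrix.diag_apply, Matrix.mul_diagonal]

/-- traces against an orthogonal matrix in an eigenbasis -/
theorem spec_matrix (H W : Matrix ι ι ℝ) (hH : H.IsHermitian) (hW : W * Wᵀ = 1) :
    ∃ lam g : ι → ℝ, (∀ i, |g i| ≤ 1) ∧ (∀ k : ℕ, (W * H ^ k).trace = ∑ i, g i * lam i ^ k) ∧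
      (∀ k : ℕ, (H ^ k).trace = ∑ i, lam i ^ k) ∧
      ∀ β : ℝ, (W * NormedSpace.exp (-(β • H))).trace = ∑ i, g i * Real.exp (-(β * lam i)) := by
  obtain ⟨V, lam, hV1, hV2, hHV⟩ : ∃ (V : Matrix ι ι ℝ) (lam : ι → ℝ),
      V * Vᵀ = 1 ∧ Vᵀ * V = 1 ∧ H = V * diagonal lam * Vᵀ := by
    have h1 : (hH.eigenvectorUnitary : Matrix ι ι ℝ) * (hH.eigenvectorUnitary : Matrix ι ι ℝ)ᵀ = 1 := by
      have := Unitary.coe_mul_star_self hH.eigenvectorUnitary
      rwa [Unitary.coe_star, star_eq_conjTranspose, conjTranspose_eq_transpose_of_trivial] at this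
    refine ⟨(hH.eigenvectorUnitary : Matrix ι ι ℝ), hH.eigenvalues, h1, mul_eq_one_comm.1 h1, ?_⟩
    conv_lhs => rw [hH.spectral_theorem]
    rw [Unitary.conjStarAlgAut_apply, star_eq_conjTranspose,
      conjTranspose_eq_transpose_of_trivial]
    rfl
  have hpow : ∀ k : ℕ, H ^ k = V * diagonal (fun i => lam i ^ k) * Vᵀ := by
    intro k
    induction k with
    | zero => simp [hV1]
    | succ k ih =>
      rw [pow_succ, ih, hHV]
      have : V * diagonal (fun i => lam i ^ k) * Vᵀ * (V * diagonal lam * Vᵀ) =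
          V * diagonal (fun i => lam i ^ k) * (Vᵀ * V) * diagonal lam * Vᵀ := by
        simp only [Matrix.mul_assoc]
      rw [this, hV2, Matrix.mul_one, Matrix.mul_assoc V, diagonal_mul_diagonal]
      congr 2
  have hexp : ∀ β : ℝ, NormedSpace.exp (-(β • H)) =
      V * diagonal (fun i => Real.exp (-(β * lam i))) * Vᵀ := by
    intro β
    have hinv : V⁻¹ = Vᵀ := Matrix.inv_eq_right_inv hV1
    have h1 : -(β • H) = V * diagonal (fun i => -(β * lam i)) * V⁻¹ := by
      rw [hinv, hHV]
      have h2 : diagonal (fun i => -(β * lam i)) = -(β • diagonal lam) := by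
        ext i j
        by_cases hij : i = j
        · subst hij
          simp
        · simp [hij]
      rw [h2, Matrix.mul_neg, Matrix.neg_mul, Matrix.mul_smul, Matrix.smul_mul]
    have hu : IsUnit V := by
      refine (Matrix.isUnit_iff_isUnit_det V).2 ?_
      have := congrArg Matrix.det hV1
      rw [Matrix.det_mul, Matrix.det_one] at this
      exact IsUnit.of_mul_eq_one _ this
    rw [h1, Matrix.exp_conj V _ hu, Matrix.exp_diagonal, hinv]
    congr 3
    funext i
    rw [Pi.coe_exp, Real.exp_eq_exp_ℝ]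
  refine ⟨lam, fun i => (Vᵀ * W * V) i i, ?_, ?_, ?_, ?_⟩
  · intro i
    have hQ : (Vᵀ * W * V) * (Vᵀ * W * V)ᵀ = 1 := by
      rw [Matrix.transpose_mul, Matrix.transpose_mul, Matrix.transpose_transpose]
      have : Vᵀ * W * V * (Vᵀ * (Wᵀ * V)) = Vᵀ * (W * (V * Vᵀ) * Wᵀ) * V := by
        simp only [Matrix.mul_assoc]
      rw [this, hV1, Matrix.mul_one, hW, Matrix.mul_one, hV2]
    have h1 := congrFun (congrFun hQ i) i
    rw [Matrix.mul_apply, Matrix.one_apply_eq] at h1
    simp only [Matrix.transpose_apply] at h1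
    have h2 : (Vᵀ * W * V) i i * (Vᵀ * W * V) i i ≤ 1 := by
      rw [← h1]
      exact single_le_sum (f := fun j => (Vᵀ * W * V) i j * (Vᵀ * W * V) i j)
        (fun j _ => mul_self_nonneg _) (mem_univ i)
    rw [abs_le]
    constructor <;> nlinarith
  · intro k
    rw [hpow, trace_conj_diag]
  · intro k
    have := trace_conj_diag 1 V (fun i => lam i ^ k)
    rw [Matrix.one_mul, ← hpow] at this
    rw [this]
    refine sum_congr rfl fun i _ => ?_
    rw [Matrix.mul_one, hV2, Matrix.one_apply_eq, one_mul]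
  · intro β
    rw [hexp, trace_conj_diag]

end general

/-! ### the Heisenberg ring -/

theorem Lg_transpose (α : Fin 3) : (Lg α)ᵀ = -Lg α := by
  ext i j
  simp only [Matrix.transpose_apply, Matrix.neg_apply, Lg]
  fin_cases α <;> fin_cases i <;> fin_cases j <;> simp [eps]

theorem tens_transpose {ι : Type} [Fintype ι] (M : ι → Matrix (Fin 3) (Fin 3) ℝ) :
    (tens M)ᵀ = tens (fun i => (M i)ᵀ) := by
  ext s t
  rfl

/-- two sites carry antisymmetric matrices, the other sites the identity -/
theorem tens_pair_symm {ι : Type} [Fintype ι] [DecidableEq ι] (M : ι → Matrix (Fin 3) (Fin 3) ℝ)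
    (a b : ι) (hab : a ≠ b) (ha : (M a)ᵀ = -M a) (hb : (M b)ᵀ = -M b)
    (hM : ∀ i, i ≠ a → i ≠ b → (M i)ᵀ = M i) : (tens M)ᵀ = tens M := by
  rw [tens_transpose]
  ext s t
  unfold tens
  have h1 : ∀ i, (M i)ᵀ (s i) (t i) =
      (if i = a then (-1 : ℝ) else 1) * (if i = b then -1 else 1) * M i (s i) (t i) := by
    intro i
    by_cases h : i = a
    · subst h
      rw [ha]
      simp [hab]
    · by_cases h' : i = b
      · subst h'
        rw [hb]
        simp [h]
      · rw [hM i h h']
        simp [h, h']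
  rw [prod_congr rfl fun i _ => h1 i, prod_mul_distrib, prod_mul_distrib]
  simp

theorem HR_symm (N : ℕ) [NeZero N] (R : Matrix (Fin 3) (Fin 3) ℝ) : (HR N R)ᵀ = HR N R := by
  unfold HR
  rw [Matrix.transpose_add]
  congr 1
  · unfold Heven
    rw [Matrix.transpose_neg, Matrix.transpose_sum]
    congr 1
    refine sum_congr rfl fun i _ => ?_
    rw [Matrix.transpose_sum]
    refine sum_congr rfl fun α _ => ?_
    refine tens_pair_symm _ (i, false) (i, true) (by simp) ?_ ?_ ?_
    · simp [Lg_transpose]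
    · simp [Lg_transpose]
    · rintro ⟨j, c⟩ h1 h2
      have : j ≠ i := by
        rintro rfl
        cases c
        · exact h1 rfl
        · exact h2 rfl
      simp [this]
  · unfold Hodd
    rw [Matrix.transpose_neg, Matrix.transpose_sum]
    congr 1
    refine sum_congr rfl fun i _ => ?_
    rw [Matrix.transpose_sum]
    refine sum_congr rfl fun α _ => ?_
    refine tens_pair_symm _ (i, true) (i + 1, false) (by simp) ?_ ?_ ?_
    · simp [Lg_transpose]
    · simp only [Prod.mk.injEq, Bool.false_eq_true, and_false, if_false, if_true]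
      split_ifs
      · rw [Matrix.transpose_mul, Matrix.transpose_mul, Matrix.transpose_transpose, Lg_transpose]
        simp [Matrix.mul_assoc]
      · exact Lg_transpose α
    · intro s h1 h2
      simp [h1, h2]

theorem HR_isHermitian (N : ℕ) [NeZero N] (R : Matrix (Fin 3) (Fin 3) ℝ) :
    (HR N R).IsHermitian := by
  unfold Matrix.IsHermitian
  rw [conjTranspose_eq_transpose_of_trivial]
  exact HR_symm N R

theorem glob_orth (N : ℕ) (W : Matrix (Fin 3) (Fin 3) ℝ) (hW : W * Wᵀ = 1) :
    glob N W * (glob N W)ᵀ = 1 := by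
  unfold glob
  rw [tens_transpose, tens_mul]
  simp only [hW]
  exact tens_one

theorem glob_oneP (N : ℕ) : glob N 1 = 1 := tens_one

theorem card_Cfg (N : ℕ) : Fintype.card (Cfg N) = 3 ^ (2 * N) := by
  unfold Cfg Site
  rw [Fintype.card_fun, Fintype.card_prod, Fintype.card_fin, Fintype.card_fin, Fintype.card_bool,
    mul_comm]

end P348
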