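import Mathlib.Algebra.Order.Star.Real
import Mathlib.Data.List.GetD
import Mathlib.Tactic.IntervalCases
import Vale.Agent.Lib.P348.CheckTrie
import Vale.Agent.Lib.P348.TwoGroup

/-!
# P348 module Rules1: soundness of the rules 0-22, 33, 34 (elementary ones)
Each: if the state is valid and the check of the rule succeeds then the new fact holds.  The identities used:
Z = n1 + 2e + 3τ, A = n1 + 2e - τ, t = n1 - e with n1 = (Z+3A+8t)/12, e = (Z+3A-4t)/12, τ = (Z-A)/4;
Z = nT + 3τT, B = nT - τT; y ≥ 1, X ≥ 1; X^β = (X^(1/4))^(4β).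
-/

namespace P348

theorem r1_key (S : Boot) (kind j i v : ℕ) (_hk : kind < 16) (hj : j < 16) (hi : i < 16) :
    HoldsK S (key kind j i) v = Holds S kind j i v := by
  unfold HoldsK key
  have h1 : (kind * 256 + j * 16 + i) / 256 = kind := by omega
  have h2 : (kind * 256 + j * 16 + i) / 16 % 16 = j := by omega
  have h3 : (kind * 256 + j * 16 + i) % 16 = i := by omega
  rw [h1, h2, h3]

theorem r1_nn_pos (i : ℕ) : 1 ≤ nn i := by
  unfold nn NL
  by_cases h : i < 10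
  · interval_cases i <;> simp
  · rw [List.getD_eq_default _ _ (by simpa using h)]
    norm_num

theorem r1_bq_pos (j : ℕ) : 1 ≤ bq j := by
  unfold bq BQ
  by_cases h : j < 16
  · interval_cases j <;> simp
  · rw [List.getD_eq_default _ _ (by simpa using h)]
    norm_num

theorem r1_beta_pos (j : ℕ) : (0 : ℝ) < (bq j : ℝ) / 4 := by
  have : (1 : ℝ) ≤ bq j := by exact_mod_cast r1_bq_pos j
  linarith

theorem r1_nn_mono (k i : ℕ) (h : k ≤ i) (hi : i < 10) : nn k ≤ nn i := by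
  unfold nn NL
  interval_cases i <;> interval_cases k <;> simp

theorem r1_bq_mono (k j : ℕ) (h : k ≤ j) (hj : j < 16) : bq k ≤ bq j := by
  unfold bq BQ
  interval_cases j <;> interval_cases k <;> simp

theorem r1_eps : ∃ ε : ℝ, 0 < ε ∧ (DD : ℝ) * ε = 1 ∧ ∀ a : ℝ, a / (DD : ℝ) = a * ε := by
  have hD : (0 : ℝ) < (DD : ℝ) := by
    unfold DD
    norm_num
  exact ⟨(DD : ℝ)⁻¹, inv_pos.2 hD, mul_inv_cancel₀ hD.ne', fun a => div_eq_mul_inv a _⟩

/-- from a check of the form `y ^ N ≤ w * DD ^ (N - 1)` -/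
theorem r1_pow (Y : ℝ) (hY : 0 ≤ Y) (y w N : ℕ) (hN : 1 ≤ N) (hy : Y ≤ (y : ℝ) / DD)
    (h : y ^ N ≤ w * DD ^ (N - 1)) : Y ^ N ≤ (w : ℝ) / DD := by
  obtain ⟨M, rfl⟩ : ∃ M, N = M + 1 := ⟨N - 1, by omega⟩
  rw [Nat.add_sub_cancel] at h
  have hD : (0 : ℝ) < (DD : ℝ) := by
    unfold DD
    norm_num
  have h1 : ((y : ℝ)) ^ (M + 1) ≤ (w : ℝ) * (DD : ℝ) ^ M := by exact_mod_cast h
  calc Y ^ (M + 1) ≤ ((y : ℝ) / DD) ^ (M + 1) := pow_le_pow_left₀ hY hy _
    _ = (y : ℝ) ^ (M + 1) / (DD : ℝ) ^ (M + 1) := div_pow _ _ _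
    _ ≤ ((w : ℝ) * (DD : ℝ) ^ M) / (DD : ℝ) ^ (M + 1) := by gcongr
    _ = (w : ℝ) / DD := by
      rw [pow_succ, mul_comm ((DD : ℝ) ^ M) (DD : ℝ), mul_div_mul_right _ _ (by positivity)]

/-- from a check of the form `w * DD ^ (N - 1) ≤ c * v ^ N` -/
theorem r1_root (Y : ℝ) (w v N c : ℕ) (hN : 1 ≤ N) (hc : 0 < c)
    (hy : Y ^ N ≤ (w : ℝ) / DD / c) (h : w * DD ^ (N - 1) ≤ c * v ^ N) : Y ≤ (v : ℝ) / DD := by
  obtain ⟨M, rfl⟩ : ∃ M, N = M + 1 := ⟨N - 1, by omega⟩
  rw [Nat.add_sub_cancel] at h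
  have hD : (0 : ℝ) < (DD : ℝ) := by
    unfold DD
    norm_num
  have hc' : (0 : ℝ) < c := by exact_mod_cast hc
  have h1 : (w : ℝ) * (DD : ℝ) ^ M ≤ (c : ℝ) * (v : ℝ) ^ (M + 1) := by exact_mod_cast h
  have h2 : Y ^ (M + 1) ≤ ((v : ℝ) / DD) ^ (M + 1) := by
    refine hy.trans ?_
    rw [div_pow, div_div, div_le_div_iff₀ (by positivity) (by positivity)]
    calc (w : ℝ) * (DD : ℝ) ^ (M + 1) = ((w : ℝ) * (DD : ℝ) ^ M) * DD := by ring
      _ ≤ ((c : ℝ) * (v : ℝ) ^ (M + 1)) * DD := by gcongr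
      _ = _ := by ring
  exact le_of_pow_le_pow_left₀ (Nat.succ_ne_zero M) (by positivity) h2

theorem r1_X (S : Boot) (N b : ℕ) (hN : 1 ≤ N) :
    S.X N ^ ((b : ℝ) / 4) = (S.X N ^ ((1 : ℝ) / 4)) ^ b := by
  have h0 : 0 ≤ S.X N := zero_le_one.trans (S.X_one N hN)
  rw [← Real.rpow_natCast, ← Real.rpow_mul h0]
  congr 1
  ring

/-- casting a check -/
theorem r1_cast {p q : ℕ} (ε : ℝ) (hε : 0 < ε) (h : p ≤ q) : (p : ℝ) * ε ≤ (q : ℝ) * ε :=
  mul_le_mul_of_nonneg_right (by exact_mod_cast h) hε.le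

theorem rules_low (S : Boot) (s : Tr) (x : Stp) (hs : Valid S s) (hj : x.j < 16) (hi : x.i < 16)
    (hop : x.op < 12) (h : stepOK s x = true) : HoldsK S (newKey x) x.v := by
  obtain ⟨op, j, i, k, v, a, b, c, d⟩ := x
  simp only at hj hi hop ⊢
  have hβ := r1_beta_pos j
  have hN := r1_nn_pos i
  have hb := r1_bq_pos j
  obtain ⟨ε, hε, hDε, hdiv⟩ := r1_eps
  have hy1 := S.y_one _ hβ
  have hX1 := S.X_one _ hN
  have hy0 : 0 ≤ S.y ((bq j : ℝ) / 4) := zero_le_one.trans hy1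
  have hX0 : 0 ≤ S.X (nn i) ^ ((1 : ℝ) / 4) := Real.rpow_nonneg (zero_le_one.trans hX1) _
  have hτ := S.tau_nonneg _ _ hβ hN
  have he0 := S.e_nonneg _ _ hβ hN
  have hτT := S.tauT_nonneg _ _ hβ hN
  have hyN : 1 ≤ S.y ((bq j : ℝ) / 4) ^ nn i := one_le_pow₀ hy1
  have hXβ : 1 ≤ S.X (nn i) ^ ((bq j : ℝ) / 4) := Real.one_le_rpow hX1 hβ.le
  interval_cases op
  · -- 0
    simp only [stepOK, newKey] at h ⊢
    rw [r1_key S 2 j i v (by norm_num) hj hi]
    split at h
    · rename_i y e gy ge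
      have fy : S.y ((bq j : ℝ) / 4) ≤ (y : ℝ) / DD :=
        valid_get S s hs 0 j 0 y (by norm_num) hj (by norm_num) gy
      have fe : S.Z ((bq j : ℝ) / 4) (nn i) - S.y ((bq j : ℝ) / 4) ^ nn i ≤ (e : ℝ) / DD :=
        valid_get S s hs 6 j i e (by norm_num) hj hi ge
      simp only [Bool.and_eq_true, decide_eq_true_eq] at h
      obtain ⟨h1, h2⟩ := h
      have h3 := r1_pow _ hy0 y (v - e) (nn i) hN fy h2
      rw [Nat.cast_sub h1] at h3
      change S.Z ((bq j : ℝ) / 4) (nn i) ≤ (v : ℝ) / DD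
      rw [sub_div] at h3
      linarith
    · exact absurd h (by simp)
  · -- 1
    simp only [stepOK, newKey] at h ⊢
    rw [r1_key S 2 j i v (by norm_num) hj hi]
    split at h
    · rename_i y e gy ge
      have fy : S.X (nn i) ^ ((1 : ℝ) / 4) ≤ (y : ℝ) / DD :=
        valid_get S s hs 1 0 i y (by norm_num) (by norm_num) hi gy
      have fe : S.Z ((bq j : ℝ) / 4) (nn i) - S.X (nn i) ^ ((bq j : ℝ) / 4) ≤ (e : ℝ) / DD :=
        valid_get S s hs 10 j i e (by norm_num) hj hi ge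
      simp only [Bool.and_eq_true, decide_eq_true_eq] at h
      obtain ⟨h1, h2⟩ := h
      have h3 := r1_pow _ hX0 y (v - e) (bq j) hb fy h2
      rw [Nat.cast_sub h1, sub_div, ← r1_X S (nn i) (bq j) hN] at h3
      change S.Z ((bq j : ℝ) / 4) (nn i) ≤ (v : ℝ) / DD
      linarith
    · exact absurd h (by simp)
  · -- 2
    simp only [stepOK, newKey] at h ⊢
    rw [r1_key S 3 j i v (by norm_num) hj hi]
    split at h
    · rename_i y a' e gy ga ge
      have fy : S.y ((bq j : ℝ) / 4) ≤ (y : ℝ) / DD :=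
        valid_get S s hs 0 j 0 y (by norm_num) hj (by norm_num) gy
      have fa : (S.Z ((bq j : ℝ) / 4) (nn i) + 3 * S.A ((bq j : ℝ) / 4) (nn i) +
          8 * S.t ((bq j : ℝ) / 4) (nn i)) / 12 - S.y ((bq j : ℝ) / 4) ^ nn i ≤ (a' : ℝ) / DD :=
        valid_get S s hs 7 j i a' (by norm_num) hj hi ga
      have fe : (S.Z ((bq j : ℝ) / 4) (nn i) + 3 * S.A ((bq j : ℝ) / 4) (nn i) -
          4 * S.t ((bq j : ℝ) / 4) (nn i)) / 12 ≤ (e : ℝ) / DD :=
        valid_get S s hs 8 j i e (by norm_num) hj hi ge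
      simp only [Bool.and_eq_true, decide_eq_true_eq] at h
      obtain ⟨h1, h2⟩ := h
      have h3 := r1_pow _ hy0 y (v - (a' + 2 * e)) (nn i) hN fy h2
      rw [Nat.cast_sub h1, sub_div] at h3
      push_cast at h3
      change S.A ((bq j : ℝ) / 4) (nn i) ≤ (v : ℝ) / DD
      rw [hdiv] at h3 fa fe ⊢
      rw [hdiv] at h3
      linarith
    · exact absurd h (by simp)
  · -- 3
    simp only [stepOK, newKey] at h ⊢
    rw [r1_key S 4 j i v (by norm_num) hj hi]
    split at h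
    · rename_i y a' gy ga
      have fy : S.y ((bq j : ℝ) / 4) ≤ (y : ℝ) / DD :=
        valid_get S s hs 0 j 0 y (by norm_num) hj (by norm_num) gy
      have fa : (S.Z ((bq j : ℝ) / 4) (nn i) + 3 * S.A ((bq j : ℝ) / 4) (nn i) +
          8 * S.t ((bq j : ℝ) / 4) (nn i)) / 12 - S.y ((bq j : ℝ) / 4) ^ nn i ≤ (a' : ℝ) / DD :=
        valid_get S s hs 7 j i a' (by norm_num) hj hi ga
      simp only [Bool.and_eq_true, decide_eq_true_eq] at h
      obtain ⟨h1, h2⟩ := h
      have h3 := r1_pow _ hy0 y (v - a') (nn i) hN fy h2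
      rw [Nat.cast_sub h1, sub_div] at h3
      change S.t ((bq j : ℝ) / 4) (nn i) ≤ (v : ℝ) / DD
      linarith
    · exact absurd h (by simp)
  · -- 4
    simp only [stepOK, newKey] at h ⊢
    rw [r1_key S 5 j i v (by norm_num) hj hi]
    split at h
    · rename_i y a' gy ga
      have fy : S.X (nn i) ^ ((1 : ℝ) / 4) ≤ (y : ℝ) / DD :=
        valid_get S s hs 1 0 i y (by norm_num) (by norm_num) hi gy
      have fa : (S.Z ((bq j : ℝ) / 4) (nn i) + 3 * S.B ((bq j : ℝ) / 4) (nn i)) / 4 -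
          S.X (nn i) ^ ((bq j : ℝ) / 4) ≤ (a' : ℝ) / DD :=
        valid_get S s hs 11 j i a' (by norm_num) hj hi ga
      simp only [Bool.and_eq_true, decide_eq_true_eq] at h
      obtain ⟨h1, h2⟩ := h
      have h3 := r1_pow _ hX0 y (v - a') (bq j) hb fy h2
      rw [Nat.cast_sub h1, sub_div, ← r1_X S (nn i) (bq j) hN] at h3
      change S.B ((bq j : ℝ) / 4) (nn i) ≤ (v : ℝ) / DD
      linarith
    · exact absurd h (by simp)
  · -- 5
    simp only [stepOK, newKey] at h ⊢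
    rw [r1_key S 3 j i v (by norm_num) hj hi]
    split at h
    · rename_i z gz
      have fz : S.Z ((bq j : ℝ) / 4) (nn i) ≤ (z : ℝ) / DD :=
        valid_get S s hs 2 j i z (by norm_num) hj hi gz
      simp only [decide_eq_true_eq] at h
      have h3 := r1_cast ε hε h
      change S.A ((bq j : ℝ) / 4) (nn i) ≤ (v : ℝ) / DD
      rw [hdiv] at fz ⊢
      linarith
    · exact absurd h (by simp)
  · -- 6
    simp only [stepOK, newKey] at h ⊢
    rw [r1_key S 4 j i v (by norm_num) hj hi]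
    split at h
    · rename_i z gz
      have fz : S.Z ((bq j : ℝ) / 4) (nn i) ≤ (z : ℝ) / DD :=
        valid_get S s hs 2 j i z (by norm_num) hj hi gz
      simp only [decide_eq_true_eq] at h
      have h3 := r1_cast ε hε h
      change S.t ((bq j : ℝ) / 4) (nn i) ≤ (v : ℝ) / DD
      rw [hdiv] at fz ⊢
      linarith
    · exact absurd h (by simp)
  · -- 7
    simp only [stepOK, newKey] at h ⊢
    rw [r1_key S 5 j i v (by norm_num) hj hi]
    split at h
    · rename_i z gz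
      have fz : S.Z ((bq j : ℝ) / 4) (nn i) ≤ (z : ℝ) / DD :=
        valid_get S s hs 2 j i z (by norm_num) hj hi gz
      simp only [decide_eq_true_eq] at h
      have h3 := r1_cast ε hε h
      change S.B ((bq j : ℝ) / 4) (nn i) ≤ (v : ℝ) / DD
      rw [hdiv] at fz ⊢
      linarith
    · exact absurd h (by simp)
  · -- 8
    simp only [stepOK, newKey] at h ⊢
    rw [r1_key S 6 j i v (by norm_num) hj hi]
    split at h
    · rename_i a' e t' ga ge gt'
      have fa : (S.Z ((bq j : ℝ) / 4) (nn i) + 3 * S.A ((bq j : ℝ) / 4) (nn i) +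
          8 * S.t ((bq j : ℝ) / 4) (nn i)) / 12 - S.y ((bq j : ℝ) / 4) ^ nn i ≤ (a' : ℝ) / DD :=
        valid_get S s hs 7 j i a' (by norm_num) hj hi ga
      have fe : (S.Z ((bq j : ℝ) / 4) (nn i) + 3 * S.A ((bq j : ℝ) / 4) (nn i) -
          4 * S.t ((bq j : ℝ) / 4) (nn i)) / 12 ≤ (e : ℝ) / DD :=
        valid_get S s hs 8 j i e (by norm_num) hj hi ge
      have ft : (S.Z ((bq j : ℝ) / 4) (nn i) - S.A ((bq j : ℝ) / 4) (nn i)) / 4 ≤ (t' : ℝ) / DD :=
        valid_get S s hs 9 j i t' (by norm_num) hj hi gt'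
      simp only [decide_eq_true_eq] at h
      have h3 := r1_cast ε hε h
      push_cast at h3
      change S.Z ((bq j : ℝ) / 4) (nn i) - S.y ((bq j : ℝ) / 4) ^ nn i ≤ (v : ℝ) / DD
      rw [hdiv] at fa fe ft ⊢
      linarith
    · exact absurd h (by simp)
  · -- 9
    simp only [stepOK, newKey] at h ⊢
    rw [r1_key S 10 j i v (by norm_num) hj hi]
    split at h
    · rename_i a' t' ga gt'
      have fa : (S.Z ((bq j : ℝ) / 4) (nn i) + 3 * S.B ((bq j : ℝ) / 4) (nn i)) / 4 -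
          S.X (nn i) ^ ((bq j : ℝ) / 4) ≤ (a' : ℝ) / DD :=
        valid_get S s hs 11 j i a' (by norm_num) hj hi ga
      have ft : (S.Z ((bq j : ℝ) / 4) (nn i) - S.B ((bq j : ℝ) / 4) (nn i)) / 4 ≤ (t' : ℝ) / DD :=
        valid_get S s hs 12 j i t' (by norm_num) hj hi gt'
      simp only [decide_eq_true_eq] at h
      have h3 := r1_cast ε hε h
      push_cast at h3
      change S.Z ((bq j : ℝ) / 4) (nn i) - S.X (nn i) ^ ((bq j : ℝ) / 4) ≤ (v : ℝ) / DD
      rw [hdiv] at fa ft ⊢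
      linarith
    · exact absurd h (by simp)
  · -- 10
    simp only [stepOK, newKey] at h ⊢
    rw [r1_key S 6 j i v (by norm_num) hj hi]
    split at h
    · rename_i z gz
      have fz : S.Z ((bq j : ℝ) / 4) (nn i) ≤ (z : ℝ) / DD :=
        valid_get S s hs 2 j i z (by norm_num) hj hi gz
      simp only [decide_eq_true_eq] at h
      have h3 := r1_cast ε hε h
      push_cast at h3
      change S.Z ((bq j : ℝ) / 4) (nn i) - S.y ((bq j : ℝ) / 4) ^ nn i ≤ (v : ℝ) / DD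
      rw [hdiv] at fz ⊢
      linarith
    · exact absurd h (by simp)
  · -- 11
    simp only [stepOK, newKey] at h ⊢
    rw [r1_key S 10 j i v (by norm_num) hj hi]
    split at h
    · rename_i z gz
      have fz : S.Z ((bq j : ℝ) / 4) (nn i) ≤ (z : ℝ) / DD :=
        valid_get S s hs 2 j i z (by norm_num) hj hi gz
      simp only [decide_eq_true_eq] at h
      have h3 := r1_cast ε hε h
      push_cast at h3
      change S.Z ((bq j : ℝ) / 4) (nn i) - S.X (nn i) ^ ((bq j : ℝ) / 4) ≤ (v : ℝ) / DD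
      rw [hdiv] at fz ⊢
      linarith
    · exact absurd h (by simp)

theorem rules_mid (S : Boot) (s : Tr) (x : Stp) (hs : Valid S s) (hj : x.j < 16) (hi : x.i < 16)
    (hk : x.k < 16) (hop : 12 ≤ x.op) (hop' : x.op < 23) (h : stepOK s x = true) :
    HoldsK S (newKey x) x.v := by
  obtain ⟨op, j, i, k, v, a, b, c, d⟩ := x
  simp only at hj hi hk hop hop' ⊢
  have hβ := r1_beta_pos j
  have hβk := r1_beta_pos k
  have hN := r1_nn_pos i
  have hM := r1_nn_pos k
  have hb := r1_bq_pos j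
  have hbk := r1_bq_pos k
  obtain ⟨ε, hε, hDε, hdiv⟩ := r1_eps
  have hy1 := S.y_one _ hβ
  have hX1 := S.X_one _ hN
  have hy0 : 0 ≤ S.y ((bq j : ℝ) / 4) := zero_le_one.trans hy1
  have hX0 : 0 ≤ S.X (nn i) ^ ((1 : ℝ) / 4) := Real.rpow_nonneg (zero_le_one.trans hX1) _
  have hτ := S.tau_nonneg _ _ hβ hN
  have he0 := S.e_nonneg _ _ hβ hN
  have heM := S.e_nonneg _ _ hβ hM
  have hτT := S.tauT_nonneg _ _ hβ hN
  have hyN : 1 ≤ S.y ((bq j : ℝ) / 4) ^ nn i := one_le_pow₀ hy1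
  have hXβ : 1 ≤ S.X (nn i) ^ ((bq j : ℝ) / 4) := Real.one_le_rpow hX1 hβ.le
  interval_cases op
  · -- 12
    simp only [stepOK, newKey] at h ⊢
    rw [r1_key S 9 j i v (by norm_num) hj hi]
    split at h
    · rename_i w e gw ge
      have fw : ∃ M : ℕ, 1 ≤ M ∧ S.Z ((bq j : ℝ) / 4) M < 2 :=
        valid_get S s hs 13 j 0 w (by norm_num) hj (by norm_num) gw
      have fe : S.Z ((bq j : ℝ) / 4) (nn i) - S.y ((bq j : ℝ) / 4) ^ nn i ≤ (e : ℝ) / DD :=
        valid_get S s hs 6 j i e (by norm_num) hj hi ge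
      obtain ⟨M, hM1, hM2⟩ := fw
      have hg := (S.goodS _ M hβ hM1 hM2).1 (nn i) hN
      simp only [decide_eq_true_eq] at h
      have h3 := r1_cast ε hε h
      push_cast at h3
      change (S.Z ((bq j : ℝ) / 4) (nn i) - S.A ((bq j : ℝ) / 4) (nn i)) / 4 ≤ (v : ℝ) / DD
      rw [hdiv] at fe ⊢
      linarith
    · exact absurd h (by simp)
  · -- 13
    simp only [stepOK, newKey] at h ⊢
    rw [r1_key S 12 j i v (by norm_num) hj hi]
    split at h
    · rename_i w e gw ge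
      have fw : ∃ β₀ : ℝ, 0 < β₀ ∧ S.Z β₀ (nn i) < 3 :=
        valid_get S s hs 14 0 i w (by norm_num) (by norm_num) hi gw
      have fe : S.Z ((bq j : ℝ) / 4) (nn i) - S.X (nn i) ^ ((bq j : ℝ) / 4) ≤ (e : ℝ) / DD :=
        valid_get S s hs 10 j i e (by norm_num) hj hi ge
      obtain ⟨β₀, hM1, hM2⟩ := fw
      have hg := (S.goodT (nn i) β₀ hN hM1 hM2).1 _ hβ
      simp only [decide_eq_true_eq] at h
      have h3 := r1_cast ε hε h
      push_cast at h3
      change (S.Z ((bq j : ℝ) / 4) (nn i) - S.B ((bq j : ℝ) / 4) (nn i)) / 4 ≤ (v : ℝ) / DD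
      rw [hdiv] at fe ⊢
      linarith
    · exact absurd h (by simp)
  · -- 14
    simp only [stepOK, newKey] at h ⊢
    rw [r1_key S 7 j i v (by norm_num) hj hi]
    split at h
    · rename_i z a' t' gz ga gt'
      have fz : S.Z ((bq j : ℝ) / 4) (nn i) ≤ (z : ℝ) / DD :=
        valid_get S s hs 2 j i z (by norm_num) hj hi gz
      have fa : S.A ((bq j : ℝ) / 4) (nn i) ≤ (a' : ℝ) / DD :=
        valid_get S s hs 3 j i a' (by norm_num) hj hi ga
      have ft : S.t ((bq j : ℝ) / 4) (nn i) ≤ (t' : ℝ) / DD :=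
        valid_get S s hs 4 j i t' (by norm_num) hj hi gt'
      simp only [decide_eq_true_eq] at h
      have h3 := r1_cast ε hε h
      push_cast at h3
      change (S.Z ((bq j : ℝ) / 4) (nn i) + 3 * S.A ((bq j : ℝ) / 4) (nn i) +
          8 * S.t ((bq j : ℝ) / 4) (nn i)) / 12 - S.y ((bq j : ℝ) / 4) ^ nn i ≤ (v : ℝ) / DD
      rw [hdiv] at fz fa ft ⊢
      linarith
    · exact absurd h (by simp)
  · -- 15
    simp only [stepOK, newKey] at h ⊢
    rw [r1_key S 7 j i v (by norm_num) hj hi]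
    split at h
    · rename_i z a' gz ga
      have fz : S.Z ((bq j : ℝ) / 4) (nn i) ≤ (z : ℝ) / DD :=
        valid_get S s hs 2 j i z (by norm_num) hj hi gz
      have fa : S.A ((bq j : ℝ) / 4) (nn i) ≤ (a' : ℝ) / DD :=
        valid_get S s hs 3 j i a' (by norm_num) hj hi ga
      simp only [decide_eq_true_eq] at h
      have h3 := r1_cast ε hε h
      push_cast at h3
      change (S.Z ((bq j : ℝ) / 4) (nn i) + 3 * S.A ((bq j : ℝ) / 4) (nn i) +
          8 * S.t ((bq j : ℝ) / 4) (nn i)) / 12 - S.y ((bq j : ℝ) / 4) ^ nn i ≤ (v : ℝ) / DD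
      rw [hdiv] at fz fa ⊢
      linarith
    · exact absurd h (by simp)
  · -- 16
    simp only [stepOK, newKey] at h ⊢
    rw [r1_key S 11 j i v (by norm_num) hj hi]
    split at h
    · rename_i z a' gz ga
      have fz : S.Z ((bq j : ℝ) / 4) (nn i) ≤ (z : ℝ) / DD :=
        valid_get S s hs 2 j i z (by norm_num) hj hi gz
      have fa : S.B ((bq j : ℝ) / 4) (nn i) ≤ (a' : ℝ) / DD :=
        valid_get S s hs 5 j i a' (by norm_num) hj hi ga
      simp only [decide_eq_true_eq] at h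
      have h3 := r1_cast ε hε h
      push_cast at h3
      change (S.Z ((bq j : ℝ) / 4) (nn i) + 3 * S.B ((bq j : ℝ) / 4) (nn i)) / 4 -
          S.X (nn i) ^ ((bq j : ℝ) / 4) ≤ (v : ℝ) / DD
      rw [hdiv] at fz fa ⊢
      linarith
    · exact absurd h (by simp)
  · -- 17
    simp only [stepOK, newKey] at h ⊢
    rw [r1_key S 8 j i v (by norm_num) hj hi]
    split at h
    · rename_i w z a' gw gz ga
      have fw : ∃ M : ℕ, 1 ≤ M ∧ S.Z ((bq j : ℝ) / 4) M < 2 :=
        valid_get S s hs 13 j 0 w (by norm_num) hj (by norm_num) gw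
      have fz : S.Z ((bq j : ℝ) / 4) (nn i) ≤ (z : ℝ) / DD :=
        valid_get S s hs 2 j i z (by norm_num) hj hi gz
      have fa : S.A ((bq j : ℝ) / 4) (nn i) ≤ (a' : ℝ) / DD :=
        valid_get S s hs 3 j i a' (by norm_num) hj hi ga
      obtain ⟨M, hM1, hM2⟩ := fw
      have hg := (S.goodS _ M hβ hM1 hM2).1 (nn i) hN
      simp only [decide_eq_true_eq] at h
      have h3 := r1_cast ε hε h
      push_cast at h3
      change (S.Z ((bq j : ℝ) / 4) (nn i) + 3 * S.A ((bq j : ℝ) / 4) (nn i) -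
          4 * S.t ((bq j : ℝ) / 4) (nn i)) / 12 ≤ (v : ℝ) / DD
      rw [hdiv] at fz fa ⊢
      linarith
    · exact absurd h (by simp)
  · -- 18
    simp only [stepOK, newKey] at h ⊢
    rw [r1_key S 0 j 0 v (by norm_num) hj (by norm_num)]
    split at h
    · rename_i w z a' gw gz ga
      have fw : ∃ M : ℕ, 1 ≤ M ∧ S.Z ((bq j : ℝ) / 4) M < 2 :=
        valid_get S s hs 13 j 0 w (by norm_num) hj (by norm_num) gw
      have fz : S.Z ((bq j : ℝ) / 4) (nn k) ≤ (z : ℝ) / DD :=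
        valid_get S s hs 2 j k z (by norm_num) hj hk gz
      have fa : S.A ((bq j : ℝ) / 4) (nn k) ≤ (a' : ℝ) / DD :=
        valid_get S s hs 3 j k a' (by norm_num) hj hk ga
      obtain ⟨M, hM1, hM2⟩ := fw
      have hg := (S.goodS _ M hβ hM1 hM2).1 (nn k) hM
      simp only [decide_eq_true_eq] at h
      change S.y ((bq j : ℝ) / 4) ≤ (v : ℝ) / DD
      refine r1_root _ (z + 3 * a') v (nn k) 4 hM (by norm_num) ?_ h
      push_cast
      rw [hdiv] at fz fa ⊢
      linarith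
    · exact absurd h (by simp)
  · -- 19
    simp only [stepOK, newKey] at h ⊢
    rw [r1_key S 0 j 0 v (by norm_num) hj (by norm_num)]
    split at h
    · rename_i w z a' t' gw gz ga gt'
      have fw : ∃ M : ℕ, 1 ≤ M ∧ S.Z ((bq j : ℝ) / 4) M < 2 :=
        valid_get S s hs 13 j 0 w (by norm_num) hj (by norm_num) gw
      have fz : S.Z ((bq j : ℝ) / 4) (nn k) ≤ (z : ℝ) / DD :=
        valid_get S s hs 2 j k z (by norm_num) hj hk gz
      have fa : S.A ((bq j : ℝ) / 4) (nn k) ≤ (a' : ℝ) / DD :=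
        valid_get S s hs 3 j k a' (by norm_num) hj hk ga
      have ft : S.t ((bq j : ℝ) / 4) (nn k) ≤ (t' : ℝ) / DD :=
        valid_get S s hs 4 j k t' (by norm_num) hj hk gt'
      obtain ⟨M, hM1, hM2⟩ := fw
      have hg := (S.goodS _ M hβ hM1 hM2).1 (nn k) hM
      simp only [decide_eq_true_eq] at h
      change S.y ((bq j : ℝ) / 4) ≤ (v : ℝ) / DD
      refine r1_root _ (z + 3 * a' + 8 * t') v (nn k) 12 hM (by norm_num) ?_ h
      push_cast
      rw [hdiv] at fz fa ft ⊢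
      linarith
    · exact absurd h (by simp)
  · -- 20
    simp only [stepOK, newKey] at h ⊢
    rw [r1_key S 1 0 i v (by norm_num) (by norm_num) hi]
    split at h
    · rename_i w z a' gw gz ga
      have fw : ∃ β₀ : ℝ, 0 < β₀ ∧ S.Z β₀ (nn i) < 3 :=
        valid_get S s hs 14 0 i w (by norm_num) (by norm_num) hi gw
      have fz : S.Z ((bq k : ℝ) / 4) (nn i) ≤ (z : ℝ) / DD :=
        valid_get S s hs 2 k i z (by norm_num) hk hi gz
      have fa : S.B ((bq k : ℝ) / 4) (nn i) ≤ (a' : ℝ) / DD :=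
        valid_get S s hs 5 k i a' (by norm_num) hk hi ga
      obtain ⟨β₀, hM1, hM2⟩ := fw
      have hg := (S.goodT (nn i) β₀ hN hM1 hM2).1 _ hβk
      simp only [decide_eq_true_eq] at h
      change S.X (nn i) ^ ((1 : ℝ) / 4) ≤ (v : ℝ) / DD
      refine r1_root _ (z + 3 * a') v (bq k) 4 hbk (by norm_num) ?_ h
      rw [r1_X S (nn i) (bq k) hN] at hg
      push_cast
      rw [hdiv] at fz fa ⊢
      linarith
    · exact absurd h (by simp)
  · -- 21
    simp only [stepOK, newKey] at h ⊢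
    rw [r1_key S 0 j 0 v (by norm_num) hj (by norm_num)]
    split at h
    · rename_i y gy
      have fy : S.y ((bq k : ℝ) / 4) ≤ (y : ℝ) / DD :=
        valid_get S s hs 0 k 0 y (by norm_num) hk (by norm_num) gy
      simp only [Bool.and_eq_true, decide_eq_true_eq] at h
      have h3 := r1_cast ε hε h.1.1
      have h4 : (bq k : ℝ) / 4 ≤ (bq j : ℝ) / 4 := by
        have : (bq k : ℝ) ≤ bq j := by exact_mod_cast r1_bq_mono k j h.1.2 hj
        linarith
      have h5 := S.y_anti _ _ hβk h4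
      change S.y ((bq j : ℝ) / 4) ≤ (v : ℝ) / DD
      rw [hdiv] at fy ⊢
      linarith
    · exact absurd h (by simp)
  · -- 22
    simp only [stepOK, newKey] at h ⊢
    rw [r1_key S 1 0 i v (by norm_num) (by norm_num) hi]
    split at h
    · rename_i y gy
      have fy : S.X (nn k) ^ ((1 : ℝ) / 4) ≤ (y : ℝ) / DD :=
        valid_get S s hs 1 0 k y (by norm_num) (by norm_num) hk gy
      simp only [Bool.and_eq_true, decide_eq_true_eq] at h
      have h3 := r1_cast ε hε h.1.1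
      have h5 := S.X_anti _ _ hM (r1_nn_mono k i h.1.2 h.2)
      have h6 : S.X (nn i) ^ ((1 : ℝ) / 4) ≤ S.X (nn k) ^ ((1 : ℝ) / 4) :=
        Real.rpow_le_rpow (zero_le_one.trans hX1) h5 (by norm_num)
      change S.X (nn i) ^ ((1 : ℝ) / 4) ≤ (v : ℝ) / DD
      rw [hdiv] at fy ⊢
      linarith
    · exact absurd h (by simp)

theorem rules_flag (S : Boot) (s : Tr) (x : Stp) (hs : Valid S s) (hj : x.j < 16) (hi : x.i < 16)
    (hk : x.k < 16) (hop : x.op = 33 ∨ x.op = 34) (h : stepOK s x = true) :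
    HoldsK S (newKey x) x.v := by
  obtain ⟨op, j, i, k, v, a, b, c, d⟩ := x
  simp only at hj hi hk hop ⊢
  have hM := r1_nn_pos k
  have hβk := r1_beta_pos k
  obtain ⟨ε, hε, hDε, hdiv⟩ := r1_eps
  rcases hop with rfl | rfl
  · simp only [stepOK, newKey] at h ⊢
    rw [r1_key S 13 j 0 v (by norm_num) hj (by norm_num)]
    split at h
    · rename_i z gz
      have fz : S.Z ((bq j : ℝ) / 4) (nn k) ≤ (z : ℝ) / DD :=
        valid_get S s hs 2 j k z (by norm_num) hj hk gz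
      simp only [decide_eq_true_eq] at h
      change ∃ M : ℕ, 1 ≤ M ∧ S.Z ((bq j : ℝ) / 4) M < 2
      refine ⟨nn k, hM, lt_of_le_of_lt fz ?_⟩
      have h3 : (z : ℝ) < 2 * (DD : ℝ) := by exact_mod_cast h
      rw [hdiv]
      nlinarith
    · exact absurd h (by simp)
  · simp only [stepOK, newKey] at h ⊢
    rw [r1_key S 14 0 i v (by norm_num) (by norm_num) hi]
    split at h
    · rename_i z gz
      have fz : S.Z ((bq k : ℝ) / 4) (nn i) ≤ (z : ℝ) / DD :=
        valid_get S s hs 2 k i z (by norm_num) hk hi gz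
      simp only [decide_eq_true_eq] at h
      change ∃ β₀ : ℝ, 0 < β₀ ∧ S.Z β₀ (nn i) < 3
      refine ⟨(bq k : ℝ) / 4, hβk, lt_of_le_of_lt fz ?_⟩
      have h3 : (z : ℝ) < 3 * (DD : ℝ) := by exact_mod_cast h
      rw [hdiv]
      nlinarith
    · exact absurd h (by simp)

end P348
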