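import Vale.Agent.Lib.P348.SecondDefs
import Vale.Agent.Lib.P348.Close

/-!
# P348, second formulation: transfer from the matrix formulation
-/

open scoped TensorProduct ComplexOrder

namespace P348.Ring

open Matrix

theorem lc012 : leviCivita 0 1 2 = 1 := by norm_num [leviCivita]
theorem lc120 : leviCivita 1 2 0 = 1 := by norm_num [leviCivita]
theorem lc201 : leviCivita 2 0 1 = 1 := by norm_num [leviCivita]
theorem lc021 : leviCivita 0 2 1 = -1 := by norm_num [leviCivita]
theorem lc102 : leviCivita 1 0 2 = -1 := by norm_num [leviCivita]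
theorem lc210 : leviCivita 2 1 0 = -1 := by norm_num [leviCivita]
theorem lc_left (a c : Fin 3) : leviCivita a a c = 0 := by simp [leviCivita]
theorem lc_right (a c : Fin 3) : leviCivita a c c = 0 := by simp [leviCivita]
theorem lc_out (a c : Fin 3) : leviCivita a c a = 0 := by simp [leviCivita]

theorem isSpinOne {S : Fin 3 → Matrix (Fin 3) (Fin 3) ℂ} (h : SpinOneTriple S) :
    Problem.IsSpinOne S where
  selfAdjoint a := h.isHermitian a
  comm_xy := by
    have := h.commutator 0 1
    rw [Ring.lie_def] at this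
    rw [this, Fin.sum_univ_three, lc012, lc_out, lc_right]
    simp
  comm_yz := by
    have := h.commutator 1 2
    rw [Ring.lie_def] at this
    rw [this, Fin.sum_univ_three, lc120, lc_out, lc_right]
    simp
  comm_zx := by
    have := h.commutator 2 0
    rw [Ring.lie_def] at this
    rw [this, Fin.sum_univ_three, lc201, lc_out, lc_right]
    simp
  casimir := by
    have := h.sum_sq
    rw [Fin.sum_univ_three] at this
    rw [← pow_two, ← pow_two, ← pow_two, this]
    simp [two_smul]

theorem spinOneTriple_of {S : Fin 3 → Matrix (Fin 3) (Fin 3) ℂ} (h : Problem.IsSpinOne S) :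
    SpinOneTriple S where
  isHermitian a := h.selfAdjoint a
  commutator a b := by
    have hxy := h.comm_xy
    have hyz := h.comm_yz
    have hzx := h.comm_zx
    have hyx : S 1 * S 0 - S 0 * S 1 = -(Complex.I • S 2) := by rw [← hxy]; abel
    have hzy : S 2 * S 1 - S 1 * S 2 = -(Complex.I • S 0) := by rw [← hyz]; abel
    have hxz : S 0 * S 2 - S 2 * S 0 = -(Complex.I • S 1) := by rw [← hzx]; abel
    rw [Ring.lie_def, Fin.sum_univ_three]
    fin_cases a <;> fin_cases b <;>
      simp [lc012, lc120, lc201, lc021, lc102, lc210, lc_left, lc_right, lc_out,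
        hxy, hyz, hzx, hyx, hzy, hxz]
  sum_sq := by
    have := h.casimir
    rw [Fin.sum_univ_three, pow_two, pow_two, pow_two, this]
    simp [two_smul]

/-- the product basis -/
noncomputable def bas (L : ℕ) [NeZero L] : Module.Basis (ZMod L → Fin 3) ℂ (Space L) :=
  Basis.piTensorProduct (fun _ : ZMod L => Pi.basisFun ℂ (Fin 3))

theorem toMatrix_onSite {L : ℕ} [NeZero L] (A : Matrix (Fin 3) (Fin 3) ℂ) (j : ZMod L) :
    LinearMap.toMatrixAlgEquiv (bas L) (onSite A j) = Problem.siteG A j := by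
  ext q p
  rw [LinearMap.toMatrixAlgEquiv_apply, bas, Basis.piTensorProduct_apply, onSite,
    PiTensorProduct.map_tprod, Basis.piTensorProduct_repr_tprod_apply]
  have hval : ∀ i : ZMod L,
      ((Pi.basisFun ℂ (Fin 3)).repr
        ((Function.update (fun _ : ZMod L => (LinearMap.id : (Fin 3 → ℂ) →ₗ[ℂ] (Fin 3 → ℂ)))
          j (Matrix.toLin' A)) i ((Pi.basisFun ℂ (Fin 3)) (p i)))) (q i)
        = (if i = j then A else 1) (q i) (p i) := by
    intro i
    by_cases h : i = j
    · subst h
      simp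
    · rw [Function.update_of_ne h, if_neg h]
      simp [Matrix.one_apply, Pi.single_apply]
  rw [Finset.prod_congr rfl fun i _ => hval i]
  rfl

/-- the matrix of the Hamiltonian in the product basis -/
noncomputable def matH (S : Fin 3 → Matrix (Fin 3) (Fin 3) ℂ) (L : ℕ) [NeZero L] :
    Matrix (ZMod L → Fin 3) (ZMod L → Fin 3) ℂ :=
  ∑ j ∈ Finset.range L, ∑ a,
    Problem.siteG (S a) (j : ZMod L) * Problem.siteG (S a) ((j : ZMod L) + 1)

theorem toMatrix_hamiltonian (S : Fin 3 → Matrix (Fin 3) (Fin 3) ℂ) (L : ℕ) [NeZero L] :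
    LinearMap.toMatrixAlgEquiv (bas L) (hamiltonian S L) = matH S L := by
  simp only [hamiltonian, bond, matH, map_sum, map_mul, toMatrix_onSite]

theorem matH_eq (S : Fin 3 → Matrix (Fin 3) (Fin 3) ℂ) (n : ℕ) :
    (matH S (n + 1) : Matrix (Fin (n + 1) → Fin 3) (Fin (n + 1) → Fin 3) ℂ)
      = Problem.heis S (n + 1) := by
  rw [matH, Problem.heis, Finset.sum_range]
  refine Finset.sum_congr rfl fun j _ => Finset.sum_congr rfl fun a _ => ?_
  rw [Problem.siteOp_eq, Problem.siteOp_eq]
  have h1 : (((j : ℕ) : ZMod (n + 1)) : Fin (n + 1)) = j := Fin.cast_val_eq_self j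
  have h2 : (j + 1 : Fin (n + 1)) = Problem.next j := by
    apply Fin.ext
    rw [Problem.next, Fin.val_add, Fin.val_one', Nat.add_mod_mod]
  rw [h1]
  exact congrArg (fun k : Fin (n + 1) => Problem.siteG (S a) j * Problem.siteG (S a) k) h2

theorem mem_levels {S : Fin 3 → Matrix (Fin 3) (Fin 3) ℂ} {L : ℕ} [NeZero L] (z : ℂ) :
    (hamiltonian S L).HasEigenvalue z ↔
      ∃ v : (ZMod L → Fin 3) → ℂ, v ≠ 0 ∧ matH S L *ᵥ v = z • v := by
  have key : ∀ x : Space L, matH S L *ᵥ ((bas L).equivFun x)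
      = (bas L).equivFun (hamiltonian S L x) := by
    intro x
    rw [← toMatrix_hamiltonian]
    exact LinearMap.toMatrix_mulVec_repr (bas L) (bas L) (hamiltonian S L) x
  constructor
  · intro h
    obtain ⟨x, hx⟩ := h.exists_hasEigenvector
    refine ⟨(bas L).equivFun x, ?_, ?_⟩
    · intro h0
      exact hx.2 ((bas L).equivFun.map_eq_zero_iff.mp h0)
    · rw [key, hx.apply_eq_smul, map_smul]
  · rintro ⟨v, hv0, hv⟩
    obtain ⟨x, rfl⟩ := (bas L).equivFun.surjective v
    rw [key, ← map_smul] at hv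
    have h1 := (bas L).equivFun.injective hv
    refine Module.End.hasEigenvalue_of_hasEigenvector (x := x) ⟨?_, ?_⟩
    · exact Module.End.mem_eigenspace_iff.mpr h1
    · intro h0
      exact hv0 (by rw [h0, map_zero])

theorem levels_eq (S : Fin 3 → Matrix (Fin 3) (Fin 3) ℂ) {L : ℕ} (hL : L ≠ 0) :
    levels S L = Problem.eigs (Problem.heis S L) := by
  obtain ⟨n, rfl⟩ := Nat.exists_eq_succ_of_ne_zero hL
  have h1 : levels S (n + 1) = Problem.eigs (matH S (n + 1)) := by
    ext x
    exact mem_levels (S := S) (L := n + 1) (x : ℂ)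
  rw [Nat.succ_eq_add_one, h1]
  exact congrArg (fun M : Matrix (Fin (n + 1) → Fin 3) (Fin (n + 1) → Fin 3) ℂ =>
    Problem.eigs M) (matH_eq S n)

/-- the matrix of the Hamiltonian is Hermitian -/
theorem heis_isHermitian {S : Fin 3 → Matrix (Fin 3) (Fin 3) ℂ} (hS : ∀ a, (S a).IsHermitian)
    {L : ℕ} (hL : 2 ≤ L) : (Problem.heis S L).IsHermitian := by
  have hsite : ∀ (a : Fin 3) (j : Fin L), (Problem.siteG (S a) j)ᴴ = Problem.siteG (S a) j := by
    intro a j
    rw [Problem.siteG, Problem.tensG_conj]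
    congr 1
    funext i
    by_cases h : i = j
    · rw [if_pos h]; exact hS a
    · rw [if_neg h]; exact Matrix.conjTranspose_one
  have hcomm : ∀ (a : Fin 3) (j k : Fin L), j ≠ k →
      Problem.siteG (S a) j * Problem.siteG (S a) k
        = Problem.siteG (S a) k * Problem.siteG (S a) j := by
    intro a j k hjk
    rw [Problem.siteG_mul _ _ hjk, Problem.siteG_mul _ _ hjk.symm]
    congr 1
    funext i
    by_cases h1 : i = j
    · have h2 : i ≠ k := fun h => hjk (h1.symm.trans h)
      rw [if_pos h1, if_neg h2, if_pos h1]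
    · rw [if_neg h1, if_neg h1]
  rw [Matrix.IsHermitian, Problem.heis, Matrix.conjTranspose_sum]
  refine Finset.sum_congr rfl fun j _ => ?_
  rw [Matrix.conjTranspose_sum]
  refine Finset.sum_congr rfl fun a _ => ?_
  rw [Problem.siteOp_eq, Problem.siteOp_eq, Matrix.conjTranspose_mul, hsite, hsite]
  refine (hcomm a _ _ ?_)
  intro h
  have h3 : ((j : ℕ) + 1) % L = j := congrArg Fin.val h
  rcases Nat.lt_or_ge ((j : ℕ) + 1) L with h4 | h4
  · rw [Nat.mod_eq_of_lt h4] at h3
    omega
  · have h5 : (j : ℕ) + 1 = L := le_antisymm j.2 h4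
    rw [h5, Nat.mod_self] at h3
    omega

/-- all eigenvalues of the Hamiltonian are real -/
theorem eigenvalue_real {S : Fin 3 → Matrix (Fin 3) (Fin 3) ℂ} (hS : ∀ a, (S a).IsHermitian)
    {L : ℕ} (hL : 2 ≤ L) {z : ℂ} (hz : (hamiltonian S L).HasEigenvalue z) : z.im = 0 := by
  obtain ⟨n, rfl⟩ := Nat.exists_eq_succ_of_ne_zero (show L ≠ 0 by omega)
  obtain ⟨v, hv0, hv⟩ := (mem_levels (S := S) (L := n + 1) z).mp hz
  have hH : (matH S (n + 1)).IsHermitian := by
    have h1 := heis_isHermitian hS hL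
    rw [Nat.succ_eq_add_one, ← matH_eq S n] at h1
    exact h1
  have h1 : star v ⬝ᵥ (matH S (n + 1) *ᵥ v) = z * (star v ⬝ᵥ v) := by
    rw [hv, dotProduct_smul, smul_eq_mul]
  have h2 : (star v ⬝ᵥ (matH S (n + 1) *ᵥ v)).im = 0 := hH.im_star_dotProduct_mulVec_self v
  have h3 : (star v ⬝ᵥ v).im = 0 := by
    have := (Matrix.isHermitian_one (n := ZMod (n + 1) → Fin 3)
      (α := ℂ)).im_star_dotProduct_mulVec_self v
    rwa [Matrix.one_mulVec] at this
  have h4 : (star v ⬝ᵥ v).re ≠ 0 := by
    intro h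
    apply hv0
    rw [← dotProduct_star_self_eq_zero]
    exact Complex.ext h h3
  rw [h1, Complex.mul_im, h3, mul_zero, zero_add] at h2
  exact (mul_eq_zero.mp h2).resolve_right h4

/-- the two lowest levels, and their difference, in the two formulations -/
theorem lowestTwo {S : Fin 3 → Matrix (Fin 3) (Fin 3) ℂ} (hS : SpinOneTriple S) {L : ℕ}
    (hL : Even L) (h4 : 4 ≤ L) :
    LowestTwo S L (Problem.energy0 S L) (Problem.energy1 S L) := by
  obtain ⟨h0, h1⟩ := (Problem.haldane_of uniformGap (isSpinOne hS)).1 L hL h4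
  have hlev := levels_eq S (show L ≠ 0 by omega)
  refine ⟨by rw [hlev]; exact h0, ?_⟩
  have hset : levels S L \ {Problem.energy0 S L}
      = {x ∈ Problem.eigs (Problem.heis S L) | Problem.energy0 S L < x} := by
    rw [hlev]
    ext x
    constructor
    · rintro ⟨hx, hne⟩
      exact ⟨hx, lt_of_le_of_ne (h0.2 hx) fun h => hne h.symm⟩
    · rintro ⟨hx, hlt⟩
      exact ⟨hx, fun h => hlt.ne (Set.mem_singleton_iff.mp h).symm⟩
  rw [hset]
  exact h1

theorem gap_eq {S : Fin 3 → Matrix (Fin 3) (Fin 3) ℂ} (hS : SpinOneTriple S) {L : ℕ}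
    (hL : Even L) (h4 : 4 ≤ L) {E₀ E₁ : ℝ} (h : LowestTwo S L E₀ E₁) :
    E₁ - E₀ = Problem.gap S L := by
  have h' := lowestTwo hS hL h4
  have h0 : E₀ = Problem.energy0 S L := h.1.unique h'.1
  subst h0
  rw [h.2.unique h'.2, Problem.gap]

/-- the limit inferior along the even lengths `2k` -/
theorem liminf_pos {S : Fin 3 → Matrix (Fin 3) (Fin 3) ℂ} (hS : SpinOneTriple S)
    {γ : ℕ → ℝ} (hγ : ∀ L : ℕ, Even L → 4 ≤ L → γ L = Problem.gap S L) :
    0 < Filter.liminf (fun k : ℕ => ((γ (2 * k) : ℝ) : EReal)) Filter.atTop := by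
  obtain ⟨c, hc, h⟩ := (Problem.haldane_of uniformGap (isSpinOne hS)).2.1
  refine lt_of_lt_of_le (show (0 : EReal) < ((c : ℝ) : EReal) by exact_mod_cast hc) ?_
  refine Filter.le_liminf_of_le (by isBoundedDefault) ?_
  filter_upwards [Filter.eventually_ge_atTop 2] with k hk
  rw [hγ (2 * k) (even_two_mul k) (by omega)]
  exact_mod_cast h (2 * k) (even_two_mul k) (by omega)

end P348.Ring
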