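import Mathlib

/-!
# P348, second formulation: the ring Hamiltonian as an endomorphism of the tensor power `(ℂ³)^{⊗ℤ/L}`

The sites of the ring are the residues modulo `L`, so that `S_L = S_0` holds by itself, and the
operators are endomorphisms of Mathlib's tensor product `⨂[ℂ] _ : ZMod L, (Fin 3 → ℂ)`.
-/

open scoped TensorProduct

namespace P348.Ring

/-- the Levi-Civita symbol `ε_{abc}` for `a, b, c ∈ {0, 1, 2} = {x, y, z}` -/
noncomputable def leviCivita (a b c : Fin 3) : ℂ :=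
  ((b : ℕ) - (a : ℕ) : ℂ) * ((c : ℕ) - (b : ℕ) : ℂ) * ((c : ℕ) - (a : ℕ) : ℂ) / 2

/-- `S 0, S 1, S 2` are self-adjoint `3 × 3` spin-one matrices:
`[S^a, S^b] = i ∑_c ε_{abc} S^c` for all `a, b`, and `∑_a (S^a)^2 = 2 I_3`. -/
structure SpinOneTriple (S : Fin 3 → Matrix (Fin 3) (Fin 3) ℂ) : Prop where
  isHermitian : ∀ a, (S a).IsHermitian
  commutator : ∀ a b, ⁅S a, S b⁆ = Complex.I • ∑ c, leviCivita a b c • S c
  sum_sq : ∑ a, S a ^ 2 = 2 • (1 : Matrix (Fin 3) (Fin 3) ℂ)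

/-- the Hilbert space `(ℂ³)^{⊗L}` of the ring, with sites `ℤ/L` -/
abbrev Space (L : ℕ) : Type := ⨂[ℂ] _ : ZMod L, (Fin 3 → ℂ)

/-- the matrix `A` acting on the tensor factor `j`, the identity on all other factors -/
noncomputable def onSite {L : ℕ} (A : Matrix (Fin 3) (Fin 3) ℂ) (j : ZMod L) :
    Module.End ℂ (Space L) :=
  PiTensorProduct.map (Function.update (fun _ => LinearMap.id) j (Matrix.toLin' A))

/-- `q_j = ∑_a S^a_j S^a_{j+1}` -/
noncomputable def bond (S : Fin 3 → Matrix (Fin 3) (Fin 3) ℂ) {L : ℕ} (j : ZMod L) :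
    Module.End ℂ (Space L) :=
  ∑ a, onSite (S a) j * onSite (S a) (j + 1)

/-- the Hamiltonian `H_L = ∑_{j=0}^{L-1} q_j` of the periodic ring -/
noncomputable def hamiltonian (S : Fin 3 → Matrix (Fin 3) (Fin 3) ℂ) (L : ℕ) :
    Module.End ℂ (Space L) :=
  ∑ j ∈ Finset.range L, bond S (j : ZMod L)

/-- the real numbers which are eigenvalues of `H_L` -/
def levels (S : Fin 3 → Matrix (Fin 3) (Fin 3) ℂ) (L : ℕ) : Set ℝ :=
  {E : ℝ | (hamiltonian S L).HasEigenvalue (E : ℂ)}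

/-- `E₀ < E₁` are the least eigenvalue of `H_L` and the next distinct one -/
def LowestTwo (S : Fin 3 → Matrix (Fin 3) (Fin 3) ℂ) (L : ℕ) (E₀ E₁ : ℝ) : Prop :=
  IsLeast (levels S L) E₀ ∧ IsLeast (levels S L \ {E₀}) E₁

end P348.Ring
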