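import Mathlib

/-!
# P348: Trotter product formula
-/

open Filter Topology Asymptotics

namespace P348

section Trotter

variable {𝔸 : Type*} [NormedRing 𝔸] [NormOneClass 𝔸]

theorem norm_pow_sub_pow_le (a b : 𝔸) (r : ℝ) (hr : 1 ≤ r) (ha : ‖a‖ ≤ r) (hb : ‖b‖ ≤ r) (n : ℕ) :
    ‖a ^ n - b ^ n‖ ≤ n * r ^ n * ‖a - b‖ := by
  have hr0 : 0 ≤ r := by linarith
  induction n with
  | zero => simp
  | succ n ih =>
    have h1 : a ^ (n + 1) - b ^ (n + 1) = a ^ n * (a - b) + (a ^ n - b ^ n) * b := by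
      rw [pow_succ, pow_succ, mul_sub, sub_mul]
      abel
    have h2 : ‖a ^ n‖ ≤ r ^ n := (norm_pow_le a n).trans (pow_le_pow_left₀ (norm_nonneg _) ha n)
    have h3 : 0 ≤ ‖a - b‖ := norm_nonneg _
    have h4 : (0 : ℝ) ≤ r ^ n := by positivity
    have h5 : r ^ n ≤ r ^ (n + 1) := pow_le_pow_right₀ hr (Nat.le_succ n)
    rw [h1]
    calc ‖a ^ n * (a - b) + (a ^ n - b ^ n) * b‖
        ≤ ‖a ^ n‖ * ‖a - b‖ + ‖a ^ n - b ^ n‖ * ‖b‖ :=
          (norm_add_le _ _).trans (add_le_add (norm_mul_le _ _) (norm_mul_le _ _))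
      _ ≤ r ^ n * ‖a - b‖ + (n * r ^ n * ‖a - b‖) * r := by
          refine add_le_add (mul_le_mul_of_nonneg_right h2 h3) ?_
          exact mul_le_mul ih hb (norm_nonneg _) (by positivity)
      _ ≤ r ^ (n + 1) * ‖a - b‖ + (n * r ^ n * ‖a - b‖) * r := by
          gcongr
      _ = ((n + 1 : ℕ) : ℝ) * r ^ (n + 1) * ‖a - b‖ := by
          push_cast
          ring

variable [NormedAlgebra ℝ 𝔸] [CompleteSpace 𝔸]

/-- If `F 0 = 1` and `F` has derivative `X` at `0` then `F (1/n) ^ n → exp X`. -/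
theorem tendsto_pow_exp (F : ℝ → 𝔸) (X : 𝔸) (h0 : F 0 = 1) (hF : HasDerivAt F X 0) :
    Tendsto (fun n : ℕ => (F ((n : ℝ)⁻¹)) ^ n) atTop (𝓝 (NormedSpace.exp X)) := by
  obtain ⟨G, hGdef⟩ : ∃ G : ℝ → 𝔸, G = fun t => NormedSpace.exp (t • X) := ⟨_, rfl⟩
  have hG0 : G 0 = 1 := by rw [hGdef]; simp
  have hG : HasDerivAt G X 0 := by
    rw [hGdef]
    have h := hasDerivAt_exp_smul_const (𝕂 := ℝ) X (0 : ℝ)
    simpa using h
  have hGn : ∀ n : ℕ, n ≠ 0 → (G ((n : ℝ)⁻¹)) ^ n = NormedSpace.exp X := by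
    intro n hn
    have hn' : (n : ℝ) ≠ 0 := by exact_mod_cast hn
    rw [hGdef]
    change (NormedSpace.exp ((n : ℝ)⁻¹ • X)) ^ n = _
    letI : NormedAlgebra ℚ 𝔸 := NormedAlgebra.restrictScalars ℚ ℝ 𝔸
    rw [← NormedSpace.exp_nsmul, ← Nat.cast_smul_eq_nsmul ℝ, smul_smul, mul_inv_cancel₀ hn', one_smul]
  -- growth
  have hgrow : ∀ F : ℝ → 𝔸, F 0 = 1 → HasDerivAt F X 0 →
      ∀ᶠ t in 𝓝 (0 : ℝ), ‖F t‖ ≤ 1 + |t| * (‖X‖ + 1) := by
    intro F h0 hF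
    have h1 := (hasDerivAt_iff_isLittleO.1 hF).bound (zero_lt_one)
    filter_upwards [h1] with t ht
    rw [sub_zero, h0, one_mul, Real.norm_eq_abs] at ht
    calc ‖F t‖ = ‖1 + (t • X + (F t - 1 - t • X))‖ := by congr 1; abel
      _ ≤ ‖(1 : 𝔸)‖ + (‖t • X‖ + ‖F t - 1 - t • X‖) :=
          (norm_add_le _ _).trans (add_le_add le_rfl (norm_add_le _ _))
      _ ≤ 1 + (|t| * ‖X‖ + |t|) := by
          rw [norm_one, norm_smul, Real.norm_eq_abs]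
          gcongr
      _ = 1 + |t| * (‖X‖ + 1) := by ring
  have hinv : Tendsto (fun n : ℕ => ((n : ℝ))⁻¹) atTop (𝓝 0) := tendsto_inv_atTop_nhds_zero_nat
  have hdiff : HasDerivAt (fun t => F t - G t) 0 0 := by
    have := hF.sub hG
    rwa [sub_self] at this
  rw [tendsto_iff_norm_sub_tendsto_zero]
  rw [Metric.tendsto_atTop]
  intro ε hε
  obtain ⟨C, hC⟩ : ∃ C : ℝ, C = Real.exp (‖X‖ + 1) := ⟨_, rfl⟩
  have hC0 : 0 < C := by rw [hC]; exact Real.exp_pos _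
  have h1 := (hasDerivAt_iff_isLittleO.1 hdiff).bound (show 0 < ε / (2 * C) by positivity)
  have e1 := hinv.eventually (hgrow F h0 hF)
  have e2 := hinv.eventually (hgrow G hG0 hG)
  have e3 := hinv.eventually h1
  obtain ⟨N, hN⟩ := eventually_atTop.1 (e1.and (e2.and (e3.and (eventually_gt_atTop 0))))
  refine ⟨N, fun n hn => ?_⟩
  obtain ⟨h2, h3, h4, h5⟩ := hN n hn
  have hnpos : (0 : ℝ) < n := by exact_mod_cast h5
  have habs : |((n : ℝ))⁻¹| = (n : ℝ)⁻¹ := abs_of_pos (by positivity)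
  rw [habs] at h2 h3
  simp only [h0, hG0, sub_self, sub_zero, smul_zero, Real.norm_eq_abs, habs] at h4
  rw [← hGn n (by omega), dist_zero_right, norm_norm]
  have h6 := norm_pow_sub_pow_le (F ((n : ℝ)⁻¹)) (G ((n : ℝ)⁻¹)) (1 + (n : ℝ)⁻¹ * (‖X‖ + 1))
    (by
      have : 0 ≤ (n : ℝ)⁻¹ * (‖X‖ + 1) := by positivity
      linarith) h2 h3 n
  have h7 : (1 + (n : ℝ)⁻¹ * (‖X‖ + 1)) ^ n ≤ C := by
    have h8 : 1 + (n : ℝ)⁻¹ * (‖X‖ + 1) ≤ Real.exp ((n : ℝ)⁻¹ * (‖X‖ + 1)) := by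
      have := Real.add_one_le_exp ((n : ℝ)⁻¹ * (‖X‖ + 1))
      linarith
    calc (1 + (n : ℝ)⁻¹ * (‖X‖ + 1)) ^ n ≤ (Real.exp ((n : ℝ)⁻¹ * (‖X‖ + 1))) ^ n :=
          pow_le_pow_left₀ (by positivity) h8 n
      _ = C := by
          rw [← Real.exp_nat_mul, hC]
          congr 1
          field_simp
  calc ‖F ((n : ℝ)⁻¹) ^ n - G ((n : ℝ)⁻¹) ^ n‖
      ≤ n * (1 + (n : ℝ)⁻¹ * (‖X‖ + 1)) ^ n * ‖F ((n : ℝ)⁻¹) - G ((n : ℝ)⁻¹)‖ := h6
    _ ≤ n * C * (ε / (2 * C) * (n : ℝ)⁻¹) := by gcongr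
    _ = ε / 2 := by field_simp
    _ < ε := by linarith

/-- Lie-Trotter product formula. -/
theorem trotter (A B : 𝔸) :
    Tendsto (fun n : ℕ => (NormedSpace.exp ((n : ℝ)⁻¹ • A) * NormedSpace.exp ((n : ℝ)⁻¹ • B)) ^ n)
      atTop (𝓝 (NormedSpace.exp (A + B))) := by
  refine tendsto_pow_exp (fun t : ℝ => NormedSpace.exp (t • A) * NormedSpace.exp (t • B)) (A + B)
    (by simp) ?_
  have h1 := hasDerivAt_exp_smul_const (𝕂 := ℝ) A (0 : ℝ)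
  have h2 := hasDerivAt_exp_smul_const (𝕂 := ℝ) B (0 : ℝ)
  have h3 := h1.mul h2
  simp only [zero_smul, NormedSpace.exp_zero, one_mul, mul_one] at h3
  exact h3

end Trotter

end P348
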